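import Vale.Agent.P237.AllN.PhiR

/-!
# P237, all dimensions: two-sided envelope of the calibration remainder

With `n = m + 1` and `u = √(1-t²)` we prove, for `0 < t < 1`,
`kapLo m * t² / u³ ≤ psiR' ≤ kapHi m * t² / u³`, where `kapLo m = c / n` and
`kapHi m = max (c / n) ((n+2)(1-c) - c/2)`.

Both follow from a barrier: `psiR' - κ t²/u³` has the sign of `env m κ`, which vanishes at `0` and
at `1` and whose derivative changes sign at most once.
-/

open MeasureTheory Set Real intervalIntegral Filter Topology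

namespace Vale.Agent.P237.AllN

variable {m : ℕ}

/-- The lower constant of the envelope, `c / n`. -/
noncomputable def kapLo (m : ℕ) : ℝ := cst m / (m + 1)

/-- The upper constant of the envelope. -/
noncomputable def kapHi (m : ℕ) : ℝ := max (kapLo m) ((m + 3) * quad m - cst m / 2)

/-- The derivative of `psiR`, as given by its differential equation. -/
noncomputable def psiRD (m : ℕ) (t : ℝ) : ℝ :=
  ((m + 2) * t * psiR m t + rhsR m t) / (1 - t ^ 2)

/-- `√(1-t²)^(m+2)` times `psiR` minus the threshold of the envelope. -/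
noncomputable def env (m : ℕ) (κ t : ℝ) : ℝ :=
  accR m t - t * √(1 - t ^ 2) ^ (m + 1) *
    (κ + cst m / (1 + √(1 - t ^ 2)) - (m + 3) * quad m * √(1 - t ^ 2)) / (m + 2)

/-- The sign of `-(env m κ)'`, in the variable `u`. -/
noncomputable def envQ (m : ℕ) (κ u : ℝ) : ℝ :=
  κ + cst m * (1 + u - u ^ 2) / (1 + u) - (m + 3) * quad m * u ^ 3 - (m + 2) * κ * (1 - u ^ 2)

theorem kapLo_pos (m : ℕ) : 0 < kapLo m := div_pos (cst_pos m) (by positivity)

theorem kapLo_le_kapHi (m : ℕ) : kapLo m ≤ kapHi m := le_max_left _ _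

theorem continuous_env (m : ℕ) (κ : ℝ) : Continuous (env m κ) := by
  unfold env
  refine continuous_accR.sub (Continuous.div_const (Continuous.mul (by fun_prop) ?_) _)
  refine ((continuous_const.add (continuous_const.div (by fun_prop) fun x => ?_))).sub (by fun_prop)
  positivity

theorem env_zero (m : ℕ) (κ : ℝ) : env m κ 0 = 0 := by simp [env, accR, tailI_zero]

theorem env_one (m : ℕ) (κ : ℝ) : env m κ 1 = 0 := by simp [env, accR, arcsin_one, tailI]

theorem hasDerivAt_env (κ : ℝ) {t : ℝ} (ht : t ∈ Ioo (-1 : ℝ) 1) :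
    HasDerivAt (env m κ)
      (-(√(1 - t ^ 2) ^ m / √(1 - t ^ 2) * envQ m κ √(1 - t ^ 2)) / (m + 2)) t := by
  have hpos : (0 : ℝ) < 1 - t ^ 2 := by nlinarith [ht.1, ht.2]
  have hu0 : 0 < √(1 - t ^ 2) := sqrt_pos.2 hpos
  have hs := ((hasDerivAt_pow 2 t).const_sub 1).sqrt hpos.ne'
  have hp := hs.fun_pow (m + 1)
  have hb := (((hs.const_add 1).inv (by positivity)).const_mul (cst m)).const_add κ |>.sub
    (hs.const_mul ((m + 3) * quad m))
  have h := (hasDerivAt_accR (m := m) ht).sub ((((hasDerivAt_id t).mul hp).mul hb).div_const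
    ((m : ℝ) + 2))
  have h' : HasDerivAt (env m κ) _ t := h.congr_of_eventuallyEq
    (Eventually.of_forall fun y => by simp [env, div_eq_mul_inv])
  refine h'.congr_deriv ?_
  have hsq : √(1 - t ^ 2) ^ 2 = 1 - t ^ 2 := sq_sqrt hpos.le
  simp only [rhsR, envQ, id, Pi.mul_apply, Pi.sub_apply, Pi.inv_apply, Nat.cast_add, Nat.cast_one,
    Nat.cast_ofNat, Nat.add_sub_cancel]
  set u := √(1 - t ^ 2) with hu
  rw [pow_succ u m]
  have ht2 : t ^ 2 = 1 - u ^ 2 := by rw [hsq]; ring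
  field_simp
  simp only [Nat.reduceSub, pow_one] at *
  linear_combination (cst m * (u * m + m + 1) + κ * (m + 1) * (1 + u) ^ 2) * ht2

/-- `psiR' - κ t² / u³` is `env m κ` times a positive factor. -/
theorem psiRD_sub_eq (κ : ℝ) {t : ℝ} (ht : t ∈ Ioo (-1 : ℝ) 1) :
    psiRD m t - κ * t ^ 2 / √(1 - t ^ 2) ^ 3 =
      (m + 2) * t * env m κ t / √(1 - t ^ 2) ^ (m + 4) := by
  have hpos : (0 : ℝ) < 1 - t ^ 2 := by nlinarith [ht.1, ht.2]
  have hsq : √(1 - t ^ 2) ^ 2 = 1 - t ^ 2 := sq_sqrt hpos.le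
  rw [env, accR_eq ht, psiRD, psiR, rhsR]
  set u := √(1 - t ^ 2) with hu
  have hu0 : 0 < u := sqrt_pos.2 hpos
  rw [← hsq]
  have ht2 : t ^ 2 = 1 - u ^ 2 := by rw [hsq]; ring
  simp only [pow_add]
  field_simp
  linear_combination (cst m) * ht2

/-- Sign of `env` from a single sign change of its derivative. -/
theorem env_nonneg_of (κ : ℝ) {t : ℝ} (h0 : 0 < t) (h1 : t < 1)
    (h : (∀ u ∈ Icc 0 √(1 - t ^ 2), 0 ≤ envQ m κ u) ∨
      ∀ u ∈ Icc √(1 - t ^ 2) 1, envQ m κ u ≤ 0) : 0 ≤ env m κ t := by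
  have hd : ∀ x ∈ Ioo (0 : ℝ) 1, HasDerivAt (env m κ)
      (-(√(1 - x ^ 2) ^ m / √(1 - x ^ 2) * envQ m κ √(1 - x ^ 2)) / (m + 2)) x :=
    fun x hx => hasDerivAt_env κ ⟨by linarith [hx.1], hx.2⟩
  rcases h with h | h
  · have hanti : AntitoneOn (env m κ) (Icc t 1) := by
      refine antitoneOn_of_deriv_nonpos (convex_Icc _ _) (continuous_env m κ).continuousOn ?_ ?_
      · rw [interior_Icc]
        exact fun x hx => (hd x ⟨h0.trans hx.1, hx.2⟩).differentiableAt.differentiableWithinAt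
      rw [interior_Icc]
      intro x hx
      rw [(hd x ⟨h0.trans hx.1, hx.2⟩).deriv, neg_div]
      refine neg_nonpos.2 (div_nonneg (mul_nonneg (by positivity) (h _ ⟨sqrt_nonneg _, ?_⟩))
        (by positivity))
      exact sqrt_le_sqrt (by nlinarith [hx.1])
    simpa [env_one] using hanti ⟨le_rfl, h1.le⟩ ⟨h1.le, le_rfl⟩ h1.le
  · have hmono : MonotoneOn (env m κ) (Icc 0 t) := by
      refine monotoneOn_of_deriv_nonneg (convex_Icc _ _) (continuous_env m κ).continuousOn ?_ ?_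
      · rw [interior_Icc]
        exact fun x hx => (hd x ⟨hx.1, hx.2.trans h1⟩).differentiableAt.differentiableWithinAt
      rw [interior_Icc]
      intro x hx
      rw [(hd x ⟨hx.1, hx.2.trans h1⟩).deriv, neg_div]
      refine neg_nonneg.2 (div_nonpos_of_nonpos_of_nonneg
        (mul_nonpos_of_nonneg_of_nonpos (by positivity) (h _ ⟨?_, ?_⟩)) (by positivity))
      · exact sqrt_le_sqrt (by nlinarith [hx.1, hx.2])
      · exact sqrt_le_one.2 (by nlinarith)
    simpa [env_zero] using hmono ⟨le_rfl, h0.le⟩ ⟨h0.le, le_rfl⟩ h0.le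

/-- Sign of `env` from a single sign change of its derivative, other direction. -/
theorem env_nonpos_of (κ : ℝ) {t : ℝ} (h0 : 0 < t) (h1 : t < 1)
    (h : (∀ u ∈ Icc 0 √(1 - t ^ 2), envQ m κ u ≤ 0) ∨
      ∀ u ∈ Icc √(1 - t ^ 2) 1, 0 ≤ envQ m κ u) : env m κ t ≤ 0 := by
  have hd : ∀ x ∈ Ioo (0 : ℝ) 1, HasDerivAt (env m κ)
      (-(√(1 - x ^ 2) ^ m / √(1 - x ^ 2) * envQ m κ √(1 - x ^ 2)) / (m + 2)) x :=
    fun x hx => hasDerivAt_env κ ⟨by linarith [hx.1], hx.2⟩
  rcases h with h | h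
  · have hmono : MonotoneOn (env m κ) (Icc t 1) := by
      refine monotoneOn_of_deriv_nonneg (convex_Icc _ _) (continuous_env m κ).continuousOn ?_ ?_
      · rw [interior_Icc]
        exact fun x hx => (hd x ⟨h0.trans hx.1, hx.2⟩).differentiableAt.differentiableWithinAt
      rw [interior_Icc]
      intro x hx
      rw [(hd x ⟨h0.trans hx.1, hx.2⟩).deriv, neg_div]
      refine neg_nonneg.2 (div_nonpos_of_nonpos_of_nonneg
        (mul_nonpos_of_nonneg_of_nonpos (by positivity) (h _ ⟨sqrt_nonneg _, ?_⟩)) (by positivity))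
      exact sqrt_le_sqrt (by nlinarith [hx.1])
    simpa [env_one] using hmono ⟨le_rfl, h1.le⟩ ⟨h1.le, le_rfl⟩ h1.le
  · have hanti : AntitoneOn (env m κ) (Icc 0 t) := by
      refine antitoneOn_of_deriv_nonpos (convex_Icc _ _) (continuous_env m κ).continuousOn ?_ ?_
      · rw [interior_Icc]
        exact fun x hx => (hd x ⟨hx.1, hx.2.trans h1⟩).differentiableAt.differentiableWithinAt
      rw [interior_Icc]
      intro x hx
      rw [(hd x ⟨hx.1, hx.2.trans h1⟩).deriv, neg_div]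
      refine neg_nonpos.2 (div_nonneg (mul_nonneg (by positivity) (h _ ⟨?_, ?_⟩)) (by positivity))
      · exact sqrt_le_sqrt (by nlinarith [hx.1, hx.2])
      · exact sqrt_le_one.2 (by nlinarith)
    simpa [env_zero] using hanti ⟨le_rfl, h0.le⟩ ⟨h0.le, le_rfl⟩ h0.le

/-- The lower envelope: `psiR' ≥ (c/n) t² / u³`. -/
theorem kapLo_le_psiRD {t : ℝ} (h0 : 0 ≤ t) (h1 : t < 1) :
    kapLo m * t ^ 2 / √(1 - t ^ 2) ^ 3 ≤ psiRD m t := by
  have ht : t ∈ Ioo (-1 : ℝ) 1 := ⟨by linarith, h1⟩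
  rw [← sub_nonneg, psiRD_sub_eq _ ht]
  rcases h0.eq_or_lt with rfl | h0'
  · simp
  refine div_nonneg (mul_nonneg (by positivity) ?_) (by positivity)
  set B : ℝ → ℝ := fun u =>
    (m + 2) * kapLo m - cst m / (1 + u) - (m + 3) * quad m * u with hB
  have hQ : ∀ u, 0 ≤ u → envQ m (kapLo m) u = u ^ 2 * B u := fun u hu => by
    simp only [envQ, hB, kapLo]
    field_simp
    ring
  have hB0 : 0 ≤ B 0 := by
    have := cst_pos m
    have e : B 0 = cst m / (m + 1) := by
      simp only [hB, kapLo]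
      field_simp
      ring
    rw [e]; positivity
  have hconc : ∀ u v, 0 ≤ v → v ≤ u → 0 ≤ B u → 0 ≤ B v := by
    intro u v hv hvu hu
    rcases (hv.trans hvu).eq_or_lt with e | hu0
    · rwa [show v = u by linarith]
    have key : cst m / (1 + v) * u ≤ cst m / (1 + 0) * (u - v) + cst m / (1 + u) * v := by
      rw [← sub_nonneg]
      have e : cst m / (1 + 0) * (u - v) + cst m / (1 + u) * v - cst m / (1 + v) * u =
          cst m * (u * v * (u - v)) / ((1 + u) * (1 + v)) := by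
        field_simp
        ring
      rw [e]
      exact div_nonneg (mul_nonneg (cst_pos m).le
        (mul_nonneg (mul_nonneg hu0.le hv) (sub_nonneg.2 hvu))) (by positivity)
    have h : (u - v) * B 0 + v * B u ≤ u * B v := by
      simp only [hB]
      linarith [key]
    have h2 : 0 ≤ u * B v := by
      linarith [mul_nonneg (sub_nonneg.2 hvu) hB0, mul_nonneg hv hu]
    exact nonneg_of_mul_nonneg_right h2 hu0
  refine env_nonneg_of _ h0' h1 ?_
  rcases le_or_gt 0 (B √(1 - t ^ 2)) with hs | hs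
  · left
    intro u hu
    rw [hQ u hu.1]
    exact mul_nonneg (sq_nonneg _) (hconc _ _ hu.1 hu.2 hs)
  · right
    intro u hu
    rw [hQ u ((sqrt_nonneg _).trans hu.1)]
    refine mul_nonpos_of_nonneg_of_nonpos (sq_nonneg _) ?_
    by_contra hc
    exact absurd (hconc _ _ (sqrt_nonneg _) hu.1 (not_le.1 hc).le) (not_le.2 hs)

/-- The upper envelope: `psiR' ≤ κ t² / u³` once `κ ≥ c/n` and `κ ≥ (n+2)(1-c) - c/2`. -/
theorem psiRD_le {κ t : ℝ} (hlo : kapLo m ≤ κ) (hhi : (m + 3) * quad m - cst m / 2 ≤ κ)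
    (h0 : 0 ≤ t) (h1 : t < 1) : psiRD m t ≤ κ * t ^ 2 / √(1 - t ^ 2) ^ 3 := by
  have ht : t ∈ Ioo (-1 : ℝ) 1 := ⟨by linarith, h1⟩
  rw [← sub_nonpos, psiRD_sub_eq _ ht]
  rcases h0.eq_or_lt with rfl | h0'
  · simp
  refine div_nonpos_of_nonpos_of_nonneg (mul_nonpos_of_nonneg_of_nonpos (by positivity) ?_)
    (by positivity)
  have hc := cst_pos m
  have hQ0 : envQ m κ 0 ≤ 0 := by
    have : cst m ≤ (m + 1) * κ := by
      rw [kapLo, div_le_iff₀ (by positivity)] at hlo; linarith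
    simp only [envQ]
    norm_num
    linarith
  have hQ1 : 0 ≤ envQ m κ 1 := by
    simp only [envQ]
    norm_num
    linarith
  set T : ℝ → ℝ := fun u =>
    2 * (m + 2) * κ - cst m * (2 + u) / (1 + u) ^ 2 - 3 * (m + 3) * quad m * u with hT
  have hder : ∀ u, 0 ≤ u → HasDerivAt (envQ m κ) (u * T u) u := by
    intro u hu
    have hd : (1 : ℝ) + u ≠ 0 := by positivity
    have h1' := ((((hasDerivAt_id u).const_add 1).sub (hasDerivAt_pow 2 u)).const_mul (cst m)).div
      ((hasDerivAt_id u).const_add 1) hd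
    have h2 := ((h1'.const_add κ).sub ((hasDerivAt_pow 3 u).const_mul ((m + 3) * quad m))).sub
      (((hasDerivAt_pow 2 u).const_sub 1).const_mul ((m + 2) * κ))
    have h3 : HasDerivAt (envQ m κ) _ u := h2.congr_of_eventuallyEq
      (Eventually.of_forall fun y => by simp [envQ])
    refine h3.congr_deriv ?_
    simp only [hT, id, Pi.sub_apply]
    push_cast
    field_simp
    ring
  have hT0 : 0 < T 0 := by
    have h2 : cst m ≤ (m + 1) * κ := by
      rw [kapLo, div_le_iff₀ (by positivity)] at hlo; linarith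
    have hk : 0 < κ := (kapLo_pos m).trans_le hlo
    simp only [hT]
    norm_num
    linarith
  have hconc : ∀ u v, 0 ≤ v → v ≤ u → 0 ≤ T u → 0 ≤ T v := by
    intro u v hv hvu hu
    rcases (hv.trans hvu).eq_or_lt with e | hu0
    · rwa [show v = u by linarith]
    have key : cst m * (2 + v) / (1 + v) ^ 2 * u ≤
        cst m * (2 + 0) / (1 + 0) ^ 2 * (u - v) + cst m * (2 + u) / (1 + u) ^ 2 * v := by
      rw [← sub_nonneg]
      have e : cst m * (2 + 0) / (1 + 0) ^ 2 * (u - v) + cst m * (2 + u) / (1 + u) ^ 2 * v -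
          cst m * (2 + v) / (1 + v) ^ 2 * u =
          cst m * (u * v * (u - v) * (4 + 3 * u + 3 * v + 2 * u * v)) /
            ((1 + u) ^ 2 * (1 + v) ^ 2) := by
        field_simp
        ring
      rw [e]
      have := sub_nonneg.2 hvu
      positivity
    have h : (u - v) * T 0 + v * T u ≤ u * T v := by
      simp only [hT]
      linarith [key]
    have h2 : 0 ≤ u * T v := by
      linarith [mul_nonneg (sub_nonneg.2 hvu) hT0.le, mul_nonneg hv hu]
    exact nonneg_of_mul_nonneg_right h2 hu0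
  have hcont : ∀ a b : ℝ, 0 ≤ a → ContinuousOn (envQ m κ) (Icc a b) := fun a b ha x hx =>
    (hder x (ha.trans hx.1)).continuousAt.continuousWithinAt
  have hinc : ∀ b, 0 ≤ T b → MonotoneOn (envQ m κ) (Icc 0 b) := by
    intro b hb
    refine monotoneOn_of_deriv_nonneg (convex_Icc _ _) (hcont 0 b le_rfl) ?_ ?_ <;> rw [interior_Icc]
    · exact fun x hx => (hder x hx.1.le).differentiableAt.differentiableWithinAt
    · intro x hx
      rw [(hder x hx.1.le).deriv]
      exact mul_nonneg hx.1.le (hconc b x hx.1.le hx.2.le hb)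
  have hdec : ∀ a, 0 ≤ a → T a < 0 → StrictAntiOn (envQ m κ) (Icc a 1) := by
    intro a ha hTa
    refine strictAntiOn_of_deriv_neg (convex_Icc _ _) (hcont a 1 ha) ?_
    rw [interior_Icc]
    intro x hx
    rw [(hder x (ha.trans hx.1.le)).deriv]
    refine mul_neg_of_pos_of_neg (ha.trans_lt hx.1) ?_
    by_contra hc'
    exact absurd (hconc x a ha hx.1.le (not_lt.1 hc')) (not_le.2 hTa)
  set s := √(1 - t ^ 2) with hs
  have hs0 : 0 ≤ s := sqrt_nonneg _
  have hs1 : s < 1 := (sqrt_lt' one_pos).2 (by nlinarith)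
  refine env_nonpos_of _ h0' h1 ?_
  rcases le_or_gt (envQ m κ s) 0 with h | h
  · left
    intro u hu
    have hTs : 0 ≤ T s := by
      by_contra hc'
      have := hdec s hs0 (not_le.1 hc') ⟨le_rfl, hs1.le⟩ ⟨hs1.le, le_rfl⟩ hs1
      linarith
    exact (hinc s hTs hu ⟨hs0, le_rfl⟩ hu.2).trans h
  · right
    intro u hu
    rcases le_or_gt 0 (T u) with hu' | hu'
    · exact h.le.trans (hinc u hu' ⟨hs0, hu.1⟩ ⟨hs0.trans hu.1, le_rfl⟩ hu.1)
    · exact hQ1.trans ((hdec u (hs0.trans hu.1) hu').antitoneOn ⟨le_rfl, hu.2⟩ ⟨hu.2, le_rfl⟩ hu.2)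

/-- The upper envelope with the sharp constant. -/
theorem psiRD_le_kapHi {t : ℝ} (h0 : 0 ≤ t) (h1 : t < 1) :
    psiRD m t ≤ kapHi m * t ^ 2 / √(1 - t ^ 2) ^ 3 :=
  psiRD_le (le_max_left _ _) (le_max_right _ _) h0 h1

/-- The primitive of `t² / √(1-t²)³`. -/
theorem hasDerivAt_envPrim {t : ℝ} (ht : t ∈ Ioo (-1 : ℝ) 1) :
    HasDerivAt (fun x => x / √(1 - x ^ 2) - arcsin x) (t ^ 2 / √(1 - t ^ 2) ^ 3) t := by
  have hpos : (0 : ℝ) < 1 - t ^ 2 := by nlinarith [ht.1, ht.2]
  have hu0 : 0 < √(1 - t ^ 2) := sqrt_pos.2 hpos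
  refine (((hasDerivAt_id t).div (((hasDerivAt_pow 2 t).const_sub 1).sqrt hpos.ne') hu0.ne').sub
    (hasDerivAt_arcsin ht.1.ne' ht.2.ne)).congr_deriv ?_
  have hsq : √(1 - t ^ 2) ^ 2 = 1 - t ^ 2 := sq_sqrt hpos.le
  set u := √(1 - t ^ 2) with hu
  simp only [id]
  push_cast
  field_simp
  ring

/-- Comparison of increments of `psiR` with those of `t / u - arcsin t`. -/
theorem psiR_increment {κ s t : ℝ} (hs : 0 ≤ s) (hst : s ≤ t) (ht : t < 1) :
    (κ ≤ kapLo m → κ * ((t / √(1 - t ^ 2) - arcsin t) - (s / √(1 - s ^ 2) - arcsin s)) ≤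
        psiR m t - psiR m s) ∧
      (kapHi m ≤ κ → psiR m t - psiR m s ≤
        κ * ((t / √(1 - t ^ 2) - arcsin t) - (s / √(1 - s ^ 2) - arcsin s))) := by
  have hd : ∀ x ∈ Icc s t, HasDerivAt (fun x => psiR m x - κ * (x / √(1 - x ^ 2) - arcsin x))
      (psiRD m x - κ * (x ^ 2 / √(1 - x ^ 2) ^ 3)) x := fun x hx =>
    have hx' : x ∈ Ioo (-1 : ℝ) 1 := ⟨by linarith [hx.1], by linarith [hx.2]⟩
    (hasDerivAt_psiR hx').sub ((hasDerivAt_envPrim hx').const_mul κ)
  have hc : ContinuousOn (fun x => psiR m x - κ * (x / √(1 - x ^ 2) - arcsin x)) (Icc s t) :=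
    fun x hx => (hd x hx).continuousAt.continuousWithinAt
  have hdiff : DifferentiableOn ℝ (fun x => psiR m x - κ * (x / √(1 - x ^ 2) - arcsin x))
      (interior (Icc s t)) := fun x hx =>
    (hd x (interior_subset hx)).differentiableAt.differentiableWithinAt
  constructor <;> intro hκ
  · have hmono : MonotoneOn (fun x => psiR m x - κ * (x / √(1 - x ^ 2) - arcsin x)) (Icc s t) := by
      refine monotoneOn_of_deriv_nonneg (convex_Icc _ _) hc hdiff fun x hx => ?_
      have hx' := interior_subset hx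
      rw [(hd x hx').deriv]
      have := kapLo_le_psiRD (m := m) (hs.trans hx'.1) (hx'.2.trans_lt ht)
      rw [mul_div_assoc] at this
      have h0 : 0 ≤ x ^ 2 / √(1 - x ^ 2) ^ 3 := by positivity
      linarith [mul_le_mul_of_nonneg_right hκ h0]
    have := hmono ⟨le_rfl, hst⟩ ⟨hst, le_rfl⟩ hst
    simp only at this
    linarith
  · have hanti : AntitoneOn (fun x => psiR m x - κ * (x / √(1 - x ^ 2) - arcsin x)) (Icc s t) := by
      refine antitoneOn_of_deriv_nonpos (convex_Icc _ _) hc hdiff fun x hx => ?_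
      have hx' := interior_subset hx
      rw [(hd x hx').deriv]
      have := psiRD_le_kapHi (m := m) (hs.trans hx'.1) (hx'.2.trans_lt ht)
      rw [mul_div_assoc] at this
      have h0 : 0 ≤ x ^ 2 / √(1 - x ^ 2) ^ 3 := by positivity
      linarith [mul_le_mul_of_nonneg_right hκ h0]
    have := hanti ⟨le_rfl, hst⟩ ⟨hst, le_rfl⟩ hst
    simp only at this
    linarith

/-- Two-sided bound of `psiR` itself. -/
theorem psiR_bounds {t : ℝ} (h0 : 0 ≤ t) (h1 : t < 1) :
    kapLo m * (t / √(1 - t ^ 2) - arcsin t) ≤ psiR m t ∧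
      psiR m t ≤ kapHi m * (t / √(1 - t ^ 2) - arcsin t) := by
  have hz : psiR m 0 = 0 := by simp [psiR, psi_zero]
  have a := (psiR_increment (m := m) (κ := kapLo m) le_rfl h0 h1).1 le_rfl
  have b := (psiR_increment (m := m) (κ := kapHi m) le_rfl h0 h1).2 le_rfl
  simp [hz] at a b
  exact ⟨a, b⟩

end Vale.Agent.P237.AllN
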