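import Vale.Agent.P237.AllN.CalcBounds
import Vale.Agent.P237.AllN.PsiREnv

/-!
# P237, all dimensions: sharper envelopes of the calibration

With `n = m + 1`, `b = 1 - c`, `u = √(1 - t²)`, `k = c / n`, `A = gamA m`:
* `8(m+1)/(16m²+36m+23) ≤ b ≤ (8m+12)/(16m²+44m+33)`, two orders sharper than `CalcBounds`;
* `Γ'' u³ ≤ (k + (A - k)(2u + u²)/3) t³ ≤ (k + (A - k) u) t³` for every `m`;
* `ψ_r' u³ ≥ (k (1 + u²/(m+3)) + e u³) t²` for `m ≥ 4`, exact at both ends, `e = kapCub m ≥ 0`.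
-/

open MeasureTheory Set Real intervalIntegral Filter Topology

namespace Vale.Agent.P237.AllN

variable {m : ℕ}

theorem succ_div_le_cst (m : ℕ) : ((m:ℝ) + 1) / ((m:ℝ) + 2) ≤ cst m := by
  rw [← cst_mul_succ]
  exact mul_le_of_le_one_right (cst_pos m).le (cst_lt_one _).le

/-- A supersolution of the recursion of `cst` tending to one is an upper bound. -/
theorem cst_le_of {r : ℕ → ℝ} (hlow : ∀ M : ℕ, ((M:ℝ) + 1) / ((M:ℝ) + 2) ≤ r M)
    (hr : ∀ M : ℕ, r (M + 2) ≤ r M * (((M:ℝ) + 2) ^ 2 / (((M:ℝ) + 1) * ((M:ℝ) + 3)))) (m : ℕ) :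
    cst m ≤ r m := by
  have hpos : ∀ M : ℕ, 0 < r M := fun M => lt_of_lt_of_le (by positivity) (hlow M)
  by_contra hcon
  rw [not_le] at hcon
  set ρ := cst m / r m with hρ
  have hρ1 : 1 < ρ := (one_lt_div (hpos m)).2 hcon
  have key : ∀ k : ℕ, ρ * r (m + 2 * k) ≤ cst (m + 2 * k) := by
    intro k
    induction k with
    | zero => simp [hρ, div_mul_cancel₀ _ (hpos m).ne']
    | succ k ih =>
      rw [show m + 2 * (k + 1) = m + 2 * k + 2 by ring, cst_add_two]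
      refine le_trans ?_ (mul_le_mul_of_nonneg_right ih (by positivity))
      rw [mul_assoc]
      exact mul_le_mul_of_nonneg_left (hr _) (by linarith)
  obtain ⟨k, hk⟩ := exists_nat_gt (1 / (ρ - 1))
  have h1 := ((mul_le_mul_of_nonneg_left (hlow (m + 2 * k)) (by linarith : 0 ≤ ρ)).trans
    (key k)).trans_lt (cst_lt_one _)
  rw [← mul_div_assoc, div_lt_one (by positivity)] at h1
  rw [div_lt_iff₀ (by linarith)] at hk
  push_cast at h1
  nlinarith [mul_nonneg (sub_nonneg.2 hρ1.le) (Nat.cast_nonneg m : (0:ℝ) ≤ m),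
    mul_nonneg (sub_nonneg.2 hρ1.le) (Nat.cast_nonneg k : (0:ℝ) ≤ k)]

/-- A subsolution of the recursion of `cst` below one is a lower bound. -/
theorem le_cst_of {r : ℕ → ℝ} (hpos : ∀ M : ℕ, 0 < r M) (hup : ∀ M : ℕ, r M ≤ 1)
    (hr : ∀ M : ℕ, r M * (((M:ℝ) + 2) ^ 2 / (((M:ℝ) + 1) * ((M:ℝ) + 3))) ≤ r (M + 2)) (m : ℕ) :
    r m ≤ cst m := by
  by_contra hcon
  rw [not_le] at hcon
  set ρ := cst m / r m with hρ
  have hρ0 : 0 < ρ := div_pos (cst_pos m) (hpos m)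
  have hρ1 : ρ < 1 := (div_lt_one (hpos m)).2 hcon
  have key : ∀ k : ℕ, cst (m + 2 * k) ≤ ρ * r (m + 2 * k) := by
    intro k
    induction k with
    | zero => simp [hρ, div_mul_cancel₀ _ (hpos m).ne']
    | succ k ih =>
      rw [show m + 2 * (k + 1) = m + 2 * k + 2 by ring, cst_add_two]
      refine (mul_le_mul_of_nonneg_right ih (by positivity)).trans ?_
      rw [mul_assoc]
      exact mul_le_mul_of_nonneg_left (hr _) hρ0.le
  obtain ⟨k, hk⟩ := exists_nat_gt (1 / (1 - ρ))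
  have h1 := (succ_div_le_cst (m + 2 * k)).trans
    ((key k).trans (mul_le_of_le_one_right hρ0.le (hup _)))
  rw [div_le_iff₀ (by positivity)] at h1
  rw [div_lt_iff₀ (by linarith)] at hk
  push_cast at h1
  nlinarith [mul_nonneg (sub_nonneg.2 hρ1.le) (Nat.cast_nonneg m : (0:ℝ) ≤ m),
    mul_nonneg (sub_nonneg.2 hρ1.le) (Nat.cast_nonneg k : (0:ℝ) ≤ k)]

/-- The sharper lower bound of `b`. -/
noncomputable def quadLo (m : ℕ) : ℝ :=
  8 * ((m:ℝ) + 1) / (16 * (m:ℝ) ^ 2 + 36 * (m:ℝ) + 23)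

/-- The sharper upper bound of `b`. -/
noncomputable def quadHi (m : ℕ) : ℝ :=
  (8 * (m:ℝ) + 12) / (16 * (m:ℝ) ^ 2 + 44 * (m:ℝ) + 33)

theorem quadLo_le (m : ℕ) : quadLo m ≤ quad m := by
  have h := cst_le_of (r := fun M => 1 - quadLo M) (fun M => ?_) (fun M => ?_) m
  · simp only [quad] at *; linarith
  · have hM : (0:ℝ) ≤ M := Nat.cast_nonneg M
    have e : ((M:ℝ) + 1) / ((M:ℝ) + 2) = 1 - 1 / ((M:ℝ) + 2) := by field_simp; ring
    have : quadLo M ≤ 1 / ((M:ℝ) + 2) := by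
      rw [quadLo, div_le_div_iff₀ (by positivity) (by positivity)]
      nlinarith
    linarith
  · have hM : (0:ℝ) ≤ M := Nat.cast_nonneg M
    simp only [quadLo]
    push_cast
    rw [one_sub_div (by positivity), one_sub_div (by positivity), div_mul_div_comm,
      div_le_div_iff₀ (by positivity) (by positivity), ← sub_nonneg]
    ring_nf
    positivity

theorem le_quadHi (m : ℕ) : quad m ≤ quadHi m := by
  have h := le_cst_of (r := fun M => 1 - quadHi M) (fun M => ?_) (fun M => ?_) (fun M => ?_) m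
  · simp only [quad] at *; linarith
  · have hM : (0:ℝ) ≤ M := Nat.cast_nonneg M
    rw [sub_pos, quadHi, div_lt_one (by positivity)]
    nlinarith
  · exact sub_le_self _ (by unfold quadHi; positivity)
  · have hM : (0:ℝ) ≤ M := Nat.cast_nonneg M
    simp only [quadHi]
    push_cast
    rw [one_sub_div (by positivity), one_sub_div (by positivity), div_mul_div_comm,
      div_le_div_iff₀ (by positivity) (by positivity), ← sub_nonneg]
    ring_nf
    positivity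

/-- An affine function nonnegative at both bounds of `b` is nonnegative at `b`. -/
theorem affine_quad_nonneg {A B : ℝ} (hlo : 0 ≤ A + B * quadLo m) (hhi : 0 ≤ A + B * quadHi m) :
    0 ≤ A + B * quad m := by
  rcases le_or_gt 0 B with hB | hB
  · nlinarith [mul_le_mul_of_nonneg_left (quadLo_le m) hB]
  · nlinarith [mul_le_mul_of_nonpos_left (le_quadHi m) hB.le]

/-- `c/(m+1) ≤ A`. -/
theorem kapLo_le_gamA (m : ℕ) : kapLo m ≤ gamA m := by
  have hm : (0:ℝ) ≤ m := Nat.cast_nonneg m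
  have h := le_quad m
  rw [div_le_iff₀ (by positivity)] at h
  have hb := quad_pos m
  have hc : cst m ≤ 1 := (cst_lt_one m).le
  rw [kapLo, gamA, div_le_div_iff₀ (by positivity) (by norm_num)]
  nlinarith [mul_le_mul_of_nonneg_left h (show (0:ℝ) ≤ ((m:ℝ) + 5) * ((m:ℝ) + 1) by positivity)]

/-- The cubic coefficient of the lower envelope of `ψ_r'`. -/
noncomputable def kapCub (m : ℕ) : ℝ :=
  ((2 * (m:ℝ) + 7) * quad m - 1) / 2 - kapLo m * (((m:ℝ) + 4) / ((m:ℝ) + 3))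

theorem kapCub_nonneg (hm : 4 ≤ m) : 0 ≤ kapCub m := by
  obtain ⟨k, rfl⟩ : ∃ k, m = k + 4 := ⟨m - 4, by omega⟩
  set A : ℝ := -1 / 2 - ((k:ℝ) + 8) / (((k:ℝ) + 5) * ((k:ℝ) + 7)) with hA
  set B : ℝ := (2 * (k:ℝ) + 15) / 2 + ((k:ℝ) + 8) / (((k:ℝ) + 5) * ((k:ℝ) + 7)) with hB
  have e : kapCub (k + 4) = A + B * quad (k + 4) := by
    rw [kapCub, kapLo, hA, hB, show cst (k + 4) = 1 - quad (k + 4) by simp [quad]]
    push_cast
    field_simp
    ring
  rw [e]
  refine affine_quad_nonneg ?_ ?_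
  · simp only [hA, hB, quadLo]
    push_cast
    field_simp
    ring_nf
    positivity
  · simp only [hA, hB, quadHi]
    push_cast
    field_simp
    ring_nf
    positivity

/-- The coefficient of `t³ / u³` bounding `Γ''`, as a function of `u`. -/
noncomputable def gamEnv (m : ℕ) (u : ℝ) : ℝ :=
  kapLo m + (gamA m - kapLo m) * ((2 * u + u ^ 2) / 3)

theorem gamEnv_le_linear {u : ℝ} (h0 : 0 ≤ u) (h1 : u ≤ 1) :
    gamEnv m u ≤ kapLo m + (gamA m - kapLo m) * u := by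
  have := mul_le_mul_of_nonneg_left (show (2 * u + u ^ 2) / 3 ≤ u by nlinarith)
    (sub_nonneg.2 (kapLo_le_gamA m))
  rw [gamEnv]
  linarith

/-- A cubic with `c₁, c₃ ≥ 0` that is nonnegative at `1` stays nonnegative to the right of a
nonnegative value on `[0,1]`. -/
theorem cubic_upper {c0 c1 c2 c3 w a : ℝ} (hc1 : 0 ≤ c1) (hc3 : 0 ≤ c3)
    (h1 : 0 ≤ c0 + c1 + c2 - c3) (hw : 0 ≤ w) (hwa : w ≤ a) (ha1 : a ≤ 1)
    (hv : 0 ≤ c0 + c1 * w + c2 * w ^ 2 - c3 * w ^ 3) :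
    0 ≤ c0 + c1 * a + c2 * a ^ 2 - c3 * a ^ 3 := by
  by_contra hneg
  rw [not_le] at hneg
  set S := c1 + (c2 - c3 * (a + w)) * (a + w) + c3 * (a * w) with hS
  have hS0 : S < 0 := by
    by_contra hc'
    have := mul_nonneg (sub_nonneg.2 hwa) (not_lt.1 hc')
    have e : (a - w) * S = c0 + c1 * a + c2 * a ^ 2 - c3 * a ^ 3 -
        (c0 + c1 * w + c2 * w ^ 2 - c3 * w ^ 3) := by rw [hS]; ring
    linarith
  have hlin : c2 - c3 * (1 + a + w) ≤ 0 := by
    by_contra hc'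
    have h5 : 0 ≤ (c2 - c3 * (a + w)) * (a + w) := mul_nonneg (by linarith) (by linarith)
    linarith [mul_nonneg hc3 (mul_nonneg (hw.trans hwa) hw)]
  have e : c0 + c1 + c2 - c3 - (c0 + c1 * a + c2 * a ^ 2 - c3 * a ^ 3) =
      (1 - a) * (S + (1 - w) * (c2 - c3 * (1 + a + w))) := by rw [hS]; ring
  linarith [mul_nonpos_of_nonneg_of_nonpos (sub_nonneg.2 ha1) (add_nonpos hS0.le
    (mul_nonpos_of_nonneg_of_nonpos (sub_nonneg.2 (hwa.trans ha1)) hlin))]

/-- The linear coefficient of the sign polynomial of `psi_le_env`. -/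
noncomputable def envC1 (m : ℕ) : ℝ :=
  ((m:ℝ) + 5) * cst m - ((m:ℝ) - 2) * gamA m - ((m:ℝ) + 6) * (gamA m - kapLo m)
    + ((m:ℝ) + 1) * (gamA m - kapLo m) / 3

/-- The quadratic coefficient of the sign polynomial of `psi_le_env`. -/
noncomputable def envC2 (m : ℕ) : ℝ :=
  ((m:ℝ) + 3) * ((m:ℝ) + 5) * quad m - ((m:ℝ) + 5) * (gamA m - kapLo m)
    - ((m:ℝ) + 7) * (gamA m - kapLo m) / 3

/-- The sign polynomial of `psi_le_env`. -/
noncomputable def envH (m : ℕ) (w : ℝ) : ℝ :=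
  -((m:ℝ) + 2) * (2 / 3) * (gamA m - kapLo m) + envC1 m * w + envC2 m * w ^ 2
    - ((m:ℝ) + 6) * (gamA m - kapLo m) / 3 * w ^ 3

theorem envH_end (m : ℕ) : 0 ≤ envH m 1 ∧ 0 ≤ envC1 m := by
  have hS : (0:ℝ) < 18 * ((m:ℝ) + 1) := by positivity
  have hc : cst m = 1 - quad m := by simp [quad]
  constructor
  · refine nonneg_of_mul_nonneg_right ?_ hS
    have e : 18 * ((m:ℝ) + 1) * envH m 1 =
        (12 * (m:ℝ) ^ 3 + 133 * (m:ℝ) ^ 2 + 480 * (m:ℝ) + 599) +
        -(24 * (m:ℝ) ^ 4 + 296 * (m:ℝ) ^ 3 + 1297 * (m:ℝ) ^ 2 + 2404 * (m:ℝ) + 1619) * quad m := by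
      simp only [envH, envC1, envC2, gamA, kapLo, hc]
      field_simp
      ring
    rw [e]
    refine affine_quad_nonneg ?_ ?_
    · rw [quadLo, ← mul_div_assoc, add_div' _ _ _ (by positivity)]
      refine div_nonneg ?_ (by positivity)
      ring_nf
      positivity
    · rw [quadHi, ← mul_div_assoc, add_div' _ _ _ (by positivity)]
      refine div_nonneg ?_ (by positivity)
      ring_nf
      positivity
  · refine nonneg_of_mul_nonneg_right ?_ hS
    have e : 18 * ((m:ℝ) + 1) * envC1 m =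
        (5 * (m:ℝ) ^ 3 + 59 * (m:ℝ) ^ 2 + 211 * (m:ℝ) + 247) +
        -(10 * (m:ℝ) ^ 4 + 117 * (m:ℝ) ^ 3 + 487 * (m:ℝ) ^ 2 + 867 * (m:ℝ) + 577) * quad m := by
      simp only [envC1, gamA, kapLo, hc]
      field_simp
      ring
    rw [e]
    refine affine_quad_nonneg ?_ ?_
    · rw [quadLo, ← mul_div_assoc, add_div' _ _ _ (by positivity)]
      refine div_nonneg ?_ (by positivity)
      ring_nf
      positivity
    · rw [quadHi, ← mul_div_assoc, add_div' _ _ _ (by positivity)]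
      refine div_nonneg ?_ (by positivity)
      ring_nf
      positivity

/-- The derivative identity behind `psi_le_env`. -/
theorem envH_id (m : ℕ) (w : ℝ) :
    w ^ 2 * (gamEnv m w * (1 - w ^ 2) + cst m - w + ((m:ℝ) + 3) * quad m * w ^ 3) -
      (1 - w ^ 2) * (((m:ℝ) + 1) *
        (gamEnv m w * (1 - w ^ 2) + cst m - w + ((m:ℝ) + 3) * quad m * w ^ 3) +
        w * ((gamA m - kapLo m) * (2 + 2 * w) / 3 * (1 - w ^ 2) - 2 * gamEnv m w * w - 1
          + 3 * ((m:ℝ) + 3) * quad m * w ^ 2)) -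
      ((m:ℝ) + 2) * (w - cst m) = w * (1 - w) ^ 2 * envH m w := by
  simp only [envH, envC1, envC2, gamEnv, kapLo, gamA, quad]
  field_simp
  ring

/-- `ψ ≤ t (gamEnv(u) t² + c - u + (m+3) b u³) / ((m+2) u)`. -/
theorem psi_le_env {t : ℝ} (h0 : 0 ≤ t) (h1 : t < 1) :
    psi m t ≤ t * (gamEnv m √(1 - t ^ 2) * t ^ 2 + cst m - √(1 - t ^ 2) +
      ((m:ℝ) + 3) * quad m * √(1 - t ^ 2) ^ 3) / (((m:ℝ) + 2) * √(1 - t ^ 2)) := by
  set D := gamA m - kapLo m with hD
  have hD0 : 0 ≤ D := sub_nonneg.2 (kapLo_le_gamA m)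
  set B : ℝ → ℝ := fun w => gamEnv m w * (1 - w ^ 2) + cst m - w + ((m:ℝ) + 3) * quad m * w ^ 3
    with hB
  set G : ℝ → ℝ := fun x =>
    x * (√(1 - x ^ 2) ^ (m + 1) * B √(1 - x ^ 2)) / ((m:ℝ) + 2) - tailI m (arcsin x) with hG
  set G' : ℝ → ℝ := fun x => √(1 - x ^ 2) ^ m * (1 - √(1 - x ^ 2)) ^ 2 / ((m:ℝ) + 2) *
    envH m √(1 - x ^ 2) with hG'
  have hc : ContinuousOn G (Icc 0 1) := by
    simp only [hG, hB, gamEnv]
    fun_prop
  have hd : ∀ x ∈ Ioo (0:ℝ) 1, HasDerivAt G (G' x) x := by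
    intro x hx
    have hx' : x ∈ Ioo (-1:ℝ) 1 := ⟨by linarith [hx.1], hx.2⟩
    obtain ⟨hu, -, hsq⟩ := u_mem hx.1.le hx.2
    have hu' := hasDerivAt_u hx'
    have hBd : HasDerivAt (fun y : ℝ => B √(1 - y ^ 2))
        ((D * (2 + 2 * √(1 - x ^ 2)) / 3 * (1 - √(1 - x ^ 2) ^ 2)
          - 2 * gamEnv m √(1 - x ^ 2) * √(1 - x ^ 2) - 1
          + 3 * ((m:ℝ) + 3) * quad m * √(1 - x ^ 2) ^ 2) * -(x / √(1 - x ^ 2))) x := by
      simp only [hB, gamEnv]
      refine (((((((hu'.const_mul 2).add (hu'.fun_pow 2)).div_const 3).const_mul D).const_add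
        (kapLo m)).mul ((hu'.fun_pow 2).const_sub 1)).add_const (cst m) |>.sub hu' |>.add
        ((hu'.fun_pow 3).const_mul (((m:ℝ) + 3) * quad m))).congr_deriv ?_
      simp only [Pi.add_apply, hD]
      push_cast
      ring
    refine ((((hasDerivAt_id x).mul ((hu'.fun_pow (m + 1)).mul hBd)).div_const _).sub
      (hasDerivAt_tail_arcsin hx')).congr_deriv ?_
    simp only [id_eq, Pi.mul_apply, hG', Nat.cast_add, Nat.cast_one, add_tsub_cancel_right,
      pow_succ _ m, one_mul]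
    set w := √(1 - x ^ 2) with hw
    set Bd := D * (2 + 2 * w) / 3 * (1 - w ^ 2) - 2 * gamEnv m w * w - 1
      + 3 * ((m:ℝ) + 3) * quad m * w ^ 2 with hBdd
    have hid : w ^ 2 * B w - (1 - w ^ 2) * (((m:ℝ) + 1) * B w + w * Bd) -
        ((m:ℝ) + 2) * (w - cst m) = w * (1 - w) ^ 2 * envH m w := envH_id m w
    have : w ≠ 0 := hu.ne'
    generalize B w = Bw at hid ⊢
    generalize envH m w = hwv at hid ⊢
    generalize Bd = Bdv at hid ⊢
    field_simp
    linear_combination hid - (((m:ℝ) + 1) * Bw + w * Bdv) * hsq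
  have hsign : ∀ x y, 0 < x → x ≤ y → y < 1 → 0 ≤ G' y → 0 ≤ G' x := by
    intro x y hx hxy hy hy'
    obtain ⟨hux, hux1, -⟩ := u_mem hx.le (hxy.trans_lt hy)
    obtain ⟨huy, huy1, hsqy⟩ := u_mem (hx.le.trans hxy) hy
    have hle : √(1 - y ^ 2) ≤ √(1 - x ^ 2) := sqrt_le_sqrt (by nlinarith)
    refine mul_nonneg (by positivity) ?_
    simp only [hG'] at hy'
    set a := √(1 - x ^ 2) with ha
    set w := √(1 - y ^ 2) with hw
    have hw1 : 0 < 1 - w := by
      have : 0 < y ^ 2 := by nlinarith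
      nlinarith
    have hwn := nonneg_of_mul_nonneg_right hy'
      (show (0:ℝ) < w ^ m * (1 - w) ^ 2 / ((m:ℝ) + 2) by positivity)
    have he := envH_end m
    have := cubic_upper (c0 := -((m:ℝ) + 2) * (2 / 3) * (gamA m - kapLo m)) (c2 := envC2 m)
      (c3 := ((m:ℝ) + 6) * (gamA m - kapLo m) / 3) he.2 (by positivity)
      (by have := he.1; simp only [envH, one_pow, mul_one] at this; exact this)
      huy.le hle hux1 (by simpa only [envH] using hwn)
    simpa only [envH] using this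
  have key := nonneg_of_sign_change hc (by simp [hG, tailI_zero])
    (by simp [hG, arcsin_one, tailI]) hd hsign (t := t) ⟨h0, h1.le⟩
  obtain ⟨hu, -, hsq⟩ := u_mem h0 h1
  simp only [hG, tail_arcsin_eq (show t ∈ Ioo (-1:ℝ) 1 from ⟨by linarith, h1⟩), sub_nonneg] at key
  refine le_of_mul_le_mul_left (key.trans_eq ?_) (pow_pos hu (m + 2))
  simp only [hB]
  rw [← hsq]
  field_simp
  ring

/-- **`((m+2) ψ_r + t ψ_r') u³ ≤ gamEnv(u) t³`.** -/
theorem gam_le_env {t : ℝ} (h0 : 0 ≤ t) (h1 : t < 1) :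
    (((m:ℝ) + 2) * psiR m t + t * deriv (psiR m) t) * √(1 - t ^ 2) ^ 3 ≤
      gamEnv m √(1 - t ^ 2) * t ^ 3 := by
  have hd := deriv_psi_mul_cube (m := m) h0 h1
  obtain ⟨hu, -, hsq⟩ := u_mem h0 h1
  have hp := psi_le_env (m := m) h0 h1
  rw [deriv_psiR ⟨by linarith, h1⟩, psiR]
  set w := √(1 - t ^ 2) with hw
  have e : (((m:ℝ) + 2) * (psi m t - quad m * t) + t * (deriv (psi m) t - quad m)) * w ^ 3 =
      ((m:ℝ) + 2) * w * psi m t +
        t * (w - cst m - ((m:ℝ) + 3) * quad m * w ^ 3) := by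
    linear_combination t * hd + ((m:ℝ) + 2) * w * psi m t * hsq
  rw [e]
  rw [le_div_iff₀ (by positivity)] at hp
  linarith

/-- **`Γ'' u³ ≤ (k + (A - k) u) t³`.** -/
theorem gam_le_two {t : ℝ} (h0 : 0 ≤ t) (h1 : t < 1) :
    (((m:ℝ) + 2) * psiR m t + t * deriv (psiR m) t) * √(1 - t ^ 2) ^ 3 ≤
      (kapLo m + (gamA m - kapLo m) * √(1 - t ^ 2)) * t ^ 3 :=
  (gam_le_env h0 h1).trans (mul_le_mul_of_nonneg_right
    (gamEnv_le_linear (u_mem h0 h1).1.le (u_mem h0 h1).2.1) (pow_nonneg h0 3))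

/-- **`ψ_r' u³ ≥ (k (1 + u²/(m+3)) + e u³) t²`.** -/
theorem kapEnv_le_deriv_psiR (hm : 4 ≤ m) {t : ℝ} (h0 : 0 ≤ t) (h1 : t < 1) :
    (kapLo m * (1 + √(1 - t ^ 2) ^ 2 / ((m:ℝ) + 3)) + kapCub m * √(1 - t ^ 2) ^ 3) * t ^ 2 ≤
      deriv (psiR m) t * √(1 - t ^ 2) ^ 3 := by
  set p : ℝ → ℝ := fun w => kapLo m * w ^ 2 / ((m:ℝ) + 3) + kapCub m * w ^ 3 with hp
  set g : ℝ → ℝ := fun w => cst m / (1 + w) - ((m:ℝ) + 3) * quad m
    + kapLo m * ((m:ℝ) + 4) * w / ((m:ℝ) + 3)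
    + kapCub m * (((m:ℝ) + 5) * w ^ 2 - ((m:ℝ) + 4)) with hg
  set G : ℝ → ℝ := fun x => env m (kapLo m) x -
    x * (√(1 - x ^ 2) ^ (m + 1) * p √(1 - x ^ 2)) / ((m:ℝ) + 2) with hG
  set G' : ℝ → ℝ := fun x => -(√(1 - x ^ 2) ^ (m + 2) * g √(1 - x ^ 2)) / ((m:ℝ) + 2) with hG'
  have hc : ContinuousOn G (Icc 0 1) := by
    simp only [hG, hp]
    exact (continuous_env m _).continuousOn.sub (by fun_prop)
  have hd : ∀ x ∈ Ioo (0:ℝ) 1, HasDerivAt G (G' x) x := by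
    intro x hx
    have hx' : x ∈ Ioo (-1:ℝ) 1 := ⟨by linarith [hx.1], hx.2⟩
    obtain ⟨hu, -, hsq⟩ := u_mem hx.1.le hx.2
    have hu' := hasDerivAt_u hx'
    have hpd : HasDerivAt (fun y : ℝ => p √(1 - y ^ 2))
        ((2 * kapLo m * √(1 - x ^ 2) / ((m:ℝ) + 3) + 3 * kapCub m * √(1 - x ^ 2) ^ 2) *
          -(x / √(1 - x ^ 2))) x := by
      simp only [hp]
      refine ((((hu'.fun_pow 2).const_mul (kapLo m)).div_const _).add
        ((hu'.fun_pow 3).const_mul (kapCub m))).congr_deriv ?_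
      push_cast
      ring
    refine ((hasDerivAt_env (m := m) (kapLo m) hx').sub
      (((hasDerivAt_id x).mul ((hu'.fun_pow (m + 1)).mul hpd)).div_const _)).congr_deriv ?_
    simp only [id_eq, Pi.mul_apply, hG', hg, hp, envQ, kapLo,
      Nat.cast_add, Nat.cast_one, add_tsub_cancel_right, pow_succ, one_mul]
    set w := √(1 - x ^ 2) with hw
    have : w ≠ 0 := hu.ne'
    have : (1:ℝ) + w ≠ 0 := by positivity
    field_simp
    grind
  have hg1 : g 1 = 0 := by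
    simp only [hg, kapCub, kapLo, show cst m = 1 - quad m by simp [quad]]
    field_simp
    ring
  have hsign : ∀ x y, 0 < x → x ≤ y → y < 1 → 0 ≤ G' y → 0 ≤ G' x := by
    intro x y hx hxy hy hy'
    obtain ⟨hux, hux1, -⟩ := u_mem hx.le (hxy.trans_lt hy)
    obtain ⟨huy, huy1, hsqy⟩ := u_mem (hx.le.trans hxy) hy
    have hle : √(1 - y ^ 2) ≤ √(1 - x ^ 2) := sqrt_le_sqrt (by nlinarith)
    simp only [hG'] at hy' ⊢
    set a := √(1 - x ^ 2) with ha
    set w := √(1 - y ^ 2) with hw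
    have hw1 : 0 < 1 - w := by
      have : 0 < y ^ 2 := by nlinarith
      nlinarith
    have hgw : g w ≤ 0 := by
      by_contra hc'
      have : 0 < w ^ (m + 2) * g w := mul_pos (pow_pos huy _) (not_le.1 hc')
      have := div_neg_of_neg_of_pos (neg_neg_of_pos this) (show (0:ℝ) < (m:ℝ) + 2 by positivity)
      linarith
    have hconv : g a * (1 - w) ≤ g w * (1 - a) + g 1 * (a - w) := by
      rw [← sub_nonneg]
      have e : g w * (1 - a) + g 1 * (a - w) - g a * (1 - w) =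
          (1 - a) * (a - w) * (1 - w) *
            (cst m / (2 * (1 + a) * (1 + w)) + kapCub m * ((m:ℝ) + 5)) := by
        simp only [hg]
        field_simp
        ring
      rw [e]
      have := sub_nonneg.2 hux1
      have := sub_nonneg.2 hle
      have := kapCub_nonneg hm
      have := cst_pos m
      positivity
    rw [hg1, zero_mul, add_zero] at hconv
    have hga : g a ≤ 0 := by
      nlinarith [mul_nonpos_of_nonpos_of_nonneg hgw (sub_nonneg.2 hux1)]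
    refine div_nonneg (neg_nonneg.2 (mul_nonpos_of_nonneg_of_nonpos (by positivity) hga))
      (by positivity)
  have key := nonneg_of_sign_change hc (by simp [hG, env_zero])
    (by simp [hG, hp, env_one]) hd hsign (t := t) ⟨h0, h1.le⟩
  obtain ⟨hu, -, -⟩ := u_mem h0 h1
  have ht : t ∈ Ioo (-1:ℝ) 1 := ⟨by linarith, h1⟩
  have hr : deriv (psiR m) t = psiRD m t := (hasDerivAt_psiR ht).deriv
  have he := psiRD_sub_eq (m := m) (kapLo m) ht
  simp only [hG, sub_nonneg, hp] at key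
  rw [hr]
  set w := √(1 - t ^ 2)
  have hk := mul_le_mul_of_nonneg_left key
    (show (0:ℝ) ≤ ((m:ℝ) + 2) * t * w ^ 3 / w ^ (m + 4) by positivity)
  have e3 : psiRD m t * w ^ 3 = kapLo m * t ^ 2 +
      ((m:ℝ) + 2) * t * w ^ 3 / w ^ (m + 4) * env m (kapLo m) t := by
    rw [show psiRD m t = kapLo m * t ^ 2 / w ^ 3 + (psiRD m t - kapLo m * t ^ 2 / w ^ 3) by ring, he]
    field_simp
  rw [e3]
  refine le_trans (le_of_eq ?_) (add_le_add le_rfl hk)
  field_simp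
  ring

/-- `c` in closed form in the first two dimensions. -/
theorem cst_zero_one : cst 0 = 2 * π⁻¹ ∧ cst 1 = π / 4 := by
  have h0 : cosI 0 = π := by simp [cosI]
  have h1 : cosI 1 = 2 := by norm_num [cosI, integral_cos]
  refine ⟨by rw [cst, h0, h1, div_eq_mul_inv], ?_⟩
  rw [cst, h1, cosI_rec, h0]
  norm_num
  ring

/-- Six digit values of `c` for `4 ≤ m ≤ 12`. -/
theorem cst_values :
    (905414 / 1000000 ≤ cst 4 ∧ cst 4 ≤ 905415 / 1000000) ∧
    (920388 / 1000000 ≤ cst 5 ∧ cst 5 ≤ 920389 / 1000000) ∧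
    (931283 / 1000000 ≤ cst 6 ∧ cst 6 ≤ 931284 / 1000000) ∧
    (939563 / 1000000 ≤ cst 7 ∧ cst 7 ≤ 939564 / 1000000) ∧
    (946065 / 1000000 ≤ cst 8 ∧ cst 8 ≤ 946067 / 1000000) ∧
    (951307 / 1000000 ≤ cst 9 ∧ cst 9 ≤ 951308 / 1000000) ∧
    (955622 / 1000000 ≤ cst 10 ∧ cst 10 ≤ 955623 / 1000000) ∧
    (959235 / 1000000 ≤ cst 11 ∧ cst 11 ≤ 959236 / 1000000) ∧
    (962304 / 1000000 ≤ cst 12 ∧ cst 12 ≤ 962306 / 1000000) := by
  obtain ⟨h0, h1⟩ := cst_zero_one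
  have hp := pi_gt_d6
  have hq := pi_lt_d6
  have hr : 1000000 / 3141593 ≤ π⁻¹ := by
    rw [le_inv_comm₀ (by norm_num) pi_pos]; norm_num; linarith
  have hs : π⁻¹ ≤ 1000000 / 3141592 := by
    rw [inv_le_comm₀ pi_pos (by norm_num)]; norm_num; linarith
  simp only [cst_add_two, h0, h1]
  norm_num
  refine ⟨?_, ?_, ?_, ?_, ?_, ?_, ?_, ?_, ?_⟩
  all_goals
    constructor
    all_goals
      linarith

end Vale.Agent.P237.AllN
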