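import Vale.Agent.P237.AllN.PhiRBounds

/-!
# P237, all dimensions: one-variable bounds on the calibration

With `b = 1 - c` and `u = √(1 - t²)`, for every `m` and `t ∈ [0, 1)`:
* `1/(2m+3) ≤ b ≤ 2/(4m+5)`;
* `ψ' u³ ≥ b + (c/(m+1) - b)(1 - u)`, exact at both ends;
* `((m+2) ψ_r + t ψ_r') u³ ≤ A t³` with `A = (m+5)((2m+7) b - 1)/6`, exact at `0`.
Both differential bounds compare integrals whose derivatives change sign once.
-/

open MeasureTheory Set Real intervalIntegral Filter Topology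

namespace Vale.Agent.P237.AllN

variable {m : ℕ}

theorem cosI_rec (j : ℕ) : cosI (j + 2) = ((j:ℝ) + 1) / ((j:ℝ) + 2) * cosI j := by
  rw [cosI, cosI, integral_cos_pow, cos_pi_div_two, cos_neg, cos_pi_div_two]
  simp

theorem cst_add_two (m : ℕ) :
    cst (m + 2) = cst m * (((m:ℝ) + 2) ^ 2 / (((m:ℝ) + 1) * ((m:ℝ) + 3))) := by
  have h0 := (cosI_pos m).ne'
  rw [cst, cst, cosI_rec m, show m + 2 + 1 = (m + 1) + 2 by ring, cosI_rec (m + 1)]
  push_cast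
  field_simp
  ring

theorem cst_mul_succ (m : ℕ) : cst m * cst (m + 1) = ((m:ℝ) + 1) / ((m:ℝ) + 2) := by
  have h0 := (cosI_pos m).ne'
  have h1 := (cosI_pos (m + 1)).ne'
  rw [cst, cst, cosI_rec m]
  field_simp

/-- `c ≤ (2m+2)/(2m+3)`. -/
theorem cst_le (m : ℕ) : cst m ≤ (2 * (m:ℝ) + 2) / (2 * (m:ℝ) + 3) := by
  by_contra hcon
  rw [not_le, div_lt_iff₀ (by positivity)] at hcon
  set δ := cst m * (2 * (m:ℝ) + 3) - (2 * (m:ℝ) + 2) with hδ
  have hδ0 : 0 < δ := by linarith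
  have key : ∀ k : ℕ, (δ + (2 * (m:ℝ) + 2)) / (2 * (m:ℝ) + 2) *
      ((2 * ((m + 2 * k : ℕ):ℝ) + 2) / (2 * ((m + 2 * k : ℕ):ℝ) + 3)) ≤ cst (m + 2 * k) := by
    intro k
    induction k with
    | zero =>
      simp only [mul_zero, add_zero]
      rw [show δ + (2 * (m:ℝ) + 2) = cst m * (2 * (m:ℝ) + 3) by ring]
      exact le_of_eq (by field_simp)
    | succ k ih =>
      rw [show m + 2 * (k + 1) = m + 2 * k + 2 by ring, cst_add_two]
      set M := m + 2 * k with hM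
      refine le_trans ?_ (mul_le_mul_of_nonneg_right ih (by positivity))
      rw [mul_assoc]
      refine mul_le_mul_of_nonneg_left ?_ (by positivity)
      push_cast
      rw [div_mul_div_comm, div_le_div_iff₀ (by positivity) (by positivity)]
      nlinarith [sq_nonneg ((M:ℝ) + 2), (Nat.cast_nonneg M : (0:ℝ) ≤ M)]
  obtain ⟨k, hk⟩ := exists_nat_gt ((2 * (m:ℝ) + 2) / δ)
  have h1 := (key k).trans_lt (cst_lt_one _)
  rw [div_lt_iff₀ hδ0] at hk
  set M := m + 2 * k with hM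
  have hMk : (k:ℝ) ≤ M := by rw [hM]; push_cast; linarith [(Nat.cast_nonneg m : (0:ℝ) ≤ m),
    (Nat.cast_nonneg k : (0:ℝ) ≤ k)]
  rw [div_mul_div_comm, div_lt_one (by positivity)] at h1
  nlinarith [mul_le_mul_of_nonneg_right hMk hδ0.le]

/-- `c ≥ (4m+3)/(4m+5)`. -/
theorem le_cst (m : ℕ) : (4 * (m:ℝ) + 3) / (4 * (m:ℝ) + 5) ≤ cst m := by
  by_contra hcon
  rw [not_le, lt_div_iff₀ (by positivity)] at hcon
  set r := cst m * (4 * (m:ℝ) + 5) / (4 * (m:ℝ) + 3) with hr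
  have hr1 : r < 1 := by rw [hr, div_lt_one (by positivity)]; exact hcon
  have hr0 : 0 < r := div_pos (mul_pos (cst_pos m) (by positivity)) (by positivity)
  have key : ∀ k : ℕ, cst (m + 2 * k) ≤
      r * ((4 * ((m + 2 * k : ℕ):ℝ) + 3) / (4 * ((m + 2 * k : ℕ):ℝ) + 5)) := by
    intro k
    induction k with
    | zero =>
      simp only [mul_zero, add_zero, hr]
      exact le_of_eq (by field_simp)
    | succ k ih =>
      rw [show m + 2 * (k + 1) = m + 2 * k + 2 by ring, cst_add_two]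
      set M := m + 2 * k with hM
      refine (mul_le_mul_of_nonneg_right ih (by positivity)).trans ?_
      rw [mul_assoc]
      refine mul_le_mul_of_nonneg_left ?_ hr0.le
      push_cast
      rw [div_mul_div_comm, div_le_div_iff₀ (by positivity) (by positivity)]
      nlinarith [sq_nonneg ((M:ℝ) + 2), (Nat.cast_nonneg M : (0:ℝ) ≤ M)]
  obtain ⟨k, hk⟩ := exists_nat_gt (1 / (1 - r))
  have h1 := key k
  set M := m + 2 * k with hM
  have hlow : ((M:ℝ) + 1) / ((M:ℝ) + 2) ≤ cst M := by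
    rw [← cst_mul_succ]
    exact mul_le_of_le_one_right (cst_pos M).le (cst_lt_one _).le
  have h2 : ((M:ℝ) + 1) / ((M:ℝ) + 2) ≤ r :=
    hlow.trans (h1.trans (mul_le_of_le_one_right hr0.le
      ((div_le_one (by positivity)).2 (by linarith))))
  rw [div_lt_iff₀ (by linarith)] at hk
  rw [div_le_iff₀ (by positivity)] at h2
  have hMk : (k:ℝ) ≤ M := by rw [hM]; push_cast; linarith [(Nat.cast_nonneg m : (0:ℝ) ≤ m),
    (Nat.cast_nonneg k : (0:ℝ) ≤ k)]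
  nlinarith [mul_le_mul_of_nonneg_right hMk (sub_nonneg.2 hr1.le)]

/-- `b ≥ 1/(2m+3)`. -/
theorem le_quad (m : ℕ) : 1 / (2 * (m:ℝ) + 3) ≤ quad m := by
  have h := cst_le m
  have e : (2 * (m:ℝ) + 2) / (2 * (m:ℝ) + 3) = 1 - 1 / (2 * (m:ℝ) + 3) := by field_simp; ring
  rw [quad]; linarith

/-- `b ≤ 2/(4m+5)`. -/
theorem quad_le (m : ℕ) : quad m ≤ 2 / (4 * (m:ℝ) + 5) := by
  have h := le_cst m
  have e : (4 * (m:ℝ) + 3) / (4 * (m:ℝ) + 5) = 1 - 2 / (4 * (m:ℝ) + 5) := by field_simp; ring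
  rw [quad]; linarith

/-- The excess of `ψ' u³` at `t = 1` over its value `b` at `0`. -/
theorem quad_le_edge (m : ℕ) : quad m ≤ cst m / ((m:ℝ) + 1) := by
  rw [le_div_iff₀ (by positivity)]
  have h := quad_le m
  rw [le_div_iff₀ (by positivity)] at h
  have e : cst m = 1 - quad m := by simp [quad]
  nlinarith [quad_pos m]

/-- A function nonnegative at both ends of `[0,1]` whose derivative changes sign once from `+`
to `-` is nonnegative. -/
theorem nonneg_of_sign_change {F F' : ℝ → ℝ} (hc : ContinuousOn F (Icc 0 1)) (h0 : 0 ≤ F 0)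
    (h1 : 0 ≤ F 1) (hd : ∀ x ∈ Ioo (0:ℝ) 1, HasDerivAt F (F' x) x)
    (hsign : ∀ x y, 0 < x → x ≤ y → y < 1 → 0 ≤ F' y → 0 ≤ F' x) {t : ℝ} (ht : t ∈ Icc (0:ℝ) 1) :
    0 ≤ F t := by
  rcases ht.1.eq_or_lt with rfl | ht0
  · exact h0
  rcases ht.2.eq_or_lt with rfl | ht1
  · exact h1
  rcases le_or_gt 0 (F' t) with hs | hs
  · have hmono : MonotoneOn F (Icc 0 t) := by
      refine monotoneOn_of_deriv_nonneg (convex_Icc _ _)
        (hc.mono (Icc_subset_Icc le_rfl ht.2)) ?_ ?_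
      · rw [interior_Icc]
        exact fun x hx => (hd x ⟨hx.1, hx.2.trans ht1⟩).differentiableAt.differentiableWithinAt
      · rw [interior_Icc]
        intro x hx
        rw [(hd x ⟨hx.1, hx.2.trans ht1⟩).deriv]
        exact hsign x t hx.1 hx.2.le ht1 hs
    exact h0.trans (hmono ⟨le_rfl, ht0.le⟩ ⟨ht0.le, le_rfl⟩ ht0.le)
  · have hanti : AntitoneOn F (Icc t 1) := by
      refine antitoneOn_of_deriv_nonpos (convex_Icc _ _)
        (hc.mono (Icc_subset_Icc ht.1 le_rfl)) ?_ ?_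
      · rw [interior_Icc]
        exact fun x hx => (hd x ⟨ht0.trans hx.1, hx.2⟩).differentiableAt.differentiableWithinAt
      · rw [interior_Icc]
        intro x hx
        rw [(hd x ⟨ht0.trans hx.1, hx.2⟩).deriv]
        by_contra h
        exact absurd (hsign t x ht0 hx.1.le hx.2 (not_le.1 h).le) (not_le.2 hs)
    exact h1.trans (hanti ⟨le_rfl, ht1.le⟩ ⟨ht1.le, le_rfl⟩ ht1.le)

theorem tail_arcsin_eq {t : ℝ} (ht : t ∈ Ioo (-1 : ℝ) 1) :
    tailI m (arcsin t) = √(1 - t ^ 2) ^ (m + 2) * psi m t := by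
  have : (0 : ℝ) < 1 - t ^ 2 := by nlinarith [ht.1, ht.2]
  rw [psi, psiA, cos_arcsin]
  field_simp

theorem hasDerivAt_tail_arcsin {t : ℝ} (ht : t ∈ Ioo (-1 : ℝ) 1) :
    HasDerivAt (fun x => tailI m (arcsin x))
      (√(1 - t ^ 2) ^ m * (1 - cst m / √(1 - t ^ 2))) t := by
  have hpos : (0 : ℝ) < 1 - t ^ 2 := by nlinarith [ht.1, ht.2]
  refine ((hasDerivAt_tailI m (arcsin t)).comp t
    (hasDerivAt_arcsin ht.1.ne' ht.2.ne)).congr_deriv ?_
  have hne : √(1 - t ^ 2) ≠ 0 := by positivity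
  simp only [gI, cos_arcsin]
  field_simp
  ring

theorem hasDerivAt_u {t : ℝ} (ht : t ∈ Ioo (-1 : ℝ) 1) :
    HasDerivAt (fun x : ℝ => √(1 - x ^ 2)) (-(t / √(1 - t ^ 2))) t := by
  have hpos : (0 : ℝ) < 1 - t ^ 2 := by nlinarith [ht.1, ht.2]
  refine (((hasDerivAt_pow 2 t).const_sub 1).sqrt hpos.ne').congr_deriv ?_
  field_simp
  ring

theorem u_mem {t : ℝ} (h0 : 0 ≤ t) (h1 : t < 1) :
    0 < √(1 - t ^ 2) ∧ √(1 - t ^ 2) ≤ 1 ∧ t ^ 2 = 1 - √(1 - t ^ 2) ^ 2 := by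
  have hpos : (0 : ℝ) < 1 - t ^ 2 := by nlinarith
  refine ⟨sqrt_pos.2 hpos, sqrt_le_one.2 (by nlinarith), ?_⟩
  rw [sq_sqrt hpos.le]; ring

/-- `ψ ≥ c t / ((m+1) u (1+u))`. -/
theorem le_psi {t : ℝ} (h0 : 0 ≤ t) (h1 : t < 1) :
    cst m * t / (((m:ℝ) + 1) * (√(1 - t ^ 2) * (1 + √(1 - t ^ 2)))) ≤ psi m t := by
  set G : ℝ → ℝ := fun x => tailI m (arcsin x) -
    cst m / ((m:ℝ) + 1) * (x * (√(1 - x ^ 2) ^ (m + 1) / (1 + √(1 - x ^ 2)))) with hG
  set G' : ℝ → ℝ := fun x => √(1 - x ^ 2) ^ m / (1 + √(1 - x ^ 2)) *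
    (quad m * √(1 - x ^ 2) + quad m - cst m / ((m:ℝ) + 1))
    with hG'
  have hc : ContinuousOn G (Icc 0 1) := by
    refine ContinuousOn.sub (by fun_prop) (continuousOn_const.mul (continuousOn_id.mul
      (ContinuousOn.div (by fun_prop) (by fun_prop) fun x _ => ?_)))
    positivity
  have hd : ∀ x ∈ Ioo (0:ℝ) 1, HasDerivAt G (G' x) x := by
    intro x hx
    have hx' : x ∈ Ioo (-1:ℝ) 1 := ⟨by linarith [hx.1], hx.2⟩
    obtain ⟨hu, -, hsq⟩ := u_mem hx.1.le hx.2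
    refine ((hasDerivAt_tail_arcsin hx').sub (((hasDerivAt_id x).mul
      (((hasDerivAt_u hx').fun_pow (m + 1)).div ((hasDerivAt_u hx').const_add 1)
        (by positivity))).const_mul _)).congr_deriv ?_
    simp only [id_eq, Pi.div_apply, hG', quad, Nat.cast_add, Nat.cast_one, add_tsub_cancel_right,
      pow_succ, one_mul]
    set w := √(1 - x ^ 2) with hw
    have : w ≠ 0 := hu.ne'
    have : (1:ℝ) + w ≠ 0 := by positivity
    field_simp
    grind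
  have hsign : ∀ x y, 0 < x → x ≤ y → y < 1 → 0 ≤ G' y → 0 ≤ G' x := by
    intro x y hx hxy hy h
    obtain ⟨hux, -, -⟩ := u_mem hx.le (hxy.trans_lt hy)
    obtain ⟨huy, -, -⟩ := u_mem (hx.le.trans hxy) hy
    have hle : √(1 - y ^ 2) ≤ √(1 - x ^ 2) := sqrt_le_sqrt (by nlinarith)
    refine mul_nonneg (by positivity) ?_
    have h2 := nonneg_of_mul_nonneg_right h
      (show (0:ℝ) < √(1 - y ^ 2) ^ m / (1 + √(1 - y ^ 2)) by positivity)
    have := mul_le_mul_of_nonneg_left hle (quad_pos m).le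
    linarith
  have key := nonneg_of_sign_change hc (by simp [hG, tailI_zero])
    (by simp [hG, arcsin_one, tailI]) hd hsign (t := t) ⟨h0, h1.le⟩
  obtain ⟨hu, -, -⟩ := u_mem h0 h1
  simp only [hG, tail_arcsin_eq (show t ∈ Ioo (-1:ℝ) 1 from ⟨by linarith, h1⟩), sub_nonneg] at key
  refine le_of_mul_le_mul_left (le_trans (le_of_eq ?_) key) (pow_pos hu (m + 2))
  field_simp
  ring

/-- The derivative of `psi`. -/
theorem deriv_psi {t : ℝ} (ht : t ∈ Ioo (-1 : ℝ) 1) :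
    deriv (psi m) t = ((m + 2) * t * psi m t + 1 - cst m / √(1 - t ^ 2)) / (1 - t ^ 2) :=
  (hasDerivAt_psi ht).deriv

/-- `ψ' u³` in closed form. -/
theorem deriv_psi_mul_cube {t : ℝ} (h0 : 0 ≤ t) (h1 : t < 1) :
    deriv (psi m) t * √(1 - t ^ 2) ^ 3 =
      ((m:ℝ) + 2) * t * √(1 - t ^ 2) * psi m t + √(1 - t ^ 2) - cst m := by
  obtain ⟨hu, -, hsq⟩ := u_mem h0 h1
  rw [deriv_psi ⟨by linarith, h1⟩, show 1 - t ^ 2 = √(1 - t ^ 2) ^ 2 by linarith]
  rw [sqrt_sq hu.le]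
  field_simp

/-- **`ψ' u³ ≥ b + (c/(m+1) - b)(1 - u)`.** -/
theorem kappa_le_deriv_psi {t : ℝ} (h0 : 0 ≤ t) (h1 : t < 1) :
    quad m + (cst m / ((m:ℝ) + 1) - quad m) * (1 - √(1 - t ^ 2)) ≤
      deriv (psi m) t * √(1 - t ^ 2) ^ 3 := by
  rw [deriv_psi_mul_cube h0 h1]
  obtain ⟨hu, -, hsq⟩ := u_mem h0 h1
  have h := mul_le_mul_of_nonneg_left (le_psi (m := m) h0 h1)
    (show 0 ≤ ((m:ℝ) + 2) * t * √(1 - t ^ 2) by positivity)
  set w := √(1 - t ^ 2) with hw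
  have e : ((m:ℝ) + 2) * t * w * (cst m * t / (((m:ℝ) + 1) * (w * (1 + w)))) =
      ((m:ℝ) + 2) * cst m * (1 - w) / ((m:ℝ) + 1) := by
    have : (1:ℝ) + w ≠ 0 := by positivity
    field_simp
    linear_combination cst m * hsq
  rw [e] at h
  have e2 : ((m:ℝ) + 2) * cst m * (1 - w) / ((m:ℝ) + 1) =
      cst m * (1 - w) + cst m / ((m:ℝ) + 1) * (1 - w) := by field_simp; ring
  simp only [quad] at *
  linarith

/-- `ψ' u³ ≥ b`. -/
theorem quad_le_deriv_psi {t : ℝ} (h0 : 0 ≤ t) (h1 : t < 1) :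
    quad m ≤ deriv (psi m) t * √(1 - t ^ 2) ^ 3 := by
  refine le_trans (le_add_of_nonneg_right (mul_nonneg (sub_nonneg.2 (quad_le_edge m)) ?_))
    (kappa_le_deriv_psi h0 h1)
  linarith [(u_mem h0 h1).2.1]

/-- The exact constant of the bound on `Γ''`, its limit at `0`. -/
noncomputable def gamA (m : ℕ) : ℝ := ((m:ℝ) + 5) * ((2 * (m:ℝ) + 7) * quad m - 1) / 6

theorem gamA_nonneg (m : ℕ) : 0 ≤ gamA m := by
  have h := le_quad m
  rw [div_le_iff₀ (by positivity)] at h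
  refine div_nonneg (mul_nonneg (by positivity) ?_) (by norm_num)
  nlinarith [quad_pos m]

theorem gamA_le (m : ℕ) : gamA m ≤ 3 * ((m:ℝ) + 5) / (2 * (4 * (m:ℝ) + 5)) := by
  have h := quad_le m
  rw [le_div_iff₀ (by positivity)] at h
  have hm : (0:ℝ) ≤ m := Nat.cast_nonneg m
  rw [gamA, div_le_div_iff₀ (by norm_num) (by positivity)]
  nlinarith [mul_le_mul_of_nonneg_left h (show (0:ℝ) ≤ (2 * (m:ℝ) + 7) * ((m:ℝ) + 5) by positivity)]

/-- The constant is at most `9/14` from dimension five on. -/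
theorem gamA_le_of_four_le (hm : 4 ≤ m) : gamA m ≤ 9 / 14 := by
  refine (gamA_le m).trans ?_
  have : (4:ℝ) ≤ m := by exact_mod_cast hm
  rw [div_le_div_iff₀ (by positivity) (by norm_num)]
  linarith

/-- `ψ ≤ t (A t² + c - u + (m+3) b u³) / ((m+2) u)`. -/
theorem psi_le {t : ℝ} (h0 : 0 ≤ t) (h1 : t < 1) :
    psi m t ≤ t * (gamA m * t ^ 2 + cst m - √(1 - t ^ 2) +
      ((m:ℝ) + 3) * quad m * √(1 - t ^ 2) ^ 3) / (((m:ℝ) + 2) * √(1 - t ^ 2)) := by
  set B : ℝ → ℝ := fun w => gamA m * (1 - w ^ 2) + cst m - w + ((m:ℝ) + 3) * quad m * w ^ 3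
    with hB
  set G : ℝ → ℝ := fun x =>
    x * (√(1 - x ^ 2) ^ (m + 1) * B √(1 - x ^ 2)) / ((m:ℝ) + 2) - tailI m (arcsin x) with hG
  set r2 := ((m:ℝ) + 5) * cst m - ((m:ℝ) - 2) * gamA m with hr2
  set G' : ℝ → ℝ := fun x => √(1 - x ^ 2) ^ m * (1 - √(1 - x ^ 2)) ^ 2 /
      (√(1 - x ^ 2) * ((m:ℝ) + 2)) *
    ((cst m - ((m:ℝ) + 1) * gamA m) * (1 + 2 * √(1 - x ^ 2)) + √(1 - x ^ 2) ^ 2 *
      (r2 + ((m:ℝ) + 3) * ((m:ℝ) + 5) * quad m * √(1 - x ^ 2))) with hG'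
  have hc : ContinuousOn G (Icc 0 1) := by
    simp only [hG, hB]
    fun_prop
  have hd : ∀ x ∈ Ioo (0:ℝ) 1, HasDerivAt G (G' x) x := by
    intro x hx
    have hx' : x ∈ Ioo (-1:ℝ) 1 := ⟨by linarith [hx.1], hx.2⟩
    obtain ⟨hu, -, hsq⟩ := u_mem hx.1.le hx.2
    have hu' := hasDerivAt_u hx'
    have hBd : HasDerivAt (fun y : ℝ => B √(1 - y ^ 2))
        ((-2 * gamA m * √(1 - x ^ 2) - 1 + 3 * ((m:ℝ) + 3) * quad m * √(1 - x ^ 2) ^ 2) *
          -(x / √(1 - x ^ 2))) x := by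
      simp only [hB]
      refine (((((hu'.fun_pow 2).const_sub 1).const_mul (gamA m)).add_const (cst m)).sub hu' |>.add
        ((hu'.fun_pow 3).const_mul (((m:ℝ) + 3) * quad m))).congr_deriv ?_
      push_cast
      ring
    refine ((((hasDerivAt_id x).mul ((hu'.fun_pow (m + 1)).mul hBd)).div_const _).sub
      (hasDerivAt_tail_arcsin hx')).congr_deriv ?_
    simp only [id_eq, Pi.mul_apply, hG', hB, hr2, gamA, quad, Nat.cast_add, Nat.cast_one,
      add_tsub_cancel_right, pow_succ, one_mul]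
    set w := √(1 - x ^ 2) with hw
    have : w ≠ 0 := hu.ne'
    field_simp
    grind
  have hr2' : 0 ≤ r2 := by
    have h1 := le_cst m
    have h2 := gamA_le m
    rw [div_le_iff₀ (by positivity)] at h1
    rw [le_div_iff₀ (by positivity)] at h2
    have hm : (0:ℝ) ≤ m := Nat.cast_nonneg m
    rw [hr2]
    nlinarith [gamA_nonneg m, cst_pos m, mul_le_mul_of_nonneg_left h1
      (show (0:ℝ) ≤ (m:ℝ) + 5 by positivity), mul_le_mul_of_nonneg_left h2 hm]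
  have hsign : ∀ x y, 0 < x → x ≤ y → y < 1 → 0 ≤ G' y → 0 ≤ G' x := by
    intro x y hx hxy hy h
    obtain ⟨hux, hux1, -⟩ := u_mem hx.le (hxy.trans_lt hy)
    obtain ⟨huy, huy1, hsqy⟩ := u_mem (hx.le.trans hxy) hy
    have hle : √(1 - y ^ 2) ≤ √(1 - x ^ 2) := sqrt_le_sqrt (by nlinarith)
    refine mul_nonneg (by positivity) ?_
    simp only [hG'] at h
    set a := √(1 - x ^ 2) with ha
    set w := √(1 - y ^ 2) with hw
    have hw1 : 0 < 1 - w := by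
      have : 0 < y ^ 2 := by nlinarith
      nlinarith
    have h2 := nonneg_of_mul_nonneg_right h
      (show (0:ℝ) < w ^ m * (1 - w) ^ 2 / (w * ((m:ℝ) + 2)) by positivity)
    have hK : 0 ≤ ((m:ℝ) + 3) * ((m:ℝ) + 5) * quad m := by have := quad_pos m; positivity
    set K := ((m:ℝ) + 3) * ((m:ℝ) + 5) * quad m
    set q0 := cst m - ((m:ℝ) + 1) * gamA m
    have hf : w ^ 2 * (r2 + K * w) * (1 + 2 * a) ≤ a ^ 2 * (r2 + K * a) * (1 + 2 * w) := by
      have e1 : w ^ 2 * (1 + 2 * a) ≤ a ^ 2 * (1 + 2 * w) := by nlinarith [mul_nonneg huy.le hux.le]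
      have e2 : r2 + K * w ≤ r2 + K * a := by nlinarith
      calc w ^ 2 * (r2 + K * w) * (1 + 2 * a) = w ^ 2 * (1 + 2 * a) * (r2 + K * w) := by ring
        _ ≤ a ^ 2 * (1 + 2 * w) * (r2 + K * a) :=
            mul_le_mul e1 e2 (by positivity) (by positivity)
        _ = _ := by ring
    have h3 : 0 ≤ (q0 * (1 + 2 * a) + a ^ 2 * (r2 + K * a)) * (1 + 2 * w) := by
      have := mul_nonneg h2 (show (0:ℝ) ≤ 1 + 2 * a by positivity)
      nlinarith
    exact nonneg_of_mul_nonneg_left h3 (by positivity)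
  have key := nonneg_of_sign_change hc (by simp [hG, tailI_zero])
    (by simp [hG, arcsin_one, tailI]) hd hsign (t := t) ⟨h0, h1.le⟩
  obtain ⟨hu, -, hsq⟩ := u_mem h0 h1
  simp only [hG, tail_arcsin_eq (show t ∈ Ioo (-1:ℝ) 1 from ⟨by linarith, h1⟩), sub_nonneg] at key
  refine le_of_mul_le_mul_left (key.trans_eq ?_) (pow_pos hu (m + 2))
  simp only [hB]
  rw [← hsq]
  field_simp
  ring

theorem deriv_psiR {t : ℝ} (ht : t ∈ Ioo (-1 : ℝ) 1) :
    deriv (psiR m) t = deriv (psi m) t - quad m :=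
  (((hasDerivAt_psi ht).differentiableAt.hasDerivAt).sub
    ((hasDerivAt_id t).const_mul (quad m))).deriv.trans (by simp)

theorem gam_nonneg {t : ℝ} (h0 : 0 ≤ t) (h1 : t < 1) :
    0 ≤ ((m:ℝ) + 2) * psiR m t + t * deriv (psiR m) t := by
  refine add_nonneg (mul_nonneg (by positivity) (psiR_nonneg h0 h1)) (mul_nonneg h0 ?_)
  rw [deriv_psiR ⟨by linarith, h1⟩, sub_nonneg]
  obtain ⟨hu, hu1, -⟩ := u_mem h0 h1
  refine (quad_le_deriv_psi h0 h1).trans (mul_le_of_le_one_right ?_ (pow_le_one₀ hu.le hu1))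
  have := (quad_pos m).le.trans (quad_le_deriv_psi (m := m) h0 h1)
  exact nonneg_of_mul_nonneg_left this (pow_pos hu 3)

/-- **`((m+2) ψ_r + t ψ_r') u³ ≤ A t³`.** -/
theorem gam_le {t : ℝ} (h0 : 0 ≤ t) (h1 : t < 1) :
    (((m:ℝ) + 2) * psiR m t + t * deriv (psiR m) t) * √(1 - t ^ 2) ^ 3 ≤ gamA m * t ^ 3 := by
  have hd := deriv_psi_mul_cube (m := m) h0 h1
  obtain ⟨hu, -, hsq⟩ := u_mem h0 h1
  have hp := psi_le (m := m) h0 h1
  rw [deriv_psiR ⟨by linarith, h1⟩, psiR]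
  set w := √(1 - t ^ 2) with hw
  have e : (((m:ℝ) + 2) * (psi m t - quad m * t) + t * (deriv (psi m) t - quad m)) * w ^ 3 =
      ((m:ℝ) + 2) * w * psi m t +
        t * (w - cst m - ((m:ℝ) + 3) * quad m * w ^ 3) := by
    linear_combination t * hd + ((m:ℝ) + 2) * w * psi m t * hsq
  rw [e]
  rw [le_div_iff₀ (by positivity)] at hp
  linarith

/-- `Γ'' = (m+2) ψ_r + t ψ_r'` for `Γ' = (m+1) φ_r + t ψ_r`. -/
theorem hasDerivAt_gam {t : ℝ} (ht : t ∈ Ioo (-1 : ℝ) 1) :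
    HasDerivAt (fun x => ((m:ℝ) + 1) * phiR m x + x * psiR m x)
      (((m:ℝ) + 2) * psiR m t + t * deriv (psiR m) t) t := by
  refine (((hasDerivAt_phiR ht).const_mul ((m:ℝ) + 1)).add ((hasDerivAt_id t).mul
    (hasDerivAt_psiR ht).differentiableAt.hasDerivAt)).congr_deriv ?_
  simp only [id_eq, one_mul]
  ring

/-- The multiplier `(m+1) c / m` as a quotient of two lower ball integrals. -/
theorem cst_ratio {m : ℕ} (hm : 2 ≤ m) :
    (m:ℝ) / ((m:ℝ) - 1) * cst (m - 2) = ((m:ℝ) + 1) * cst m / m := by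
  obtain ⟨j, rfl⟩ : ∃ j, m = j + 2 := ⟨m - 2, by omega⟩
  rw [Nat.add_sub_cancel, cst_add_two]
  push_cast
  rw [show (j:ℝ) + 2 - 1 = (j:ℝ) + 1 by ring]
  field_simp
  ring

end Vale.Agent.P237.AllN
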