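import Vale.Agent.P237.AllN.InvGauge
import Vale.Agent.P237.AllN.CalcBounds

/-!
# P237, all dimensions: the second-order term in the variable of the profile

`negR = ∫ m f^(m-1) (-f') D(t, √(1-f²)) + ∫₀^{f(1-)} m r^(m-1) D(1, √(1-r²))`,
with `D` the Bregman term of the primitive of `Γ`. This is the form in which a pointwise
calibration `C(f) σ²`, `σ = (t - √(1-f²))/f`, is integrated by one use of the fundamental theorem.
-/

open MeasureTheory Set Real Filter Topology
open Vale.Agent.P237.Univ.OneD (Lp)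

namespace Vale.Agent.P237.AllN

variable {m : ℕ} {f : ℝ → ℝ}

/-- The Bregman term of `gamI`. -/
noncomputable def gamD (m : ℕ) (T u : ℝ) : ℝ := gamI m T - gamI m u - gamR m u * (T - u)

/-- The `T`-free part of the integrand of `negR`. -/
noncomputable def negF (m : ℕ) (r : ℝ) : ℝ :=
  hG m r * us (cl r) - (m:ℝ) * cl r ^ (m - 1) * gamI m (us (cl r))

theorem hasDerivAt_gamI' {t : ℝ} (ht : t ∈ Ico (0:ℝ) 1) :
    HasDerivAt (gamI m) (gamR m t) t := by
  have hc : ContinuousOn (gamR m) (Ioo (-1:ℝ) 1) := fun x hx =>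
    (hasDerivAt_gam (m := m) hx).continuousAt.continuousWithinAt
  have hm : t ∈ Ioo (-1:ℝ) 1 := ⟨by linarith [ht.1], ht.2⟩
  exact intervalIntegral.integral_hasDerivAt_right ((intGam (m := m)).mono_set
    (by rw [uIcc_of_le ht.1, uIcc_of_le zero_le_one]; exact Icc_subset_Icc le_rfl ht.2.le))
    (hc.stronglyMeasurableAtFilter isOpen_Ioo t hm) (hc.continuousAt (isOpen_Ioo.mem_nhds hm))

theorem continuous_negF (hm : 3 ≤ m) : Continuous (negF m) := by
  have hc : ContinuousOn (gamI m) (Icc 0 1) := by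
    have h := intervalIntegral.continuousOn_primitive_interval' (intGam (m := m))
      (left_mem_uIcc (a := (0:ℝ)) (b := 1))
    rwa [uIcc_of_le zero_le_one] at h
  have h : Continuous fun r => gamI m (us (cl r)) :=
    hc.comp_continuous (by fun_prop) fun r => us_mem (cl_mem r)
  exact ((continuous_hG hm).mul (by fun_prop)).sub
    ((by fun_prop : Continuous fun r => (m:ℝ) * cl r ^ (m - 1)).mul h)

theorem negF_eq {r : ℝ} (hr : r ∈ Icc (0:ℝ) 1) :
    negF m r = (m:ℝ) * r ^ (m - 1) * (gamR m (us r) * us r - gamI m (us r)) := by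
  rw [negF, hG_eq hr, cl_eq hr]; ring

/-- **`negR` in `t`.** -/
theorem negR_eq_t (P : HalfProf f) (h0 : f 0 = 1) (hm : 3 ≤ m) :
    IntervalIntegrable
        (fun t => (m:ℝ) * f t ^ (m - 1) * (-deriv f t) * gamD m t (us (f t))) volume 0 1 ∧
      negR m f = (∫ t in (0:ℝ)..1, (m:ℝ) * f t ^ (m - 1) * (-deriv f t) * gamD m t (us (f t))) +
        ∫ r in (0:ℝ)..fend f, (m:ℝ) * r ^ (m - 1) * gamD m 1 (us r) := by
  have hm0 : m ≠ 0 := by omega
  have hcW : Continuous fun r : ℝ => (m:ℝ) * r ^ (m - 1) := by fun_prop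
  have hcG := continuous_hG hm
  have hcF := continuous_negF hm
  have hIc : ContinuousOn (gamI m) (Icc 0 1) := by
    have h := intervalIntegral.continuousOn_primitive_interval' (intGam (m := m))
      (left_mem_uIcc (a := (0:ℝ)) (b := 1))
    rwa [uIcc_of_le zero_le_one] at h
  have hRc : ContinuousOn (gamR m) (Ico 0 1) := fun x hx =>
    (hasDerivAt_gam (m := m) ⟨by linarith [hx.1], hx.2⟩).continuousAt.continuousWithinAt
  obtain ⟨iA, eA⟩ := ibp_comp P (a := gamI m) (a' := gamR m) hIc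
    (fun t ht => hasDerivAt_gamI' ht) hRc intGam hcW
  obtain ⟨iB, eB⟩ := ibp_comp P (a := fun t => t) (a' := fun _ => 1) continuousOn_id
    (fun t _ => hasDerivAt_id' t) continuousOn_const intervalIntegrable_const hcG
  obtain ⟨iC, eC⟩ := ibp_comp P (a := fun _ => 1) (a' := fun _ => 0) continuousOn_const
    (fun t _ => hasDerivAt_const t 1) continuousOn_const intervalIntegrable_const hcF
  obtain ⟨l1, e1⟩ := layer P h0 (a := fun _ => 1) intervalIntegrable_const hcG
  obtain ⟨l2, e2⟩ := layer P h0 intGam hcW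
  have hz : gamI m 0 = 0 := by rw [gamI, intervalIntegral.integral_same]
  simp only [h0, hz, one_mul, zero_mul, sub_zero, intervalIntegral.integral_zero, zero_add,
    primitive_pow hm0] at eA eB eC iC
  simp only [one_mul, intervalIntegral.integral_const, sub_zero, smul_eq_mul, mul_one] at l1 e1
  simp only [primitive_pow hm0] at e2
  have e2' : ∫ t in (0:ℝ)..1, gamR m t * f t ^ m =
      ∫ r in (0:ℝ)..1, (m:ℝ) * r ^ (m - 1) * gamI m (dist01 f r) := e2
  have l2' : IntervalIntegrable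
      (fun r => (m:ℝ) * r ^ (m - 1) * gamI m (dist01 f r)) volume 0 1 := l2
  set X : ℝ → ℝ := fun t => t * (hG m (f t) * deriv f t) -
    gamI m t * ((m:ℝ) * f t ^ (m - 1) * deriv f t) - negF m (f t) * deriv f t with hX
  have iX : IntervalIntegrable X volume 0 1 := (iB.sub iA).sub iC
  have hae : ∀ t ∈ Ioo (0:ℝ) 1,
      X t = (m:ℝ) * f t ^ (m - 1) * (-deriv f t) * gamD m t (us (f t)) := fun t ht => by
    have hf := Ioc_subset_Icc_self (P.mem01' h0 ht)
    simp only [hX, hG_eq hf, negF_eq hf, gamD]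
    ring
  constructor
  · refine iX.congr_ae ?_
    rw [EventuallyEq, ae_restrict_iff' measurableSet_uIoc]
    filter_upwards [Measure.ae_ne volume (1:ℝ)] with t hne hmem
    rw [uIoc_of_le zero_le_one] at hmem
    exact hae t ⟨hmem.1, lt_of_le_of_ne hmem.2 hne⟩
  rw [← integral_congr_Ioo hae, hX, intervalIntegral.integral_sub (iB.sub iA) iC,
    intervalIntegral.integral_sub iB iA]
  have he := fend_mem P h0
  have eE : (∫ r in (0:ℝ)..fend f, (m:ℝ) * r ^ (m - 1) * gamD m 1 (us r)) =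
      gamI m 1 * fend f ^ m - (∫ r in (0:ℝ)..fend f, hG m r) +
        ∫ r in (0:ℝ)..fend f, negF m r := by
    rw [intervalIntegral.integral_congr
      (g := fun r => gamI m 1 * ((m:ℝ) * r ^ (m - 1)) - hG m r + negF m r) fun r hr => ?_,
      intervalIntegral.integral_add, intervalIntegral.integral_sub,
      intervalIntegral.integral_const_mul, primitive_pow hm0]
    · exact (hcW.const_mul _).intervalIntegrable _ _
    · exact hcG.intervalIntegrable _ _
    · exact ((hcW.const_mul _).sub hcG).intervalIntegrable _ _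
    · exact hcF.intervalIntegrable _ _
    · rw [uIcc_of_le he.1] at hr
      have hr1 : r ∈ Icc (0:ℝ) 1 := ⟨hr.1, hr.2.trans he.2⟩
      simp only [hG_eq hr1, negF_eq hr1, gamD]
      ring
  have eN : negR m f = (∫ r in (0:ℝ)..1, (m:ℝ) * r ^ (m - 1) * gamI m (dist01 f r)) -
      (∫ r in (0:ℝ)..1, hG m r * dist01 f r) + ∫ r in (0:ℝ)..1, negF m r := by
    rw [← intervalIntegral.integral_sub l2' l1,
      ← intervalIntegral.integral_add (l2'.sub l1) (hcF.intervalIntegrable _ _), negR]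
    refine integral_congr_Ioo fun r hr => ?_
    rw [hG_eq (Ioo_subset_Icc_self hr), negF_eq (Ioo_subset_Icc_self hr)]
    ring
  rw [eN, eE]
  linarith

/-- `negR` is at most any integral bound of its density in `t`. -/
theorem negR_le_of_t (P : HalfProf f) (h0 : f 0 = 1) (hm : 3 ≤ m) {a b : ℝ} {B : ℝ → ℝ}
    (hB : IntervalIntegrable B volume 0 1)
    (hpt : ∀ᵐ t : ℝ, t ∈ Ioo (0:ℝ) 1 →
      (m:ℝ) * f t ^ (m - 1) * (-deriv f t) * gamD m t (us (f t)) ≤ B t)
    (hint : ∫ t in (0:ℝ)..1, B t ≤ a)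
    (hend : ∫ r in (0:ℝ)..fend f, (m:ℝ) * r ^ (m - 1) * gamD m 1 (us r) ≤ b) :
    negR m f ≤ a + b := by
  obtain ⟨i, e⟩ := negR_eq_t P h0 hm
  have h : ∫ t in (0:ℝ)..1, (m:ℝ) * f t ^ (m - 1) * (-deriv f t) * gamD m t (us (f t)) ≤
      ∫ t in (0:ℝ)..1, B t := by
    refine intervalIntegral.integral_mono_ae_restrict zero_le_one i hB ?_
    rw [EventuallyLE, ae_restrict_iff' measurableSet_Icc]
    filter_upwards [hpt, Measure.ae_ne volume (0:ℝ), Measure.ae_ne volume (1:ℝ)] with t ht h1 h2 hm'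
    exact ht ⟨lt_of_le_of_ne hm'.1 (Ne.symm h1), lt_of_le_of_ne hm'.2 h2⟩
  linarith

/-- `σ = (t - √(1-f²))/f` moves by `q (1 - p/√(1-f²))/f²`. -/
theorem hasDerivAt_sigma {t : ℝ} (hf0 : f t ≠ 0) (hf1 : f t ^ 2 < 1)
    (hd : DifferentiableAt ℝ f t) :
    HasDerivAt (fun s => (s - us (f s)) / f s)
      ((f t - t * deriv f t + deriv f t / us (f t)) / f t ^ 2) t := by
  have hp : (0:ℝ) < 1 - f t ^ 2 := by linarith
  have hu : √(1 - f t ^ 2) ≠ 0 := (sqrt_pos.2 hp).ne'
  have hsq : √(1 - f t ^ 2) ^ 2 = 1 - f t ^ 2 := sq_sqrt hp.le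
  have h := ((hasDerivAt_id' t).sub
    (((hd.hasDerivAt.fun_pow 2).const_sub 1).sqrt hp.ne')).div hd.hasDerivAt hf0
  refine h.congr_deriv ?_
  simp only [Pi.sub_apply, us]
  field_simp
  push_cast
  linear_combination 2 * deriv f t * hsq

/-- One application of the fundamental theorem to a calibration in `t`. -/
theorem calibration_ftc {H N G : ℝ → ℝ} {r : ℝ} (hr : 0 ≤ r) (hH : Lp r H)
    (hN : IntervalIntegrable N volume 0 r) (hG : IntervalIntegrable G volume 0 r)
    (hpt : ∀ᵐ t : ℝ, t ∈ Ioo 0 r → N t ≤ G t + deriv H t) :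
    ∫ t in (0:ℝ)..r, N t ≤ (∫ t in (0:ℝ)..r, G t) + (H r - H 0) := by
  rw [← hH.ftc hr, ← intervalIntegral.integral_add hG (hH.intDeriv hr)]
  refine intervalIntegral.integral_mono_ae_restrict hr hN (hG.add (hH.intDeriv hr)) ?_
  rw [EventuallyLE, ae_restrict_iff' measurableSet_Icc]
  filter_upwards [hpt, Measure.ae_ne volume (0:ℝ), Measure.ae_ne volume r] with t ht h1 h2 hm'
  exact ht ⟨lt_of_le_of_ne hm'.1 (Ne.symm h1), lt_of_le_of_ne hm'.2 h2⟩

end Vale.Agent.P237.AllN
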