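import Vale.Agent.P237.AllN.InvBounds
import Vale.Agent.P237.AllN.InvNegT

/-!
# P237, all dimensions: the exact conjugate of the gain `1 - √(1-p²)`, and calibrations

With `τ = √(1-f²)` and `A = 1/f + τ h ≥ 1`:
`chi(p|τ) - h (p - τ) + p C ≥ 0` for `C = τ/f + h - √(A² - 1)`, by Cauchy–Schwarz on the circle.
For a calibration `H = C(f) σ²`, `σ = (t - τ)/f`, this turns the pointwise condition of the Hardy
inequality into a Riccati inequality free of the slope `p`.
-/

open MeasureTheory Set Real Filter Topology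

namespace Vale.Agent.P237.AllN

/-- The Bregman density of `1 - √(1-p²)` at `√(1-f²)`. -/
noncomputable def chiD (f p : ℝ) : ℝ := (1 - p * us f) / f - us p

/-- The conjugate. -/
noncomputable def chiC (f h : ℝ) : ℝ :=
  us f / f + h - √((1 / f + us f * h) ^ 2 - 1)

variable {f h p : ℝ}

/-- **The exact conjugate bound.** -/
theorem chi_conj (hp : p ∈ Icc (-1:ℝ) 1) (hA : 1 ≤ 1 / f + us f * h) :
    0 ≤ chiD f p - h * (p - us f) + p * chiC f h := by
  set A := 1 / f + us f * h with hAdef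
  have hB : (0:ℝ) ≤ A ^ 2 - 1 := by nlinarith
  have hq : (0:ℝ) ≤ 1 - p ^ 2 := by nlinarith [hp.1, hp.2]
  have e1 := sq_sqrt hB
  have e2 : us p ^ 2 = 1 - p ^ 2 := sq_sqrt hq
  have key : p * √(A ^ 2 - 1) + us p ≤ A := by
    refine (le_abs_self _).trans (abs_le_of_sq_le_sq ?_ (by linarith))
    nlinarith [sq_nonneg (p - us p * √(A ^ 2 - 1))]
  have e : chiD f p - h * (p - us f) + p * chiC f h = A - (p * √(A ^ 2 - 1) + us p) := by
    simp only [chiD, chiC, hAdef]; ring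
  linarith

/-- The closed form of the conjugate. -/
theorem chiC_eq (hf : f ∈ Ioc (0:ℝ) 1) (hA : 1 ≤ 1 / f + us f * h)
    (hd : 0 < us f / f + h + √((1 / f + us f * h) ^ 2 - 1)) :
    chiC f h = f ^ 2 * h ^ 2 / (us f / f + h + √((1 / f + us f * h) ^ 2 - 1)) := by
  have hB : (0:ℝ) ≤ (1 / f + us f * h) ^ 2 - 1 := by nlinarith
  have e1 := sq_sqrt hB
  have e2 := us_sq (Ioc_subset_Icc_self hf)
  have hf0 := hf.1.ne'
  rw [eq_div_iff hd.ne', chiC,
    show (us f / f + h - √((1 / f + us f * h) ^ 2 - 1)) *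
      (us f / f + h + √((1 / f + us f * h) ^ 2 - 1)) =
      (us f / f + h) ^ 2 - √((1 / f + us f * h) ^ 2 - 1) ^ 2 by ring, e1]
  field_simp
  linear_combination (1 - f ^ 2 * h ^ 2) * e2

/-- For `h ≥ 0` the conjugate is at most quadratic. -/
theorem chiC_le_pos (hf : f ∈ Ioo (0:ℝ) 1) (hh : 0 ≤ h) :
    1 ≤ 1 / f + us f * h ∧ chiC f h ≤ f ^ 3 * h ^ 2 / (2 * us f) := by
  have hu : 0 < us f := sqrt_pos.2 (by nlinarith [hf.1, hf.2])
  have h1 : 1 ≤ 1 / f := (one_le_div hf.1).2 hf.2.le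
  have hA : 1 ≤ 1 / f + us f * h := le_add_of_le_of_nonneg h1 (mul_nonneg hu.le hh)
  have hB : us f / f ≤ √((1 / f + us f * h) ^ 2 - 1) := by
    refine le_sqrt_of_sq_le ?_
    have e : (us f / f) ^ 2 = (1 / f) ^ 2 - 1 := by
      have hf0 := hf.1.ne'
      field_simp
      linear_combination us_sq (Ioo_subset_Icc_self hf)
    nlinarith [mul_nonneg hu.le hh]
  have hd : 2 * (us f / f) ≤ us f / f + h + √((1 / f + us f * h) ^ 2 - 1) := by linarith
  refine ⟨hA, ?_⟩
  rw [chiC_eq (Ioo_subset_Ioc_self hf) hA (lt_of_lt_of_le (by have := hf.1; positivity) hd)]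
  refine (div_le_div_of_nonneg_left (by positivity) (by have := hf.1; positivity) hd).trans_eq ?_
  have := hf.1.ne'
  field_simp

/-- For `-θ τ/(2f) ≤ h` the conjugate is at most quadratic, with the factor `1 - θ`. -/
theorem chiC_le {θ : ℝ} (hf : f ∈ Ioo (0:ℝ) 1) (h0 : 0 ≤ θ) (h1 : θ < 1)
    (hh : -(θ * (us f / (2 * f))) ≤ h) :
    1 ≤ 1 / f + us f * h ∧ chiC f h ≤ f ^ 3 * h ^ 2 / (2 * (1 - θ) * us f) := by
  have hu : 0 < us f := sqrt_pos.2 (by nlinarith [hf.1, hf.2])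
  rcases le_total 0 h with hp | hp
  · obtain ⟨hA, hle⟩ := chiC_le_pos hf hp
    refine ⟨hA, hle.trans ?_⟩
    have := hf.1
    refine div_le_div_of_nonneg_left (by positivity)
      (mul_pos (mul_pos two_pos (by linarith)) hu) ?_
    nlinarith
  have hf0 := hf.1
  have e2 := us_sq (Ioo_subset_Icc_self hf)
  have hlo : (1 - θ * us f ^ 2 / 2) / f ≤ 1 / f + us f * h := by
    have := mul_le_mul_of_nonneg_left hh hu.le
    calc (1 - θ * us f ^ 2 / 2) / f = 1 / f + us f * -(θ * (us f / (2 * f))) := by field_simp; ring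
      _ ≤ _ := by linarith
  have hnn : 0 ≤ (1 - θ * us f ^ 2 / 2) / f :=
    div_nonneg (by nlinarith [mul_nonneg h0 (sq_nonneg f)]) hf0.le
  have hsq : (us f / f) ^ 2 * (1 - θ) ≤ (1 / f + us f * h) ^ 2 - 1 := by
    refine le_trans ?_ (sub_le_sub_right (pow_le_pow_left₀ hnn hlo 2) 1)
    rw [← sub_nonneg]
    have : ((1 - θ * us f ^ 2 / 2) / f) ^ 2 - 1 - (us f / f) ^ 2 * (1 - θ) =
        θ ^ 2 * us f ^ 4 / (4 * f ^ 2) := by
      field_simp
      linear_combination (-16 : ℝ) * e2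
    rw [this]
    positivity
  have hθ : (1 - θ) ^ 2 ≤ 1 - θ := by nlinarith
  have hB : us f / f * (1 - θ) ≤ √((1 / f + us f * h) ^ 2 - 1) := by
    refine le_sqrt_of_sq_le (le_trans ?_ hsq)
    rw [mul_pow]
    exact mul_le_mul_of_nonneg_left hθ (sq_nonneg _)
  have hpos : 0 ≤ us f / f := by positivity
  have hd : 2 * (1 - θ) * (us f / f) ≤
      us f / f + h + √((1 / f + us f * h) ^ 2 - 1) := by
    have : θ * (us f / (2 * f)) = θ / 2 * (us f / f) := by field_simp
    nlinarith [mul_nonneg h0 hpos]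
  have hA : 1 ≤ 1 / f + us f * h := by
    have : 0 ≤ 1 / f + us f * h := hnn.trans hlo
    nlinarith [mul_nonneg (sq_nonneg (us f / f)) (show (0:ℝ) ≤ 1 - θ by linarith)]
  have hd0 : 0 < 2 * (1 - θ) * (us f / f) :=
    mul_pos (mul_pos two_pos (by linarith)) (div_pos hu hf0)
  refine ⟨hA, ?_⟩
  rw [chiC_eq (Ioo_subset_Ioc_self hf) hA (hd0.trans_le hd)]
  refine (div_le_div_of_nonneg_left (by positivity) hd0 hd).trans_eq ?_
  field_simp

variable {m : ℕ} {g : ℝ → ℝ}

/-- **A calibration works where its Riccati inequality holds.** `H = C(f) σ²`,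
`h = 2 C σ/(κ m f^(m+1) τ)`; the condition contains no slope. -/
theorem calib_point {t κ C C' : ℝ} (P : HalfProf g) (hm : m ≠ 0) (ht : t ∈ Ioo (0:ℝ) 1)
    (hg : g t ∈ Ioo (0:ℝ) 1) (hκ : 0 < κ)
    (hA : 1 ≤ 1 / g t + us (g t) *
      (2 * C * ((t - us (g t)) / g t) / (κ * m * g t ^ (m + 1) * us (g t))))
    (hric : chiC (g t) (2 * C * ((t - us (g t)) / g t) / (κ * m * g t ^ (m + 1) * us (g t))) *
        (κ * m * g t ^ (m - 1)) + C' * ((t - us (g t)) / g t) ^ 2 +
        m * g t ^ (m - 1) * gamD m t (us (g t)) ≤ 0) :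
    m * g t ^ (m - 1) * (-deriv g t) * gamD m t (us (g t)) ≤
      κ * (wq m g t * chiD (g t) (pProf g t)) +
        (C' * deriv g t * ((t - us (g t)) / g t) ^ 2 + C * (2 * ((t - us (g t)) / g t) *
          ((g t - t * deriv g t + deriv g t / us (g t)) / g t ^ 2))) := by
  obtain ⟨hq, hp⟩ := P.bounds ht
  have hf0 := hg.1.ne'
  have hu : 0 < us (g t) := sqrt_pos.2 (by nlinarith [hg.1, hg.2])
  set u := us (g t)
  set σ := (t - u) / g t
  set W := (m:ℝ) * g t ^ (m - 1) with hW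
  have hW0 : 0 < W := mul_pos (Nat.cast_pos.2 (Nat.pos_of_ne_zero hm)) (pow_pos hg.1 _)
  set h := 2 * C * σ / (κ * m * g t ^ (m + 1) * u) with hh
  have hd : deriv g t = -((g t - t * deriv g t) * pProf g t) := by
    rw [pProf, mul_div_cancel₀ _ hq.ne', neg_neg]
  have hp0 : 0 ≤ pProf g t := by
    refine div_nonneg (neg_nonneg.2 ?_) hq.le
    rw [← derivWithin_of_isOpen (s := Ioo (0:ℝ) 1) isOpen_Ioo ht]
    exact (P.anti.mono Ioo_subset_Icc_self).derivWithin_nonpos
  have key := mul_nonneg (mul_nonneg hκ.le hW0.le) (chi_conj (f := g t) (h := h) hp hA)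
  have hric' : chiC (g t) h * (κ * W) + C' * σ ^ 2 + W * gamD m t u ≤ 0 := by
    rw [hW, ← mul_assoc κ]; exact hric
  have e : κ * W * h = 2 * C * σ / (g t ^ 2 * u) := by
    rw [hh, hW, show m + 1 = m - 1 + 2 by omega, pow_add]
    field_simp
  set q := g t - t * deriv g t
  have e' : C * (2 * σ * ((q + deriv g t / u) / g t ^ 2)) =
      κ * W * h * (q * u - q * pProf g t) := by
    rw [e, hd]
    field_simp
    ring
  have ew : wq m g t = W * q := rfl
  rw [ew, e', hd]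
  linarith [mul_nonneg hq.le key, mul_nonneg (mul_nonneg hq.le hp0) (neg_nonneg.2 hric')]

end Vale.Agent.P237.AllN
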