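import Vale.Agent.P237.AllN.InvNegT
import Vale.Agent.P237.AllN.ChiConj

/-!
# P237, all dimensions: the Hardy inequality from a calibration with one pivot

`σ = (t - τ)/r` with `τ = √(1-r²)`. A calibration `C` on each side of a pivot `r₀` which satisfies
the pointwise condition `Calib` (linear in the slope `p`) gives
`negR ≤ gain + (C₋ r₀ - C₊ r₀) σ₀²`, `σ₀` the value at the pivot, plateau and jump included.
-/

open MeasureTheory Set Real Filter Topology
open scoped NNReal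

namespace Vale.Agent.P237.AllN

variable {m : ℕ} {f : ℝ → ℝ}

/-- The pointwise condition of a calibration at level `r`, over admissible `(t, p)`: the density
of the second-order term is at most the gain plus the derivative of `C σ²`. -/
def Calib (m : ℕ) (g : ℝ → ℝ → ℝ) (C C' : ℝ) (adm : Set ℝ) (r : ℝ) : Prop :=
  ∀ t ∈ adm, ∀ p ∈ Icc (0:ℝ) 1,
    (m:ℝ) * r ^ (m - 1) * (p * gamD m t (us r)) ≤
      (m:ℝ) * r ^ (m - 1) * g r p + (-(p * C' * ((t - us r) / r) ^ 2) -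
        2 * C * ((t - us r) / r) * (p - us r) / (us r * r ^ 2))

/-- **The Riccati form** for the gain `κ chiD`. -/
theorem calib_of_riccati {κ C C' r : ℝ} {adm : Set ℝ} (hm : m ≠ 0) (hκ : 0 < κ)
    (hr : r ∈ Ioo (0:ℝ) 1)
    (h : ∀ t ∈ adm,
      1 ≤ 1 / r + us r * (2 * C * ((t - us r) / r) / (κ * m * r ^ (m + 1) * us r)) ∧
      chiC r (2 * C * ((t - us r) / r) / (κ * m * r ^ (m + 1) * us r)) * (κ * m * r ^ (m - 1)) +
        C' * ((t - us r) / r) ^ 2 + m * r ^ (m - 1) * gamD m t (us r) ≤ 0) :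
    Calib m (fun r p => κ * chiD r p) C C' adm r := by
  intro t ht p hp
  obtain ⟨hA, hric⟩ := h t ht
  have hu : 0 < us r := sqrt_pos.2 (by nlinarith [hr.1, hr.2])
  have hr0 := hr.1.ne'
  set u := us r
  set σ := (t - u) / r
  set W := (m:ℝ) * r ^ (m - 1) with hW
  have hW0 : 0 < W := mul_pos (Nat.cast_pos.2 (Nat.pos_of_ne_zero hm)) (pow_pos hr.1 _)
  set h' := 2 * C * σ / (κ * m * r ^ (m + 1) * u) with hh
  have key := mul_nonneg (mul_nonneg hκ.le hW0.le)
    (chi_conj (f := r) (h := h') ⟨by linarith [hp.1], hp.2⟩ hA)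
  have hric' : chiC r h' * (κ * W) + C' * σ ^ 2 + W * gamD m t u ≤ 0 := by
    rw [hW, ← mul_assoc κ]; exact hric
  have e : κ * W * h' = 2 * C * σ / (r ^ 2 * u) := by
    rw [hh, hW, show m + 1 = m - 1 + 2 by omega, pow_add]
    field_simp
  have e' : 2 * C * σ * (p - u) / (u * r ^ 2) = κ * W * h' * (p - u) := by
    rw [e]; field_simp
  rw [e']
  linarith [mul_nonneg hp.1 (neg_nonneg.2 hric')]

/-! ### Local Lipschitz calculus and the fundamental theorem on an open interval -/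

theorem lip_mul {a b : ℝ} {g h : ℝ → ℝ} (hg : ∃ L, LipschitzOnWith L g (Icc a b))
    (hh : ∃ L, LipschitzOnWith L h (Icc a b)) :
    ∃ L, LipschitzOnWith L (fun t => g t * h t) (Icc a b) := by
  obtain ⟨Lg, hLg⟩ := hg
  obtain ⟨Lh, hLh⟩ := hh
  obtain ⟨A, hA⟩ := isCompact_Icc.exists_bound_of_continuousOn hLg.continuousOn
  obtain ⟨B, hB⟩ := isCompact_Icc.exists_bound_of_continuousOn hLh.continuousOn
  refine ⟨(|A| * Lh + |B| * Lg).toNNReal, LipschitzOnWith.of_dist_le_mul fun x hx y hy => ?_⟩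
  have h1 := hLg.dist_le_mul x hx y hy
  have h2 := hLh.dist_le_mul x hx y hy
  simp only [Real.dist_eq] at h1 h2
  rw [Real.dist_eq, Real.dist_eq, Real.coe_toNNReal _ (by positivity),
    show g x * h x - g y * h y = g x * (h x - h y) + (g x - g y) * h y by ring]
  refine (abs_add_le _ _).trans ?_
  rw [abs_mul, abs_mul]
  have hAx : |g x| ≤ |A| := (hA x hx).trans (le_abs_self _)
  have hBy : |h y| ≤ |B| := (hB y hy).trans (le_abs_self _)
  nlinarith [mul_le_mul hAx h2 (abs_nonneg _) (abs_nonneg _),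
    mul_le_mul h1 hBy (abs_nonneg _) (by positivity : (0:ℝ) ≤ Lg * |x - y|)]

theorem lip_comp {a b lo hi : ℝ} {g φ φ' : ℝ → ℝ} (hg : ∃ L, LipschitzOnWith L g (Icc a b))
    (hd : ∀ x ∈ Icc lo hi, HasDerivAt φ (φ' x) x) (hc : ContinuousOn φ' (Icc lo hi))
    (hm : MapsTo g (Icc a b) (Icc lo hi)) :
    ∃ L, LipschitzOnWith L (fun t => φ (g t)) (Icc a b) := by
  obtain ⟨C, hC⟩ := isCompact_Icc.exists_bound_of_continuousOn hc
  obtain ⟨L, hL⟩ := hg
  have hφ : LipschitzOnWith C.toNNReal φ (Icc lo hi) :=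
    (convex_Icc lo hi).lipschitzOnWith_of_nnnorm_hasDerivWithin_le
      (fun x hx => (hd x hx).hasDerivWithinAt) fun x hx => by
        rw [← NNReal.coe_le_coe, coe_nnnorm]
        exact (hC x hx).trans (Real.le_coe_toNNReal C)
  exact ⟨_, hφ.comp hL hm⟩

/-- The fundamental theorem for a function locally Lipschitz inside. -/
theorem calibration_ftc_open {H N G : ℝ → ℝ} {x y : ℝ} (hxy : x ≤ y)
    (hH : ContinuousOn H (Icc x y))
    (hL : ∀ a b, x < a → a ≤ b → b < y → ∃ L, LipschitzOnWith L H (Icc a b))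
    (hN : IntervalIntegrable N volume x y) (hG : IntervalIntegrable G volume x y)
    (hpt : ∀ᵐ t : ℝ, t ∈ Ioo x y → N t ≤ G t + deriv H t) :
    ∫ t in x..y, N t ≤ (∫ t in x..y, G t) + (H y - H x) := by
  rcases hxy.eq_or_lt with rfl | hlt
  · simp
  set K : ℝ → ℝ := fun b => (∫ t in x..b, (N t - G t)) - H b with hK
  have hi := hN.sub hG
  have hKc : ContinuousOn K (Icc x y) := by
    have h := intervalIntegral.continuousOn_primitive_interval' hi (left_mem_uIcc (a := x) (b := y))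
    rw [uIcc_of_le hxy] at h
    exact h.sub hH
  have hsub : ∀ a ∈ Icc x y, ∀ b ∈ Icc x y, uIcc a b ⊆ uIcc x y := fun a ha b hb => by
    rw [uIcc_of_le hxy]; exact uIcc_subset_Icc ha hb
  have hanti : AntitoneOn K (Ioo x y) := by
    intro a ha b hb hab
    obtain ⟨L, hL'⟩ := hL a b ha.1 hab hb.2
    have hac : AbsolutelyContinuousOnInterval H a b :=
      LipschitzOnWith.absolutelyContinuousOnInterval (K := L) (by rwa [uIcc_of_le hab])
    have hiab := hi.mono_set (hsub a (Ioo_subset_Icc_self ha) b (Ioo_subset_Icc_self hb))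
    have h1 : ∫ t in a..b, (N t - G t) ≤ H b - H a := by
      rw [← hac.integral_deriv_eq_sub]
      refine intervalIntegral.integral_mono_ae_restrict hab hiab hac.intervalIntegrable_deriv ?_
      rw [EventuallyLE, ae_restrict_iff' measurableSet_Icc]
      filter_upwards [hpt] with t ht hm
      have := ht ⟨ha.1.trans_le hm.1, hm.2.trans_lt hb.2⟩
      linarith
    have h2 := intervalIntegral.integral_add_adjacent_intervals
      (hi.mono_set (hsub x (left_mem_Icc.2 hxy) a (Ioo_subset_Icc_self ha))) hiab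
    simp only [hK]
    linarith
  obtain ⟨c, hc⟩ := nonempty_Ioo.2 hlt
  have hle : ∀ b ∈ Ioo x y, K b ≤ K x := by
    intro b hb
    have : Tendsto K (𝓝[>] x) (𝓝 (K x)) := by
      refine ((hKc x (left_mem_Icc.2 hxy)).tendsto).mono_left ?_
      rw [nhdsWithin_le_iff]
      exact mem_of_superset (Ioo_mem_nhdsGT hlt) Ioo_subset_Icc_self
    refine ge_of_tendsto this ?_
    filter_upwards [Ioo_mem_nhdsGT hb.1] with a ha
    exact hanti ⟨ha.1, ha.2.trans hb.2⟩ hb ha.2.le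
  have hy : K y ≤ K x := by
    have : Tendsto K (𝓝[<] y) (𝓝 (K y)) := by
      refine ((hKc y (right_mem_Icc.2 hxy)).tendsto).mono_left ?_
      rw [nhdsWithin_le_iff]
      exact mem_of_superset (Ioo_mem_nhdsLT hlt) Ioo_subset_Icc_self
    refine le_of_tendsto this ?_
    filter_upwards [Ioo_mem_nhdsLT hlt] with b hb using hle b hb
  simp only [hK, intervalIntegral.integral_same, intervalIntegral.integral_sub hN hG] at hy
  linarith

/-! ### The calibration along a profile -/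

/-- `C(f) σ²`. -/
noncomputable def calH (C f : ℝ → ℝ) (t : ℝ) : ℝ := C (f t) * ((t - us (f t)) / f t) ^ 2

section

variable (P : HalfProf f) (h0 : f 0 = 1)
include P h0

omit h0 in
/-- On a piece of `(0,1)` where `0 < f < 1`. -/
theorem calib_piece (g : ℝ → ℝ → ℝ) {C C' : ℝ → ℝ} {adm : ℝ → Set ℝ} {S : Set ℝ} {x y : ℝ}
    (hS : S ⊆ Ioo (0:ℝ) 1) (hconn : OrdConnected S) (hx : 0 ≤ x) (hxy : x ≤ y) (hy : y ≤ 1)
    (hfS : ∀ t ∈ Ioo x y, f t ∈ S)
    (hC : ∀ r ∈ S, HasDerivAt C (C' r) r) (hC' : ContinuousOn C' S)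
    (hcal : ∀ r ∈ S, Calib m g (C r) (C' r) (adm r) r)
    (hadm : ∀ t ∈ Ioo x y, t ∈ adm (f t))
    {H : ℝ → ℝ} (hH : ContinuousOn H (Icc x y)) (hHeq : ∀ t ∈ Ioo x y, H t = calH C f t)
    (hN : IntervalIntegrable
      (fun t => (m:ℝ) * f t ^ (m - 1) * (-deriv f t) * gamD m t (us (f t))) volume x y)
    (hG : IntervalIntegrable (fun t => wq m f t * g (f t) (pProf f t)) volume x y) :
    ∫ t in x..y, (m:ℝ) * f t ^ (m - 1) * (-deriv f t) * gamD m t (us (f t)) ≤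
      (∫ t in x..y, wq m f t * g (f t) (pProf f t)) + (H y - H x) := by
  refine calibration_ftc_open hxy hH (fun a b ha hab hb => ?_) hN hG ?_
  · have hIab : Icc a b ⊆ Ioo x y := fun t ht => ⟨ha.trans_le ht.1, ht.2.trans_lt hb⟩
    have hfl : ∃ L, LipschitzOnWith L f (Icc a b) := by
      obtain ⟨L, hL⟩ := P.lp (r := b) (hb.trans_le hy)
      exact ⟨L, hL.mono (Icc_subset_Icc (hx.trans ha.le) le_rfl)⟩
    have hmem : MapsTo f (Icc a b) (Icc (f b) (f a)) := fun t ht =>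
      have h : ∀ s ∈ Icc a b, s ∈ Icc (0:ℝ) 1 := fun s hs =>
        ⟨(hx.trans ha.le).trans hs.1, hs.2.trans (hb.le.trans hy)⟩
      ⟨P.anti (h t ht) (h b (right_mem_Icc.2 hab)) ht.2,
        P.anti (h a (left_mem_Icc.2 hab)) (h t ht) ht.1⟩
    have hsubS : Icc (f b) (f a) ⊆ S :=
      hconn.out (hfS b (hIab (right_mem_Icc.2 hab))) (hfS a (hIab (left_mem_Icc.2 hab)))
    have l1 := lip_comp hfl (φ := C) (φ' := C') (fun r hr => hC r (hsubS hr)) (hC'.mono hsubS) hmem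
    have l2 := lip_comp hfl (φ := us) (φ' := fun r => -r / us r)
      (fun r hr => hasDerivAt_us (hS (hsubS hr))) (ContinuousOn.div (by fun_prop) (by fun_prop)
        fun r hr => by
          have := hS (hsubS hr)
          exact (sqrt_pos.2 (by nlinarith [this.1, this.2])).ne') hmem
    have l3 := lip_comp hfl (φ := fun r => r⁻¹) (φ' := fun r => -(r ^ 2)⁻¹)
      (fun r hr => hasDerivAt_inv (hS (hsubS hr)).1.ne')
      (ContinuousOn.neg (ContinuousOn.inv₀ (by fun_prop)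
        fun r hr => pow_ne_zero 2 (hS (hsubS hr)).1.ne')) hmem
    obtain ⟨L2, hL2⟩ := l2
    have l4 : ∃ L, LipschitzOnWith L (fun t => t - us (f t)) (Icc a b) :=
      ⟨_, (LipschitzWith.id.lipschitzOnWith (s := Icc a b)).sub hL2⟩
    obtain ⟨L, hL⟩ := lip_mul l1 (lip_mul (lip_mul l4 l3) (lip_mul l4 l3))
    refine ⟨L, fun s hs t ht => ?_⟩
    rw [hHeq s (hIab hs), hHeq t (hIab ht)]
    have e : ∀ s, calH C f s = C (f s) * ((s - us (f s)) * (f s)⁻¹ * ((s - us (f s)) * (f s)⁻¹)) :=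
      fun s => by rw [calH, div_eq_mul_inv, sq]
    rw [e s, e t]
    exact hL hs ht
  · filter_upwards [P.ae_diff] with t htd ht
    have ht1 : t ∈ Ioo (0:ℝ) 1 := ⟨hx.trans_lt ht.1, ht.2.trans_le hy⟩
    obtain ⟨hq, hp⟩ := P.bounds ht1
    have hS' := hS (hfS t ht)
    have hd := htd ht1
    have hp0 : 0 ≤ pProf f t := by
      refine div_nonneg (neg_nonneg.2 ?_) hq.le
      rw [← derivWithin_of_isOpen (s := Ioo (0:ℝ) 1) isOpen_Ioo ht1]
      exact (P.anti.mono Ioo_subset_Icc_self).derivWithin_nonpos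
    have hσ := hasDerivAt_sigma hS'.1.ne' (by nlinarith [hS'.1, hS'.2]) hd
    have hD := ((hC (f t) (hfS t ht)).comp t hd.hasDerivAt).mul (hσ.fun_pow 2)
    have hev : H =ᶠ[𝓝 t] fun s => C (f s) * ((s - us (f s)) / f s) ^ 2 := by
      filter_upwards [Ioo_mem_nhds ht.1 ht.2] with s hs using hHeq s hs
    have hdH : deriv H t = _ := hev.deriv_eq.trans hD.deriv
    have key := mul_le_mul_of_nonneg_left
      (hcal (f t) (hfS t ht) t (hadm t ht) (pProf f t) ⟨hp0, hp.2⟩) hq.le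
    rw [hdH]
    simp only [Function.comp_apply, Nat.reduceSub, pow_one, Nat.cast_ofNat, wq]
    have hu : us (f t) ≠ 0 := (sqrt_pos.2 (by nlinarith [hS'.1, hS'.2])).ne'
    have hf0 := hS'.1.ne'
    have hdd : deriv f t = -((f t - t * deriv f t) * pProf f t) := by
      rw [pProf, mul_div_cancel₀ _ hq.ne', neg_neg]
    set q := f t - t * deriv f t with hqdef
    refine le_trans (le_of_eq ?_) (key.trans_eq ?_)
    · rw [hdd]; ring
    · rw [hdd]
      field_simp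
      ring

end

theorem sig_one {r : ℝ} (hr : r ∈ Icc (0:ℝ) 1) : r / (1 + us r) = (1 - us r) / r := by
  rcases hr.1.eq_or_lt with h | h
  · rw [← h]; simp
  · rw [div_eq_div_iff (by rw [us]; positivity) h.ne']
    linear_combination us_sq hr

theorem intJump (hm : 3 ≤ m) {x y : ℝ} (hx : x ∈ Icc (0:ℝ) 1) (hy : y ∈ Icc (0:ℝ) 1) :
    IntervalIntegrable (fun r => (m:ℝ) * r ^ (m - 1) * gamD m 1 (us r)) volume x y := by
  refine ((((by fun_prop : Continuous fun r => gamI m 1 * ((m:ℝ) * r ^ (m - 1))).sub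
    (continuous_hG (m := m) hm)).add (continuous_negF (m := m) hm)).intervalIntegrable x y).congr
    fun r hr => ?_
  have hr1 : r ∈ Icc (0:ℝ) 1 := uIcc_subset_Icc hx hy (uIoc_subset_uIcc hr)
  simp only [Pi.add_apply, Pi.sub_apply, hG_eq hr1, negF_eq hr1, gamD]
  ring

/-- On a piece of the jump, where `t = p = 1`. -/
theorem calib_jump (g : ℝ → ℝ → ℝ) {C C' : ℝ → ℝ} {adm : ℝ → Set ℝ} {x y : ℝ} (hm : 3 ≤ m)
    (hx : 0 ≤ x) (hxy : x ≤ y) (hy : y ≤ 1)
    (hC : ∀ r ∈ Ioo x y, HasDerivAt C (C' r) r) (hC' : ContinuousOn C' (Ioo x y))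
    (hCc : ContinuousOn C (Icc x y))
    (hcal : ∀ r ∈ Ioo x y, Calib m g (C r) (C' r) (adm r) r)
    (hadm : ∀ r ∈ Ioo x y, (1:ℝ) ∈ adm r)
    (hG : IntervalIntegrable (fun r => (m:ℝ) * r ^ (m - 1) * g r 1) volume x y) :
    ∫ r in x..y, (m:ℝ) * r ^ (m - 1) * gamD m 1 (us r) ≤
      (∫ r in x..y, (m:ℝ) * r ^ (m - 1) * g r 1) +
        (C x * (x / (1 + us x)) ^ 2 - C y * (y / (1 + us y)) ^ 2) := by
  have hu1 : ∀ r, (1:ℝ) + us r ≠ 0 := fun r => by rw [us]; positivity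
  have hN := intJump (m := m) hm (x := x) (y := y) ⟨hx, hxy.trans hy⟩ ⟨hx.trans hxy, hy⟩
  set H : ℝ → ℝ := fun r => -(C r * (r / (1 + us r)) ^ 2) with hH
  have h := calibration_ftc_open (H := H) hxy
    (hCc.mul ((continuous_id.div (continuous_const.add continuous_us) hu1).pow 2).continuousOn).neg
    (fun a b ha hab hb => ?_) hN hG ?_
  · simp only [hH] at h
    linarith
  · have hI : Icc a b ⊆ Ioo x y := fun t ht => ⟨ha.trans_le ht.1, ht.2.trans_lt hb⟩
    have hid : ∃ L, LipschitzOnWith L (fun t : ℝ => t) (Icc a b) :=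
      ⟨1, LipschitzWith.id.lipschitzOnWith⟩
    have hI1 : ∀ r ∈ Icc a b, r ∈ Ioo (0:ℝ) 1 := fun r hr =>
      ⟨hx.trans_lt (hI hr).1, (hI hr).2.trans_le hy⟩
    have l1 := lip_comp hid (φ := C) (φ' := C') (fun r hr => hC r (hI hr)) (hC'.mono hI)
      (mapsTo_id _)
    have l2 := lip_comp hid (φ := fun r => -(r / (1 + us r)) ^ 2)
      (φ' := fun r => -(2 * (r / (1 + us r)) * ((1 + us r - r * (-r / us r)) / (1 + us r) ^ 2)))
      (fun r hr => by
        refine ((((hasDerivAt_id' r).div ((hasDerivAt_us (hI1 r hr)).const_add 1)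
          (hu1 r))).fun_pow 2).neg.congr_deriv ?_
        simp)
      (by
        have hne : ∀ r ∈ Icc a b, us r ≠ 0 := fun r hr =>
          (sqrt_pos.2 (by nlinarith [(hI1 r hr).1, (hI1 r hr).2])).ne'
        have hne2 : ∀ r ∈ Icc a b, (1 + us r) ^ 2 ≠ 0 := fun r _ => pow_ne_zero 2 (hu1 r)
        have c1 : ContinuousOn (fun r => r / (1 + us r)) (Icc a b) :=
          ContinuousOn.div (by fun_prop) (by fun_prop) fun r _ => hu1 r
        have c2 : ContinuousOn (fun r => (1 + us r - r * (-r / us r)) / (1 + us r) ^ 2) (Icc a b) :=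
          ContinuousOn.div ((by fun_prop : ContinuousOn (fun r => 1 + us r) (Icc a b)).sub
            (continuousOn_id.mul (ContinuousOn.div (by fun_prop) (by fun_prop) hne))) (by fun_prop) hne2
        exact ((continuousOn_const.mul c1).mul c2).neg)
      (mapsTo_id _)
    obtain ⟨L, hL⟩ := lip_mul l1 l2
    refine ⟨L, fun s hs' t ht => ?_⟩
    have e : ∀ r, H r = C r * -(r / (1 + us r)) ^ 2 := fun r => by simp only [hH]; ring
    rw [e s, e t]
    exact hL hs' ht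
  · filter_upwards with r hr
    have hr1 : r ∈ Ioo (0:ℝ) 1 := ⟨hx.trans_lt hr.1, hr.2.trans_le hy⟩
    have hu : 0 < us r := sqrt_pos.2 (by nlinarith [hr1.1, hr1.2])
    have hr0 := hr1.1.ne'
    have hdiv : HasDerivAt (fun r => (1 - us r) / r) _ r :=
      ((hasDerivAt_us hr1).const_sub 1).div (hasDerivAt_id' r) hr0
    have hD := ((hC r hr).mul (hdiv.fun_pow 2)).neg
    have hev : H =ᶠ[𝓝 r] fun s => -(C s * ((1 - us s) / s) ^ 2) := by
      filter_upwards [Ioo_mem_nhds hr1.1 hr1.2] with s hs'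
      simp only [hH, sig_one (Ioo_subset_Icc_self hs')]
    have key := hcal r hr 1 (hadm r hr) 1 ⟨zero_le_one, le_rfl⟩
    have hdH : deriv H r = _ := hev.deriv_eq.trans hD.deriv
    rw [hdH]
    refine le_trans (le_of_eq (by ring)) (key.trans_eq ?_)
    simp only [Nat.reduceSub, pow_one, Nat.cast_ofNat]
    field_simp
    linear_combination (2 * C r * (1 - us r)) * us_sq (Ioo_subset_Icc_self hr1)

section

variable (P : HalfProf f) (h0 : f 0 = 1)
include P h0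

/-- At a level above the jump, `dist01` is the point where the level is attained. -/
theorem dist01_level {r : ℝ} (he : fend f < r) (hr : r < 1) :
    dist01 f r ∈ Ioo (0:ℝ) 1 ∧ f (dist01 f r) = r := by
  set T := dist01 f r with hTdef
  have hc0 : ContinuousWithinAt f (Ico 0 1) 0 := P.continuousOn 0 ⟨le_rfl, one_pos⟩
  have hT0 : 0 < T := by
    have hev : ∀ᶠ t in 𝓝[>] (0:ℝ), r < f t := by
      have : Tendsto f (𝓝[>] 0) (𝓝 1) := by
        rw [← h0]
        refine hc0.tendsto.mono_left ?_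
        rw [nhdsWithin_le_iff]
        exact mem_of_superset (Ioo_mem_nhdsGT one_pos) Ioo_subset_Ico_self
      exact this.eventually (lt_mem_nhds hr)
    obtain ⟨t, h1, h2⟩ := (hev.and (Ioo_mem_nhdsGT one_pos)).exists
    exact h2.1.trans_le ((lt_iff_lt_dist01 P h2).2 h1)
  have hT1 : T < 1 := by
    have hev : ∀ᶠ t in 𝓝[<] (1:ℝ), f t < r := (tendsto_fend P).eventually (gt_mem_nhds he)
    obtain ⟨t, h1, h2⟩ := (hev.and (Ioo_mem_nhdsLT one_pos)).exists
    exact lt_of_le_of_lt (not_lt.1 fun h => not_lt.2 h1.le ((lt_iff_lt_dist01 P h2).1 h)) h2.2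
  refine ⟨⟨hT0, hT1⟩, ?_⟩
  have hc := P.continuousAt ⟨hT0, hT1⟩
  apply le_antisymm
  · refine le_of_tendsto (hc.tendsto.mono_left (nhdsWithin_le_nhds (s := Ioi T))) ?_
    filter_upwards [Ioo_mem_nhdsGT hT1] with t ht
    exact not_lt.1 fun h => not_lt.2 ((lt_iff_lt_dist01 P ⟨hT0.trans ht.1, ht.2⟩).2 h) ht.1
  · refine ge_of_tendsto (hc.tendsto.mono_left (nhdsWithin_le_nhds (s := Iio T))) ?_
    filter_upwards [Ioo_mem_nhdsLT hT0] with t ht
    exact ((lt_iff_lt_dist01 P ⟨ht.1, ht.2.trans hT1⟩).1 ht.2).le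

omit h0 in
theorem dist01_le_fend {r : ℝ} (he : r < fend f) : dist01 f r = 1 := by
  refine le_antisymm (dist01_mem f r).2 (le_of_tendsto
    ((tendsto_id (x := 𝓝 (1:ℝ))).mono_left (nhdsWithin_le_nhds (s := Iio 1))) ?_)
  have hev : ∀ᶠ t in 𝓝[<] (1:ℝ), r < f t := (tendsto_fend P).eventually (lt_mem_nhds he)
  filter_upwards [hev, Ioo_mem_nhdsLT one_pos] with t ht hI using (lt_iff_lt_dist01 P hI).2 ht

/-- `|σ| ≤ 1`. -/
theorem sigma_bound {t : ℝ} (ht : t ∈ Ioo (0:ℝ) 1) : |(t - us (f t)) / f t| ≤ 1 := by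
  obtain ⟨hf, hf1⟩ := P.mem01' h0 ht
  have hu := us_mem ⟨hf.le, hf1⟩
  have hc := P.conc.2 (left_mem_Icc.2 zero_le_one) (right_mem_Icc.2 zero_le_one)
    (show (0:ℝ) ≤ 1 - t by linarith [ht.2]) ht.1.le (by ring)
  simp only [smul_eq_mul, h0, mul_zero, zero_add, mul_one] at hc
  have hc' : 1 - t ≤ f t := by
    linarith [mul_nonneg ht.1.le (P.nonneg 1 (right_mem_Icc.2 zero_le_one))]
  have hs : 1 - f t ^ 2 ≤ us (f t) := by
    nlinarith [us_sq (r := f t) ⟨hf.le, hf1⟩, hu.1, hu.2]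
  rw [abs_div, abs_of_pos hf, div_le_one hf, abs_le]
  constructor <;> nlinarith [ht.2, hu.1, hu.2]

/-- **Hardy from a calibration with one pivot.** -/
theorem hardy_of_calib (hm : 3 ≤ m) (g : ℝ → ℝ → ℝ) {r0 : ℝ} (hr0 : r0 ∈ Ioo (0:ℝ) 1)
    {CL CL' CR CR' : ℝ → ℝ} {adm : ℝ → Set ℝ}
    (hLd : ∀ r ∈ Ico r0 1, HasDerivAt CL (CL' r) r) (hLd' : ContinuousOn CL' (Ico r0 1))
    (hLc : ContinuousOn CL (Icc r0 1)) (hL1 : CL 1 = 0)
    (hRd : ∀ r ∈ Ioc 0 r0, HasDerivAt CR (CR' r) r) (hRd' : ContinuousOn CR' (Ioc 0 r0))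
    (hRc : ContinuousOn CR (Icc 0 r0)) (hR0 : CR 0 = 0)
    (hLcal : ∀ r ∈ Ico r0 1, Calib m g (CL r) (CL' r) (adm r) r)
    (hRcal : ∀ r ∈ Ioc 0 r0, Calib m g (CR r) (CR' r) (adm r) r)
    (hadm : ∀ t ∈ Ioo (0:ℝ) 1, t ∈ adm (f t))
    (hadm1 : ∀ r ∈ Ioo 0 (fend f), (1:ℝ) ∈ adm r)
    (hG : IntervalIntegrable (fun t => wq m f t * g (f t) (pProf f t)) volume 0 1)
    (hGj : IntervalIntegrable (fun r => (m:ℝ) * r ^ (m - 1) * g r 1) volume 0 (fend f))
    (hgn : 0 ≤ g 1 0) :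
    negR m f ≤ (∫ t in (0:ℝ)..1, wq m f t * g (f t) (pProf f t)) +
      (∫ r in (0:ℝ)..fend f, (m:ℝ) * r ^ (m - 1) * g r 1) +
      (CL r0 - CR r0) * ((dist01 f r0 - us r0) / r0) ^ 2 := by
  obtain ⟨iN, eN⟩ := negR_eq_t P h0 hm
  rw [eN]
  have he := fend_mem P h0
  set N : ℝ → ℝ := fun t => (m:ℝ) * f t ^ (m - 1) * (-deriv f t) * gamD m t (us (f t)) with hN
  set G : ℝ → ℝ := fun t => wq m f t * g (f t) (pProf f t) with hGdef
  have hsub : ∀ a ∈ Icc (0:ℝ) 1, ∀ b ∈ Icc (0:ℝ) 1, uIcc a b ⊆ uIcc (0:ℝ) 1 := fun a ha b hb => by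
    rw [uIcc_of_le zero_le_one]; exact uIcc_subset_Icc ha hb
  have hf01 : ∀ t ∈ Ioo (0:ℝ) 1, f t ∈ Ioc (0:ℝ) 1 := fun t ht => P.mem01' h0 ht
  -- the left piece `[0, b]`, with values in `[r0, 1]`
  have left : ∀ b ∈ Ioc (0:ℝ) 1, (∀ t ∈ Ioo 0 b, r0 ≤ f t) → ∀ H : ℝ → ℝ,
      ContinuousOn H (Icc 0 b) → (∀ t ∈ Ico 0 b, H t = calH CL f t) →
      ∫ t in (0:ℝ)..b, N t ≤ (∫ t in (0:ℝ)..b, G t) + H b := by
    intro b hb hge H hHc hHeq
    -- the end of the plateau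
    set S : Set ℝ := {t ∈ Icc 0 b | t = 0 ∨ f t = 1} with hSdef
    set a := sSup S with ha
    have hSne : S.Nonempty := ⟨0, ⟨le_rfl, hb.1.le⟩, .inl rfl⟩
    have hSb : BddAbove S := ⟨b, fun t ht => ht.1.2⟩
    have haI : a ∈ Icc 0 b := ⟨le_csSup hSb ⟨⟨le_rfl, hb.1.le⟩, .inl rfl⟩,
      csSup_le hSne fun t ht => ht.1.2⟩
    have hplat : ∀ t ∈ Ioo 0 a, f t = 1 := by
      intro t ht
      obtain ⟨s, hs, hts⟩ := exists_lt_of_lt_csSup hSne ht.2
      rcases hs.2 with h | h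
      · linarith [ht.1, hs.1.1]
      · refine le_antisymm (hf01 t ⟨ht.1, ht.2.trans_le (haI.2.trans hb.2)⟩).2 ?_
        rw [← h]
        exact P.anti ⟨ht.1.le, (ht.2.trans_le (haI.2.trans hb.2)).le⟩
          ⟨hs.1.1, hs.1.2.trans hb.2⟩ hts.le
    have hrest : ∀ t ∈ Ioo a b, f t ∈ Ico r0 1 := fun t ht => by
      have ht' : t ∈ Ioo 0 b := ⟨haI.1.trans_lt ht.1, ht.2⟩
      refine ⟨hge t ht', lt_of_le_of_ne (hf01 t ⟨ht'.1, ht.2.trans_le hb.2⟩).2 fun h => ?_⟩
      exact not_le.2 ht.1 (le_csSup hSb ⟨⟨ht'.1.le, ht.2.le⟩, .inr h⟩)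
    have ha1 : a ∈ Icc (0:ℝ) 1 := ⟨haI.1, haI.2.trans hb.2⟩
    have i1 := iN.mono_set (hsub 0 (left_mem_Icc.2 zero_le_one) a ha1)
    have i2 := iN.mono_set (hsub a ha1 b ⟨hb.1.le, hb.2⟩)
    have j1 := hG.mono_set (hsub 0 (left_mem_Icc.2 zero_le_one) a ha1)
    have j2 := hG.mono_set (hsub a ha1 b ⟨hb.1.le, hb.2⟩)
    -- `H a = 0`
    have hH0 : H 0 = 0 := by rw [hHeq 0 ⟨le_rfl, hb.1⟩, calH, h0, hL1, zero_mul]
    have hHa : H a = 0 := by
      rcases haI.1.eq_or_lt with h | h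
      · rw [← h]; exact hH0
      · have : Tendsto H (𝓝[<] a) (𝓝 (H a)) := by
          refine ((hHc a haI).tendsto).mono_left ?_
          rw [nhdsWithin_le_iff]
          exact mem_of_superset (Ioo_mem_nhdsLT h) fun t ht => ⟨ht.1.le, ht.2.le.trans haI.2⟩
        refine tendsto_nhds_unique this (tendsto_const_nhds.congr' ?_)
        filter_upwards [Ioo_mem_nhdsLT h] with t ht
        rw [hHeq t ⟨ht.1.le, ht.2.trans_le haI.2⟩, calH, hplat t ht, hL1, zero_mul]
    have h1 : ∫ t in (0:ℝ)..a, N t ≤ ∫ t in (0:ℝ)..a, G t := by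
      refine intervalIntegral.integral_mono_on_of_le_Ioo haI.1 i1 j1 fun t ht => ?_
      have ht1 : t ∈ Ioo (0:ℝ) 1 := ⟨ht.1, ht.2.trans_le ha1.2⟩
      have hd : deriv f t = 0 := by
        have hev : f =ᶠ[𝓝 t] fun _ => (1:ℝ) := by
          filter_upwards [Ioo_mem_nhds ht.1 ht.2] with s hs using hplat s hs
        rw [hev.deriv_eq, deriv_const]
      have hp : pProf f t = 0 := by rw [pProf, hd, neg_zero, zero_div]
      simp only [hN, hGdef, wq, hd, hp, hplat t ht, neg_zero, mul_zero, zero_mul, one_pow,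
        mul_one, sub_zero]
      exact mul_nonneg (Nat.cast_nonneg m) hgn
    have h2 := calib_piece (m := m) P g (S := Ico r0 1) (adm := adm)
      (fun r hr => ⟨hr0.1.trans_le hr.1, hr.2⟩) ordConnected_Ico haI.1 haI.2 hb.2 hrest
      hLd hLd' hLcal (fun t ht => hadm t ⟨haI.1.trans_lt ht.1, ht.2.trans_le hb.2⟩)
      (hHc.mono (Icc_subset_Icc haI.1 le_rfl))
      (fun t ht => hHeq t ⟨(haI.1.trans_lt ht.1).le, ht.2⟩) i2 j2
    rw [← intervalIntegral.integral_add_adjacent_intervals i1 i2,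
      ← intervalIntegral.integral_add_adjacent_intervals j1 j2]
    linarith
  -- continuity of a calibration along the profile
  have hcH : ∀ {C : ℝ → ℝ} {lo hi : ℝ} {s : Set ℝ}, s ⊆ Ico 0 1 → ContinuousOn C (Icc lo hi) →
      MapsTo f s (Icc lo hi) → ContinuousOn (calH C f) s := by
    intro C lo hi s hs hC hmem
    have hcf : ContinuousOn f s := P.continuousOn.mono hs
    exact (hC.comp hcf hmem).mul (((continuousOn_id.sub (continuous_us.comp_continuousOn hcf)).div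
      hcf fun t ht => (P.pos t (hs ht)).ne').pow 2)
  -- the value of a calibration at the right end
  have hend : ∀ {C : ℝ → ℝ} {lo hi : ℝ}, ContinuousOn C (Icc lo hi) → fend f ∈ Icc lo hi →
      (fend f = 0 → C 0 = 0) → (∀ᶠ t in 𝓝[<] (1:ℝ), f t ∈ Icc lo hi) →
      Tendsto (calH C f) (𝓝[<] 1) (𝓝 (C (fend f) * (fend f / (1 + us (fend f))) ^ 2)) := by
    intro C lo hi hC hmem hz hev
    have hCt : Tendsto (fun t => C (f t)) (𝓝[<] 1) (𝓝 (C (fend f))) :=
      (hC _ hmem).tendsto.comp (tendsto_nhdsWithin_iff.2 ⟨tendsto_fend P, hev⟩)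
    rcases he.1.eq_or_lt with h | h
    · rw [← h, hz h.symm] at hCt ⊢
      rw [zero_mul]
      refine squeeze_zero_norm' ?_ (tendsto_zero_iff_norm_tendsto_zero.1 hCt)
      filter_upwards [Ioo_mem_nhdsLT one_pos] with t ht
      rw [calH, norm_mul]
      refine mul_le_of_le_one_right (norm_nonneg _) ?_
      rw [Real.norm_eq_abs, abs_pow]
      exact pow_le_one₀ (abs_nonneg _) (sigma_bound P h0 ht)
    · refine hCt.mul (Tendsto.pow ?_ 2)
      rw [sig_one ⟨he.1, he.2⟩]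
      exact ((tendsto_id.mono_left nhdsWithin_le_nhds).sub
        ((continuous_us.tendsto _).comp (tendsto_fend P))).div (tendsto_fend P) h.ne'
  -- extension to `[a, 1]`
  have hext : ∀ {C : ℝ → ℝ} {a V : ℝ}, a < 1 → ContinuousOn (calH C f) (Ico a 1) →
      Tendsto (calH C f) (𝓝[<] 1) (𝓝 V) →
      ContinuousOn (fun t => if t < 1 then calH C f t else V) (Icc a 1) := by
    intro C a V ha hc ht x hx
    rcases hx.2.eq_or_lt with rfl | h
    · rw [ContinuousWithinAt, if_neg (lt_irrefl _)]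
      rw [← Ico_insert_right ha.le, nhdsWithin_insert, tendsto_sup]
      refine ⟨by simpa using tendsto_pure_nhds (fun t => if t < (1:ℝ) then calH C f t else V) 1,
        (ht.mono_left (nhdsWithin_mono _ Ico_subset_Iio_self)).congr' ?_⟩
      filter_upwards [self_mem_nhdsWithin] with t ht
      rw [if_pos ht.2]
    · refine ((hc x ⟨hx.1, h⟩).mono_of_mem_nhdsWithin ?_).congr_of_eventuallyEq ?_ (if_pos h)
      · filter_upwards [self_mem_nhdsWithin, mem_nhdsWithin_of_mem_nhds (Iio_mem_nhds h)] with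
          t h1 h2 using ⟨h1.1, h2⟩
      · filter_upwards [mem_nhdsWithin_of_mem_nhds (Iio_mem_nhds h)] with t h2 using if_pos h2
  have hjs : ∀ a ∈ Icc 0 (fend f), ∀ b ∈ Icc 0 (fend f), IntervalIntegrable
      (fun r => (m:ℝ) * r ^ (m - 1) * g r 1) volume a b := fun a ha b hb => hGj.mono_set (by
    rw [uIcc_of_le he.1]; exact uIcc_subset_Icc ha hb)
  have hinf : ∀ t ∈ Ioo (0:ℝ) 1, fend f ≤ f t := fun t ht =>
    csInf_le ⟨0, forall_mem_image.2 fun s hs => (hf01 s hs).1.le⟩ (mem_image_of_mem f ht)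
  rcases lt_or_ge (fend f) r0 with hlt | hge
  · -- pivot inside `(0,1)`
    obtain ⟨hT, hfT⟩ := dist01_level P h0 hlt hr0.2
    set T := dist01 f r0
    have hfT' : ((T - us r0) / r0) ^ 2 * CL r0 = calH CL f T ∧
        ((T - us r0) / r0) ^ 2 * CR r0 = calH CR f T := by
      constructor <;> (rw [calH, hfT, mul_comm])
    have hgeT : ∀ t ∈ Icc 0 T, r0 ≤ f t := fun t ht => hfT ▸
      P.anti ⟨ht.1, ht.2.trans hT.2.le⟩ (Ioo_subset_Icc_self hT) ht.2
    have hL : ∫ t in (0:ℝ)..T, N t ≤ (∫ t in (0:ℝ)..T, G t) + calH CL f T := by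
      refine left T ⟨hT.1, hT.2.le⟩ (fun t ht => hgeT t (Ioo_subset_Icc_self ht)) _ ?_
        fun _ _ => rfl
      exact hcH (fun t ht => ⟨ht.1, ht.2.trans_lt hT.2⟩) hLc fun t ht =>
        ⟨hgeT t ht, (P.mem01 h0 ⟨ht.1, ht.2.trans hT.2.le⟩).2⟩
    have hle : ∀ t ∈ Ico T 1, f t ≤ r0 := fun t ht => hfT ▸
      P.anti (Ioo_subset_Icc_self hT) ⟨hT.1.le.trans ht.1, ht.2.le⟩ ht.1
    have hV := hend hRc ⟨he.1, hlt.le⟩ (fun _ => hR0) (by
      filter_upwards [Ioo_mem_nhdsLT hT.2] with t ht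
      exact ⟨(hf01 t ⟨hT.1.trans ht.1, ht.2⟩).1.le, hle t ⟨ht.1.le, ht.2⟩⟩)
    have hTI : T ∈ Icc (0:ℝ) 1 := Ioo_subset_Icc_self hT
    have i2 := iN.mono_set (hsub T hTI 1 (right_mem_Icc.2 zero_le_one))
    have j2 := hG.mono_set (hsub T hTI 1 (right_mem_Icc.2 zero_le_one))
    have hR := calib_piece (m := m) P g (S := Ioc 0 r0) (adm := adm)
      (fun r hr => ⟨hr.1, hr.2.trans_lt hr0.2⟩) ordConnected_Ioc hT.1.le hT.2.le le_rfl
      (fun t ht => ⟨(hf01 t ⟨hT.1.trans ht.1, ht.2⟩).1, hle t ⟨ht.1.le, ht.2⟩⟩)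
      hRd hRd' hRcal (fun t ht => hadm t ⟨hT.1.trans ht.1, ht.2⟩)
      (hext hT.2 (hcH (fun t ht => ⟨hT.1.le.trans ht.1, ht.2⟩) hRc fun t ht =>
        ⟨P.nonneg t ⟨hT.1.le.trans ht.1, ht.2.le⟩, hle t ht⟩) hV)
      (fun t ht => if_pos ht.2) i2 j2
    rw [if_neg (lt_irrefl _), if_pos hT.2] at hR
    have hJ := calib_jump g (C := CR) (C' := CR') hm le_rfl he.1 he.2
      (fun r hr => hRd r ⟨hr.1, hr.2.le.trans hlt.le⟩)
      (hRd'.mono fun r hr => ⟨hr.1, hr.2.le.trans hlt.le⟩)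
      (hRc.mono (Icc_subset_Icc le_rfl hlt.le))
      (fun r hr => hRcal r ⟨hr.1, hr.2.le.trans hlt.le⟩) hadm1 hGj
    rw [hR0, zero_mul] at hJ
    rw [← intervalIntegral.integral_add_adjacent_intervals
        (iN.mono_set (hsub 0 (left_mem_Icc.2 zero_le_one) T hTI)) i2,
      ← intervalIntegral.integral_add_adjacent_intervals
        (hG.mono_set (hsub 0 (left_mem_Icc.2 zero_le_one) T hTI)) j2]
    linarith [hfT'.1, hfT'.2]
  · -- pivot on the jump
    have he0 : 0 < fend f := hr0.1.trans_le hge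
    have hgt : ∀ t ∈ Ioo (0:ℝ) 1, r0 < f t := by
      intro t ht
      have hs : (t + 1) / 2 ∈ Ioo t 1 := ⟨by linarith [ht.2], by linarith [ht.2]⟩
      set s := (t + 1) / 2
      have hs0 : 0 < s := ht.1.trans hs.1
      have h1 : 0 < 1 - t / s := by rw [sub_pos, div_lt_one hs0]; exact hs.1
      have hc := P.conc.2 (left_mem_Icc.2 zero_le_one) ⟨hs0.le, hs.2.le⟩ h1.le
        (div_nonneg ht.1.le hs0.le) (by ring)
      simp only [smul_eq_mul, h0, mul_zero, zero_add, mul_one, div_mul_cancel₀ _ hs0.ne'] at hc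
      have := mul_le_mul_of_nonneg_left (hge.trans (hinf s ⟨hs0, hs.2⟩)) (div_nonneg ht.1.le hs0.le)
      nlinarith [hr0.2]
    have hT : dist01 f r0 = 1 := by
      rw [dist01, inter_eq_left.2 (show Ioo (0:ℝ) 1 ⊆ {t | r0 < f t} from fun t ht => hgt t ht), Real.volume_real_Ioo_of_le zero_le_one,
        sub_zero]
    have hev : ∀ᶠ t in 𝓝[<] (1:ℝ), f t ∈ Icc r0 1 := by
      filter_upwards [Ioo_mem_nhdsLT one_pos] with t ht
      exact ⟨(hgt t ht).le, (hf01 t ht).2⟩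
    have hV := hend hLc ⟨hge, he.2⟩ (fun h => absurd h he0.ne') hev
    have hL := left 1 ⟨one_pos, le_rfl⟩ (fun t ht => (hgt t ht).le)
      (fun t => if t < 1 then calH CL f t else CL (fend f) * (fend f / (1 + us (fend f))) ^ 2)
      (hext one_pos (hcH subset_rfl hLc fun t ht => by
        rcases ht.1.eq_or_lt with h | h
        · rw [← h, h0]; exact ⟨hr0.2.le, le_rfl⟩
        · exact ⟨(hgt t ⟨h, ht.2⟩).le, (hf01 t ⟨h, ht.2⟩).2⟩) hV) fun t ht => if_pos ht.2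
    rw [if_neg (lt_irrefl _)] at hL
    have hr0e : r0 ∈ Icc 0 (fend f) := ⟨hr0.1.le, hge⟩
    have hJL := calib_jump g (C := CL) (C' := CL') (adm := adm) hm hr0.1.le hge he.2
      (fun r hr => hLd r ⟨hr.1.le, hr.2.trans_le he.2⟩)
      (hLd'.mono fun r hr => ⟨hr.1.le, hr.2.trans_le he.2⟩)
      (hLc.mono (Icc_subset_Icc le_rfl he.2))
      (fun r hr => hLcal r ⟨hr.1.le, hr.2.trans_le he.2⟩)
      (fun r hr => hadm1 r ⟨hr0.1.trans hr.1, hr.2⟩) (hjs r0 hr0e _ (right_mem_Icc.2 he.1))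
    have hJR := calib_jump g (C := CR) (C' := CR') (adm := adm) hm le_rfl hr0.1.le hr0.2.le
      (fun r hr => hRd r ⟨hr.1, hr.2.le⟩) (hRd'.mono Ioo_subset_Ioc_self) hRc
      (fun r hr => hRcal r ⟨hr.1, hr.2.le⟩) (fun r hr => hadm1 r ⟨hr.1, hr.2.trans_le hge⟩)
      (hjs 0 (left_mem_Icc.2 he.1) r0 hr0e)
    rw [hR0, zero_mul] at hJR
    have iJ : ∀ a ∈ Icc 0 (fend f), ∀ b ∈ Icc 0 (fend f), IntervalIntegrable
        (fun r => (m:ℝ) * r ^ (m - 1) * gamD m 1 (us r)) volume a b := fun a ha b hb =>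
      intJump hm ⟨ha.1, ha.2.trans he.2⟩ ⟨hb.1, hb.2.trans he.2⟩
    rw [hT, ← sig_one (Ioo_subset_Icc_self hr0),
      ← intervalIntegral.integral_add_adjacent_intervals
        (iJ 0 (left_mem_Icc.2 he.1) r0 hr0e) (iJ r0 hr0e _ (right_mem_Icc.2 he.1)),
      ← intervalIntegral.integral_add_adjacent_intervals
        (hjs 0 (left_mem_Icc.2 he.1) r0 hr0e) (hjs r0 hr0e _ (right_mem_Icc.2 he.1))]
    linarith

end

/-- The integrand of `chiGain` is integrable. -/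
theorem intChi (P : HalfProf f) (h0 : f 0 = 1) (hm : 3 ≤ m) :
    IntervalIntegrable (fun t => wq m f t * chiD (f t) (pProf f t)) volume 0 1 := by
  have hfm : AEStronglyMeasurable f (volume.restrict (Ioo (0:ℝ) 1)) :=
    (P.continuousOn.mono Ioo_subset_Ico_self).aestronglyMeasurable measurableSet_Ioo
  have hτm := continuous_us.comp_aestronglyMeasurable hfm
  have hm0 : m ≠ 0 := by omega
  have i1 := P.intWgt_mul (show m - 1 ≠ 0 by omega)
    (F := fun t => (m:ℝ) / ((m - 1 : ℕ):ℝ) * (1 - pProf f t * us (f t)))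
    ((aestronglyMeasurable_const.sub (P.measurable_pProf.mul hτm)).const_mul _)
    (C := (m:ℝ) / ((m - 1 : ℕ):ℝ) * 2) fun s hs => by
      have h1 := (P.bounds hs).2
      have h2 := us_mem (Ioc_subset_Icc_self (P.mem01' h0 hs))
      have h3 : |1 - pProf f s * us (f s)| ≤ 2 := by
        rw [abs_le]; constructor <;> nlinarith [h1.1, h1.2, h2.1, h2.2]
      rw [abs_mul, abs_of_nonneg (div_nonneg (Nat.cast_nonneg m) (Nat.cast_nonneg _))]
      exact mul_le_mul_of_nonneg_left h3 (div_nonneg (Nat.cast_nonneg m) (Nat.cast_nonneg _))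
  have i2 := P.intWgt_mul hm0 (F := fun t => us (pProf f t))
    (continuous_us.comp_aestronglyMeasurable P.measurable_pProf) (C := 1) fun s _ => by
      rw [us, abs_of_nonneg (sqrt_nonneg _)]
      exact sqrt_le_one.2 (by nlinarith [sq_nonneg (pProf f s)])
  refine (i1.sub i2).congr_ae ?_
  rw [EventuallyEq, ae_restrict_iff' measurableSet_uIoc]
  filter_upwards [Measure.ae_ne volume (1:ℝ)] with t hne hmem
  rw [uIoc_of_le zero_le_one] at hmem
  have hf := (P.mem01' h0 ⟨hmem.1, lt_of_le_of_ne hmem.2 hne⟩).1.ne'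
  have hk : (((m - 1 : ℕ):ℝ)) ≠ 0 := Nat.cast_ne_zero.2 (by omega)
  simp only [wq, chiD]
  rw [show m - 1 - 1 = m - 2 by omega, show f t ^ (m - 1) = f t ^ (m - 2) * f t by
    rw [← pow_succ, show m - 2 + 1 = m - 1 by omega]]
  field_simp

/-- The Riccati inequality of `C` at level `r`, in `σ = (t - √(1-r²))/r` over `1 - r ≤ t ≤ 1`. -/
def Riccati (m : ℕ) (κ C C' r : ℝ) : Prop :=
  ∀ t ∈ Icc (1 - r) 1,
    1 ≤ 1 / r + us r * (2 * C * ((t - us r) / r) / (κ * m * r ^ (m + 1) * us r)) ∧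
    chiC r (2 * C * ((t - us r) / r) / (κ * m * r ^ (m + 1) * us r)) * (κ * m * r ^ (m - 1)) +
      C' * ((t - us r) / r) ^ 2 + m * r ^ (m - 1) * gamD m t (us r) ≤ 0

/-- **Hardy from a Riccati supersolution with one pivot.** -/
theorem hardy_of_riccati (P : HalfProf f) (h0 : f 0 = 1) (hm : 3 ≤ m) {κ r0 : ℝ} (hκ : 0 < κ)
    (hr0 : r0 ∈ Ioo (0:ℝ) 1) {CL CL' CR CR' : ℝ → ℝ}
    (hLd : ∀ r ∈ Ico r0 1, HasDerivAt CL (CL' r) r) (hLd' : ContinuousOn CL' (Ico r0 1))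
    (hLc : ContinuousOn CL (Icc r0 1)) (hL1 : CL 1 = 0)
    (hRd : ∀ r ∈ Ioc 0 r0, HasDerivAt CR (CR' r) r) (hRd' : ContinuousOn CR' (Ioc 0 r0))
    (hRc : ContinuousOn CR (Icc 0 r0)) (hR0 : CR 0 = 0)
    (hL : ∀ r ∈ Ico r0 1, Riccati m κ (CL r) (CL' r) r)
    (hR : ∀ r ∈ Ioc 0 r0, Riccati m κ (CR r) (CR' r) r) :
    negR m f ≤ κ * chiGain m f + (CL r0 - CR r0) * ((dist01 f r0 - us r0) / r0) ^ 2 := by
  have hm0 : m ≠ 0 := by omega
  have he := fend_mem P h0
  have hj : ∀ r ∈ Ioo 0 (fend f),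
      (m:ℝ) * r ^ (m - 1) * (κ * chiD r 1) = κ * ((m:ℝ) * r ^ (m - 2) * (1 - us r)) := by
    intro r hr
    have hr' := hr.1.ne'
    rw [chiD, us_one, sub_zero, one_mul, show m - 1 = m - 2 + 1 by omega, pow_succ]
    field_simp
  have iJ : IntervalIntegrable (fun r => (m:ℝ) * r ^ (m - 2) * (1 - us r)) volume 0 (fend f) :=
    Continuous.intervalIntegrable (by fun_prop) _ _
  have h := hardy_of_calib (m := m) P h0 hm (fun r p => κ * chiD r p) hr0
    (adm := fun r => Icc (1 - r) 1) hLd hLd' hLc hL1 hRd hRd' hRc hR0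
    (fun r hr => calib_of_riccati hm0 hκ ⟨hr0.1.trans_le hr.1, hr.2⟩ (hL r hr))
    (fun r hr => calib_of_riccati hm0 hκ ⟨hr.1, hr.2.trans_lt hr0.2⟩ (hR r hr))
    (fun t ht => ⟨?_, ht.2.le⟩) (fun r hr => ⟨by linarith [hr.1], le_rfl⟩)
    (((intChi P h0 hm).const_mul κ).congr fun t _ => by ring)
    ((iJ.const_mul κ).congr_ae ?_)
    (by simp [chiD, us_one, us_zero])
  · rw [chiGain, mul_add, ← intervalIntegral.integral_const_mul,
      ← intervalIntegral.integral_const_mul, ← intervalIntegral.integral_congr_Ioo_of_le he.1 hj]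
    refine h.trans_eq ?_
    simp only [chiD]
    congr 2
    exact intervalIntegral.integral_congr fun t _ => by ring
  · have hc := P.conc.2 (left_mem_Icc.2 zero_le_one) (right_mem_Icc.2 zero_le_one)
      (show (0:ℝ) ≤ 1 - t by linarith [ht.2]) ht.1.le (by ring)
    simp only [smul_eq_mul, h0, mul_zero, zero_add, mul_one] at hc
    linarith [mul_nonneg ht.1.le (P.nonneg 1 (right_mem_Icc.2 zero_le_one))]
  · rw [EventuallyEq, ae_restrict_iff' measurableSet_uIoc]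
    filter_upwards [Measure.ae_ne volume (fend f)] with r hne hmem
    rw [uIoc_of_le he.1] at hmem
    exact (hj r ⟨hmem.1, lt_of_le_of_ne hmem.2 hne⟩).symm

end Vale.Agent.P237.AllN

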