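import Vale.Agent.P237.AllN.InvD
import Vale.Agent.P237.AllN.GamEnv
import Vale.Agent.P237.AllN.Riccati

/-!
# P237, all dimensions: moments of the section profile against the linear gauge

For a concave profile `f` with `f 0 = 1` put `Z = ∫ f^m` and `D = ∫ f^(m-1) - f^m`. Then
`2 ∫ t f^m ≤ Z² + m Z D`, and among profiles with given `Z` and `∫ t f^m` a plateau followed by a
linear piece maximises `∫ φ f^m` for monotone convex `φ`. Together these bound `∫ t⁴ f^m` and
`∫ t⁶ f^m` by powers of `ℓ = (1 - m b) Z + m c D` times `Z`.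
-/

open MeasureTheory Set Real Filter Topology
open scoped NNReal

namespace Vale.Agent.P237.AllN.AbsMoment

variable {m : ℕ} {f : ℝ → ℝ}

/-! ### The Beta integral -/

theorem beta_int (j : ℕ) : ∀ n : ℕ,
    ∫ s in (0:ℝ)..1, s ^ j * (1 - s) ^ n = (Nat.factorial j : ℝ) * Nat.factorial n / Nat.factorial (j + n + 1) := by
  induction j with
  | zero =>
    intro n
    simp only [pow_zero, one_mul, Nat.factorial_zero, Nat.cast_one, zero_add]
    rw [intervalIntegral.integral_comp_sub_left (fun x : ℝ => x ^ n) 1, sub_self, sub_zero,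
      integral_pow, Nat.factorial_succ]
    push_cast
    field_simp
    ring
  | succ j ih =>
    intro n
    have hv : ∀ x : ℝ, HasDerivAt (fun x : ℝ => -((1 - x) ^ (n + 1) / ((n:ℝ) + 1)))
        ((1 - x) ^ n) x := fun x => by
      refine ((((hasDerivAt_id' x).const_sub 1).fun_pow (n + 1)).div_const _).neg.congr_deriv ?_
      push_cast
      field_simp
    rw [intervalIntegral.integral_mul_deriv_eq_deriv_mul (fun x _ => hasDerivAt_pow (j + 1) x)
      (fun x _ => hv x) (Continuous.intervalIntegrable (by fun_prop) _ _)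
      (Continuous.intervalIntegrable (by fun_prop) _ _)]
    simp only [sub_self, zero_pow (Nat.succ_ne_zero n), zero_div, neg_zero, mul_zero,
      zero_pow (Nat.succ_ne_zero j), zero_mul, sub_zero, zero_sub, Nat.add_sub_cancel]
    rw [← intervalIntegral.integral_neg, intervalIntegral.integral_congr
      (g := fun x => ((j + 1 : ℕ) : ℝ) / ((n:ℝ) + 1) * (x ^ j * (1 - x) ^ (n + 1)))
      (fun x _ => by field_simp), intervalIntegral.integral_const_mul, ih,
      show j + (n + 1) + 1 = j + 1 + n + 1 by omega, Nat.factorial_succ j, Nat.factorial_succ n]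
    push_cast
    field_simp

theorem fact_pow (j n : ℕ) : Nat.factorial n * (n + 1) ^ (j + 1) ≤ Nat.factorial (j + n + 1) := by
  induction j with
  | zero => rw [zero_add, pow_one, zero_add, Nat.factorial_succ]; exact (mul_comm _ _).le
  | succ j ih =>
    rw [pow_succ, ← mul_assoc, show j + 1 + n + 1 = (j + n + 1) + 1 by omega,
      Nat.factorial_succ (j + n + 1), mul_comm ((j + n + 1) + 1)]
    exact Nat.mul_le_mul ih (by omega)

theorem beta_le (j n : ℕ) :
    ((n:ℝ) + 1) ^ (j + 1) * ∫ s in (0:ℝ)..1, s ^ j * (1 - s) ^ n ≤ Nat.factorial j := by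
  rw [beta_int, ← mul_div_assoc, div_le_iff₀ (by positivity)]
  have h : ((Nat.factorial n * (n + 1) ^ (j + 1) : ℕ) : ℝ) ≤ (Nat.factorial (j + n + 1) : ℕ) := by
    exact_mod_cast fact_pow j n
  push_cast at h
  have h2 := mul_le_mul_of_nonneg_left h (show (0:ℝ) ≤ Nat.factorial j from Nat.cast_nonneg _)
  linarith

/-! ### The comparison profile -/

/-- One up to `a`, then linear down to zero at `a + w`. -/
noncomputable def gL (a w t : ℝ) : ℝ := min 1 (max 0 (1 - (t - a) / w))

theorem continuous_gL (a w : ℝ) : Continuous (gL a w) := by unfold gL; fun_prop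

theorem gL_mem (a w t : ℝ) : gL a w t ∈ Icc (0:ℝ) 1 :=
  ⟨le_min zero_le_one (le_max_left _ _), min_le_left _ _⟩

theorem gL_left {a w t : ℝ} (hw : 0 < w) (ht : t ≤ a) : gL a w t = 1 := by
  have : (t - a) / w ≤ 0 := div_nonpos_of_nonpos_of_nonneg (by linarith) hw.le
  rw [gL, max_eq_right (by linarith), min_eq_left (by linarith)]

theorem gL_mid {a w t : ℝ} (hw : 0 < w) (h1 : a ≤ t) (h2 : t ≤ a + w) :
    gL a w t = 1 - (t - a) / w := by
  have h3 : 0 ≤ (t - a) / w := div_nonneg (by linarith) hw.le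
  have h4 : (t - a) / w ≤ 1 := by rw [div_le_one hw]; linarith
  rw [gL, max_eq_right (by linarith), min_eq_right (by linarith)]

theorem gL_right {a w t : ℝ} (hw : 0 < w) (h2 : a + w ≤ t) : gL a w t = 0 := by
  have : 1 ≤ (t - a) / w := by rw [le_div_iff₀ hw]; linarith
  rw [gL, max_eq_left (by linarith), min_eq_right zero_le_one]

theorem int_gL (hm : m ≠ 0) {a w L : ℝ} (ha : 0 ≤ a) (hw : 0 < w) (hL : a + w ≤ L) (k : ℕ) :
    ∫ t in (0:ℝ)..L, t ^ k * gL a w t ^ m =
      a ^ (k + 1) / ((k:ℝ) + 1) + w * ∫ s in (0:ℝ)..1, (a + w * s) ^ k * (1 - s) ^ m := by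
  have hc : Continuous fun t => t ^ k * gL a w t ^ m :=
    (continuous_pow k).mul ((continuous_gL a w).pow m)
  have e0 : ∫ t in (0:ℝ)..a, t ^ k * gL a w t ^ m = a ^ (k + 1) / ((k:ℝ) + 1) := by
    rw [intervalIntegral.integral_congr (g := fun t => t ^ k) fun t ht => ?_, integral_pow]
    · simp
    · rw [uIcc_of_le ha] at ht
      simp only [gL_left hw ht.2, one_pow, mul_one]
  have e2 : ∫ t in (a + w)..L, t ^ k * gL a w t ^ m = 0 := by
    rw [intervalIntegral.integral_congr (g := fun _ => (0:ℝ)) fun t ht => ?_]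
    · simp
    · rw [uIcc_of_le hL] at ht
      simp only [gL_right hw ht.1, zero_pow hm, mul_zero]
  have e1 : ∫ t in a..(a + w), t ^ k * gL a w t ^ m =
      w * ∫ s in (0:ℝ)..1, (a + w * s) ^ k * (1 - s) ^ m := by
    have h := intervalIntegral.mul_integral_comp_add_mul (f := fun t => t ^ k * gL a w t ^ m)
      w a (a := 0) (b := 1)
    simp only [mul_zero, add_zero, mul_one] at h
    rw [← h]
    congr 1
    refine intervalIntegral.integral_congr fun s hs => ?_
    rw [uIcc_of_le zero_le_one] at hs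

    rw [gL_mid hw (by nlinarith [hs.1]) (by nlinarith [hs.2]), add_sub_cancel_left,
      mul_div_cancel_left₀ _ hw.ne']
  rw [← intervalIntegral.integral_add_adjacent_intervals (hc.intervalIntegrable 0 a)
      (hc.intervalIntegrable a L),
    ← intervalIntegral.integral_add_adjacent_intervals (hc.intervalIntegrable a (a + w))
      (hc.intervalIntegrable (a + w) L), e0, e1, e2, add_zero]

theorem int_gL_le (hm : m ≠ 0) {a B L : ℝ} (ha : 0 ≤ a) (hB : 0 < B)
    (hL : a + ((m:ℝ) + 1) * B ≤ L) (k : ℕ) :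
    ∫ t in (0:ℝ)..L, t ^ k * gL a (((m:ℝ) + 1) * B) t ^ m ≤ a ^ (k + 1) / ((k:ℝ) + 1) +
      ∑ j ∈ Finset.range (k + 1), (k.choose j : ℝ) * (Nat.factorial j : ℝ) * a ^ (k - j) * B ^ (j + 1) := by
  set w := ((m:ℝ) + 1) * B with hw
  have hw0 : 0 < w := by positivity
  rw [int_gL hm ha hw0 hL k]
  refine add_le_add_right ?_ _ |>.trans_eq rfl
  have e : ∀ s : ℝ, (a + w * s) ^ k * (1 - s) ^ m = ∑ j ∈ Finset.range (k + 1),
      (k.choose j : ℝ) * a ^ (k - j) * w ^ j * (s ^ j * (1 - s) ^ m) := fun s => by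
    rw [add_comm a, add_pow, Finset.sum_mul]
    exact Finset.sum_congr rfl fun j _ => by rw [mul_pow]; ring
  rw [intervalIntegral.integral_congr fun s _ => e s,
    intervalIntegral.integral_finsetSum fun j _ => Continuous.intervalIntegrable (by fun_prop) _ _,
    Finset.mul_sum]
  refine Finset.sum_le_sum fun j _ => ?_
  rw [intervalIntegral.integral_const_mul]
  have h := mul_le_mul_of_nonneg_left (beta_le j m)
    (show (0:ℝ) ≤ (k.choose j : ℝ) * a ^ (k - j) * B ^ (j + 1) by positivity)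
  refine le_trans (le_of_eq ?_) (h.trans_eq (by ring))
  rw [hw, mul_pow, pow_succ ((m:ℝ) + 1), pow_succ B]
  ring

/-! ### The profile extended by zero -/

/-- `f^m` on `(-∞, 1]`, zero beyond. -/
noncomputable def hx (m : ℕ) (f : ℝ → ℝ) (t : ℝ) : ℝ := if t ≤ 1 then f t ^ m else 0

theorem int_hx (P : HalfProf f) (h0 : f 0 = 1) {φ : ℝ → ℝ} (hφ : Continuous φ) {L : ℝ}
    (hL : 1 ≤ L) :
    IntervalIntegrable (fun t => φ t * hx m f t) volume 0 L ∧
      ∫ t in (0:ℝ)..L, φ t * hx m f t = ∫ t in (0:ℝ)..1, φ t * f t ^ m := by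
  have i0 : IntervalIntegrable (fun t => φ t * f t ^ m) volume 0 1 :=
    (bounded_comp P h0 (continuous_pow m)).continuousOn_mul hφ.continuousOn
  have e1 : ∀ t ∈ uIoc (0:ℝ) 1, φ t * f t ^ m = φ t * hx m f t := fun t ht => by
    rw [uIoc_of_le zero_le_one] at ht
    rw [hx, if_pos ht.2]
  have i1 : IntervalIntegrable (fun t => φ t * hx m f t) volume 0 1 := i0.congr e1
  have e2 : ∀ t ∈ uIoc (1:ℝ) L, (0:ℝ) = φ t * hx m f t := fun t ht => by
    rw [uIoc_of_le hL] at ht
    rw [hx, if_neg (not_le.2 ht.1), mul_zero]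
  have i2 : IntervalIntegrable (fun t => φ t * hx m f t) volume 1 L :=
    intervalIntegrable_const.congr e2
  refine ⟨i1.trans i2, ?_⟩
  rw [← intervalIntegral.integral_add_adjacent_intervals i1 i2,
    intervalIntegral.integral_congr_ae (f := fun t => φ t * hx m f t) (g := fun t => φ t * f t ^ m)
      (.of_forall fun t ht => (e1 t ht).symm),
    intervalIntegral.integral_congr_ae (f := fun t => φ t * hx m f t) (g := fun _ => (0:ℝ))
      (.of_forall fun t ht => (e2 t ht).symm)]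
  simp

/-! ### Crossing -/

/-- Two crossings: the convex monotone moment follows from the first two. -/
theorem cross_two {L : ℝ} (hL : 0 ≤ L) {φ δ : ℝ → ℝ} {S : Set ℝ} (hS : S ⊆ Icc 0 L)
    (hc : OrdConnected S) (hp : ∀ t ∈ S, 0 ≤ δ t) (hn : ∀ t ∈ Icc 0 L, t ∉ S → δ t ≤ 0)
    (hφ : ConvexOn ℝ (Icc 0 L) φ) (hφm : MonotoneOn φ (Icc 0 L))
    (hi : IntervalIntegrable δ volume 0 L)
    (hit : IntervalIntegrable (fun t => t * δ t) volume 0 L)
    (hiφ : IntervalIntegrable (fun t => φ t * δ t) volume 0 L)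
    (h0 : ∫ t in (0:ℝ)..L, δ t = 0) (h1 : ∫ t in (0:ℝ)..L, t * δ t ≤ 0) :
    ∫ t in (0:ℝ)..L, φ t * δ t ≤ 0 := by
  obtain ⟨α, β, hβ, hpt⟩ : ∃ α β : ℝ, 0 ≤ β ∧
      ∀ᵐ t : ℝ, t ∈ Icc 0 L → φ t * δ t ≤ (α + β * t) * δ t := by
    have hSb : BddBelow S := ⟨0, fun t ht => (hS ht).1⟩
    have hSa : BddAbove S := ⟨L, fun t ht => (hS ht).2⟩
    by_cases h12 : sInf S < sSup S
    · have hne : S.Nonempty := by
        by_contra h
        rw [not_nonempty_iff_eq_empty] at h
        rw [h, Real.sInf_empty, Real.sSup_empty] at h12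
        exact lt_irrefl _ h12
      set t1 := sInf S with ht1
      set t2 := sSup S with ht2
      obtain ⟨s0, hs0⟩ := hne
      have hI1 : t1 ∈ Icc 0 L := ⟨le_csInf ⟨s0, hs0⟩ fun t ht => (hS ht).1,
        (csInf_le hSb hs0).trans (hS hs0).2⟩
      have hI2 : t2 ∈ Icc 0 L := ⟨(hS hs0).1.trans (le_csSup hSa hs0),
        csSup_le ⟨s0, hs0⟩ fun t ht => (hS ht).2⟩
      have hd : 0 < t2 - t1 := sub_pos.2 h12
      set β := (φ t2 - φ t1) / (t2 - t1) with hβ
      refine ⟨φ t1 - β * t1, β, div_nonneg (sub_nonneg.2 (hφm hI1 hI2 h12.le)) hd.le, ?_⟩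
      filter_upwards [Measure.ae_ne volume t1, Measure.ae_ne volume t2] with t hne1 hne2 ht
      rw [show φ t1 - β * t1 + β * t = φ t1 + β * (t - t1) by ring]
      rcases lt_or_gt_of_ne hne1 with h | h
      · refine mul_le_mul_of_nonpos_right ?_ (hn t ht fun hh => not_le.2 h (csInf_le hSb hh))
        have key := hφ.slope_mono_adjacent ht hI2 h h12
        rw [div_le_iff₀ (sub_pos.2 h)] at key
        linarith
      rcases lt_or_gt_of_ne hne2 with h' | h'
      · obtain ⟨u, hu, hut⟩ := exists_lt_of_csInf_lt ⟨s0, hs0⟩ h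
        obtain ⟨v, hv, htv⟩ := exists_lt_of_lt_csSup ⟨s0, hs0⟩ h'
        refine mul_le_mul_of_nonneg_right ?_ (hp t (hc.out hu hv ⟨hut.le, htv.le⟩))
        have key := hφ.slope_mono_adjacent hI1 hI2 h h'
        rw [div_le_div_iff₀ (sub_pos.2 h) (sub_pos.2 h')] at key
        rw [hβ, ← sub_le_iff_le_add', div_mul_eq_mul_div, le_div_iff₀ hd]
        nlinarith
      · refine mul_le_mul_of_nonpos_right ?_ (hn t ht fun hh => not_le.2 h' (le_csSup hSa hh))
        have key := hφ.slope_mono_adjacent hI1 ht h12 h'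
        rw [le_div_iff₀ (sub_pos.2 h')] at key
        have e : β * (t - t1) = β * (t - t2) + (φ t2 - φ t1) := by
          rw [hβ]; field_simp; ring
        linarith
    · refine ⟨φ 0, 0, le_rfl, ?_⟩
      filter_upwards [Measure.ae_ne volume (sInf S)] with t hne ht
      rw [zero_mul, add_zero]
      refine mul_le_mul_of_nonpos_right (hφm (left_mem_Icc.2 hL) ht ht.1) (hn t ht fun hh => hne ?_)
      exact le_antisymm ((le_csSup hSa hh).trans (not_lt.1 h12)) (csInf_le hSb hh)
  have hb : IntervalIntegrable (fun t => (α + β * t) * δ t) volume 0 L :=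
    ((hi.const_mul α).add (hit.const_mul β)).congr fun t _ => by ring
  have h := intervalIntegral.integral_mono_ae_restrict hL hiφ hb
    (by rw [EventuallyLE, ae_restrict_iff' measurableSet_Icc]; exact hpt)
  have e : ∫ t in (0:ℝ)..L, (α + β * t) * δ t = ∫ t in (0:ℝ)..L, (α * δ t + β * (t * δ t)) :=
    intervalIntegral.integral_congr fun t _ => by ring
  rw [e, intervalIntegral.integral_add (hi.const_mul α) (hit.const_mul β),
    intervalIntegral.integral_const_mul, intervalIntegral.integral_const_mul, h0] at h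
  linarith [mul_nonpos_of_nonneg_of_nonpos hβ h1]

/-- A line through `f 0 = 1` below `f` stays below on the left. -/
theorem line_le (P : HalfProf f) (h0 : f 0 = 1) {w s t : ℝ} (hw : 0 < w) (hs : 0 ≤ s) (hst : s ≤ t)
    (ht : t ≤ 1) (h : 1 - t / w ≤ f t) : 1 - s / w ≤ f s := by
  rcases (hs.trans hst).eq_or_lt with e | htp
  · rw [show s = 0 by linarith, h0, zero_div, sub_zero]
  · have hl : s / t ≤ 1 := (div_le_one htp).2 hst
    have hc := P.conc.2 (left_mem_Icc.2 zero_le_one) ⟨htp.le, ht⟩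
      (sub_nonneg.2 hl) (div_nonneg hs htp.le) (by ring)
    simp only [smul_eq_mul, mul_zero, zero_add, h0, div_mul_cancel₀ _ htp.ne', mul_one] at hc
    have h2 := mul_le_mul_of_nonneg_left h (div_nonneg hs htp.le)
    have e : s / t * (1 - t / w) = s / t - s / w := by field_simp
    linarith

theorem Z_le_one (P : HalfProf f) (h0 : f 0 = 1) : ∫ t in (0:ℝ)..1, f t ^ m ≤ 1 :=
  (intervalIntegral.integral_mono_on_of_le_Ioo zero_le_one
    (bounded_comp P h0 (continuous_pow m)) intervalIntegrable_const fun t ht =>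
      pow_le_one₀ (P.mem01' h0 ht).1.le (P.mem01' h0 ht).2).trans_eq (by simp)

theorem moment_cone (P : HalfProf f) (h0 : f 0 = 1) (hm : m ≠ 0) :
    ∫ t in (0:ℝ)..1, t * f t ^ m ≤
      ((m:ℝ) + 1) / ((m:ℝ) + 2) * (∫ t in (0:ℝ)..1, f t ^ m) ^ 2 := by
  set Z := ∫ t in (0:ℝ)..1, f t ^ m with hZdef
  have hZ : 0 < Z := Z_pos P (m := m)
  set w := ((m:ℝ) + 1) * Z with hw
  have hw0 : 0 < w := by positivity
  set L := 1 + w with hL
  have hL1 : 1 ≤ L := by linarith
  obtain ⟨iA, eA⟩ := int_hx (m := m) P h0 (φ := fun _ => (1:ℝ)) continuous_const hL1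
  obtain ⟨iB, eB⟩ := int_hx (m := m) P h0 (φ := fun t => t) continuous_id hL1
  have g0 := int_gL hm le_rfl hw0 (L := L) (by linarith) 0
  have g1 := int_gL hm le_rfl hw0 (L := L) (by linarith) 1
  simp only [zero_pow (Nat.succ_ne_zero _), zero_div, zero_add, pow_zero, pow_one, one_mul,
    mul_assoc w, intervalIntegral.integral_const_mul] at g0 g1
  have b0 := beta_int 0 m
  have b1 := beta_int 1 m
  simp only [pow_zero, one_mul, pow_one, Nat.factorial_zero, Nat.factorial_one, Nat.cast_one, zero_add,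
    mul_one] at b0 b1
  rw [b0] at g0
  rw [b1, show 1 + m + 1 = m + 1 + 1 by omega, Nat.factorial_succ (m + 1), Nat.factorial_succ m] at g1
  rw [Nat.factorial_succ] at g0
  simp only [one_mul] at iA eA
  set δ : ℝ → ℝ := fun t => hx m f t - gL 0 w t ^ m with hδ
  have iG : ∀ k : ℕ, IntervalIntegrable (fun t => t ^ k * gL 0 w t ^ m) volume 0 L := fun k =>
    ((continuous_pow k).mul ((continuous_gL 0 w).pow m)).intervalIntegrable _ _
  have iG0 : IntervalIntegrable (fun t => gL 0 w t ^ m) volume 0 L := by simpa using iG 0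
  have iG1 : IntervalIntegrable (fun t => t * gL 0 w t ^ m) volume 0 L := by simpa using iG 1
  set S : Set ℝ := {t | t ∈ Icc (0:ℝ) 1 ∧ gL 0 w t < f t} with hS
  have hSa : BddAbove S := ⟨1, fun t ht => ht.1.2⟩
  set t2 := sSup S with ht2
  have hf01 : ∀ t ∈ Icc (0:ℝ) 1, f t ∈ Icc (0:ℝ) 1 := fun t ht => P.mem01 h0 ht
  have hgl : ∀ t, 0 ≤ t → gL 0 w t = max 0 (1 - t / w) := fun t ht => by
    have := div_nonneg ht hw0.le
    rw [gL, sub_zero, min_eq_right (max_le zero_le_one (by linarith))]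
  have key : ∀ t ∈ Icc 0 L, (t - t2) * δ t ≤ 0 := by
    intro t ht
    rcases lt_trichotomy t t2 with h | h | h
    · refine mul_nonpos_of_nonpos_of_nonneg (by linarith) ?_
      have hne : S.Nonempty := by
        by_contra h'
        rw [not_nonempty_iff_eq_empty] at h'
        rw [ht2, h', Real.sSup_empty] at h
        linarith [ht.1]
      obtain ⟨v, hv, htv⟩ := exists_lt_of_lt_csSup hne h
      have ht1 : t ≤ 1 := htv.le.trans hv.1.2
      have hl : 1 - v / w ≤ f v := ((le_max_right _ _).trans_eq (hgl v hv.1.1).symm).trans hv.2.le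
      have hft := line_le P h0 hw0 ht.1 htv.le hv.1.2 hl
      simp only [hδ, hx, if_pos ht1, sub_nonneg]
      refine pow_le_pow_left₀ (gL_mem 0 w t).1 ?_ m
      rw [hgl t ht.1]
      exact max_le (hf01 t ⟨ht.1, ht1⟩).1 hft
    · rw [h, sub_self, zero_mul]
    · refine mul_nonpos_of_nonneg_of_nonpos (by linarith) ?_
      simp only [hδ, hx, sub_nonpos]
      split_ifs with ht1
      · exact pow_le_pow_left₀ (hf01 t ⟨ht.1, ht1⟩).1
          (not_lt.1 fun hh => not_le.2 h (le_csSup hSa ⟨⟨ht.1, ht1⟩, hh⟩)) m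
      · exact pow_nonneg (gL_mem 0 w t).1 m
  have hint := intervalIntegral.integral_mono_on (a := 0) (b := L) (f := fun t => (t - t2) * δ t)
    (g := fun _ => (0:ℝ)) (by linarith)
    (((iB.sub iG1).sub ((iA.sub iG0).const_mul t2)).congr fun t _ => by simp only [hδ]; ring)
    intervalIntegrable_const key
  rw [intervalIntegral.integral_congr (g := fun t => (t * hx m f t - t * gL 0 w t ^ m) -
      t2 * (hx m f t - gL 0 w t ^ m)) fun t _ => by simp only [hδ]; ring,
    intervalIntegral.integral_sub (iB.sub iG1) ((iA.sub iG0).const_mul t2),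
    intervalIntegral.integral_const_mul, intervalIntegral.integral_sub iB iG1,
    intervalIntegral.integral_sub iA iG0, eA, eB, g0, g1, intervalIntegral.integral_zero] at hint
  have hfm : (Nat.factorial m : ℝ) ≠ 0 := by positivity
  have e0 : w * ((Nat.factorial m : ℝ) / (((m + 1 : ℕ) : ℝ) * (Nat.factorial m : ℝ))) = Z := by
    rw [hw]; push_cast; field_simp
  have e1 : w * (w * ((Nat.factorial m : ℝ) / (((m + 1 + 1 : ℕ) : ℝ) * (((m + 1 : ℕ) : ℝ) * (Nat.factorial m : ℝ))))) =
      ((m:ℝ) + 1) / ((m:ℝ) + 2) * Z ^ 2 := by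
    rw [hw]; push_cast; field_simp; ring
  push_cast at hint e0 e1
  rw [e0, e1, ← hZdef, sub_self, mul_zero, sub_zero] at hint
  linarith

/-- `f (s + t) ≤ f s f t`. -/
theorem submul (P : HalfProf f) (h0 : f 0 = 1) {s t : ℝ} (hs : 0 ≤ s) (ht : 0 ≤ t)
    (h1 : s + t ≤ 1) : f (s + t) ≤ f s * f t := by
  rcases (add_nonneg hs ht).eq_or_lt with e | hp
  · rw [show s = 0 by linarith, show t = 0 by linarith, add_zero, h0, one_mul]
  · set x := f (s + t) with hxd
    have hx := P.mem01 h0 ⟨hp.le, h1⟩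
    set l := s / (s + t) with hl
    have hl0 : 0 ≤ l := div_nonneg hs hp.le
    have hl1 : 0 ≤ 1 - l := sub_nonneg.2 ((div_le_one hp).2 (by linarith))
    have el : l * (s + t) = s := div_mul_cancel₀ _ hp.ne'
    have a := P.conc.2 (left_mem_Icc.2 zero_le_one) (show s + t ∈ Icc (0:ℝ) 1 from ⟨hp.le, h1⟩)
      hl1 hl0 (by ring)
    have b := P.conc.2 (left_mem_Icc.2 zero_le_one) (show s + t ∈ Icc (0:ℝ) 1 from ⟨hp.le, h1⟩)
      hl0 hl1 (by ring)
    simp only [smul_eq_mul, mul_zero, zero_add, h0, mul_one] at a b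
    rw [el] at a
    rw [show (1 - l) * (s + t) = t by linarith] at b
    have hb : 0 ≤ l + (1 - l) * x := add_nonneg hl0 (mul_nonneg hl1 hx.1)
    refine le_trans ?_ (mul_le_mul a b hb (P.nonneg s ⟨hs, by linarith⟩))
    nlinarith [mul_nonneg (mul_nonneg hl0 hl1) (sq_nonneg (1 - x))]

/-- **The first moment against the slope functional.** -/
theorem moment_entropy (P : HalfProf f) (h0 : f 0 = 1) (hm : 2 ≤ m) :
    2 * (∫ t in (0:ℝ)..1, t * f t ^ m) ≤ (∫ t in (0:ℝ)..1, f t ^ m) ^ 2 +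
      (∫ t in (0:ℝ)..1, f t ^ m) *
        ((m:ℝ) * ((∫ t in (0:ℝ)..1, f t ^ (m - 1)) - ∫ t in (0:ℝ)..1, f t ^ m)) := by
  have ih : IntervalIntegrable (fun t => f t ^ m) volume 0 1 :=
    bounded_comp P h0 (continuous_pow m)
  have ip : IntervalIntegrable (fun t => f t ^ (m - 1)) volume 0 1 :=
    bounded_comp P h0 (continuous_pow (m - 1))
  set Z := ∫ t in (0:ℝ)..1, f t ^ m with hZdef
  have hZ : 0 < Z := Z_pos P (m := m)
  set G : ℝ → ℝ := fun t => ∫ x in t..1, f x ^ m with hG
  have hsub : ∀ {a b : ℝ}, a ∈ Icc (0:ℝ) 1 → b ∈ Icc (0:ℝ) 1 → uIcc a b ⊆ uIcc (0:ℝ) 1 :=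
    fun ha hb => by rw [uIcc_of_le zero_le_one]; exact uIcc_subset_Icc ha hb
  have hGc : ContinuousOn G (Icc 0 1) := by
    have h := intervalIntegral.continuousOn_primitive_interval_left
      (μ := volume) (a := (0:ℝ)) (b := 1) (f := fun x => f x ^ m)
      ((intervalIntegrable_iff_integrableOn_Icc_of_le zero_le_one).1 ih |>.mono_set
        (by rw [uIcc_of_le zero_le_one]))
    rwa [uIcc_of_le zero_le_one] at h
  have hpc : ContinuousOn (fun t => f t ^ m) (Ioo 0 1) :=
    (P.continuousOn.mono Ioo_subset_Ico_self).pow m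
  have hGd : ∀ t ∈ Ioo (0:ℝ) 1, HasDerivAt G (-(f t ^ m)) t := fun t ht =>
    intervalIntegral.integral_hasDerivAt_left
      (ih.mono_set (hsub (Ioo_subset_Icc_self ht) (right_mem_Icc.2 zero_le_one)))
      (hpc.stronglyMeasurableAtFilter isOpen_Ioo t ht) (hpc.continuousAt (isOpen_Ioo.mem_nhds ht))
  -- `G ≤ f^m Z` and `G ≤ f^m (1 - t)`
  have hG0 : ∀ t ∈ Icc (0:ℝ) 1, 0 ≤ G t := fun t ht =>
    intervalIntegral.integral_nonneg ht.2 fun x hx =>
      pow_nonneg (P.nonneg x ⟨ht.1.trans hx.1, hx.2⟩) m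
  have hG1 : ∀ t ∈ Icc (0:ℝ) 1, G t ≤ f t ^ m * Z ∧ G t ≤ f t ^ m * (1 - t) := fun t ht => by
    have hft : 0 ≤ f t ^ m := pow_nonneg (P.nonneg t ht) m
    have hsh : IntervalIntegrable (fun x => f x ^ m) volume 0 (1 - t) :=
      ih.mono_set (hsub (left_mem_Icc.2 zero_le_one) ⟨by linarith [ht.2], by linarith [ht.1]⟩)
    have i1 := (ih.mono_set (hsub ht (right_mem_Icc.2 zero_le_one))).comp_add_left t
    rw [sub_self] at i1
    have e : G t = ∫ x in (0:ℝ)..(1 - t), f (t + x) ^ m := by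
      rw [hG, intervalIntegral.integral_comp_add_left (fun x => f x ^ m) t, add_zero,
        add_sub_cancel]
    have h1 : G t ≤ f t ^ m * ∫ x in (0:ℝ)..(1 - t), f x ^ m := by
      rw [e, ← intervalIntegral.integral_const_mul]
      refine intervalIntegral.integral_mono_on (by linarith [ht.2]) i1 (hsh.const_mul _)
        fun x hx => ?_
      rw [← mul_pow]
      exact pow_le_pow_left₀ (P.nonneg _ ⟨by linarith [ht.1, hx.1], by linarith [hx.2]⟩)
        (submul P h0 ht.1 hx.1 (by linarith [hx.2])) m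
    refine ⟨h1.trans (mul_le_mul_of_nonneg_left ?_ hft),
      h1.trans (mul_le_mul_of_nonneg_left ?_ hft)⟩
    · exact intervalIntegral.integral_mono_interval le_rfl (by linarith [ht.2]) (by linarith [ht.1])
        ((ae_restrict_iff' measurableSet_Ioc).2 (.of_forall fun x hx =>
          pow_nonneg (P.nonneg x (Ioc_subset_Icc_self hx)) m)) ih
    · refine (intervalIntegral.integral_mono_on (by linarith [ht.2]) hsh intervalIntegrable_const
        fun x hx => pow_le_one₀ (P.mem01 h0 ⟨hx.1, by linarith [hx.2, ht.1]⟩).1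
          (P.mem01 h0 ⟨hx.1, by linarith [hx.2, ht.1]⟩).2).trans_eq (by simp)
  -- `∫ G = ∫ t f^m`
  have iG : IntervalIntegrable G volume 0 1 := hGc.intervalIntegrable_of_Icc zero_le_one
  have it : IntervalIntegrable (fun t => t * f t ^ m) volume 0 1 :=
    ih.continuousOn_mul continuousOn_id
  have hM : ∫ t in (0:ℝ)..1, G t = ∫ t in (0:ℝ)..1, t * f t ^ m := by
    have h := intervalIntegral.integral_eq_sub_of_hasDerivAt_of_le zero_le_one
      (f := fun t => t * G t) (f' := fun t => G t - t * f t ^ m) (continuousOn_id.mul hGc)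
      (fun t ht => ((hasDerivAt_id' t).mul (hGd t ht)).congr_deriv (by ring)) (iG.sub it)
    rw [intervalIntegral.integral_sub iG it] at h
    simp only [hG, intervalIntegral.integral_same, mul_zero, zero_mul, sub_zero] at h
    linarith
  set N : ℝ → ℝ := fun t => 2 * G t - Z * (m:ℝ) * (f t ^ (m - 1) - f t ^ m) with hN
  have iN : IntervalIntegrable N volume 0 1 := (iG.const_mul 2).sub ((ip.sub ih).const_mul _)
  -- on `[0, b]`
  have hb : ∀ b ∈ Ioo (0:ℝ) 1, ∫ t in (0:ℝ)..b, N t ≤ Z ^ 2 + Z * (m:ℝ) * (1 - b) := by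
    intro b hb
    set H : ℝ → ℝ := fun t =>
      -(G t * G t * (f t ^ m)⁻¹) + Z * (m:ℝ) * (G t * ((f t)⁻¹ - 1)) with hH
    have hcf : ContinuousOn f (Icc 0 b) :=
      P.continuousOn.mono fun t ht => ⟨ht.1, ht.2.trans_lt hb.2⟩
    have hne : ∀ t ∈ Icc 0 b, f t ≠ 0 := fun t ht => (P.pos t ⟨ht.1, ht.2.trans_lt hb.2⟩).ne'
    have hcG : ContinuousOn G (Icc 0 b) := hGc.mono (Icc_subset_Icc le_rfl hb.2.le)
    have hHc : ContinuousOn H (Icc 0 b) :=
      ((hcG.mul hcG).mul ((hcf.pow m).inv₀ fun t ht => pow_ne_zero m (hne t ht))).neg.add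
        (continuousOn_const.mul (hcG.mul ((hcf.inv₀ hne).sub continuousOn_const)))
    have iz : IntervalIntegrable (fun _ => (0:ℝ)) volume 0 b := intervalIntegrable_const
    have h := calibration_ftc_open (H := H) (N := N) (G := fun _ => 0) hb.1.le hHc
      (fun a' b' ha hab hb' => ?_)
      (iN.mono_set (hsub (left_mem_Icc.2 zero_le_one) (Ioo_subset_Icc_self hb))) iz ?_
    · rw [intervalIntegral.integral_zero, zero_add] at h
      refine h.trans ?_
      have eG0 : G 0 = Z := rfl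
      have h0' : H 0 = -Z ^ 2 := by simp [hH, eG0, h0]; ring
      have hfb := P.mem01' h0 hb
      have hGb := hG0 b (Ioo_subset_Icc_self hb)
      have h1 : G b * ((f b)⁻¹ - 1) ≤ 1 - b := by
        refine (mul_le_mul_of_nonneg_left (sub_le_self _ zero_le_one) hGb).trans ?_
        rw [← div_eq_mul_inv, div_le_iff₀ hfb.1]
        refine ((hG1 b (Ioo_subset_Icc_self hb)).2).trans ?_
        rw [mul_comm (1 - b)]
        exact mul_le_mul_of_nonneg_right (pow_le_of_le_one hfb.1.le hfb.2 (by omega))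
          (by linarith [hb.2])
      have h2 : 0 ≤ G b * G b * (f b ^ m)⁻¹ :=
        mul_nonneg (mul_nonneg hGb hGb) (inv_nonneg.2 (pow_nonneg hfb.1.le m))
      have h3 := mul_le_mul_of_nonneg_left h1 (mul_nonneg hZ.le (Nat.cast_nonneg m : (0:ℝ) ≤ m))
      simp only [h0']
      simp only [hH]
      linarith
    · have hI : ∀ t ∈ Icc a' b', t ∈ Ioo (0:ℝ) 1 := fun t ht =>
        ⟨ha.trans_le ht.1, (ht.2.trans_lt hb').trans hb.2⟩
      have hfl : ∃ L, LipschitzOnWith L f (Icc a' b') := by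
        obtain ⟨L, hL⟩ := P.lp (r := b') (hb'.trans hb.2)
        exact ⟨L, hL.mono (Icc_subset_Icc ha.le le_rfl)⟩
      have hmem : MapsTo f (Icc a' b') (Icc (f b') 1) := fun t ht =>
        ⟨P.anti (Ioo_subset_Icc_self (hI t ht)) (Ioo_subset_Icc_self
          (hI b' (right_mem_Icc.2 hab))) ht.2, (P.mem01' h0 (hI t ht)).2⟩
      have hfb : 0 < f b' := (P.mem01' h0 (hI b' (right_mem_Icc.2 hab))).1
      have lG := lip_comp (g := fun t => t) (φ := G) (φ' := fun t => -(f t ^ m))
        (lo := a') (hi := b') ⟨1, LipschitzWith.id.lipschitzOnWith⟩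
        (fun t ht => hGd t (hI t ht)) ((hpc.mono fun t ht => hI t ht).neg) (mapsTo_id _)
      have l1 := lip_comp hfl (φ := fun x => (x ^ m)⁻¹)
        (φ' := fun x => -((m:ℝ) * x ^ (m - 1)) / (x ^ m) ^ 2)
        (fun x hx => (hasDerivAt_pow m x).fun_inv (pow_ne_zero m (hfb.trans_le hx.1).ne'))
        (ContinuousOn.div (by fun_prop) (by fun_prop)
          fun x hx => pow_ne_zero 2 (pow_ne_zero m (hfb.trans_le hx.1).ne')) hmem
      have l2 := lip_comp hfl (φ := fun x => x⁻¹ - 1) (φ' := fun x => -(x ^ 2)⁻¹)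
        (fun x hx => (hasDerivAt_inv (hfb.trans_le hx.1).ne').sub_const 1)
        (ContinuousOn.neg (ContinuousOn.inv₀ (by fun_prop)
          fun x hx => pow_ne_zero 2 (hfb.trans_le hx.1).ne')) hmem
      obtain ⟨La, hLa⟩ := lip_mul (lip_mul lG lG) l1
      obtain ⟨Lb, hLb⟩ := lip_mul (g := fun _ => Z * (m:ℝ))
        ⟨0, (LipschitzWith.const _).lipschitzOnWith⟩ (lip_mul lG l2)
      exact ⟨_, hLa.neg.add hLb⟩
    · filter_upwards [P.ae_diff] with t htd ht
      have ht1 : t ∈ Ioo (0:ℝ) 1 := ⟨ht.1, ht.2.trans hb.2⟩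
      have hd := (htd ht1).hasDerivAt
      obtain ⟨hfp, hf1⟩ := P.mem01' h0 ht1
      have hd0 : deriv f t ≤ 0 := by
        rw [← derivWithin_of_isOpen (s := Ioo (0:ℝ) 1) isOpen_Ioo ht1]
        exact (P.anti.mono Ioo_subset_Icc_self).derivWithin_nonpos
      have hD := (((hGd t ht1).mul (hGd t ht1)).mul
          ((hd.fun_pow m).fun_inv (pow_ne_zero m hfp.ne'))).neg.add
        (((hGd t ht1).mul ((hd.fun_inv hfp.ne').sub_const 1)).const_mul (Z * (m:ℝ)))
      have hdH : deriv H t = _ := hD.deriv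
      rw [hdH, zero_add]
      obtain ⟨k, rfl⟩ : ∃ k, m = k + 1 := ⟨m - 1, by omega⟩
      simp only [hN, Nat.add_sub_cancel, pow_succ, Pi.mul_apply]
      have hGt := hG0 t (Ioo_subset_Icc_self ht1)
      have hGZ := (hG1 t (Ioo_subset_Icc_self ht1)).1
      rw [pow_succ] at hGZ
      set A := f t ^ k with hA
      have hA0 : 0 < A := pow_pos hfp k
      have hbr : 0 ≤ Z / f t ^ 2 - G t / (A * f t * f t) := by
        rw [sub_nonneg, div_le_div_iff₀ (by positivity) (by positivity)]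
        calc G t * f t ^ 2 ≤ A * f t * Z * f t ^ 2 :=
              mul_le_mul_of_nonneg_right hGZ (sq_nonneg _)
          _ ≤ A * f t * Z * f t := mul_le_mul_of_nonneg_left (by nlinarith) (by positivity)
          _ = Z * (A * f t * f t) := by ring
      have h' := mul_nonneg (mul_nonneg (mul_nonneg hGt (Nat.cast_nonneg (k + 1) : (0:ℝ) ≤ _))
        (neg_nonneg.2 hd0)) hbr
      refine le_of_sub_nonneg (h'.trans_eq ?_)
      field_simp
      ring
  have hlim : ∫ t in (0:ℝ)..1, N t ≤ Z ^ 2 := by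
    have hc := intervalIntegral.continuousOn_primitive_interval' iN (left_mem_uIcc (a := (0:ℝ)))
    rw [uIcc_of_le zero_le_one] at hc
    have t1 : Tendsto (fun b => (∫ t in (0:ℝ)..b, N t) - Z * (m:ℝ) * (1 - b)) (𝓝[<] 1)
        (𝓝 (∫ t in (0:ℝ)..1, N t)) := by
      have a := (hc 1 (right_mem_Icc.2 zero_le_one)).tendsto.mono_left
        (show 𝓝[<] (1:ℝ) ≤ 𝓝[Icc 0 1] 1 from nhdsWithin_le_iff.2
          (mem_of_superset (Ioo_mem_nhdsLT one_pos) Ioo_subset_Icc_self))
      have b : Tendsto (fun b : ℝ => Z * (m:ℝ) * (1 - b)) (𝓝[<] 1) (𝓝 0) := by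
        have := ((by fun_prop : Continuous fun b : ℝ => Z * (m:ℝ) * (1 - b)).tendsto 1).mono_left
          (nhdsWithin_le_nhds (s := Iio 1))
        simpa using this
      simpa using a.sub b
    refine le_of_tendsto t1 ?_
    filter_upwards [Ioo_mem_nhdsLT one_pos] with b hb'
    linarith [hb b hb']
  rw [intervalIntegral.integral_sub (iG.const_mul 2) ((ip.sub ih).const_mul _),
    intervalIntegral.integral_const_mul, intervalIntegral.integral_const_mul,
    intervalIntegral.integral_sub ip ih, hM] at hlim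
  rw [mul_assoc Z] at hlim
  linarith

/-! ### The bound through the gauge -/

/-- `ℓ = m c ∫ f^(m-1) - (m-1) ∫ f^m`. -/
noncomputable def ell (m : ℕ) (f : ℝ → ℝ) : ℝ :=
  (m:ℝ) * cst m * (∫ t in (0:ℝ)..1, f t ^ (m - 1)) - ((m:ℝ) - 1) * ∫ t in (0:ℝ)..1, f t ^ m

theorem ell_eq (m : ℕ) (f : ℝ → ℝ) : ell m f = (1 - (m:ℝ) * quad m) * (∫ t in (0:ℝ)..1, f t ^ m) +
    cst m * ((m:ℝ) * ((∫ t in (0:ℝ)..1, f t ^ (m - 1)) - ∫ t in (0:ℝ)..1, f t ^ m)) := by
  rw [ell, quad]; ring

theorem mD_nonneg (P : HalfProf f) (h0 : f 0 = 1) :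
    0 ≤ (m:ℝ) * ((∫ t in (0:ℝ)..1, f t ^ (m - 1)) - ∫ t in (0:ℝ)..1, f t ^ m) :=
  mul_nonneg (Nat.cast_nonneg m) (sub_nonneg.2 (intervalIntegral.integral_mono_on_of_le_Ioo
    zero_le_one (bounded_comp P h0 (continuous_pow m))
    (bounded_comp P h0 (continuous_pow (m - 1)))
    fun t ht => pow_le_pow_of_le_one (P.mem01' h0 ht).1.le (P.mem01' h0 ht).2 (Nat.sub_le m 1)))

theorem convexOn_pow_Icc (k : ℕ) (L : ℝ) : ConvexOn ℝ (Icc 0 L) fun t : ℝ => t ^ k :=
  (convexOn_pow k).subset Icc_subset_Ici_self (convex_Icc _ _)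

/-- The moment of a profile against the extremal profile with parameter `β`. -/
theorem moment_le_beta (P : HalfProf f) (h0 : f 0 = 1) (hm : m ≠ 0) {β : ℝ} (hβ : β ∈ Ioc (0:ℝ) 1)
    (hM : 2 * (∫ t in (0:ℝ)..1, t * f t ^ m) - (∫ t in (0:ℝ)..1, f t ^ m) ^ 2 ≤
      (β * ∫ t in (0:ℝ)..1, f t ^ m) ^ 2 * ((m:ℝ) / ((m:ℝ) + 2))) (k : ℕ) :
    ∫ t in (0:ℝ)..1, t ^ k * f t ^ m ≤ (∫ t in (0:ℝ)..1, f t ^ m) ^ (k + 1) *
      ((1 - β) ^ (k + 1) / ((k:ℝ) + 1) +
        ∑ j ∈ Finset.range (k + 1), (k.choose j : ℝ) * (Nat.factorial j : ℝ) * (1 - β) ^ (k - j) * β ^ (j + 1)) := by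
  set Z := ∫ t in (0:ℝ)..1, f t ^ m with hZdef
  have hZ : 0 < Z := Z_pos P (m := m)
  set a := (1 - β) * Z with ha'
  set w := ((m:ℝ) + 1) * (β * Z) with hw'
  have ha : 0 ≤ a := mul_nonneg (sub_nonneg.2 hβ.2) hZ.le
  have hB : 0 < β * Z := mul_pos hβ.1 hZ
  have hw : 0 < w := by positivity
  set L := 1 + a + w with hLdef
  have hL0 : 0 ≤ L := by linarith
  have hL1 : 1 ≤ L := by linarith
  set δ : ℝ → ℝ := fun t => hx m f t - gL a w t ^ m with hδ
  set S : Set ℝ := {t | t ∈ Icc (0:ℝ) 1 ∧ gL a w t < f t} with hS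
  have hf01 : ∀ t ∈ Icc (0:ℝ) 1, f t ∈ Icc (0:ℝ) 1 := fun t ht => P.mem01 h0 ht
  have iG : ∀ j : ℕ, IntervalIntegrable (fun t => t ^ j * gL a w t ^ m) volume 0 L := fun j =>
    ((continuous_pow j).mul ((continuous_gL a w).pow m)).intervalIntegrable _ _
  have iA : ∀ j : ℕ, IntervalIntegrable (fun t => t ^ j * δ t) volume 0 L := fun j =>
    ((int_hx (m := m) P h0 (continuous_pow j) hL1).1.sub (iG j)).congr fun t _ => by
      simp only [hδ]; ring
  have eA : ∀ j : ℕ, ∫ t in (0:ℝ)..L, t ^ j * δ t = (∫ t in (0:ℝ)..1, t ^ j * f t ^ m) -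
      ∫ t in (0:ℝ)..L, t ^ j * gL a w t ^ m := fun j => by
    rw [← (int_hx (m := m) P h0 (continuous_pow j) hL1).2,
      ← intervalIntegral.integral_sub (int_hx (m := m) P h0 (continuous_pow j) hL1).1 (iG j)]
    exact intervalIntegral.integral_congr fun t _ => by simp only [hδ]; ring
  have hb0 := int_gL hm ha hw (L := L) (by linarith) 0
  have hb1 := int_gL hm ha hw (L := L) (by linarith) 1
  have b0 := beta_int 0 m
  have b1 := beta_int 1 m
  simp only [pow_zero, one_mul, pow_one, Nat.factorial_zero, Nat.factorial_one, Nat.cast_one,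
    zero_add] at b0 b1
  rw [show 1 + m + 1 = m + 1 + 1 by omega, Nat.factorial_succ (m + 1), Nat.factorial_succ m] at b1
  rw [Nat.factorial_succ m] at b0
  have e1 : ∫ s in (0:ℝ)..1, (a + w * s) ^ 1 * (1 - s) ^ m =
      a * (∫ s in (0:ℝ)..1, (1 - s) ^ m) + w * ∫ s in (0:ℝ)..1, s * (1 - s) ^ m := by
    rw [← intervalIntegral.integral_const_mul, ← intervalIntegral.integral_const_mul,
      ← intervalIntegral.integral_add (Continuous.intervalIntegrable (by fun_prop) _ _)
        (Continuous.intervalIntegrable (by fun_prop) _ _)]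
    exact intervalIntegral.integral_congr fun s _ => by ring
  have hfm : (Nat.factorial m : ℝ) ≠ 0 := by positivity
  rw [e1, b0, b1] at hb1
  simp only [pow_zero, one_mul] at hb0
  rw [b0] at hb0
  have c0 : ∫ t in (0:ℝ)..L, t ^ 0 * gL a w t ^ m = Z := by
    simp only [pow_zero, one_mul]
    rw [hb0, ha', hw']; push_cast; field_simp; ring
  have c1 : ∫ t in (0:ℝ)..L, t ^ 1 * gL a w t ^ m =
      Z ^ 2 / 2 + (β * Z) ^ 2 * ((m:ℝ) / ((m:ℝ) + 2)) / 2 := by
    rw [hb1, ha', hw']; push_cast; field_simp; ring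
  have z0 : ∫ t in (0:ℝ)..L, δ t = 0 := by
    have := eA 0
    rw [c0] at this
    simp only [pow_zero, one_mul] at this
    rw [this, hZdef, sub_self]
  have z1 : ∫ t in (0:ℝ)..L, t * δ t ≤ 0 := by
    have := eA 1
    rw [c1] at this
    simp only [pow_one] at this
    linarith
  have hgT : ∀ t, gL a w t = 1 ∨ gL a w t = max 0 (1 - (t - a) / w) := fun t => by
    rw [gL]; exact min_choice _ _
  have hsS : S ⊆ Icc 0 L := fun t ht => ⟨ht.1.1, ht.1.2.trans hL1⟩
  have hcS : OrdConnected S := by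
    refine ⟨fun u hu v hv t ht => ?_⟩
    have ht1 : t ∈ Icc (0:ℝ) 1 := ⟨hu.1.1.trans ht.1, ht.2.trans hv.1.2⟩
    refine ⟨ht1, ?_⟩
    rcases ht.2.eq_or_lt with e | htv
    · rw [e]; exact hv.2
    rcases ht.1.eq_or_lt with e | hut
    · rw [← e]; exact hu.2
    have hau : a < u := lt_of_not_ge fun h => by
      have := hu.2
      rw [gL_left hw h] at this
      linarith [(hf01 u hu.1).2]
    have hg : ∀ s, a < s → gL a w s = max 0 (1 - (s - a) / w) := fun s hs => by
      have : 0 ≤ (s - a) / w := div_nonneg (by linarith) hw.le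
      rw [gL, min_eq_right (max_le zero_le_one (by linarith))]
    rw [hg t (hau.trans hut), max_lt_iff]
    refine ⟨P.pos t ⟨ht1.1, htv.trans_le hv.1.2⟩, ?_⟩
    have hvu : 0 < v - u := by linarith
    have hc := P.conc.2 hu.1 hv.1 (div_nonneg (sub_nonneg.2 ht.2) hvu.le)
      (div_nonneg (sub_nonneg.2 ht.1) hvu.le) (by field_simp; ring)
    simp only [smul_eq_mul] at hc
    rw [show (v - t) / (v - u) * u + (t - u) / (v - u) * v = t by field_simp; ring] at hc
    have h1 := mul_lt_mul_of_pos_left ((le_max_right _ _).trans_lt (hg u hau ▸ hu.2))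
      (div_pos (sub_pos.2 htv) hvu)
    have h2 := mul_lt_mul_of_pos_left
      ((le_max_right _ _).trans_lt (hg v (hau.trans (hut.trans htv)) ▸ hv.2))
      (div_pos (sub_pos.2 hut) hvu)
    refine lt_of_lt_of_le (lt_of_eq_of_lt ?_ (add_lt_add h1 h2)) hc
    field_simp
    ring
  have hres := cross_two hL0 (φ := fun t => t ^ k) (δ := δ) hsS hcS
    (fun t ht => by
      simp only [hδ, hx, if_pos ht.1.2, sub_nonneg]
      exact pow_le_pow_left₀ (gL_mem a w t).1 ht.2.le m)
    (fun t ht hns => by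
      simp only [hδ, hx, sub_nonpos]
      split_ifs with ht1
      · exact pow_le_pow_left₀ (hf01 t ⟨ht.1, ht1⟩).1 (not_lt.1 fun hh => hns ⟨⟨ht.1, ht1⟩, hh⟩) m
      · exact pow_nonneg (gL_mem a w t).1 m)
    (convexOn_pow_Icc k L) (fun x hx y _ hxy => pow_le_pow_left₀ hx.1 hxy k)
    (by simpa using iA 0) (by simpa using iA 1) (iA k) z0 z1
  rw [eA k] at hres
  refine (sub_nonpos.1 hres).trans ((int_gL_le hm ha hB (by linarith) k).trans_eq ?_)
  rw [mul_add, Finset.mul_sum, ha', mul_pow, mul_div_assoc]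
  congr 1
  · ring
  refine Finset.sum_congr rfl fun j hj => ?_
  rw [Finset.mem_range] at hj
  rw [show Z ^ (k + 1) = Z ^ (k - j) * Z ^ (j + 1) by rw [← pow_add]; congr 1; omega, mul_pow,
    mul_pow]
  ring

theorem poly4 {β : ℝ} (h0 : 0 ≤ β) (h1 : β ≤ 1) :
    (1 - β) ^ 5 / 5 + 1 * (1 - β) ^ 4 * β ^ 1 + 4 * (1 - β) ^ 3 * β ^ 2 + 12 * (1 - β) ^ 2 * β ^ 3 + 24 * (1 - β) ^ 1 * β ^ 4 + 24 * (1 - β) ^ 0 * β ^ 5 ≤
      (39/5) * (1 / 2 + 23 / 25 * (β ^ 2 - 1 / 10000)) ^ 4 := by
  rw [← sub_nonneg]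
  rcases le_total β (1/2 : ℝ) with hb | hb
  · obtain ⟨x, hx, hx0, hx1⟩ : ∃ x : ℝ, β = 0 + (1/2) * x ∧ 0 ≤ x ∧ x ≤ 1 :=
      ⟨(β - 0) / (1/2), by ring, by linarith, by linarith⟩
    obtain ⟨y, hy, hy0⟩ : ∃ y : ℝ, y = 1 - x ∧ 0 ≤ y := ⟨1 - x, rfl, by linarith⟩
    refine le_of_le_of_eq (show (0:ℝ) ≤
        (5608228496419004413799/19531250000000000000000) * x ^ 0 * y ^ 8 +
        (5608228496419004413799/2441406250000000000000) * x ^ 1 * y ^ 7 +
        (41193658786949183899093/4882812500000000000000) * x ^ 2 * y ^ 6 +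
        (43845074285981489904093/2441406250000000000000) * x ^ 3 * y ^ 5 +
        (46100912875769195161593/1953125000000000000000) * x ^ 4 * y ^ 4 +
        (46288624770040792171593/2441406250000000000000) * x ^ 5 * y ^ 3 +
        (42429269448779644684093/4882812500000000000000) * x ^ 6 * y ^ 2 +
        (4774193469929319671299/2441406250000000000000) * x ^ 7 * y ^ 1 +
        (3446218255376078923799/19531250000000000000000) * x ^ 8 * y ^ 0 by positivity) ?_
    rw [hy, hx]; ring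
  · obtain ⟨x, hx, hx0, hx1⟩ : ∃ x : ℝ, β = (1/2) + (1/2) * x ∧ 0 ≤ x ∧ x ≤ 1 :=
      ⟨(β - (1/2)) / (1/2), by ring, by linarith, by linarith⟩
    obtain ⟨y, hy, hy0⟩ : ∃ y : ℝ, y = 1 - x ∧ 0 ≤ y := ⟨1 - x, rfl, by linarith⟩
    refine le_of_le_of_eq (show (0:ℝ) ≤
        (3446218255376078923799/19531250000000000000000) * x ^ 0 * y ^ 8 +
        (2118243040822838176299/2441406250000000000000) * x ^ 1 * y ^ 7 +
        (5245963441288903754093/4882812500000000000000) * x ^ 2 * y ^ 6 +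
        (242962749634643276593/2441406250000000000000) * x ^ 3 * y ^ 5 +
        (10651488824107563301593/1953125000000000000000) * x ^ 4 * y ^ 4 +
        (58365165616273012579093/2441406250000000000000) * x ^ 5 * y ^ 3 +
        (185341999225388711109093/4882812500000000000000) * x ^ 6 * y ^ 2 +
        (67071860315854696448799/2441406250000000000000) * x ^ 7 * y ^ 1 +
        (150499216890956852453799/19531250000000000000000) * x ^ 8 * y ^ 0 by positivity) ?_
    rw [hy, hx]; ring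

theorem poly6 {β : ℝ} (h0 : 0 ≤ β) (h1 : β ≤ 1) :
    (1 - β) ^ 7 / 7 + 1 * (1 - β) ^ 6 * β ^ 1 + 6 * (1 - β) ^ 5 * β ^ 2 + 30 * (1 - β) ^ 4 * β ^ 3 + 120 * (1 - β) ^ 3 * β ^ 4 + 360 * (1 - β) ^ 2 * β ^ 5 + 720 * (1 - β) ^ 1 * β ^ 6 + 720 * (1 - β) ^ 0 * β ^ 7 ≤
      126 * (1 / 2 + 23 / 25 * (β ^ 2 - 1 / 10000)) ^ 6 := by
  rw [← sub_nonneg]
  rcases le_total β (1/2 : ℝ) with hb | hb
  · obtain ⟨x, hx, hx0, hx1⟩ : ∃ x : ℝ, β = 0 + (1/2) * x ∧ 0 ≤ x ∧ x ≤ 1 :=
      ⟨(β - 0) / (1/2), by ring, by linarith, by linarith⟩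
    obtain ⟨y, hy, hy0⟩ : ∃ y : ℝ, y = 1 - x ∧ 0 ≤ y := ⟨1 - x, rfl, by linarith⟩
    refine le_of_le_of_eq (show (0:ℝ) ≤
        (1558354796991361070499604211577049/854492187500000000000000000000000) * x ^ 0 * y ^ 12 +
        (4675064390974083211498812634731147/213623046875000000000000000000000) * x ^ 1 * y ^ 11 +
        (53424687153570356504953230591675117/427246093750000000000000000000000) * x ^ 2 * y ^ 10 +
        (19087475858041662953961937936980039/42724609375000000000000000000000) * x ^ 3 * y ^ 9 +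
        (188922611502136962730647698088262851/170898437500000000000000000000000) * x ^ 4 * y ^ 8 +
        (211931747751287171527417726078852851/106811523437500000000000000000000) * x ^ 5 * y ^ 7 +
        (80247759098947297581355177095280117/30517578125000000000000000000000) * x ^ 6 * y ^ 6 +
        (274244272831769347705134079884225351/106811523437500000000000000000000) * x ^ 7 * y ^ 5 +
        (309317360224867998400942313967757851/170898437500000000000000000000000) * x ^ 8 * y ^ 4 +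
        (37762667812316832426241371005437539/42724609375000000000000000000000) * x ^ 9 * y ^ 3 +
        (118860828322407961837948531978005117/427246093750000000000000000000000) * x ^ 10 * y ^ 2 +
        (10588790849673832218735811120393647/213623046875000000000000000000000) * x ^ 11 * y ^ 1 +
        (3215898314054722258845973274592049/854492187500000000000000000000000) * x ^ 12 * y ^ 0 by positivity) ?_
    rw [hy, hx]; ring
  · skip
    rcases le_total β (3/4 : ℝ) with hb | hb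
    · obtain ⟨x, hx, hx0, hx1⟩ : ∃ x : ℝ, β = (1/2) + (1/4) * x ∧ 0 ≤ x ∧ x ≤ 1 :=
        ⟨(β - (1/2)) / (1/4), by ring, by linarith, by linarith⟩
      obtain ⟨y, hy, hy0⟩ : ∃ y : ℝ, y = 1 - x ∧ 0 ≤ y := ⟨1 - x, rfl, by linarith⟩
      refine le_of_le_of_eq (show (0:ℝ) ≤
          (3215898314054722258845973274592049/854492187500000000000000000000000) * x ^ 0 * y ^ 12 +
          (9177146988409334055438974175467397/213623046875000000000000000000000) * x ^ 1 * y ^ 11 +
          (46890303939773443284829882573232871/213623046875000000000000000000000) * x ^ 2 * y ^ 10 +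
          (3525801911116408973593952915053833/5340576171875000000000000000000) * x ^ 3 * y ^ 9 +
          (13813443034734451875882676881593811/10681152343750000000000000000000) * x ^ 4 * y ^ 8 +
          (23049617886870121990020564297701997/13351440429687500000000000000000) * x ^ 5 * y ^ 7 +
          (3062779279438797362267617645306687/1907348632812500000000000000000) * x ^ 6 * y ^ 6 +
          (445079585448125042631529346266371/417232513427734375000000000000) * x ^ 7 * y ^ 5 +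
          (91005588748388786484669806829249/166893005371093750000000000000) * x ^ 8 * y ^ 4 +
          (21026108497319502106915967044347/83446502685546875000000000000) * x ^ 9 * y ^ 3 +
          (46506903731800355379458386063083/417232513427734375000000000000) * x ^ 10 * y ^ 2 +
          (30399385274356834446454164113337/834465026855468750000000000000) * x ^ 11 * y ^ 1 +
          (4686843397909676919761342777101/834465026855468750000000000000) * x ^ 12 * y ^ 0 by positivity) ?_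
      rw [hy, hx]; ring
    · skip
      obtain ⟨x, hx, hx0, hx1⟩ : ∃ x : ℝ, β = (3/4) + (1/4) * x ∧ 0 ≤ x ∧ x ≤ 1 :=
        ⟨(β - (3/4)) / (1/4), by ring, by linarith, by linarith⟩
      obtain ⟨y, hy, hy0⟩ : ∃ y : ℝ, y = 1 - x ∧ 0 ≤ y := ⟨1 - x, rfl, by linarith⟩
      refine le_of_le_of_eq (show (0:ℝ) ≤
          (4686843397909676919761342777101/834465026855468750000000000000) * x ^ 0 * y ^ 12 +
          (82084856275475411627818062537087/834465026855468750000000000000) * x ^ 1 * y ^ 11 +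
          (82694248559488132469239956848427/104308128356933593750000000000) * x ^ 2 * y ^ 10 +
          (321099468426134699466922295484347/83446502685546875000000000000) * x ^ 3 * y ^ 9 +
          (2081084981393236244994766422781749/166893005371093750000000000000) * x ^ 4 * y ^ 8 +
          (11840275842955109052632559687747621/417232513427734375000000000000) * x ^ 5 * y ^ 7 +
          (88705075427911407876200715130786687/1907348632812500000000000000000) * x ^ 6 * y ^ 6 +
          (105553250594408396984092023254013321/1907348632812500000000000000000) * x ^ 7 * y ^ 5 +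
          (72479978745130448296197521707376973/1525878906250000000000000000000) * x ^ 8 * y ^ 4 +
          (21904855636137040705980373509562869/762939453125000000000000000000) * x ^ 9 * y ^ 3 +
          (354366032488720981952544782871197553/30517578125000000000000000000000) * x ^ 10 * y ^ 2 +
          (86182754484458545588321442397325521/30517578125000000000000000000000) * x ^ 11 * y ^ 1 +
          (38159081267510055272962930084091007/122070312500000000000000000000000) * x ^ 12 * y ^ 0 by positivity) ?_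
      rw [hy, hx]; ring

/-- **The moments against `ℓ`.** -/
theorem moment_le_ell (P : HalfProf f) (h0 : f 0 = 1) (hm : 39 ≤ m) :
    (∫ t in (0:ℝ)..1, t ^ 4 * f t ^ m) ≤ 39 / 5 * ell m f ^ 4 * (∫ t in (0:ℝ)..1, f t ^ m) ∧
      (∫ t in (0:ℝ)..1, t ^ 6 * f t ^ m) ≤ 126 * ell m f ^ 6 * (∫ t in (0:ℝ)..1, f t ^ m) := by
  set Z := ∫ t in (0:ℝ)..1, f t ^ m with hZdef
  set D := (m:ℝ) * ((∫ t in (0:ℝ)..1, f t ^ (m - 1)) - Z) with hD
  have hZ : 0 < Z := Z_pos P (m := m)
  have hm' : (39:ℝ) ≤ m := by exact_mod_cast hm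
  have hD0 : 0 ≤ D := mD_nonneg P h0
  have hent := moment_entropy P h0 (show 2 ≤ m by omega)
  have hcone := moment_cone P h0 (show m ≠ 0 by omega)
  set M := ∫ t in (0:ℝ)..1, t * f t ^ m with hMdef
  set q := (2 * M - Z ^ 2) * (((m:ℝ) + 2) / (m:ℝ)) / Z ^ 2 with hq
  set β := max (√q) (1 / 100) with hβ
  have hm0 : (0:ℝ) < m := by linarith
  have hq1 : q ≤ 1 := by
    rw [hq, div_le_one (by positivity), ← le_div_iff₀ (by positivity)]
    have e : 2 * (((m:ℝ) + 1) / ((m:ℝ) + 2) * Z ^ 2) - Z ^ 2 =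
        Z ^ 2 / (((m:ℝ) + 2) / (m:ℝ)) := by field_simp; ring
    linarith
  have hqβ : q ≤ β ^ 2 := by
    rcases le_total q 0 with h | h
    · exact h.trans (sq_nonneg _)
    · exact (sq_sqrt h).symm.le.trans (pow_le_pow_left₀ (sqrt_nonneg _) (le_max_left _ _) 2)
  have hβI : β ∈ Ioc (0:ℝ) 1 := ⟨lt_of_lt_of_le (by norm_num) (le_max_right _ _),
    max_le (sqrt_le_one.2 hq1) (by norm_num)⟩
  have hM : 2 * M - Z ^ 2 ≤ (β * Z) ^ 2 * ((m:ℝ) / ((m:ℝ) + 2)) := by
    have h := mul_le_mul_of_nonneg_left hqβ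
      (show 0 ≤ Z ^ 2 * ((m:ℝ) / ((m:ℝ) + 2)) by positivity)
    have e : Z ^ 2 * ((m:ℝ) / ((m:ℝ) + 2)) * q = 2 * M - Z ^ 2 := by rw [hq]; field_simp
    linarith [show (β * Z) ^ 2 * ((m:ℝ) / ((m:ℝ) + 2)) =
      Z ^ 2 * ((m:ℝ) / ((m:ℝ) + 2)) * β ^ 2 by ring]
  have hc : 23 / 25 ≤ cst m * ((m:ℝ) / ((m:ℝ) + 2)) := by
    refine le_trans ?_ (mul_le_mul_of_nonneg_right (succ_div_le_cst m) (by positivity))
    rw [div_mul_div_comm, div_le_div_iff₀ (by norm_num) (by positivity)]
    nlinarith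
  have hb : 1 / 2 ≤ 1 - (m:ℝ) * quad m := by
    have h1 := le_quadHi m
    have h2 : (m:ℝ) * quadHi m ≤ 1 / 2 := by
      rw [quadHi, mul_div_assoc', div_le_iff₀ (by positivity)]
      nlinarith
    nlinarith [mul_le_mul_of_nonneg_left h1 hm0.le]
  have hell : Z * (1 / 2 + 23 / 25 * (β ^ 2 - 1 / 10000)) ≤ ell m f := by
    rw [ell_eq, ← hZdef, ← hD, mul_add, mul_comm (1 - (m:ℝ) * quad m)]
    refine add_le_add (mul_le_mul_of_nonneg_left hb hZ.le) ?_
    rcases le_total (√q) (1 / 100) with h | h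
    · rw [hβ, max_eq_right h, show Z * (23 / 25 * ((1 / 100 : ℝ) ^ 2 - 1 / 10000)) = 0 by ring]
      exact mul_nonneg (cst_pos m).le hD0
    · have hq0 : 0 < q := sqrt_pos.1 (lt_of_lt_of_le (by norm_num) h)
      rw [hβ, max_eq_left h, sq_sqrt hq0.le]
      have h1 : q * Z * ((m:ℝ) / ((m:ℝ) + 2)) ≤ D := by
        refine le_of_mul_le_mul_left ?_ hZ
        have e : Z * (q * Z * ((m:ℝ) / ((m:ℝ) + 2))) = 2 * M - Z ^ 2 := by
          rw [hq]; field_simp
        linarith
      have h2 := mul_le_mul_of_nonneg_left h1 (cst_pos m).le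
      have h3 := mul_le_mul_of_nonneg_right hc (mul_pos hq0 hZ).le
      nlinarith
  have hR : 0 ≤ 1 / 2 + 23 / 25 * (β ^ 2 - 1 / 10000) := by nlinarith [sq_nonneg β]
  have key : ∀ k : ℕ, ∀ C : ℝ, 0 ≤ C →
      ((1 - β) ^ (k + 1) / ((k:ℝ) + 1) + ∑ j ∈ Finset.range (k + 1),
        (k.choose j : ℝ) * (Nat.factorial j : ℝ) * (1 - β) ^ (k - j) * β ^ (j + 1)) ≤
          C * (1 / 2 + 23 / 25 * (β ^ 2 - 1 / 10000)) ^ k →
      ∫ t in (0:ℝ)..1, t ^ k * f t ^ m ≤ C * ell m f ^ k * Z := by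
    intro k C hC hp
    refine (moment_le_beta P h0 (by omega) hβI hM k).trans
      ((mul_le_mul_of_nonneg_left hp (pow_nonneg hZ.le _)).trans ?_)
    have h := mul_le_mul_of_nonneg_right
      (mul_le_mul_of_nonneg_left (pow_le_pow_left₀ (mul_nonneg hZ.le hR) hell k) hC) hZ.le
    refine le_trans (le_of_eq ?_) h
    rw [mul_pow, pow_succ]
    ring
  constructor
  · refine key 4 _ (by norm_num) (le_trans (le_of_eq ?_) (poly4 hβI.1.le hβI.2))
    norm_num [Finset.sum_range_succ, Nat.choose, Nat.factorial]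
    ring
  · refine key 6 _ (by norm_num) (le_trans (le_of_eq ?_) (poly6 hβI.1.le hβI.2))
    norm_num [Finset.sum_range_succ, Nat.choose, Nat.factorial]
    ring

end Vale.Agent.P237.AllN.AbsMoment
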