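import Vale.Agent.P237.AllN.InvNegT
import Vale.Agent.P237.AllN.CalcBounds

/-!
# P237, all dimensions: the second-order term against closed forms

`D(T, u) = ∫_u^T (Γ - Γ u)` is the integrand of `negR`. From `Γ'' u³ ≤ A t³` it is at most
`A max(T, u)³` times the Bregman distance of `1 - √(1-x²)`, and for `T ≤ u` at most
`A u³ / (1-u²)^(3/2) * (T-u)² / 2`.
-/

open MeasureTheory Set Real Filter Topology

namespace Vale.Agent.P237.AllN

variable {m : ℕ}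

/-- The Bregman distance of `1 - √(1-x²)`. -/
noncomputable def circD (T u : ℝ) : ℝ := (1 - u * T) / √(1 - u ^ 2) - √(1 - T ^ 2)

theorem continuousAt_gamR {x : ℝ} (hx : x ∈ Ioo (-1 : ℝ) 1) : ContinuousAt (gamR m) x :=
  (hasDerivAt_gam hx).continuousAt

theorem hasDerivAt_gamI_open {x : ℝ} (hx : x ∈ Ioo (-1 : ℝ) 1) :
    HasDerivAt (gamI m) (gamR m x) x := by
  have hc : ContinuousOn (gamR m) (Ioo (-1) 1) := fun y hy =>
    (continuousAt_gamR hy).continuousWithinAt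
  exact intervalIntegral.integral_hasDerivAt_right
    ((hc.mono (ordConnected_Ioo.uIcc_subset ⟨by norm_num, by norm_num⟩ hx)).intervalIntegrable)
    (hc.stronglyMeasurableAtFilter isOpen_Ioo x hx) (continuousAt_gamR hx)

theorem continuousOn_gamI_Icc : ContinuousOn (gamI m) (Icc 0 1) := by
  have h := intervalIntegral.continuousOn_primitive_interval' (intGam (m := m)) left_mem_uIcc
  rwa [uIcc_of_le zero_le_one] at h

/-- A function whose second derivative dominates `Γ'` on `(0, M)` has the larger Bregman distance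
there. -/
theorem gamD_le_of {M T u : ℝ} (hM : M ≤ 1) {B B' B'' : ℝ → ℝ} (hB : ContinuousOn B (Icc 0 M))
    (hd : ∀ s ∈ Ico (0:ℝ) M, HasDerivAt B (B' s) s)
    (hdd : ∀ s ∈ Ioo (0:ℝ) M, HasDerivAt B' (B'' s) s)
    (hle : ∀ s ∈ Ioo (0:ℝ) M, ((m:ℝ) + 2) * psiR m s + s * deriv (psiR m) s ≤ B'' s)
    (hT : T ∈ Icc 0 M) (hu : u ∈ Icc 0 M) (hu1 : u < 1) (hBu : HasDerivAt B (B' u) u) :
    gamD m T u ≤ B T - B u - B' u * (T - u) := by
  set G : ℝ → ℝ := fun x => B x - gamI m x with hG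
  have hI : ∀ s ∈ Ioo (0:ℝ) M, s ∈ Ioo (-1:ℝ) 1 := fun s hs =>
    ⟨by linarith [hs.1], hs.2.trans_le hM⟩
  have hGd : ∀ s ∈ Ioo (0:ℝ) M, HasDerivAt G (B' s - gamR m s) s := fun s hs =>
    (hd s ⟨hs.1.le, hs.2⟩).sub (hasDerivAt_gamI_open (hI s hs))
  have hconv : ConvexOn ℝ (Icc 0 M) G := by
    refine MonotoneOn.convexOn_of_deriv (convex_Icc _ _)
      (hB.sub (continuousOn_gamI_Icc.mono (Icc_subset_Icc le_rfl hM))) ?_ ?_
    · rw [interior_Icc]
      exact fun s hs => (hGd s hs).differentiableAt.differentiableWithinAt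
    · rw [interior_Icc]
      have hmono : MonotoneOn (fun s => B' s - gamR m s) (Ioo 0 M) := by
        have hd2 : ∀ s ∈ Ioo (0:ℝ) M, HasDerivAt (fun s => B' s - gamR m s)
            (B'' s - (((m:ℝ) + 2) * psiR m s + s * deriv (psiR m) s)) s := fun s hs =>
          (hdd s hs).sub (hasDerivAt_gam (hI s hs))
        refine monotoneOn_of_deriv_nonneg (convex_Ioo _ _)
          (fun s hs => (hd2 s hs).continuousAt.continuousWithinAt)
          (fun s hs => (hd2 s (interior_subset hs)).differentiableAt.differentiableWithinAt) ?_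
        intro s hs
        rw [(hd2 s (interior_subset hs)).deriv]
        exact sub_nonneg.2 (hle s (interior_subset hs))
      intro a ha b hb hab
      rw [(hGd a ha).deriv, (hGd b hb).deriv]
      exact hmono ha hb hab
  have hGu : HasDerivAt G (B' u - gamR m u) u :=
    hBu.sub (hasDerivAt_gamI_open ⟨by linarith [hu.1], hu1⟩)
  have key : G u + (B' u - gamR m u) * (T - u) ≤ G T := by
    rcases lt_trichotomy T u with h | h | h
    · have := hconv.slope_le_deriv hT hu h hGu.differentiableAt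
      rw [hGu.deriv, slope_def_field, div_le_iff₀ (sub_pos.2 h)] at this
      linarith
    · simp [h]
    · have := hconv.deriv_le_slope hu hT h hGu.differentiableAt
      rw [hGu.deriv, slope_def_field, le_div_iff₀ (sub_pos.2 h)] at this
      linarith
  simp only [hG] at key
  rw [gamD]
  linarith

theorem gamI_pow_le {s M : ℝ} (hs : s ∈ Ioo (0:ℝ) M) (hM : M ≤ 1) :
    ((m:ℝ) + 2) * psiR m s + s * deriv (psiR m) s ≤ gamA m * M ^ 3 / √(1 - s ^ 2) ^ 3 := by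
  have h1 : s < 1 := hs.2.trans_le hM
  have hu : 0 < √(1 - s ^ 2) := (u_mem hs.1.le h1).1
  rw [le_div_iff₀ (pow_pos hu 3)]
  exact (gam_le hs.1.le h1).trans (mul_le_mul_of_nonneg_left
    (pow_le_pow_left₀ hs.1.le hs.2.le 3) (gamA_nonneg m))

/-- **`D(T, u) ≤ A max(T, u)³ * Breg (1 - √(1-x²))`.** -/
theorem gamD_le {T u : ℝ} (hT : T ∈ Icc (0:ℝ) 1) (hu : u ∈ Ico (0:ℝ) 1) :
    gamD m T u ≤ gamA m * max T u ^ 3 * circD T u := by
  set M := max T u with hM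
  set c := gamA m * M ^ 3 with hc
  have hM1 : M ≤ 1 := max_le hT.2 hu.2.le
  have hd : ∀ s ∈ Ioo (-1:ℝ) 1,
      HasDerivAt (fun x : ℝ => c * -√(1 - x ^ 2)) (c * (s / √(1 - s ^ 2))) s := fun s hs =>
    ((hasDerivAt_u hs).neg.const_mul c).congr_deriv (by ring)
  refine (gamD_le_of (B'' := fun s => c / √(1 - s ^ 2) ^ 3) hM1 (by fun_prop)
    (fun s hs => hd s ⟨by linarith [hs.1], hs.2.trans_le hM1⟩) (fun s hs => ?_)
    (fun s hs => gamI_pow_le hs hM1) ⟨hT.1, le_max_left _ _⟩ ⟨hu.1, le_max_right _ _⟩ hu.2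
    (hd u ⟨by linarith [hu.1], hu.2⟩)).trans_eq ?_
  · obtain ⟨hw, -, hsq⟩ := u_mem hs.1.le (hs.2.trans_le hM1)
    refine (((hasDerivAt_id s).div (hasDerivAt_u ⟨by linarith [hs.1], hs.2.trans_le hM1⟩)
      hw.ne').const_mul c).congr_deriv ?_
    simp only [id_eq]
    set w := √(1 - s ^ 2)
    field_simp
    linear_combination c * hsq
  · obtain ⟨hw, -, hsq⟩ := u_mem hu.1 hu.2
    rw [circD]
    set w := √(1 - u ^ 2)
    field_simp
    linear_combination c * hsq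

/-- For `T ≤ u`, `D(T, u) ≤ A u³ / (1-u²)^(3/2) * (T-u)² / 2`. -/
theorem gamD_le_left {T u : ℝ} (hT : 0 ≤ T) (hTu : T ≤ u) (hu : u < 1) :
    gamD m T u ≤ gamA m * u ^ 3 / √(1 - u ^ 2) ^ 3 * ((T - u) ^ 2 / 2) := by
  set k := gamA m * u ^ 3 / √(1 - u ^ 2) ^ 3 with hk
  have hu0 : 0 ≤ u := hT.trans hTu
  have hd : ∀ s : ℝ, HasDerivAt (fun x : ℝ => k * (x ^ 2 / 2)) (k * s) s := fun s =>
    (((hasDerivAt_pow 2 s).div_const 2).const_mul k).congr_deriv (by push_cast; ring)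
  refine (gamD_le_of (B'' := fun _ => k) hu.le (by fun_prop) (fun s _ => hd s)
    (fun s _ => by simpa using (hasDerivAt_id s).const_mul k) (fun s hs => ?_)
    ⟨hT, hTu⟩ ⟨hu0, le_rfl⟩ hu (hd u)).trans_eq (by ring)
  refine (gamI_pow_le hs hu.le).trans (div_le_div_of_nonneg_left
    (mul_nonneg (gamA_nonneg m) (pow_nonneg hu0 3)) (pow_pos (u_mem hu0 hu).1 3) ?_)
  exact pow_le_pow_left₀ (sqrt_nonneg _) (sqrt_le_sqrt (by nlinarith [hs.1, hs.2])) 3

/-- The Bregman distance in closed form. -/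
theorem circD_eq {T u : ℝ} (hT : T ∈ Icc (0:ℝ) 1) (hu : u ∈ Ico (0:ℝ) 1) :
    circD T u = (T - u) ^ 2 /
      (√(1 - u ^ 2) * (1 - u * T + √(1 - u ^ 2) * √(1 - T ^ 2))) := by
  obtain ⟨hw, -, hsq⟩ := u_mem hu.1 hu.2
  have hv : √(1 - T ^ 2) ^ 2 = 1 - T ^ 2 := sq_sqrt (by nlinarith [hT.1, hT.2])
  have hpos : 0 < 1 - u * T := by nlinarith [hT.1, hT.2, hu.1, hu.2]
  have hden : 0 < 1 - u * T + √(1 - u ^ 2) * √(1 - T ^ 2) :=
    add_pos_of_pos_of_nonneg hpos (mul_nonneg hw.le (sqrt_nonneg _))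
  rw [circD]
  set w := √(1 - u ^ 2)
  set v := √(1 - T ^ 2)
  field_simp
  linear_combination (-(w ^ 2)) * hv + (T ^ 2 - 1) * hsq

/-- `Breg (1 - √(1-x²)) ≤ 2 (T-u)² / (1-u²)^(3/2)`. -/
theorem circD_le {T u : ℝ} (hT : T ∈ Icc (0:ℝ) 1) (hu : u ∈ Ico (0:ℝ) 1) :
    circD T u ≤ 2 * (T - u) ^ 2 / √(1 - u ^ 2) ^ 3 := by
  obtain ⟨hw, hw1, hsq⟩ := u_mem hu.1 hu.2
  rw [circD_eq hT hu]
  set w := √(1 - u ^ 2)
  have h1 : w ^ 2 / 2 ≤ 1 - u * T + w * √(1 - T ^ 2) := by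
    nlinarith [mul_le_mul_of_nonneg_left hT.2 hu.1, sqrt_nonneg (1 - T ^ 2),
      sq_nonneg (1 - u), mul_nonneg hw.le (sqrt_nonneg (1 - T ^ 2))]
  rw [show 2 * (T - u) ^ 2 / w ^ 3 = (T - u) ^ 2 / (w * (w ^ 2 / 2)) by field_simp]
  exact div_le_div_of_nonneg_left (sq_nonneg _) (by positivity)
    (mul_le_mul_of_nonneg_left h1 hw.le)

/-- For `T ≤ u`, `Breg (1 - √(1-x²)) ≤ (T-u)² / (1-u²)^(3/2)`. -/
theorem circD_le_left {T u : ℝ} (hT : 0 ≤ T) (hTu : T ≤ u) (hu : u < 1) :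
    circD T u ≤ (T - u) ^ 2 / √(1 - u ^ 2) ^ 3 := by
  have hu0 : 0 ≤ u := hT.trans hTu
  obtain ⟨hw, -, hsq⟩ := u_mem hu0 hu
  rw [circD_eq ⟨hT, hTu.trans hu.le⟩ ⟨hu0, hu⟩]
  set w := √(1 - u ^ 2)
  rw [show w ^ 3 = w * w ^ 2 by ring]
  refine div_le_div_of_nonneg_left (sq_nonneg _) (by positivity)
    (mul_le_mul_of_nonneg_left ?_ hw.le)
  nlinarith [mul_le_mul_of_nonneg_left hTu hu0, mul_nonneg hw.le (sqrt_nonneg (1 - T ^ 2))]

/-- The integrand of `negR` at level `r`: `2 A max(T, u)³ (T-u)² / r³`. -/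
theorem gamD_us_le {T r : ℝ} (hT : T ∈ Icc (0:ℝ) 1) (hr : r ∈ Ioc (0:ℝ) 1) :
    gamI m T - gamI m (us r) - gamR m (us r) * (T - us r) ≤
      2 * gamA m * max T (us r) ^ 3 * (T - us r) ^ 2 / r ^ 3 := by
  have hri : r ∈ Icc (0:ℝ) 1 := ⟨hr.1.le, hr.2⟩
  have hu : us r ∈ Ico (0:ℝ) 1 := ⟨(us_mem hri).1, us_lt_one hr⟩
  have hc := circD_le hT hu
  rw [show √(1 - us r ^ 2) = r from us_us hri] at hc
  refine (gamD_le hT hu).trans ((mul_le_mul_of_nonneg_left hc (mul_nonneg (gamA_nonneg m)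
    (pow_nonneg (hu.1.trans (le_max_right _ _)) 3))).trans_eq ?_)
  ring

/-- The integrand of `negR` at level `r` on the lower side: `A u³ (T-u)² / (2 r³)`. -/
theorem gamD_us_le_left {T r : ℝ} (hT : 0 ≤ T) (hr : r ∈ Ioc (0:ℝ) 1) (hTu : T ≤ us r) :
    gamI m T - gamI m (us r) - gamR m (us r) * (T - us r) ≤
      gamA m * us r ^ 3 * (T - us r) ^ 2 / (2 * r ^ 3) := by
  have h := gamD_le_left (m := m) hT hTu (us_lt_one hr)
  rw [show √(1 - us r ^ 2) = r from us_us ⟨hr.1.le, hr.2⟩] at h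
  refine h.trans_eq ?_
  field_simp

end Vale.Agent.P237.AllN
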