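import Vale.Agent.P237.AllN.InvD
import Vale.Agent.P237.AllN.PsiREnv

/-!
# P237, all dimensions: the Hardy inequality alone gives the profile lemma

A bound `negR ≤ θᵣ (breg + bdry) + θ_b b qh + c_L Z₀ L` with `θ_b` of order `1/n` already contains
the absolute bound needed by `InvD.scalar_core`: the quartic lower bound
`D_{φ_R}(p | τ) ≥ (c/n) (p-τ)⁴/12` absorbs `θ_b b (p-τ)²` up to a constant, and the constant
integrates to the volume. So no case distinction on `J` is needed.
-/

open MeasureTheory Set Real Filter Topology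

namespace Vale.Agent.P237.AllN

variable {m : ℕ} {f : ℝ → ℝ}

/-- `phiR - (c/n) t⁴/12` is convex on `[0,1]`. -/
theorem convexOn_phiR_sub_quartic :
    ConvexOn ℝ (Icc (0:ℝ) 1) fun t => phiR m t - kapLo m / 12 * t ^ 4 := by
  have hd : ∀ t ∈ Ioo (0:ℝ) 1, HasDerivAt (fun x => phiR m x - kapLo m / 12 * x ^ 4)
      (psiR m t - kapLo m / 3 * t ^ 3) t := fun t ht => by
    refine ((hasDerivAt_phiR ⟨by linarith [ht.1], ht.2⟩).sub
      ((hasDerivAt_pow 4 t).const_mul _)).congr_deriv ?_
    push_cast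
    ring
  have hd2 : ∀ t ∈ Ioo (0:ℝ) 1, HasDerivAt (fun x => psiR m x - kapLo m / 3 * x ^ 3)
      (psiRD m t - kapLo m * t ^ 2) t := fun t ht => by
    refine ((hasDerivAt_psiR ⟨by linarith [ht.1], ht.2⟩).sub
      ((hasDerivAt_pow 3 t).const_mul _)).congr_deriv ?_
    rw [psiRD]
    push_cast
    ring
  refine MonotoneOn.convexOn_of_deriv (convex_Icc _ _)
    ((continuousOn_phiR.mono (Icc_subset_Icc (by norm_num) le_rfl)).sub (by fun_prop)) ?_ ?_
  · rw [interior_Icc]; exact fun t ht => (hd t ht).differentiableAt.differentiableWithinAt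
  · rw [interior_Icc]
    have hmono : MonotoneOn (fun x => psiR m x - kapLo m / 3 * x ^ 3) (Ioo 0 1) := by
      refine monotoneOn_of_deriv_nonneg (convex_Ioo _ _)
        (fun x hx => (hd2 x hx).continuousAt.continuousWithinAt)
        (fun x hx => (hd2 x (interior_subset hx)).differentiableAt.differentiableWithinAt) ?_
      intro x hx
      rw [interior_Ioo] at hx
      rw [(hd2 x hx).deriv, sub_nonneg]
      refine le_trans ?_ (kapLo_le_psiRD hx.1.le hx.2)
      have hu : 0 < √(1 - x ^ 2) := sqrt_pos.2 (by nlinarith [hx.1, hx.2])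
      rw [le_div_iff₀ (pow_pos hu 3)]
      refine mul_le_of_le_one_right (mul_nonneg (kapLo_pos m).le (sq_nonneg x)) ?_
      exact pow_le_one₀ hu.le (sqrt_le_one.2 (by nlinarith))
    intro x hx y hy hxy
    rw [(hd x hx).deriv, (hd y hy).deriv]
    exact hmono hx hy hxy

/-- **Quartic lower bound for the Bregman term of `phiR`.** -/
theorem phiR_quartic {p τ : ℝ} (hp : p ∈ Icc (0:ℝ) 1) (hτ : τ ∈ Ico (0:ℝ) 1) :
    kapLo m / 12 * (p - τ) ^ 4 ≤ phiR m p - phiR m τ - psiR m τ * (p - τ) := by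
  set g : ℝ → ℝ := fun t => phiR m t - kapLo m / 12 * t ^ 4
  have hd : HasDerivAt g (psiR m τ - kapLo m / 3 * τ ^ 3) τ := by
    refine ((hasDerivAt_phiR ⟨by linarith [hτ.1], hτ.2⟩).sub
      ((hasDerivAt_pow 4 τ).const_mul _)).congr_deriv ?_
    push_cast
    ring
  have hτ' : τ ∈ Icc (0:ℝ) 1 := Ico_subset_Icc_self hτ
  have key : g τ + (psiR m τ - kapLo m / 3 * τ ^ 3) * (p - τ) ≤ g p := by
    rcases lt_trichotomy p τ with h | h | h
    · have := (convexOn_phiR_sub_quartic (m := m)).slope_le_of_hasDerivAt hp hτ' h hd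
      rw [slope_def_field, div_le_iff₀ (sub_pos.2 h)] at this
      simp only [g] at this ⊢
      linarith
    · simp [h]
    · have := (convexOn_phiR_sub_quartic (m := m)).le_slope_of_hasDerivAt hτ' hp h hd
      rw [slope_def_field, le_div_iff₀ (sub_pos.2 h)] at this
      simp only [g] at this ⊢
      linarith
  simp only [g] at key
  linarith [mul_nonneg (kapLo_pos m).le (mul_nonneg (sq_nonneg (p - τ))
    (add_nonneg (mul_nonneg (by norm_num : (0:ℝ) ≤ 4) (mul_nonneg hp.1 hτ.1))
      (mul_nonneg (by norm_num : (0:ℝ) ≤ 2) (sq_nonneg τ))))]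

/-- The constant of the absolute bound. -/
noncomputable def etaOf (m : ℕ) (θr θb : ℝ) : ℝ :=
  6 * ((m:ℝ) + 1) ^ 2 * θb ^ 2 / ((4 * (m:ℝ) + 3) * (1 - θr))

/-- The pointwise inequality behind the absolute bound, with `e = η b / n`. -/
theorem eta_point {θr θb p τ : ℝ} (hθr : θr < 1) (hθb : 0 ≤ θb) (hp : p ∈ Icc (0:ℝ) 1)
    (hτ : τ ∈ Ico (0:ℝ) 1) :
    θb * quad m * (p - τ) ^ 2 ≤ (1 - θr) * (phiR m p - phiR m τ - psiR m τ * (p - τ)) +
      etaOf m θr θb * quad m / ((m:ℝ) + 1) := by
  have hD := mul_le_mul_of_nonneg_left (phiR_quartic (m := m) hp hτ) (sub_pos.2 hθr).le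
  refine le_trans ?_ (add_le_add_left hD _)
  set x := (p - τ) ^ 2 with hx
  rw [show (p - τ) ^ 4 = x ^ 2 by rw [hx]; ring]
  set a := (1 - θr) * (kapLo m / 12) with ha
  set e := etaOf m θr θb * quad m / ((m:ℝ) + 1) with he
  have hk := kapLo_pos m
  have hb := quad_pos m
  have ha0 : 0 < a := mul_pos (sub_pos.2 hθr) (by linarith)
  have he0 : 0 ≤ e := by
    have : 0 < 1 - θr := sub_pos.2 hθr
    rw [he, etaOf]; positivity
  have hsq : (θb * quad m) ^ 2 ≤ 4 * a * e := by
    have h1 := le_cst m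
    have h2 := quad_le m
    rw [div_le_iff₀ (by positivity)] at h1
    rw [le_div_iff₀ (by positivity)] at h2
    have h3 : (4 * (m:ℝ) + 3) * quad m ≤ 2 * cst m := by
      have : (0:ℝ) < 4 * (m:ℝ) + 5 := by positivity
      refine le_of_mul_le_mul_right ?_ this
      nlinarith
    have hne : 1 - θr ≠ 0 := (sub_pos.2 hθr).ne'
    have e4 : 4 * a * e = θb ^ 2 * quad m * (2 * cst m) / (4 * (m:ℝ) + 3) := by
      rw [ha, he, etaOf, kapLo]
      field_simp
      ring
    rw [e4, le_div_iff₀ (by positivity)]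
    nlinarith [mul_le_mul_of_nonneg_left h3 (mul_nonneg (sq_nonneg θb) hb.le)]
  have : 0 ≤ a * x ^ 2 + e - θb * quad m * x := by
    have h4 : 0 ≤ 4 * a * (a * x ^ 2 + e - θb * quad m * x) := by
      nlinarith [sq_nonneg (2 * a * x - θb * quad m)]
    exact nonneg_of_mul_nonneg_right h4 (by linarith)
  rw [ha] at this
  linarith

/-- **The absolute bound:** `θ_b b qhR ≤ (1 - θᵣ)(breg + bdry) + η b Z`. -/
theorem qh_le_gain_add_vol (P : HalfProf f) (h0 : f 0 = 1) (hm : 3 ≤ m) {θr θb : ℝ}
    (hθr : θr < 1) (hθb : 0 ≤ θb) :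
    θb * quad m * qhR m f ≤ (1 - θr) * (breg m f + bdry m f) +
      etaOf m θr θb * quad m * ∫ t in (0:ℝ)..1, f t ^ m := by
  have hm0 : m ≠ 0 := by omega
  set e := etaOf m θr θb * quad m / ((m:ℝ) + 1) with he
  have he' : etaOf m θr θb * quad m = e * ((m:ℝ) + 1) := by
    rw [he, div_mul_cancel₀ _ (by positivity)]
  -- the interior part
  have iP := (intWq_comp P hm0 (φ := phiR m) continuousOn_phiR).1
  have iM : IntervalIntegrable
      (fun t => hP m (f t) * (f t - t * deriv f t) + hM m (f t) * (-(deriv f t)) -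
        us (f t) * hM m (f t) * (f t - t * deriv f t)) volume 0 1 := by
    have aux : ∀ h : ℝ → ℝ, Continuous h →
        IntervalIntegrable (fun t => h (f t) * (f t - t * deriv f t)) volume 0 1 := fun h hh =>
      ((bounded_comp P h0 (h := fun s => s * h s) (continuous_id.mul hh)).sub
        (ibp_comp P (a := fun t => t) (a' := fun _ => 1) continuousOn_id
          (fun t _ => hasDerivAt_id' t) continuousOn_const intervalIntegrable_const hh).1).congr
        fun t _ => by ring
    have i2 : IntervalIntegrable (fun t => hM m (f t) * (-(deriv f t))) volume 0 1 :=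
      ((ibp_comp P (a := fun _ => 1) (a' := fun _ => 0) continuousOn_const
        (fun t _ => hasDerivAt_const t 1) continuousOn_const intervalIntegrable_const
        (continuous_hM (m := m) (by omega))).1.neg).congr fun t _ => by simp
    exact ((aux _ continuous_hP).add i2).sub
      (aux (fun s => us s * hM m s) (continuous_us.mul (continuous_hM (by omega))))
  have iB : IntervalIntegrable (fun t => wq m f t *
      (phiR m (pProf f t) - phiR m (us (f t)) - psiR m (us (f t)) * (pProf f t - us (f t))))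
      volume 0 1 := by
    refine (iP.sub iM).congr_ae ?_
    rw [EventuallyEq, ae_restrict_iff' measurableSet_uIoc]
    filter_upwards [Measure.ae_ne volume (1:ℝ)] with t hne hmem
    rw [uIoc_of_le zero_le_one] at hmem
    have ht : t ∈ Ioo (0:ℝ) 1 := ⟨hmem.1, lt_of_le_of_ne hmem.2 hne⟩
    have hf := Ioc_subset_Icc_self (P.mem01' h0 ht)
    have hp := wq_mul_pProf (m := m) P ht
    simp only [hP, hM, cl_eq hf, wq] at hp ⊢
    linear_combination psiR m (us (f t)) * hp
  have hfm : AEStronglyMeasurable f (volume.restrict (Ioo (0:ℝ) 1)) :=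
    (P.continuousOn.mono Ioo_subset_Ico_self).aestronglyMeasurable measurableSet_Ioo
  have iQ : IntervalIntegrable (fun t => wq m f t * (pProf f t - us (f t)) ^ 2) volume 0 1 :=
    P.intWgt_mul hm0 ((P.measurable_pProf.sub (continuous_us.comp_aestronglyMeasurable hfm)).pow 2)
      (C := 4) fun s hs => by
        have h1 := (P.bounds hs).2
        have h2 := us_mem (Ioc_subset_Icc_self (P.mem01' h0 hs))
        rw [abs_of_nonneg (sq_nonneg _)]
        nlinarith [h1.1, h1.2, h2.1, h2.2]
  have iW : IntervalIntegrable (fun t => wq m f t * (1:ℝ)) volume 0 1 :=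
    (intWq_comp P hm0 (φ := fun _ => (1:ℝ)) continuousOn_const).1
  have h1 : θb * quad m * (∫ t in (0:ℝ)..1, wq m f t * (pProf f t - us (f t)) ^ 2) ≤
      (1 - θr) * breg m f + e * ∫ t in (0:ℝ)..1, wq m f t * 1 := by
    rw [breg, ← intervalIntegral.integral_const_mul, ← intervalIntegral.integral_const_mul,
      ← intervalIntegral.integral_const_mul, ← intervalIntegral.integral_add
        (iB.const_mul _) (iW.const_mul _)]
    refine intervalIntegral.integral_mono_on_of_le_Ioo zero_le_one (iQ.const_mul _)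
      ((iB.const_mul _).add (iW.const_mul _)) fun t ht => ?_
    have hf := P.mem01' h0 ht
    have hden := (P.bounds ht).1
    have hd : deriv f t ≤ 0 := by
      rw [← derivWithin_of_isOpen (s := Ioo (0:ℝ) 1) isOpen_Ioo ht]
      exact (P.anti.mono Ioo_subset_Icc_self).derivWithin_nonpos
    have hp : pProf f t ∈ Icc (0:ℝ) 1 :=
      ⟨by rw [pProf]; exact div_nonneg (by linarith) hden.le, (P.bounds ht).2.2⟩
    have hw : 0 ≤ wq m f t := mul_nonneg (mul_nonneg (Nat.cast_nonneg m)
      (pow_nonneg hf.1.le _)) hden.le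
    have key := mul_le_mul_of_nonneg_left
      (eta_point (m := m) hθr hθb hp ⟨(us_mem (Ioc_subset_Icc_self hf)).1, us_lt_one hf⟩) hw
    rw [← he] at key
    linarith
  -- the jump part
  have hfe := fend_mem P h0
  have jW : IntervalIntegrable (fun r => (m:ℝ) * r ^ (m - 1)) volume 0 (fend f) :=
    (by fun_prop : Continuous fun r : ℝ => (m:ℝ) * r ^ (m - 1)).intervalIntegrable _ _
  have jD : IntervalIntegrable
      (fun r => (m:ℝ) * r ^ (m - 1) * phiR m 1 - hH m r - hM m r) volume 0 (fend f) :=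
    ((((by fun_prop : Continuous fun r : ℝ => (m:ℝ) * r ^ (m - 1) * phiR m 1).sub
      (continuous_hH (m := m) (by omega))).sub (continuous_hM (by omega)))).intervalIntegrable _ _
  have jQ : IntervalIntegrable (fun r => (m:ℝ) * r ^ (m - 1) * (1 - us r) ^ 2) volume 0 (fend f) :=
    Continuous.intervalIntegrable (by fun_prop) _ _
  have h2 : θb * quad m * (∫ r in (0:ℝ)..fend f, (m:ℝ) * r ^ (m - 1) * (1 - us r) ^ 2) ≤
      (1 - θr) * bdry m f + e * ∫ r in (0:ℝ)..fend f, (m:ℝ) * r ^ (m - 1) := by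
    rw [bdry, ← intervalIntegral.integral_const_mul, ← intervalIntegral.integral_const_mul,
      ← intervalIntegral.integral_const_mul, ← intervalIntegral.integral_add
        (jD.const_mul _) (jW.const_mul _)]
    refine intervalIntegral.integral_mono_on hfe.1 (jQ.const_mul _)
      ((jD.const_mul _).add (jW.const_mul _)) fun r hr => ?_
    have hr1 : r ∈ Icc (0:ℝ) 1 := ⟨hr.1, hr.2.trans hfe.2⟩
    rw [hH_eq hr1, hM_eq hr1]
    rcases hr.1.eq_or_lt with h | h
    · simp [← h, show m - 1 ≠ 0 by omega]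
    · have key := mul_le_mul_of_nonneg_left (eta_point (m := m) hθr hθb
        (p := 1) ⟨zero_le_one, le_rfl⟩ ⟨(us_mem hr1).1, us_lt_one ⟨h, hr1.2⟩⟩)
        (show (0:ℝ) ≤ (m:ℝ) * r ^ (m - 1) from mul_nonneg (Nat.cast_nonneg m) (pow_nonneg hr.1 _))
      rw [← he] at key
      linarith
  -- the total mass
  obtain ⟨iA, eA⟩ := ibp_comp P (a := fun t => t) (a' := fun _ => 1) continuousOn_id
    (fun t _ => hasDerivAt_id' t) continuousOn_const intervalIntegrable_const
    (h := fun r => (m:ℝ) * r ^ (m - 1)) (by fun_prop)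
  simp only [h0, one_mul, zero_mul, sub_zero, primitive_pow hm0] at eA
  have eW : (∫ t in (0:ℝ)..1, wq m f t * 1) + fend f ^ m =
      ((m:ℝ) + 1) * ∫ t in (0:ℝ)..1, f t ^ m := by
    have : (∫ t in (0:ℝ)..1, wq m f t * 1) = (∫ t in (0:ℝ)..1, (m:ℝ) * f t ^ m) -
        ∫ t in (0:ℝ)..1, t * ((m:ℝ) * f t ^ (m - 1) * deriv f t) := by
      rw [← intervalIntegral.integral_sub ((P.intPow m).const_mul _) iA]
      refine intervalIntegral.integral_congr fun t _ => ?_
      simp only [wq]
      rw [← pow_sub_one_mul hm0 (f t)]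
      ring
    rw [this, intervalIntegral.integral_const_mul]
    linarith
  rw [primitive_pow hm0] at h2
  rw [qhR, he', mul_assoc e, ← eW]
  linarith

/-- **`LemmaMix` from the Hardy inequality alone.** -/
theorem lemmaMix_of_hardy (hm : 3 ≤ m) {θr θb cL : ℝ} (hθr0 : 0 ≤ θr) (hθr : θr < 1)
    (hθb : 0 ≤ θb) (hcL : 0 ≤ cL) (hcμ : cL < muD m - muD m ^ 2)
    (hH : ∀ f : ℝ → ℝ, HalfProf f → f 0 = 1 →
      GaugeBall.secRatio m f ^ m ≤ GaugeBall.volRatio m f ^ (m - 1) →
      negR m f ≤ θr * (breg m f + bdry m f) + θb * (quad m * qhR m f) +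
        cL * ((∫ t in (0:ℝ)..1, us t ^ m) * relG m f))
    (hcond : max θb cL + etaOf m θr θb + (1 + max θb cL) * dTop m +
      piD m * (1 + muD m ^ 2 / (muD m - muD m ^ 2 - cL)) < 1) : LemmaMix m := by
  have hd := (dTop_le hm).2
  have hη : 0 ≤ etaOf m θr θb := by
    have : 0 < 1 - θr := sub_pos.2 hθr
    rw [etaOf]; positivity
  refine lemmaMix_of_excess (d := dTop m) hm (le_max_of_le_left hθb) hη hcL hcμ hd.le
    (fun f _ _ _ => dTop_bound hm _) (fun f P h0 hN => ?_) hcond
  have hZ0 := Z_pos halfProf_us (m := m)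
  have hb := quad_pos m
  have hL : 0 ≤ relG m f := by
    have e : relG m f = GaugeBall.linGain m f := rfl
    exact e ▸ GaugeBall.linGain_nonneg P (by omega) hN
  have hq0 : 0 ≤ qhR m f / ∫ t in (0:ℝ)..1, us t ^ m := div_nonneg (qhR_nonneg P h0) hZ0.le
  have hg : 0 ≤ (1 - θr) * (breg m f + bdry m f) :=
    mul_nonneg (sub_pos.2 hθr).le (add_nonneg (breg_nonneg P h0) (bdry_nonneg P h0 (by omega)))
  have h := hH f P h0 hN
  constructor
  · rw [excD, div_le_iff₀ hZ0]
    have e1 : (max θb cL * (relG m f + quad m * (qhR m f / ∫ t in (0:ℝ)..1, us t ^ m))) *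
        (∫ t in (0:ℝ)..1, us t ^ m) =
        max θb cL * (quad m * qhR m f) +
          max θb cL * ((∫ t in (0:ℝ)..1, us t ^ m) * relG m f) := by
      field_simp
      ring
    rw [e1]
    have := mul_le_mul_of_nonneg_right (le_max_left θb cL) (mul_nonneg hb.le (qhR_nonneg (m := m) P h0))
    have := mul_le_mul_of_nonneg_right (le_max_right θb cL) (mul_nonneg hZ0.le hL)
    linarith
  · rw [excD, div_le_iff₀ hZ0]
    have e2 : (etaOf m θr θb * (quad m * (1 + relX m f)) + cL * relG m f) *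
        (∫ t in (0:ℝ)..1, us t ^ m) =
        etaOf m θr θb * quad m * (∫ t in (0:ℝ)..1, f t ^ m) +
          cL * ((∫ t in (0:ℝ)..1, us t ^ m) * relG m f) := by
      rw [relX]
      field_simp
      ring
    rw [e2]
    have := qh_le_gain_add_vol P h0 hm hθr hθb
    linarith

end Vale.Agent.P237.AllN
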