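import Vale.Agent.P237.AllN.AbsMoment
import Vale.Agent.P237.AllN.GamBreg
import Vale.Agent.P237.AllN.InvEta

/-!
# P237, all dimensions: the absolute bound on the second-order term

For `m ≥ 39` the second-order term is at most `η b Z + c_L Z₀ L` with `η ≤ 0.382` and
`c_L ≤ 1.24/(m+1)`, for every profile with `f 0 = 1` and `L ≥ 0`. So the profile lemma follows
from a Hardy inequality with the constant weight `2/5` on the square part and on the linear part,
and the full gain.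
-/

open MeasureTheory Set Real Filter Topology

namespace Vale.Agent.P237.AllN.AbsNeg

variable {m : ℕ} {f : ℝ → ℝ}

/-! ### The envelope of `gamI` -/

/-- Twice a primitive of `t³/(1-t²)^(3/2)`. -/
noncomputable def eA (t : ℝ) : ℝ := (t * √(1 - t ^ 2) + 3 * arcsin t) / 2 - 2 * t

/-- Its derivative. -/
noncomputable def eA' (t : ℝ) : ℝ := √(1 - t ^ 2) + 1 / √(1 - t ^ 2) - 2

/-- Twice a primitive of `t³/(1-t²)`. -/
noncomputable def eB (t : ℝ) : ℝ :=
  t - t ^ 3 / 6 + ((1 - t) * log (1 - t) - (1 + t) * log (1 + t)) / 2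

/-- Its derivative. -/
noncomputable def eB' (t : ℝ) : ℝ := -(t ^ 2 / 2) - (log (1 - t) + log (1 + t)) / 2

theorem continuous_eA : Continuous eA := by unfold eA; fun_prop

theorem continuous_eB : Continuous eB := by
  have h1 : Continuous fun t : ℝ => (1 - t) * log (1 - t) :=
    continuous_mul_log.comp (by fun_prop : Continuous fun t : ℝ => 1 - t)
  have h2 : Continuous fun t : ℝ => (1 + t) * log (1 + t) :=
    continuous_mul_log.comp (by fun_prop : Continuous fun t : ℝ => 1 + t)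
  unfold eB
  exact ((continuous_id.sub ((continuous_pow 3).div_const _)).add ((h1.sub h2).div_const _))

theorem hasDerivAt_eA {t : ℝ} (ht : t ∈ Ioo (-1:ℝ) 1) : HasDerivAt eA (eA' t) t := by
  have hp : (0:ℝ) < 1 - t ^ 2 := by nlinarith [ht.1, ht.2]
  have hu : √(1 - t ^ 2) ≠ 0 := (sqrt_pos.2 hp).ne'
  refine ((((hasDerivAt_id' t).mul (hasDerivAt_u ht)).add
    ((hasDerivAt_arcsin ht.1.ne' ht.2.ne).const_mul 3)).div_const 2 |>.sub
    ((hasDerivAt_id' t).const_mul 2)).congr_deriv ?_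
  rw [eA']
  field_simp
  linear_combination -(sq_sqrt hp.le)

theorem hasDerivAt_eA' {t : ℝ} (ht : t ∈ Ioo (-1:ℝ) 1) :
    HasDerivAt eA' (t ^ 3 / √(1 - t ^ 2) ^ 3) t := by
  have hp : (0:ℝ) < 1 - t ^ 2 := by nlinarith [ht.1, ht.2]
  have hu : √(1 - t ^ 2) ≠ 0 := (sqrt_pos.2 hp).ne'
  have h := ((hasDerivAt_u ht).add (((hasDerivAt_u ht).fun_inv hu).const_mul 1)).sub_const 2
  refine (h.congr_of_eventuallyEq (.of_forall fun x => by simp [eA'])).congr_deriv ?_
  field_simp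
  linear_combination -t * sq_sqrt hp.le

theorem hasDerivAt_eB {t : ℝ} (ht : t ∈ Ioo (-1:ℝ) 1) : HasDerivAt eB (eB' t) t := by
  have h1 : 1 - t ≠ 0 := by linarith [ht.2]
  have h2 : 1 + t ≠ 0 := by linarith [ht.1]
  have a := ((hasDerivAt_id' t).const_sub 1).mul (((hasDerivAt_id' t).const_sub 1).log h1)
  have b := ((hasDerivAt_id' t).const_add 1).mul (((hasDerivAt_id' t).const_add 1).log h2)
  refine ((((hasDerivAt_id' t).sub ((hasDerivAt_pow 3 t).div_const 6))).add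
    ((a.sub b).div_const 2)).congr_deriv ?_
  rw [eB']
  push_cast
  field_simp
  ring

theorem hasDerivAt_eB' {t : ℝ} (ht : t ∈ Ioo (-1:ℝ) 1) :
    HasDerivAt eB' (t ^ 3 / (1 - t ^ 2)) t := by
  have h1 : 1 - t ≠ 0 := by linarith [ht.2]
  have h2 : 1 + t ≠ 0 := by linarith [ht.1]
  have h3 : 1 - t ^ 2 ≠ 0 := by
    rw [show 1 - t ^ 2 = (1 - t) * (1 + t) by ring]; exact mul_ne_zero h1 h2
  refine (((hasDerivAt_pow 2 t).div_const 2).neg.sub
    (((((hasDerivAt_id' t).const_sub 1).log h1).add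
      (((hasDerivAt_id' t).const_add 1).log h2)).div_const 2)).congr_deriv ?_
  push_cast
  field_simp
  ring

/-- A function with zero value and slope at `0`, zero at `1`, whose second derivative changes sign
once, from plus to minus, is nonnegative. -/
theorem nonneg_of_hump {F F' F'' : ℝ → ℝ} (hc : ContinuousOn F (Icc 0 1)) (h0 : F 0 = 0)
    (h1 : F 1 = 0) (h0' : F' 0 = 0) (hd : ∀ x ∈ Ico (0:ℝ) 1, HasDerivAt F (F' x) x)
    (hdd : ∀ x ∈ Ico (0:ℝ) 1, HasDerivAt F' (F'' x) x)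
    (hs : ∀ x y, 0 < x → x ≤ y → y < 1 → 0 ≤ F'' y → 0 ≤ F'' x) {t : ℝ} (ht : t ∈ Icc (0:ℝ) 1) :
    0 ≤ F t := by
  refine nonneg_of_sign_change hc h0.ge h1.ge (fun x hx => hd x (Ioo_subset_Ico_self hx))
    (fun x y hx hxy hy hFy => ?_) ht
  have hy0 : 0 < y := hx.trans_le hxy
  have hmem : ∀ s ∈ Icc (0:ℝ) 1, y * s ∈ Ico (0:ℝ) 1 := fun s hs' =>
    ⟨mul_nonneg hy0.le hs'.1, lt_of_le_of_lt (mul_le_of_le_one_right hy0.le hs'.2) hy⟩
  have h := nonneg_of_sign_change (F := fun s => F' (y * s)) (F' := fun s => y * F'' (y * s))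
    (fun s hs' => ((hdd _ (hmem s hs')).continuousAt.comp
      (f := fun s => y * s) (by fun_prop)).continuousWithinAt)
    (by simp [h0']) (by simpa using hFy)
    (fun s hs' => ((hdd _ (hmem s (Ioo_subset_Icc_self hs'))).comp s
      ((hasDerivAt_id' s).const_mul y)).congr_deriv (by ring))
    (fun a b ha hab hb hFb => mul_nonneg hy0.le (hs _ _ (mul_pos hy0 ha)
      (mul_le_mul_of_nonneg_left hab hy0.le) (hmem b ⟨ha.le.trans hab, hb.le⟩).2
      (nonneg_of_mul_nonneg_right hFb hy0)))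
    (t := x / y) ⟨div_nonneg hx.le hy0.le, (div_le_one hy0).2 hxy⟩
  simpa [mul_div_cancel₀ _ hy0.ne'] using h

theorem eA_le {t : ℝ} (ht : t ∈ Icc (0:ℝ) 1) :
    eA t ≤ t ^ 5 / 20 + (3 * π / 4 - 2 - 1 / 20) * t ^ 7 := by
  set β := 3 * π / 4 - 2 - 1 / 20 with hβ
  refine sub_nonneg.1 (nonneg_of_hump (F := fun t => t ^ 5 / 20 + β * t ^ 7 - eA t)
    (F' := fun t => t ^ 4 / 4 + 7 * β * t ^ 6 - eA' t)
    (F'' := fun t => t ^ 3 * (1 + 42 * β * t ^ 2 - 1 / √(1 - t ^ 2) ^ 3))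
    ((Continuous.add (by fun_prop) (by fun_prop)).sub continuous_eA).continuousOn
    (by simp [eA]) (by simp [eA, arcsin_one, hβ]; ring) (by simp [eA']; norm_num)
    (fun x hx => ?_) (fun x hx => ?_) ?_ ht)
  · refine ((((hasDerivAt_pow 5 x).div_const 20).add ((hasDerivAt_pow 7 x).const_mul β)).sub
      (hasDerivAt_eA ⟨by linarith [hx.1], hx.2⟩)).congr_deriv ?_
    push_cast; ring
  · refine ((((hasDerivAt_pow 4 x).div_const 4).add ((hasDerivAt_pow 6 x).const_mul (7 * β))).sub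
      (hasDerivAt_eA' ⟨by linarith [hx.1], hx.2⟩)).congr_deriv ?_
    push_cast; ring
  intro x y hx hxy hy hFy
  have hy0 : 0 < y := hx.trans_le hxy
  refine mul_nonneg (pow_nonneg hx.le 3) ?_
  have hy' := nonneg_of_mul_nonneg_right hFy (pow_pos hy0 3)
  obtain ⟨ha, ha1, hsa⟩ := u_mem hy0.le hy
  obtain ⟨hb, hb1, hsb⟩ := u_mem hx.le (hxy.trans_lt hy)
  set a := √(1 - y ^ 2)
  set b := √(1 - x ^ 2)
  have hab : a ≤ b := sqrt_le_sqrt (by nlinarith)
  rw [sub_nonneg] at hy' ⊢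
  rw [div_le_iff₀ (pow_pos ha 3)] at hy'
  rw [div_le_iff₀ (pow_pos hb 3), hsb]
  rw [hsa] at hy'
  rcases hb1.eq_or_lt with e | hb'
  · rw [e]; norm_num
  have hy2 : (1 + a + a ^ 2) ≤ 42 * β * (a ^ 3 * (1 + a)) := by
    refine le_of_mul_le_mul_left ?_ (show (0:ℝ) < 1 - a by linarith)
    linarith [show (1 - a) * (42 * β * (a ^ 3 * (1 + a))) = 42 * β * (1 - a ^ 2) * a ^ 3 by ring,
      show (1 - a) * (1 + a + a ^ 2) = 1 - a ^ 3 by ring]
  have key : (1 + b + b ^ 2) * (a ^ 3 * (1 + a)) ≤ (1 + a + a ^ 2) * (b ^ 3 * (1 + b)) := by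
    have h1 := pow_le_pow_left₀ ha.le hab 3
    have h2 := pow_le_pow_left₀ ha.le hab 2
    have h3 := mul_nonneg (mul_nonneg ha.le hb.le) (sub_nonneg.2 hab)
    nlinarith [mul_nonneg (sub_nonneg.2 hab) (pow_nonneg ha.le 2),
      mul_nonneg (sub_nonneg.2 hab) (pow_nonneg hb.le 2), mul_nonneg h3 (mul_nonneg ha.le hb.le),
      mul_nonneg h3 (add_nonneg ha.le hb.le), mul_nonneg ha.le hb.le]
  have hb2 : (1 + b + b ^ 2) ≤ 42 * β * (b ^ 3 * (1 + b)) := by
    refine le_of_mul_le_mul_right ?_ (mul_pos (pow_pos ha 3) (by linarith : (0:ℝ) < 1 + a))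
    nlinarith [mul_le_mul_of_nonneg_right hy2
      (mul_nonneg (pow_nonneg hb.le 3) (by linarith : (0:ℝ) ≤ 1 + b))]
  nlinarith [mul_le_mul_of_nonneg_left hb2 (sub_nonneg.2 hb1)]

theorem eB_le {t : ℝ} (ht : t ∈ Icc (0:ℝ) 1) :
    eB t ≤ t ^ 5 / 20 + (5 / 6 - log 2 - 1 / 20) * t ^ 7 := by
  set β := 5 / 6 - log 2 - 1 / 20 with hβ
  refine sub_nonneg.1 (nonneg_of_hump (F := fun t => t ^ 5 / 20 + β * t ^ 7 - eB t)
    (F' := fun t => t ^ 4 / 4 + 7 * β * t ^ 6 - eB' t)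
    (F'' := fun t => t ^ 3 * (1 + 42 * β * t ^ 2 - 1 / (1 - t ^ 2)))
    ((Continuous.add (by fun_prop) (by fun_prop)).sub continuous_eB).continuousOn
    (by simp [eB]) (by simp [eB, hβ]; ring_nf) (by simp [eB']) (fun x hx => ?_) (fun x hx => ?_) ?_
    ht)
  · refine ((((hasDerivAt_pow 5 x).div_const 20).add ((hasDerivAt_pow 7 x).const_mul β)).sub
      (hasDerivAt_eB ⟨by linarith [hx.1], hx.2⟩)).congr_deriv ?_
    push_cast; ring
  · refine ((((hasDerivAt_pow 4 x).div_const 4).add ((hasDerivAt_pow 6 x).const_mul (7 * β))).sub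
      (hasDerivAt_eB' ⟨by linarith [hx.1], hx.2⟩)).congr_deriv ?_
    push_cast; ring
  intro x y hx hxy hy hFy
  have hy0 : 0 < y := hx.trans_le hxy
  refine mul_nonneg (pow_nonneg hx.le 3) ?_
  have hy' := nonneg_of_mul_nonneg_right hFy (pow_pos hy0 3)
  have hx2 : 0 < 1 - x ^ 2 := by nlinarith
  have hy2 : 0 < 1 - y ^ 2 := by nlinarith
  rw [sub_nonneg, div_le_iff₀ hy2] at hy'
  rw [sub_nonneg, div_le_iff₀ hx2]
  have h : 1 ≤ 42 * β * (1 - y ^ 2) := by
    refine le_of_mul_le_mul_left ?_ (pow_pos hy0 2)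
    linarith
  have hsq := pow_le_pow_left₀ hx.le hxy 2
  have hβ0 : 0 ≤ β := by
    by_contra hn
    nlinarith [mul_neg_of_neg_of_pos (not_le.1 hn) hy2]
  nlinarith [mul_le_mul_of_nonneg_left hsq (mul_nonneg (by norm_num : (0:ℝ) ≤ 42) hβ0),
    mul_le_mul_of_nonneg_left h (sq_nonneg x)]

/-- The coefficient of `T⁷`. -/
noncomputable def b7 (m : ℕ) : ℝ :=
  kapLo m * (3 * π / 4 - 2 - 1 / 20) + (gamA m - kapLo m) * (5 / 6 - log 2 - 1 / 20)

/-- **`I(T) ≤ A T⁵/20 + B T⁷`.** -/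
theorem gamI_le {T : ℝ} (hT : T ∈ Icc (0:ℝ) 1) :
    gamI m T ≤ gamA m / 20 * T ^ 5 + b7 m * T ^ 7 := by
  have hk := (kapLo_pos m).le
  have hAk := sub_nonneg.2 (kapLo_le_gamA m)
  set E : ℝ → ℝ := fun t => kapLo m * eA t + (gamA m - kapLo m) * eB t
  set E' : ℝ → ℝ := fun t => kapLo m * eA' t + (gamA m - kapLo m) * eB' t
  set E'' : ℝ → ℝ := fun t => kapLo m * (t ^ 3 / √(1 - t ^ 2) ^ 3) +
    (gamA m - kapLo m) * (t ^ 3 / (1 - t ^ 2))
  have hI : ∀ s ∈ Ico (0:ℝ) 1, s ∈ Ioo (-1:ℝ) 1 := fun s hs => ⟨by linarith [hs.1], hs.2⟩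
  have hE : ∀ s ∈ Ico (0:ℝ) 1, HasDerivAt E (E' s) s := fun s hs =>
    ((hasDerivAt_eA (hI s hs)).const_mul _).add ((hasDerivAt_eB (hI s hs)).const_mul _)
  have h := gamD_le_of (m := m) (T := T) (u := 0) (B := E) (B' := E') (B'' := E'') le_rfl
    ((continuous_const.mul continuous_eA).add (continuous_const.mul continuous_eB)).continuousOn
    hE (fun s hs => ((hasDerivAt_eA' (hI s (Ioo_subset_Ico_self hs))).const_mul _).add
      ((hasDerivAt_eB' (hI s (Ioo_subset_Ico_self hs))).const_mul _))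
    (fun s hs => ?_) hT ⟨le_rfl, zero_le_one⟩ zero_lt_one (hE 0 ⟨le_rfl, zero_lt_one⟩)
  · have hE0 : E 0 = 0 ∧ E' 0 = 0 := by
      constructor
      · simp [E, eA, eB]
      · simp only [E', eA', eB']; norm_num
    have hR0 : gamR m 0 = 0 := by simp [gamR, phiR_zero, psiR_zero]
    have hI0 : gamI m 0 = 0 := by rw [gamI, intervalIntegral.integral_same]
    rw [gamD, hR0, hI0, hE0.1, hE0.2] at h
    have e1 := mul_le_mul_of_nonneg_left (eA_le hT) hk
    have e2 := mul_le_mul_of_nonneg_left (eB_le hT) hAk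
    simp only [E] at h
    rw [b7]
    linarith
  · have hu := (u_mem hs.1.le hs.2).1
    have hp : 0 < 1 - s ^ 2 := by nlinarith [hs.1, hs.2]
    have key := gam_le_two (m := m) hs.1.le hs.2
    rw [← le_div_iff₀ (pow_pos hu 3)] at key
    refine key.trans_eq ?_
    simp only [E'']
    have hw := sq_sqrt hp.le
    set w := √(1 - s ^ 2)
    rw [← hw]
    field_simp

/-! ### Ball integrals -/

theorem us_rec (j : ℕ) : ∫ t in (0:ℝ)..1, us t ^ (j + 2) =
    ((j:ℝ) + 2) / ((j:ℝ) + 3) * ∫ t in (0:ℝ)..1, us t ^ j := by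
  have h1 := half_ball j
  have h2 := half_ball (j + 2)
  rw [show j + 2 + 1 = j + 1 + 2 by omega, cosI_rec, ← h1] at h2
  push_cast at h2
  have e : ((j:ℝ) + 2) / ((j:ℝ) + 3) = ((j:ℝ) + 1 + 1) / ((j:ℝ) + 1 + 2) := by ring
  rw [e]
  linarith

/-- `∫ r^j τ = L_{j+1}/(j+1)`. -/
theorem int_pow_us (j : ℕ) : ∫ r in (0:ℝ)..1, r ^ j * us r =
    (∫ t in (0:ℝ)..1, us t ^ (j + 1)) / ((j:ℝ) + 1) := by
  obtain ⟨-, e⟩ := layer halfProf_us us_zero (a := fun _ => 1) intervalIntegrable_const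
    (show Continuous fun r : ℝ => ((j + 1 : ℕ) : ℝ) * r ^ (j + 1 - 1) by fun_prop)
  simp only [one_mul, primitive_pow (show j + 1 ≠ 0 by omega)] at e
  simp only [intervalIntegral.integral_const, sub_zero, smul_eq_mul, mul_one,
    Nat.add_sub_cancel] at e
  rw [e, ← intervalIntegral.integral_div]
  refine integral_congr_Ioo fun r hr => ?_
  rw [dist01_us hr]
  push_cast
  field_simp

theorem int_pow_us5 (j : ℕ) : ∫ r in (0:ℝ)..1, r ^ j * us r ^ 5 =
    15 * (∫ t in (0:ℝ)..1, us t ^ (j + 3)) / (((j:ℝ) + 1) * ((j:ℝ) + 3) * ((j:ℝ) + 6)) := by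
  have hi : ∀ i : ℕ, IntervalIntegrable (fun r : ℝ => r ^ i * us r) volume 0 1 := fun i =>
    ((continuous_pow i).mul continuous_us).intervalIntegrable _ _
  rw [intervalIntegral.integral_congr (g := fun r => r ^ j * us r - 2 * (r ^ (j + 2) * us r) +
    r ^ (j + 4) * us r) fun r hr => ?_, intervalIntegral.integral_add ((hi j).sub
      ((hi (j + 2)).const_mul 2)) (hi (j + 4)), intervalIntegral.integral_sub (hi j)
      ((hi (j + 2)).const_mul 2), intervalIntegral.integral_const_mul, int_pow_us, int_pow_us,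
    int_pow_us]
  · have h1 := us_rec (j + 1)
    have h2 := us_rec (j + 3)
    rw [show j + 1 + 2 = j + 3 by omega] at h1
    rw [show j + 2 + 1 = j + 3 by omega, show j + 4 + 1 = j + 3 + 2 by omega, h2]
    push_cast at h1 ⊢
    rw [h1]
    field_simp
    ring
  · rw [uIcc_of_le zero_le_one] at hr
    simp only
    rw [show us r ^ 5 = (us r ^ 2) ^ 2 * us r by ring, us_sq hr]
    ring

theorem cosI_prod (j : ℕ) : ((j:ℝ) + 1) * (cosI j * cosI (j + 1)) = 2 * π := by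
  induction j with
  | zero => norm_num [cosI]; ring
  | succ j ih =>
    rw [show j + 1 + 1 = j + 2 by omega, cosI_rec, ← ih]
    push_cast
    field_simp
    ring

theorem ball_sq (hm : m ≠ 0) :
    (∫ t in (0:ℝ)..1, us t ^ m) ^ 2 ≤ π / 2 / ((m:ℝ) + 1) := by
  have h1 := cosI_prod m
  have h2 := half_ball m
  have hlt := cosI_succ_lt m
  have hp := cosI_pos (m + 1)
  rw [le_div_iff₀ (by positivity)]
  have e : (∫ t in (0:ℝ)..1, us t ^ m) = cosI (m + 1) / 2 := by linarith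
  rw [e]
  nlinarith [mul_le_mul_of_nonneg_left (mul_le_mul_of_nonneg_left hlt.le hp.le)
    (show (0:ℝ) ≤ (m:ℝ) + 1 by positivity)]

/-! ### The absolute bound -/

/-- The coefficient of `Z` from the two moments. -/
noncomputable def momC (m : ℕ) : ℝ :=
  gamA m / 4 * (39 / 5) * (∫ t in (0:ℝ)..1, us t ^ m) ^ 4 +
    7 * b7 m * 126 * (∫ t in (0:ℝ)..1, us t ^ m) ^ 6

/-- `∫ negF / Z₀`. -/
noncomputable def negC (m : ℕ) : ℝ :=
  3 * (m:ℝ) * (kapLo m / (cst m * (((m:ℝ) - 3) * ((m:ℝ) - 1) * ((m:ℝ) + 2))) +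
    (gamA m - kapLo m) / (((m:ℝ) - 2) * (m:ℝ) * ((m:ℝ) + 3)))

theorem negF_le (hm : 4 ≤ m) {r : ℝ} (hr : r ∈ Ioo (0:ℝ) 1) :
    negF m r ≤ (m:ℝ) / 5 * kapLo m * (r ^ (m - 4) * us r ^ 5) +
      (m:ℝ) / 5 * (gamA m - kapLo m) * (r ^ (m - 3) * us r ^ 5) := by
  have hri := Ioo_subset_Icc_self hr
  set u := us r with hu
  have hu0 : 0 < u := sqrt_pos.2 (by nlinarith [hr.1, hr.2])
  have hu1 : u < 1 := us_lt_one ⟨hr.1, hr.2.le⟩
  have hk := (kapLo_pos m).le
  have hAk := sub_nonneg.2 (kapLo_le_gamA m)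
  set κ := kapLo m / r ^ 3 + (gamA m - kapLo m) / r ^ 2
  have hκ : ∀ s : ℝ, HasDerivAt (fun x : ℝ => κ * (x ^ 5 / 20)) (κ * (s ^ 4 / 4)) s := fun s =>
    (((hasDerivAt_pow 5 s).div_const 20).const_mul κ).congr_deriv (by push_cast; ring)
  have h := gamD_le_of (m := m) (T := 0) (u := u) (M := u) (B := fun x => κ * (x ^ 5 / 20))
    (B' := fun x => κ * (x ^ 4 / 4)) (B'' := fun x => κ * x ^ 3) hu1.le (by fun_prop)
    (fun s _ => hκ s)
    (fun s _ => (((hasDerivAt_pow 4 s).div_const 4).const_mul κ).congr_deriv (by push_cast; ring))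
    (fun s hs => ?_) ⟨le_rfl, hu0.le⟩ ⟨hu0.le, le_rfl⟩ hu1 (hκ u)
  · rw [negF_eq hri, ← hu]
    have hI0 : gamI m 0 = 0 := by rw [gamI, intervalIntegral.integral_same]
    rw [gamD, hI0] at h
    have h2 : gamR m u * u - gamI m u ≤ κ * u ^ 5 / 5 := by nlinarith
    refine (mul_le_mul_of_nonneg_left h2
      (mul_nonneg (Nat.cast_nonneg m) (pow_nonneg hr.1.le _))).trans_eq ?_
    obtain ⟨k, rfl⟩ : ∃ k, m = k + 4 := ⟨m - 4, by omega⟩
    simp only [κ, show k + 4 - 1 = k + 3 by omega, Nat.add_sub_cancel,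
      show k + 4 - 3 = k + 1 by omega, pow_add]
    have hr0 : r ≠ 0 := hr.1.ne'
    field_simp
  · obtain ⟨hw, -, hsq⟩ := u_mem hs.1.le (hs.2.trans hu1)
    have key := gam_le_two (m := m) hs.1.le (hs.2.trans hu1)
    rw [← le_div_iff₀ (pow_pos hw 3)] at key
    refine key.trans ?_
    set w := √(1 - s ^ 2)
    have hrw : r ≤ w := by
      rw [show r = √(1 - u ^ 2) by rw [hu]; exact (us_us hri).symm]
      exact sqrt_le_sqrt (by nlinarith [hs.1, hs.2])
    have a1 : kapLo m / w ^ 3 ≤ kapLo m / r ^ 3 :=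
      div_le_div_of_nonneg_left hk (pow_pos hr.1 3) (pow_le_pow_left₀ hr.1.le hrw 3)
    have a2 : (gamA m - kapLo m) / w ^ 2 ≤ (gamA m - kapLo m) / r ^ 2 :=
      div_le_div_of_nonneg_left hAk (pow_pos hr.1 2) (pow_le_pow_left₀ hr.1.le hrw 2)
    refine le_trans (le_of_eq ?_) (mul_le_mul_of_nonneg_right (add_le_add a1 a2) (pow_nonneg hs.1.le 3))
    field_simp

theorem int_negF_le (hm : 4 ≤ m) :
    ∫ r in (0:ℝ)..1, negF m r ≤ negC m * ∫ t in (0:ℝ)..1, us t ^ m := by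
  have hc : ∀ i : ℕ, IntervalIntegrable (fun r : ℝ => r ^ i * us r ^ 5) volume 0 1 := fun i =>
    ((continuous_pow i).mul (continuous_us.pow 5)).intervalIntegrable _ _
  refine (intervalIntegral.integral_mono_on_of_le_Ioo zero_le_one
    ((continuous_negF (by omega)).intervalIntegrable _ _)
    (((hc (m - 4)).const_mul _).add ((hc (m - 3)).const_mul _))
    fun r hr => negF_le hm hr).trans_eq ?_
  rw [intervalIntegral.integral_add ((hc _).const_mul _) ((hc _).const_mul _),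
    intervalIntegral.integral_const_mul, intervalIntegral.integral_const_mul, int_pow_us5,
    int_pow_us5, negC]
  have e := cst_eq (m := m) (by omega)
  obtain ⟨k, rfl⟩ : ∃ k, m = k + 4 := ⟨m - 4, by omega⟩
  simp only [Nat.add_sub_cancel, show k + 4 - 3 = k + 1 by omega, show k + 1 + 3 = k + 4 by omega]
  simp only [show k + 4 - 1 = k + 3 by omega] at e
  have hc0 := (cst_pos (k + 4)).ne'
  rw [← e]
  push_cast
  have : ((k:ℝ) + 1) ≠ 0 := by positivity
  rw [show (k:ℝ) + 4 - 3 = k + 1 by ring, show (k:ℝ) + 4 - 1 = k + 3 by ring,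
    show (k:ℝ) + 4 - 2 = k + 2 by ring, show (k:ℝ) + 1 + 1 = k + 2 by ring,
    show (k:ℝ) + 1 + 3 = k + 4 by ring, show (k:ℝ) + 1 + 6 = k + 4 + 3 by ring,
    show (k:ℝ) + 4 + 2 = k + 6 by ring]
  field_simp
  ring

/-- `ℓ = Z₀ (1 - (m-1) L)`. -/
theorem ell_relG (hm : 2 ≤ m) :
    ((m:ℝ) - 1) * ((∫ t in (0:ℝ)..1, us t ^ m) * relG m f) =
      (∫ t in (0:ℝ)..1, us t ^ m) - AbsMoment.ell m f := by
  have hZ := Z_pos halfProf_us (m := m)
  have hP := Z_pos halfProf_us (m := m - 1)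
  have h1 : (2:ℝ) ≤ m := by exact_mod_cast hm
  have e := cst_eq (m := m) (by omega)
  have hne : (m:ℝ) - 1 ≠ 0 := by linarith
  rw [relG, relX, AbsMoment.ell, ← e]
  have hc := (cst_pos m).ne'
  field_simp
  ring

theorem mD_le (P : HalfProf f) (h0 : f 0 = 1) :
    (m:ℝ) * ((∫ t in (0:ℝ)..1, f t ^ (m - 1)) - ∫ t in (0:ℝ)..1, f t ^ m) ≤
      ∫ t in (0:ℝ)..1, f t ^ m := by
  have ih : IntervalIntegrable (fun t => f t ^ m) volume 0 1 :=
    bounded_comp P h0 (continuous_pow m)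
  have ip : IntervalIntegrable (fun t => f t ^ (m - 1)) volume 0 1 :=
    bounded_comp P h0 (continuous_pow (m - 1))
  set Z := ∫ t in (0:ℝ)..1, f t ^ m with hZ
  set D := (m:ℝ) * ((∫ t in (0:ℝ)..1, f t ^ (m - 1)) - Z) with hD
  have key : ∀ l ∈ Ioo (0:ℝ) 1, l * D ≤ Z := by
    intro l hl
    have hm0 : l * l ≤ l := by nlinarith [hl.1, hl.2]
    have isc : IntervalIntegrable (fun t => f (l * t) ^ m) volume 0 1 := by
      have h := (ih.mono_set (show uIcc 0 l ⊆ uIcc (0:ℝ) 1 by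
        rw [uIcc_of_le hl.1.le, uIcc_of_le zero_le_one]
        exact Icc_subset_Icc le_rfl hl.2.le)).comp_mul_left (c := l)
      simpa [div_self hl.1.ne'] using h
    have e : l * ∫ t in (0:ℝ)..1, f (l * t) ^ m = ∫ t in (0:ℝ)..l, f t ^ m := by
      rw [intervalIntegral.mul_integral_comp_mul_left (f := fun t => f t ^ m) l, mul_zero, mul_one]
    have h1 : ∫ t in (0:ℝ)..l, f t ^ m ≤ Z :=
      intervalIntegral.integral_mono_interval le_rfl hl.1.le hl.2.le
        ((ae_restrict_iff' measurableSet_Ioc).2 (.of_forall fun x hx =>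
          pow_nonneg (P.nonneg x (Ioc_subset_Icc_self hx)) m)) ih
    have h2 : Z + (1 - l) * D ≤ ∫ t in (0:ℝ)..1, f (l * t) ^ m := by
      rw [hD, hZ, ← intervalIntegral.integral_sub ip ih, ← intervalIntegral.integral_const_mul,
        ← intervalIntegral.integral_const_mul, ← intervalIntegral.integral_add ih
          (((ip.sub ih).const_mul _).const_mul _)]
      refine intervalIntegral.integral_mono_on_of_le_Ioo zero_le_one
        (ih.add (((ip.sub ih).const_mul _).const_mul _)) isc fun t ht => ?_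
      obtain ⟨hf, hf1⟩ := P.mem01' h0 ht
      have hc := P.conc.2 (left_mem_Icc.2 zero_le_one) (Ioo_subset_Icc_self ht)
        (show (0:ℝ) ≤ 1 - l by linarith [hl.2]) hl.1.le (by ring)
      simp only [smul_eq_mul, mul_zero, zero_add, h0, mul_one] at hc
      refine le_trans ?_ (pow_le_pow_left₀ (add_nonneg (by linarith [hl.2])
        (mul_nonneg hl.1.le hf.le)) hc m)
      rcases Nat.eq_zero_or_pos m with rfl | hm
      · simp
      · set x := (1 - l) * (1 - f t) / f t with hx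
        have hx0 : 0 ≤ x := div_nonneg (mul_nonneg (by linarith [hl.2]) (by linarith)) hf.le
        have hb := one_add_mul_le_pow (by linarith : -2 ≤ x) m
        have := mul_le_mul_of_nonneg_left hb (pow_nonneg hf.le m)
        rw [← mul_pow] at this
        have e1 : f t * (1 + x) = 1 - l + l * f t := by rw [hx]; field_simp; ring
        have e2 : f t ^ m = f t ^ (m - 1) * f t := by rw [← pow_succ]; congr 1; omega
        rw [e1] at this
        refine le_trans (le_of_eq ?_) this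
        rw [hx, e2]
        field_simp
    have h3 := mul_le_mul_of_nonneg_left h2 hl.1.le
    rw [e] at h3
    nlinarith [hl.1, hl.2]
  have ht : Tendsto (fun l => l * D) (𝓝[<] (1:ℝ)) (𝓝 D) := by
    have h := ((show Continuous fun l : ℝ => l * D by fun_prop).tendsto 1).mono_left
      (nhdsWithin_le_nhds (s := Iio 1))
    simpa using h
  refine le_of_tendsto ht ?_
  filter_upwards [Ioo_mem_nhdsLT one_pos] with l hl using key l hl

/-- `2 - (m+1) b`, the bound of `ℓ/Z`. -/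
noncomputable def kapE (m : ℕ) : ℝ := 2 - ((m:ℝ) + 1) * quad m

/-- **The absolute bound.** -/
theorem negR_le_abs (P : HalfProf f) (h0 : f 0 = 1) (hm : 39 ≤ m) (hL : 0 ≤ relG m f) :
    negR m f ≤ (momC m + kapE m * negC m) * (∫ t in (0:ℝ)..1, f t ^ m) +
      ((m:ℝ) - 1) * negC m * ((∫ t in (0:ℝ)..1, us t ^ m) * relG m f) := by
  have hm3 : 3 ≤ m := by omega
  have hm' : (39:ℝ) ≤ m := by exact_mod_cast hm
  set Z := ∫ t in (0:ℝ)..1, f t ^ m with hZdef
  set Z0 := ∫ t in (0:ℝ)..1, us t ^ m with hZ0def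
  set ℓ := AbsMoment.ell m f with hℓdef
  have hZ : 0 < Z := Z_pos P (m := m)
  have hZ0 : 0 < Z0 := Z_pos halfProf_us (m := m)
  have hcW : Continuous fun r : ℝ => (m:ℝ) * r ^ (m - 1) := by fun_prop
  obtain ⟨l2, e2⟩ := layer P h0 (a := gamR m) intGam hcW
  obtain ⟨l4, e4⟩ := layer P h0 (a := fun t => 5 * t ^ 4)
    (Continuous.intervalIntegrable (by fun_prop) _ _) hcW
  obtain ⟨l6, e6⟩ := layer P h0 (a := fun t => 7 * t ^ 6)
    (Continuous.intervalIntegrable (by fun_prop) _ _) hcW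
  simp only [primitive_pow (show m ≠ 0 by omega), intervalIntegral.integral_const_mul, integral_pow,
    zero_pow (Nat.succ_ne_zero _), sub_zero] at l4 e4 l6 e6
  norm_num at l4 e4 l6 e6
  simp only [mul_div_cancel₀ _ (show (5:ℝ) ≠ 0 by norm_num),
    mul_div_cancel₀ _ (show (7:ℝ) ≠ 0 by norm_num)] at l4 e4 l6 e6
  have lT : IntervalIntegrable (fun r => hG m r * dist01 f r) volume 0 1 := by
    have h := (layer P h0 (a := fun _ => 1) intervalIntegrable_const
      (continuous_hG hm3)).1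
    simpa using h
  have lI : IntervalIntegrable (fun r => (m:ℝ) * r ^ (m - 1) * gamI m (dist01 f r)) volume 0 1 := l2
  have iF := (continuous_negF (m := m) hm3).intervalIntegrable (μ := volume) 0 1
  have eN : negR m f = (∫ r in (0:ℝ)..1, (m:ℝ) * r ^ (m - 1) * gamI m (dist01 f r)) -
      (∫ r in (0:ℝ)..1, hG m r * dist01 f r) + ∫ r in (0:ℝ)..1, negF m r := by
    rw [← intervalIntegral.integral_sub lI lT, ← intervalIntegral.integral_add (lI.sub lT) iF, negR]
    refine integral_congr_Ioo fun r hr => ?_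
    rw [hG_eq (Ioo_subset_Icc_self hr), negF_eq (Ioo_subset_Icc_self hr)]
    ring
  have hT0 : 0 ≤ ∫ r in (0:ℝ)..1, hG m r * dist01 f r := by
    refine intervalIntegral.integral_nonneg zero_le_one fun r hr => mul_nonneg ?_ (dist01_mem f r).1
    rcases hr.1.eq_or_lt with e | hr0
    · rw [← e, hG_eq ⟨le_rfl, zero_le_one⟩, zero_pow (show m - 1 ≠ 0 by omega)]; simp
    · have hu := us_mem hr
      have hu1 := us_lt_one ⟨hr0, hr.2⟩
      rw [hG_eq hr]
      refine mul_nonneg (mul_nonneg (Nat.cast_nonneg m) (pow_nonneg hr.1 _)) ?_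
      rw [gamR]
      exact add_nonneg (mul_nonneg (by positivity) (phiR_nonneg ⟨by linarith [hu.1], hu.2⟩))
        (mul_nonneg hu.1 (psiR_nonneg hu.1 hu1))
  -- the convex part
  have hI : (∫ r in (0:ℝ)..1, (m:ℝ) * r ^ (m - 1) * gamI m (dist01 f r)) ≤
      gamA m / 20 * (5 * ∫ t in (0:ℝ)..1, t ^ 4 * f t ^ m) +
        b7 m * (7 * ∫ t in (0:ℝ)..1, t ^ 6 * f t ^ m) := by
    have i4 : IntervalIntegrable (fun r => (m:ℝ) * r ^ (m - 1) * dist01 f r ^ 5) volume 0 1 := l4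
    have i6 : IntervalIntegrable (fun r => (m:ℝ) * r ^ (m - 1) * dist01 f r ^ 7) volume 0 1 := l6
    refine (intervalIntegral.integral_mono_on zero_le_one lI
      ((i4.const_mul (gamA m / 20)).add (i6.const_mul (b7 m))) fun r hr => ?_).trans_eq ?_
    · have h := mul_le_mul_of_nonneg_left (gamI_le (m := m) (dist01_mem f r))
        (mul_nonneg (Nat.cast_nonneg m : (0:ℝ) ≤ m) (pow_nonneg hr.1 (m - 1)))
      linarith
    · rw [intervalIntegral.integral_add (i4.const_mul _) (i6.const_mul _),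
        intervalIntegral.integral_const_mul, intervalIntegral.integral_const_mul, ← e4, ← e6,
        ← intervalIntegral.integral_const_mul 5, ← intervalIntegral.integral_const_mul 7]
      simp only [mul_assoc]
  obtain ⟨m4, m6⟩ := AbsMoment.moment_le_ell P h0 hm
  have hℓ : ((m:ℝ) - 1) * (Z0 * relG m f) = Z0 - ℓ := ell_relG (by omega)
  have hℓ1 : ℓ ≤ Z0 := by
    have := mul_nonneg (show (0:ℝ) ≤ (m:ℝ) - 1 by linarith) (mul_nonneg hZ0.le hL)
    linarith
  have hmD := AbsMoment.mD_nonneg (m := m) P h0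
  have hb0 : 0 ≤ 1 - (m:ℝ) * quad m := by
    have h1 := le_quadHi m
    have h2 : (m:ℝ) * quadHi m ≤ 1 := by
      rw [quadHi, mul_div_assoc', div_le_iff₀ (by positivity)]
      nlinarith
    nlinarith [mul_le_mul_of_nonneg_left h1 (Nat.cast_nonneg m : (0:ℝ) ≤ m)]
  have hℓ0 : 0 ≤ ℓ := by
    rw [hℓdef, AbsMoment.ell_eq]
    exact add_nonneg (mul_nonneg hb0 hZ.le) (mul_nonneg (cst_pos m).le hmD)
  have hℓκ : ℓ ≤ kapE m * Z := by
    rw [hℓdef, AbsMoment.ell_eq, ← hZdef]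
    have h := mul_le_mul_of_nonneg_left (mD_le (m := m) P h0) (cst_pos m).le
    rw [← hZdef] at h
    have e : kapE m * Z = (1 - (m:ℝ) * quad m) * Z + cst m * Z := by rw [kapE, quad]; ring
    linarith
  have hA := gamA_nonneg m
  have hB : 0 ≤ b7 m := by
    have h1 : 0 ≤ 3 * π / 4 - 2 - 1 / 20 := by linarith [pi_gt_d2]
    have h2 : 0 ≤ 5 / 6 - log 2 - 1 / 20 := by linarith [log_two_lt_d9]
    exact add_nonneg (mul_nonneg (kapLo_pos m).le h1)
      (mul_nonneg (sub_nonneg.2 (kapLo_le_gamA m)) h2)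
  have hnC : 0 ≤ negC m := by
    have : 0 < (m:ℝ) - 3 := by linarith
    have : 0 < (m:ℝ) - 1 := by linarith
    have : 0 < (m:ℝ) - 2 := by linarith
    have := cst_pos m
    have := (kapLo_pos m).le
    have := sub_nonneg.2 (kapLo_le_gamA m)
    unfold negC
    positivity
  have p4 := mul_le_mul_of_nonneg_left (m4.trans (mul_le_mul_of_nonneg_right
    (mul_le_mul_of_nonneg_left (pow_le_pow_left₀ hℓ0 hℓ1 4) (by norm_num : (0:ℝ) ≤ 39 / 5))
    hZ.le)) (show 0 ≤ gamA m / 4 by positivity)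
  have p6 := mul_le_mul_of_nonneg_left (m6.trans (mul_le_mul_of_nonneg_right
    (mul_le_mul_of_nonneg_left (pow_le_pow_left₀ hℓ0 hℓ1 6) (by norm_num : (0:ℝ) ≤ 126))
    hZ.le)) (show 0 ≤ 7 * b7 m by positivity)
  have p0 := int_negF_le (m := m) (by omega)
  rw [← hZ0def] at p0
  have e0 : negC m * Z0 = negC m * ℓ + ((m:ℝ) - 1) * negC m * (Z0 * relG m f) := by
    linear_combination (-negC m) * hℓ
  have p1 := mul_le_mul_of_nonneg_left hℓκ hnC
  rw [eN, momC, ← hZ0def]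
  linarith

/-! ### Rational bounds for `m ≥ 39` -/

theorem gamA_le_39 (hm : 39 ≤ m) : gamA m ≤ 41 / 100 := by
  have hm' : (39:ℝ) ≤ m := by exact_mod_cast hm
  have h := mul_le_mul_of_nonneg_left (le_quadHi m) (show (0:ℝ) ≤ 2 * (m:ℝ) + 7 by linarith)
  rw [quadHi, mul_div_assoc', le_div_iff₀ (by positivity)] at h
  set D := 16 * (m:ℝ) ^ 2 + 44 * m + 33 with hD
  rw [gamA, div_le_iff₀ (by norm_num : (0:ℝ) < 6)]
  refine le_of_mul_le_mul_right ?_ (show (0:ℝ) < D by positivity)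
  have h2 := mul_le_mul_of_nonneg_left h (show (0:ℝ) ≤ (m:ℝ) + 5 by linarith)
  nlinarith [mul_nonneg (sub_nonneg.2 hm') (sub_nonneg.2 hm')]

theorem b7_le (hm : 39 ≤ m) : b7 m ≤ 426 / 10000 := by
  have hm' : (39:ℝ) ≤ m := by exact_mod_cast hm
  have hA := gamA_le_39 hm
  have hk : kapLo m ≤ 1 / 40 := by
    refine (div_le_div_of_nonneg_right (cst_lt_one m).le (by positivity)).trans ?_
    rw [div_le_div_iff₀ (by positivity) (by norm_num)]
    linarith
  have h1 : 3 * π / 4 - 2 - 1 / 20 ≤ 3063 / 10000 := by linarith [pi_lt_d4]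
  have h2 : 5 / 6 - log 2 - 1 / 20 ≤ 903 / 10000 := by linarith [log_two_gt_d9]
  rw [b7]
  have a1 := mul_le_mul_of_nonneg_left h1 (kapLo_pos m).le
  have a2 := mul_le_mul_of_nonneg_left h2 (sub_nonneg.2 (kapLo_le_gamA m))
  nlinarith

theorem kapE_bounds (hm : 39 ≤ m) :
    124 / 250 / ((m:ℝ) + 1) ≤ quad m ∧ 0 ≤ kapE m ∧ kapE m ≤ 151 / 100 := by
  have hm' : (39:ℝ) ≤ m := by exact_mod_cast hm
  have h : 124 / 250 ≤ ((m:ℝ) + 1) * quadLo m := by
    rw [quadLo, mul_div_assoc', le_div_iff₀ (by positivity)]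
    nlinarith
  have h' := mul_le_mul_of_nonneg_left (quadLo_le m) (show (0:ℝ) ≤ (m:ℝ) + 1 by positivity)
  have h2 : ((m:ℝ) + 1) * quad m ≤ 1 := by
    refine (mul_le_mul_of_nonneg_left (le_quadHi m) (by positivity)).trans ?_
    rw [quadHi, mul_div_assoc', div_le_iff₀ (by positivity)]
    nlinarith
  refine ⟨?_, ?_, ?_⟩
  · rw [div_le_iff₀ (by positivity)]; linarith
  · rw [kapE]; linarith
  · rw [kapE]; linarith

theorem negC_le (hm : 39 ≤ m) : ((m:ℝ) - 1) * negC m ≤ 124 / 100 / ((m:ℝ) + 1) := by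
  have hm' : (39:ℝ) ≤ m := by exact_mod_cast hm
  have h3 : 0 < (m:ℝ) - 3 := by linarith
  have h1 : 0 < (m:ℝ) - 1 := by linarith
  have h2 : 0 < (m:ℝ) - 2 := by linarith
  have hA := gamA_le_39 hm
  have hk : 1 / ((m:ℝ) + 2) ≤ kapLo m := by
    rw [kapLo, div_le_div_iff₀ (by positivity) (by positivity)]
    have := succ_div_le_cst m
    rw [div_le_iff₀ (by positivity)] at this
    linarith
  have e : ((m:ℝ) - 1) * negC m = 3 * (m:ℝ) / (((m:ℝ) + 1) * ((m:ℝ) - 3) * ((m:ℝ) + 2)) +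
      3 * ((m:ℝ) - 1) / (((m:ℝ) - 2) * ((m:ℝ) + 3)) * (gamA m - kapLo m) := by
    have hc := (cst_pos m).ne'
    rw [negC, kapLo]
    field_simp
  rw [e]
  refine (add_le_add_right (mul_le_mul_of_nonneg_left (show gamA m - kapLo m ≤
    41 / 100 - 1 / ((m:ℝ) + 2) by linarith) (by positivity)) _).trans ?_
  rw [div_sub_div (41:ℝ) 1 (by norm_num) (by positivity), div_mul_div_comm,
    div_add_div _ _ (by positivity) (by positivity), div_le_div_iff₀ (by positivity) (by positivity)]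
  obtain ⟨t, ht, ht0⟩ : ∃ t : ℝ, (m:ℝ) = 39 + t ∧ 0 ≤ t := ⟨(m:ℝ) - 39, by ring, by linarith⟩
  rw [ht]
  ring_nf
  nlinarith [pow_nonneg ht0 2, pow_nonneg ht0 3, pow_nonneg ht0 4, pow_nonneg ht0 5,
    pow_nonneg ht0 6]

theorem momC_le (hm : 39 ≤ m) :
    momC m ≤ (4 / 10 / ((m:ℝ) + 1) ^ 2 * (495 / 100) + 147 / ((m:ℝ) + 1) ^ 3) := by
  have hm' : (39:ℝ) ≤ m := by exact_mod_cast hm
  set Z0 := ∫ t in (0:ℝ)..1, us t ^ m with hZ0
  have hsq : Z0 ^ 2 ≤ (157080 / 100000) / ((m:ℝ) + 1) :=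
    (ball_sq (by omega)).trans (div_le_div_of_nonneg_right (by linarith [pi_lt_d4]) (by positivity))
  have h4 : Z0 ^ 4 ≤ (24675 / 10000) / ((m:ℝ) + 1) ^ 2 := by
    refine (le_of_eq (show Z0 ^ 4 = (Z0 ^ 2) ^ 2 by ring)).trans
      ((pow_le_pow_left₀ (sq_nonneg _) hsq 2).trans ?_)
    rw [div_pow]
    exact div_le_div_of_nonneg_right (by norm_num) (by positivity)
  have h6 : Z0 ^ 6 ≤ (3876 / 1000) / ((m:ℝ) + 1) ^ 3 := by
    refine (le_of_eq (show Z0 ^ 6 = (Z0 ^ 2) ^ 3 by ring)).trans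
      ((pow_le_pow_left₀ (sq_nonneg _) hsq 3).trans ?_)
    rw [div_pow]
    exact div_le_div_of_nonneg_right (by norm_num) (by positivity)
  rw [momC, ← hZ0]
  refine add_le_add ?_ ?_
  · refine (mul_le_mul (mul_le_mul_of_nonneg_right (div_le_div_of_nonneg_right (gamA_le_39 hm)
      (by norm_num)) (by norm_num)) h4 (by positivity) (by norm_num)).trans ?_
    rw [div_mul_eq_mul_div _ _ (495 / 100 : ℝ), mul_div_assoc']
    exact div_le_div_of_nonneg_right (by norm_num) (by positivity)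
  · refine (mul_le_mul (mul_le_mul_of_nonneg_right (mul_le_mul_of_nonneg_left (b7_le hm)
      (by norm_num)) (by norm_num)) h6 (by positivity) (by norm_num)).trans ?_
    rw [mul_div_assoc']
    exact div_le_div_of_nonneg_right (by norm_num) (by positivity)

/-- `η ≤ 0.39`. -/
theorem eta_le (hm : 39 ≤ m) : momC m + kapE m * negC m ≤ 39 / 100 * quad m := by
  have hm' : (39:ℝ) ≤ m := by exact_mod_cast hm
  obtain ⟨hb, hk0, hk⟩ := kapE_bounds hm
  have hn := negC_le hm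
  have h1 : 0 < (m:ℝ) - 1 := by linarith
  have hn' : negC m ≤ 124 / 100 / (((m:ℝ) + 1) * ((m:ℝ) - 1)) := by
    rw [← div_div, le_div_iff₀ h1]; linarith
  refine (add_le_add (momC_le hm) ((mul_le_mul_of_nonneg_left hn' hk0).trans
    (mul_le_mul_of_nonneg_right hk (by positivity)))).trans
    (le_trans ?_ (mul_le_mul_of_nonneg_left hb (by norm_num : (0:ℝ) ≤ 39 / 100)))
  have e1 : 147 / ((m:ℝ) + 1) ^ 3 ≤ 147 / 40 / ((m:ℝ) + 1) ^ 2 := by
    rw [div_div, div_le_div_iff_of_pos_left (by norm_num) (by positivity) (by positivity), pow_succ _ 2,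
      mul_comm (40:ℝ)]
    exact mul_le_mul_of_nonneg_left (by linarith) (by positivity)
  have e2 : 151 / 100 * (124 / 100 / (((m:ℝ) + 1) * ((m:ℝ) - 1))) ≤
      151 / 100 * (124 / 100 / (((m:ℝ) + 1) * 38)) := by
    refine mul_le_mul_of_nonneg_left (div_le_div_of_nonneg_left (by norm_num) (by positivity)
      (mul_le_mul_of_nonneg_left (by linarith) (by positivity))) (by norm_num)
  have e3 : (4 / 10 * (495 / 100) + 147 / 40) / ((m:ℝ) + 1) ^ 2 ≤
      (4 / 10 * (495 / 100) + 147 / 40) / 40 / ((m:ℝ) + 1) := by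
    rw [div_div, sq]
    exact div_le_div_of_nonneg_left (by norm_num) (by positivity)
      (mul_le_mul_of_nonneg_right (by linarith) (by positivity))
  have e4 : (4 / 10 * (495 / 100) + 147 / 40) / 40 / ((m:ℝ) + 1) +
      151 / 100 * (124 / 100 / (((m:ℝ) + 1) * 38)) ≤ 39 / 100 * (124 / 250 / ((m:ℝ) + 1)) := by
    have : ∀ x : ℝ, 0 ≤ x → ((4 / 10 * (495 / 100) + 147 / 40) / 40 + 151 / 100 * (124 / 100 / 38)) * x
        ≤ 39 / 100 * (124 / 250) * x := fun x hx => mul_le_mul_of_nonneg_right (by norm_num) hx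
    refine le_trans (le_of_eq ?_) ((this (1 / ((m:ℝ) + 1)) (by positivity)).trans_eq ?_) <;>
      · field_simp
  have e5 : 4 / 10 / ((m:ℝ) + 1) ^ 2 * (495 / 100) + 147 / 40 / ((m:ℝ) + 1) ^ 2 =
      (4 / 10 * (495 / 100) + 147 / 40) / ((m:ℝ) + 1) ^ 2 := by ring
  linarith

theorem muSide (hm : 39 ≤ m) :
    17 / 100 / ((m:ℝ) + 1) ≤ muD m - muD m ^ 2 - ((m:ℝ) - 1) * negC m ∧
      muD m ≤ 2 / ((m:ℝ) + 1) := by
  have hm' : (39:ℝ) ≤ m := by exact_mod_cast hm
  obtain ⟨hlo, hhi⟩ := muD_bounds (show m ≠ 0 by omega)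
  have h2 : 2 * (4 * (m:ℝ) + 5) / (2 * m + 3) ^ 2 ≤ 2 / ((m:ℝ) + 1) := by
    rw [div_le_div_iff₀ (by positivity) (by positivity)]; nlinarith
  refine ⟨?_, hhi.trans h2⟩
  have hmu : muD m ≤ 1 / 4 := (hhi.trans h2).trans (by
    rw [div_le_div_iff₀ (by positivity) (by norm_num)]; linarith)
  have hmono : muLo m - muLo m ^ 2 ≤ muD m - muD m ^ 2 := by
    have : muLo m ≤ muD m := hlo
    nlinarith
  have h3 : 141 / 100 / ((m:ℝ) + 1) ≤ muLo m - muLo m ^ 2 := by
    rw [muLo, sq, ← sub_nonneg]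
    set N := 3 * (2 * (m:ℝ) + 3)
    set D := (4 * (m:ℝ) + 5) * ((m:ℝ) + 2) with hD
    have hD0 : 0 < D := by positivity
    rw [div_mul_div_comm, div_sub_div _ _ hD0.ne' (by positivity), div_sub_div _ _ (by positivity)
      (by positivity)]
    refine div_nonneg ?_ (by positivity)
    obtain ⟨t, ht, ht0⟩ : ∃ t : ℝ, (m:ℝ) = 39 + t ∧ 0 ≤ t := ⟨(m:ℝ) - 39, by ring, by linarith⟩
    simp only [N, hD]
    rw [ht]
    ring_nf
    positivity
  have := negC_le hm
  have e : 141 / 100 / ((m:ℝ) + 1) - 124 / 100 / ((m:ℝ) + 1) = 17 / 100 / ((m:ℝ) + 1) := by ring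
  linarith

theorem dTop_le_39 (hm : 39 ≤ m) : dTop m ≤ 12 / 100 := by
  have hm' : (39:ℝ) ≤ m := by exact_mod_cast hm
  refine (dTop_le (by omega)).1.trans ?_
  rw [muLo, div_le_iff₀ (by linarith), mul_div_assoc', sub_le_iff_le_add, ← sub_le_iff_le_add',
    le_div_iff₀ (by positivity)]
  nlinarith [mul_nonneg (sub_nonneg.2 hm') (sub_nonneg.2 hm'),
    mul_nonneg (sub_nonneg.2 hm') (mul_nonneg (sub_nonneg.2 hm') (sub_nonneg.2 hm'))]

theorem piD_le_39 (hm : 39 ≤ m) : piD m ≤ 24 / 1000 := by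
  have hm' : (39:ℝ) ≤ m := by exact_mod_cast hm
  refine (piD_le (by omega)).trans ?_
  obtain ⟨t, ht, ht0⟩ : ∃ t : ℝ, (m:ℝ) = 39 + t ∧ 0 ≤ t := ⟨(m:ℝ) - 39, by ring, by linarith⟩
  have hmu : muHi m ^ 2 ≤ (2 / ((m:ℝ) + 1)) ^ 2 := by
    refine pow_le_pow_left₀ (by unfold muHi; positivity) ?_ 2
    rw [muHi, div_le_div_iff₀ (by positivity) (by positivity)]; nlinarith
  have : 0 < (m:ℝ) - 2 := by linarith
  have : 0 < (m:ℝ) - 1 := by linarith
  refine le_trans (mul_le_mul_of_nonneg_left (show psiTwo m (muHi m) ≤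
    psiTwo m (2 / ((m:ℝ) + 1)) by unfold psiTwo; gcongr) (by positivity)) ?_
  rw [psiTwo, ht]
  rw [show 39 + t - 2 = 37 + t by ring, show 39 + t - 1 = 38 + t by ring,
    show 39 + t + 1 = 40 + t by ring, show 39 + t + 2 = 41 + t by ring]
  field_simp
  ring_nf
  nlinarith [pow_nonneg ht0 2, pow_nonneg ht0 3, pow_nonneg ht0 4, pow_nonneg ht0 5,
    pow_nonneg ht0 6, pow_nonneg ht0 7, pow_nonneg ht0 8]

/-- **The profile lemma from the Hardy inequality with constant weights.** -/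
theorem lemmaMix_of_hardy_uniform (hm : 39 ≤ m)
    (hH : ∀ f : ℝ → ℝ, HalfProf f → f 0 = 1 →
      GaugeBall.secRatio m f ^ m ≤ GaugeBall.volRatio m f ^ (m - 1) →
      negR m f ≤ (breg m f + bdry m f) + 2 / 5 * (quad m * qhR m f) +
        2 / 5 * ((∫ t in (0:ℝ)..1, us t ^ m) * relG m f)) : LemmaMix m := by
  have hm3 : 3 ≤ m := by omega
  have hm' : (39:ℝ) ≤ m := by exact_mod_cast hm
  obtain ⟨hν, hμ⟩ := muSide hm
  have hν0 : (0:ℝ) < 17 / 100 / ((m:ℝ) + 1) := by positivity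
  have hνp := hν0.trans_le hν
  have hnC : 0 ≤ ((m:ℝ) - 1) * negC m := by
    have : 0 < (m:ℝ) - 3 := by linarith
    have : 0 < (m:ℝ) - 1 := by linarith
    have : 0 < (m:ℝ) - 2 := by linarith
    have := cst_pos m
    have := (kapLo_pos m).le
    have := sub_nonneg.2 (kapLo_le_gamA m)
    unfold negC
    positivity
  have hd := (dTop_le hm3).2
  refine lemmaMix_of_excess (d := dTop m) hm3 (θ := 2 / 5) (η := 39 / 100) (by norm_num)
    (by norm_num) hnC (by linarith) hd.le (fun f _ _ _ => dTop_bound hm3 _)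
    (fun f P h0 hN => ?_) ?_
  · have hZ0 := Z_pos halfProf_us (m := m)
    have hb := quad_pos m
    have hL : 0 ≤ relG m f := by
      have e : relG m f = GaugeBall.linGain m f := rfl
      exact e ▸ GaugeBall.linGain_nonneg P (by omega) hN
    constructor
    · rw [excD, div_le_iff₀ hZ0]
      have h := hH f P h0 hN
      have e : 2 / 5 * (relG m f + quad m * (qhR m f / ∫ t in (0:ℝ)..1, us t ^ m)) *
          (∫ t in (0:ℝ)..1, us t ^ m) = 2 / 5 * ((∫ t in (0:ℝ)..1, us t ^ m) * relG m f) +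
            2 / 5 * (quad m * qhR m f) := by field_simp
      linarith
    · rw [excD, div_le_iff₀ hZ0]
      have h := negR_le_abs P h0 hm hL
      have hg : 0 ≤ breg m f + bdry m f :=
        add_nonneg (breg_nonneg P h0) (bdry_nonneg P h0 (by omega))
      have e : (39 / 100 * (quad m * (1 + relX m f)) + ((m:ℝ) - 1) * negC m * relG m f) *
          (∫ t in (0:ℝ)..1, us t ^ m) = 39 / 100 * quad m * (∫ t in (0:ℝ)..1, f t ^ m) +
            ((m:ℝ) - 1) * negC m * ((∫ t in (0:ℝ)..1, us t ^ m) * relG m f) := by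
        rw [relX]; field_simp; ring
      have h2 := mul_le_mul_of_nonneg_right (eta_le hm) (Z_pos P (m := m)).le
      linarith
  · have h1 := dTop_le_39 hm
    have h2 := piD_le_39 hm
    have hμ0 := (muD_mem (show m ≠ 0 by omega)).1.le
    have h3 : muD m ^ 2 / (muD m - muD m ^ 2 - ((m:ℝ) - 1) * negC m) ≤ 6 / 10 := by
      refine (div_le_div₀ (sq_nonneg _) (pow_le_pow_left₀ hμ0 hμ 2) hν0 hν).trans ?_
      rw [div_pow, div_div_div_eq, div_le_iff₀ (by positivity)]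
      nlinarith
    have hp0 : 0 ≤ piD m := mul_nonneg (by positivity) (psiTwo_pos hm3 _).le
    have h4 : piD m * (1 + muD m ^ 2 / (muD m - muD m ^ 2 - ((m:ℝ) - 1) * negC m)) ≤
        24 / 1000 * (16 / 10) :=
      mul_le_mul h2 (by linarith) (by positivity) (by norm_num)
    linarith

end Vale.Agent.P237.AllN.AbsNeg
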