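import Mathlib

/-!
# P237, all dimensions: integration by parts for a concave even profile, and test functions
-/

open MeasureTheory Set Real Filter Topology
open scoped NNReal ENNReal

namespace Vale.Agent.P237.AllN

/-- An even profile, concave and nonnegative on `[-1,1]`, positive inside. -/
structure IsProfile (F : ℝ → ℝ) : Prop where
  conc : ConcaveOn ℝ (Icc (-1) 1) F
  even : ∀ t, F (-t) = F t
  nonneg : ∀ t ∈ Icc (-1:ℝ) 1, 0 ≤ F t
  pos : ∀ t ∈ Ioo (-1:ℝ) 1, 0 < F t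

/-- The density of the cone measure along the axis. -/
noncomputable def wgt (m : ℕ) (F : ℝ → ℝ) (t : ℝ) : ℝ :=
  m * F t ^ (m - 1) * (F t - t * deriv F t)

/-- The density of the moment of the transversal coordinate. -/
noncomputable def dgt (m : ℕ) (F : ℝ → ℝ) (t : ℝ) : ℝ := -(m * F t ^ (m - 1) * deriv F t)

/-- The conditional mean `-f'/(f - t f')`, with value `t` outside the open interval. -/
noncomputable def pbar (F : ℝ → ℝ) (t : ℝ) : ℝ :=
  if t ∈ Ioo (-1:ℝ) 1 then -deriv F t / (F t - t * deriv F t) else t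

variable {F : ℝ → ℝ}

lemma IsProfile.antitone (hF : IsProfile F) : AntitoneOn F (Icc 0 1) := by
  intro x hx y hy hxy
  rcases hy.1.eq_or_lt with h | h
  · rw [show x = y by linarith [hx.1]]
  have hm1 : -y ∈ Icc (-1:ℝ) 1 := ⟨by linarith [hy.2], by linarith⟩
  have hm2 : y ∈ Icc (-1:ℝ) 1 := ⟨by linarith, hy.2⟩
  have ha : 0 ≤ (y - x) / (2 * y) := div_nonneg (by linarith) (by linarith)
  have hb : 0 ≤ (y + x) / (2 * y) := div_nonneg (by linarith [hx.1]) (by linarith)
  have := hF.conc.2 hm1 hm2 ha hb (by field_simp; ring)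
  simp only [smul_eq_mul, hF.even, ← add_mul] at this
  rw [← add_div, show (y - x) / (2 * y) * -y + (y + x) / (2 * y) * y = x by field_simp; ring,
    show (y - x + (y + x)) / (2 * y) = 1 by field_simp; ring, one_mul] at this
  exact this

lemma IsProfile.tangent (hF : IsProfile F) {t : ℝ} (ht : t ∈ Ioo (-1:ℝ) 1)
    (hd : DifferentiableAt ℝ F t) {y : ℝ} (hy : y ∈ Icc (-1:ℝ) 1) :
    F y ≤ F t + deriv F t * (y - t) := by
  rcases lt_trichotomy y t with h | h | h
  · have := hF.conc.deriv_le_slope hy (Ioo_subset_Icc_self ht) h hd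
    rw [slope_def_field, le_div_iff₀ (sub_pos.2 h)] at this
    nlinarith
  · simp [h]
  · have := hF.conc.slope_le_deriv (Ioo_subset_Icc_self ht) hy h hd
    rw [slope_def_field, div_le_iff₀ (sub_pos.2 h)] at this
    linarith

lemma IsProfile.bounds (hF : IsProfile F) {t : ℝ} (ht : t ∈ Ioo (-1:ℝ) 1) :
    0 < F t - t * deriv F t ∧ |deriv F t| ≤ F t - t * deriv F t := by
  by_cases hd : DifferentiableAt ℝ F t
  · have h0 := hF.tangent ht hd (y := 0) ⟨by norm_num, by norm_num⟩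
    have h1 := hF.tangent ht hd (y := 1) ⟨by norm_num, le_rfl⟩
    have h2 := hF.tangent ht hd (y := -1) ⟨le_rfl, by norm_num⟩
    have := hF.nonneg 1 ⟨by norm_num, le_rfl⟩
    have := hF.nonneg (-1) ⟨le_rfl, by norm_num⟩
    have := hF.pos 0 ⟨by norm_num, by norm_num⟩
    exact ⟨by linarith, abs_le.2 ⟨by linarith, by linarith⟩⟩
  · rw [deriv_zero_of_not_differentiableAt hd]
    simp [hF.pos t ht, (hF.pos t ht).le]

lemma IsProfile.wgt_nonneg (hF : IsProfile F) (m : ℕ) {t : ℝ} (ht : t ∈ Ioo (-1:ℝ) 1) :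
    0 ≤ wgt m F t :=
  mul_nonneg (mul_nonneg (Nat.cast_nonneg m) (pow_nonneg (hF.pos t ht).le _)) (hF.bounds ht).1.le

lemma IsProfile.abs_dgt_le (hF : IsProfile F) (m : ℕ) {t : ℝ} (ht : t ∈ Ioo (-1:ℝ) 1) :
    |dgt m F t| ≤ wgt m F t := by
  have h0 : 0 ≤ (m:ℝ) * F t ^ (m - 1) :=
    mul_nonneg (Nat.cast_nonneg m) (pow_nonneg (hF.pos t ht).le _)
  rw [dgt, abs_neg, abs_mul, abs_of_nonneg h0, wgt]
  exact mul_le_mul_of_nonneg_left (hF.bounds ht).2 h0

lemma IsProfile.pbar_mem (hF : IsProfile F) {t : ℝ} (ht : t ∈ Icc (-1:ℝ) 1) :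
    pbar F t ∈ Icc (-1:ℝ) 1 := by
  by_cases h : t ∈ Ioo (-1:ℝ) 1
  · rw [pbar, if_pos h]
    obtain ⟨h1, h2⟩ := hF.bounds h
    rw [abs_le] at h2
    exact ⟨by rw [le_div_iff₀ h1]; linarith, by rw [div_le_one h1]; linarith⟩
  · rwa [pbar, if_neg h]

lemma IsProfile.pbar_mul (hF : IsProfile F) (m : ℕ) {t : ℝ} (ht : t ∈ Ioo (-1:ℝ) 1) :
    pbar F t * wgt m F t = dgt m F t := by
  rw [pbar, if_pos ht, wgt, dgt]
  calc _ = (m:ℝ) * F t ^ (m - 1) *
        (-deriv F t / (F t - t * deriv F t) * (F t - t * deriv F t)) := by ring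
    _ = _ := by rw [div_mul_cancel₀ _ (hF.bounds ht).1.ne']; ring

lemma IsProfile.lipschitzOn (hF : IsProfile F) {r : ℝ} (hr : r < 1) :
    ∃ C : ℝ≥0, LipschitzOnWith C F (Icc (-r) r) :=
  (((hF.conc.subset Ioo_subset_Icc_self (convex_Ioo _ _)).locallyLipschitzOn isOpen_Ioo).mono
    fun _ ht => ⟨by linarith [ht.1], ht.2.trans_lt hr⟩).exists_lipschitzOnWith_of_compact
    isCompact_Icc

/-- Radii increasing to one. -/
noncomputable def rad (k : ℕ) : ℝ := 1 - 1 / ((k:ℝ) + 1)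

lemma rad_mem (k : ℕ) : rad k ∈ Ico (0:ℝ) 1 := by
  have h : (1:ℝ) ≤ (k:ℝ) + 1 := by simp
  have h1 : 1 / ((k:ℝ) + 1) ≤ 1 := by rw [div_le_one (by linarith)]; exact h
  have h2 : 0 < 1 / ((k:ℝ) + 1) := by positivity
  constructor <;> simp only [rad] <;> linarith

lemma tendsto_rad : Tendsto rad atTop (𝓝 1) := by
  have := (tendsto_one_div_add_atTop_nhds_zero_nat (𝕜 := ℝ)).const_sub 1
  rw [sub_zero] at this
  exact this

lemma IsProfile.ae_diff (hF : IsProfile F) :
    ∀ᵐ t : ℝ, t ∈ Ioo (-1:ℝ) 1 → DifferentiableAt ℝ F t := by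
  have h : ∀ᵐ t : ℝ, ∀ k, t ∈ Icc (-rad k) (rad k) →
      DifferentiableWithinAt ℝ F (Icc (-rad k) (rad k)) t := ae_all_iff.2 fun k => by
    obtain ⟨C, hC⟩ := hF.lipschitzOn (rad_mem k).2
    exact hC.ae_differentiableWithinAt_of_mem_real
  filter_upwards [h] with t ht hmem
  obtain ⟨k, hk⟩ := (tendsto_rad.eventually (lt_mem_nhds (abs_lt.2 hmem))).exists
  rw [abs_lt] at hk
  exact (ht k ⟨hk.1.le, hk.2.le⟩).differentiableAt (Icc_mem_nhds hk.1 hk.2)

lemma IsProfile.pow_ac (hF : IsProfile F) {r : ℝ} (hr0 : 0 ≤ r) (hr : r < 1) :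
    ∀ k : ℕ, AbsolutelyContinuousOnInterval (fun t => F t ^ k) (-r) r := by
  obtain ⟨C, hC⟩ := hF.lipschitzOn hr
  have hu : uIcc (-r) r = Icc (-r) r := uIcc_of_le (by linarith)
  have hF' : AbsolutelyContinuousOnInterval F (-r) r :=
    LipschitzOnWith.absolutelyContinuousOnInterval (hu ▸ hC)
  intro k
  induction k with
  | zero =>
    simpa using (LipschitzWith.const (1:ℝ) : LipschitzWith 0 fun _ : ℝ => (1:ℝ))
      |>.lipschitzOnWith.absolutelyContinuousOnInterval
  | succ k ih =>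
    simpa only [pow_succ] using ih.fun_mul hF'

/-- The derivative of the slice volume is `-dgt`. -/
lemma IsProfile.deriv_pow (hF : IsProfile F) (m : ℕ) :
    ∀ᵐ t : ℝ, t ∈ Ioo (-1:ℝ) 1 → deriv (fun s => F s ^ m) t = -dgt m F t := by
  filter_upwards [hF.ae_diff] with t ht hmem
  rw [((ht hmem).hasDerivAt.fun_pow m).deriv, dgt, neg_neg]

/-- The limit of `F^m` at the ends. -/
noncomputable def endv (m : ℕ) (F : ℝ → ℝ) : ℝ :=
  F 0 ^ m + ∫ t in (0:ℝ)..1, deriv (fun s => F s ^ m) t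

lemma IsProfile.mono_pow (hF : IsProfile F) (m : ℕ) :
    MonotoneOn (fun t => F t ^ m) (Icc (-1) 0) ∧ AntitoneOn (fun t => F t ^ m) (Icc 0 1) := by
  have h : AntitoneOn (fun t => F t ^ m) (Icc 0 1) := fun x hx y hy hxy =>
    pow_le_pow_left₀ (hF.nonneg y ⟨by linarith [hy.1], hy.2⟩) (hF.antitone hx hy hxy) m
  refine ⟨fun x hx y hy hxy => ?_, h⟩
  have := h (a := -y) ⟨by linarith [hy.2], by linarith [hy.1]⟩ (b := -x)
    ⟨by linarith [hx.2], by linarith [hx.1]⟩ (by linarith)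
  simpa only [hF.even] using this

lemma IsProfile.intervalIntegrable_pow (hF : IsProfile F) (m : ℕ) :
    IntervalIntegrable (fun t => F t ^ m) volume (-1) 1 ∧
    IntervalIntegrable (deriv fun t => F t ^ m) volume (-1) 0 ∧
    IntervalIntegrable (deriv fun t => F t ^ m) volume 0 1 := by
  obtain ⟨hl, hr⟩ := hF.mono_pow m
  rw [← uIcc_of_le (show (-1:ℝ) ≤ 0 by norm_num)] at hl
  rw [← uIcc_of_le (show (0:ℝ) ≤ 1 by norm_num)] at hr
  refine ⟨hl.intervalIntegrable.trans hr.intervalIntegrable, hl.intervalIntegrable_deriv, ?_⟩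
  have hn : MonotoneOn (fun t => -(F t ^ m)) (uIcc 0 1) := fun x hx y hy hxy =>
    neg_le_neg (hr hx hy hxy)
  have := hn.intervalIntegrable_deriv.neg
  simpa [deriv.fun_neg, Pi.neg_def] using this

lemma IsProfile.tendsto_end (hF : IsProfile F) (m : ℕ) :
    Tendsto (fun k => F (rad k) ^ m) atTop (𝓝 (endv m F)) := by
  have hi := (hF.intervalIntegrable_pow m).2.2
  have hc := intervalIntegral.continuousOn_primitive_interval' hi (left_mem_uIcc)
  have hk : Tendsto rad atTop (𝓝[uIcc 0 1] 1) :=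
    tendsto_nhdsWithin_iff.2 ⟨tendsto_rad, .of_forall fun k => by
      rw [uIcc_of_le zero_le_one]; exact Ico_subset_Icc_self (rad_mem k)⟩
  have h := ((hc 1 right_mem_uIcc).tendsto.comp hk).const_add (F 0 ^ m)
  refine h.congr fun k => ?_
  have hac := (hF.pow_ac (rad_mem k).1 (rad_mem k).2 m).mono (c := 0) (d := rad k) (by
    rw [uIcc_of_le (rad_mem k).1, uIcc_of_le (by linarith [(rad_mem k).1])]
    exact Icc_subset_Icc (by linarith [(rad_mem k).1]) le_rfl)
  simp [Function.comp_def, hac.integral_deriv_eq_sub]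

lemma IsProfile.endv_nonneg (hF : IsProfile F) (m : ℕ) : 0 ≤ endv m F :=
  ge_of_tendsto' (hF.tendsto_end m) fun k =>
    pow_nonneg (hF.nonneg _ ⟨by linarith [(rad_mem k).1], (rad_mem k).2.le⟩) m

lemma tendsto_rad_integral {φ : ℝ → ℝ} (hφ : IntervalIntegrable φ volume (-1) 1) :
    Tendsto (fun k => ∫ t in (-rad k)..rad k, φ t) atTop (𝓝 (∫ t in (-1:ℝ)..1, φ t)) := by
  have hu : uIcc (-1:ℝ) 1 = Icc (-1) 1 := uIcc_of_le (by norm_num)
  have hc := intervalIntegral.continuousOn_primitive_interval' hφ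
    (a := 0) (by rw [hu]; exact ⟨by norm_num, by norm_num⟩)
  have h1 : Tendsto rad atTop (𝓝[uIcc (-1:ℝ) 1] 1) :=
    tendsto_nhdsWithin_iff.2 ⟨tendsto_rad, .of_forall fun k => by
      rw [hu]; exact ⟨by linarith [(rad_mem k).1], (rad_mem k).2.le⟩⟩
  have h2 : Tendsto (fun k => -rad k) atTop (𝓝[uIcc (-1:ℝ) 1] (-1)) :=
    tendsto_nhdsWithin_iff.2 ⟨tendsto_rad.neg, .of_forall fun k => by
      rw [hu]; exact ⟨by linarith [(rad_mem k).2], by linarith [(rad_mem k).1]⟩⟩
  have h := ((hc 1 right_mem_uIcc).tendsto.comp h1).sub ((hc (-1) left_mem_uIcc).tendsto.comp h2)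
  have hi : ∀ x ∈ Icc (-1:ℝ) 1, IntervalIntegrable φ volume 0 x := fun x hx =>
    hφ.mono_set (uIcc_subset_uIcc (by rw [hu]; exact ⟨by norm_num, by norm_num⟩) (by rwa [hu]))
  rw [intervalIntegral.integral_interval_sub_left (hi 1 ⟨by norm_num, le_rfl⟩)
    (hi (-1) ⟨le_rfl, by norm_num⟩)] at h
  refine h.congr fun k => ?_
  exact intervalIntegral.integral_interval_sub_left
    (hi _ ⟨by linarith [(rad_mem k).1], (rad_mem k).2.le⟩)
    (hi _ ⟨by linarith [(rad_mem k).2], by linarith [(rad_mem k).1]⟩)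

lemma ae_uIoc_one {p : ℝ → Prop} (h : ∀ᵐ t : ℝ, t ∈ Ioo (-1:ℝ) 1 → p t) :
    ∀ᵐ t : ℝ, t ∈ uIoc (-1:ℝ) 1 → p t := by
  filter_upwards [h, compl_mem_ae_iff.2 (measure_singleton (1:ℝ))] with t ht hne hm
  rw [uIoc_of_le (by norm_num : (-1:ℝ) ≤ 1)] at hm
  exact ht ⟨hm.1, lt_of_le_of_ne hm.2 hne⟩

/-- Integration by parts against a Lipschitz function. -/
lemma IsProfile.ibp (hF : IsProfile F) {m : ℕ} (hm : m ≠ 0) {G : ℝ → ℝ} {L : ℝ≥0}
    (hG : LipschitzWith L G) :
    (∫ t in (-1:ℝ)..1, F t ^ m * deriv G t) =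
      endv m F * (G 1 - G (-1)) + ∫ t in (-1:ℝ)..1, dgt m F t * G t ∧
    (∫ t in (-1:ℝ)..1, F t ^ m * (((m:ℝ) + 1) * G t + t * deriv G t)) =
      endv m F * (G 1 + G (-1)) + ∫ t in (-1:ℝ)..1, wgt m F t * G t := by
  obtain ⟨hgi, hdl, hdr⟩ := hF.intervalIntegrable_pow m
  have hGc := hG.continuous
  have hG'm := measurable_deriv G
  have hae1 : ∀ᵐ t : ℝ, t ∈ uIoc (-1:ℝ) 1 → deriv (fun s => F s ^ m) t = -dgt m F t :=
    ae_uIoc_one (hF.deriv_pow m)
  have hdg : IntervalIntegrable (deriv fun t => F t ^ m) volume (-1) 1 := hdl.trans hdr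
  have hG'b : ∀ t, ‖deriv G t‖ ≤ L := fun t => norm_deriv_le_of_lipschitz hG
  have igG' : ∀ {a : ℝ → ℝ}, Continuous a →
      IntervalIntegrable (fun t => a t * F t ^ m * deriv G t) volume (-1) 1 := fun {a} ha => by
    have h1 : IntervalIntegrable (fun t => a t * F t ^ m) volume (-1) 1 :=
      hgi.continuousOn_mul ha.continuousOn
    rw [intervalIntegrable_iff] at h1 ⊢
    exact h1.mul_bdd hG'm.aestronglyMeasurable (ae_of_all _ hG'b)
  have e1 : ∀ᵐ t : ℝ, t ∈ uIoc (-1:ℝ) 1 → deriv (fun s => F s ^ m) t * G t = -(dgt m F t * G t) := by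
    filter_upwards [hae1] with t ht hm
    rw [ht hm, neg_mul]
  have i1 : IntervalIntegrable (fun t => deriv (fun s => F s ^ m) t * G t) volume (-1) 1 :=
    hdg.mul_continuousOn hGc.continuousOn
  have i0 : IntervalIntegrable (fun t => F t ^ m * deriv G t) volume (-1) 1 := by
    simpa using igG' (a := fun _ => 1) continuous_const
  -- the first identity
  have part1 : (∫ t in (-1:ℝ)..1, F t ^ m * deriv G t) =
      endv m F * (G 1 - G (-1)) + ∫ t in (-1:ℝ)..1, dgt m F t * G t := by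
    have h : Tendsto (fun k => F (rad k) ^ m * (G (rad k) - G (-rad k)) -
        ∫ t in (-rad k)..rad k, deriv (fun s => F s ^ m) t * G t) atTop
        (𝓝 (endv m F * (G 1 - G (-1)) -
          ∫ t in (-1:ℝ)..1, deriv (fun s => F s ^ m) t * G t)) :=
      ((hF.tendsto_end m).mul (((hGc.tendsto _).comp tendsto_rad).sub
        ((hGc.tendsto _).comp tendsto_rad.neg))).sub (tendsto_rad_integral i1)
    rw [tendsto_nhds_unique (tendsto_rad_integral i0) (h.congr fun k => ?_),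
      intervalIntegral.integral_congr_ae e1, intervalIntegral.integral_neg, sub_neg_eq_add]
    rw [(hF.pow_ac (rad_mem k).1 (rad_mem k).2 m).integral_mul_deriv_eq_deriv_mul
      hG.lipschitzOnWith.absolutelyContinuousOnInterval, hF.even]
    ring
  refine ⟨part1, ?_⟩
  have hid : ∀ r : ℝ, AbsolutelyContinuousOnInterval (fun t : ℝ => t) (-r) r := fun r =>
    (LipschitzWith.id (α := ℝ)).lipschitzOnWith.absolutelyContinuousOnInterval
  have hag : ∀ k, AbsolutelyContinuousOnInterval (fun t => t * F t ^ m) (-rad k) (rad k) :=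
    fun k => (hid _).fun_mul (hF.pow_ac (rad_mem k).1 (rad_mem k).2 m)
  have e2 : ∀ᵐ t : ℝ, t ∈ uIoc (-1:ℝ) 1 → deriv (fun s => s * F s ^ m) t * G t =
      ((m:ℝ) + 1) * (F t ^ m * G t) - wgt m F t * G t := by
    filter_upwards [ae_uIoc_one hF.ae_diff] with t ht hmem
    have h : HasDerivAt (fun s => s * F s ^ m)
        (1 * F t ^ m + t * ((m:ℝ) * F t ^ (m - 1) * deriv F t)) t :=
      (hasDerivAt_id' t).mul ((ht hmem).hasDerivAt.fun_pow m)
    rw [h.deriv, wgt, ← pow_sub_one_mul hm (F t)]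
    ring
  have igG : IntervalIntegrable (fun t => ((m:ℝ) + 1) * (F t ^ m * G t)) volume (-1) 1 :=
    (hgi.mul_continuousOn hGc.continuousOn).const_mul _
  have i2 : IntervalIntegrable (fun t => t * F t ^ m * deriv G t) volume (-1) 1 :=
    igG' continuous_id
  have i3 : IntervalIntegrable (fun t => deriv (fun s => s * F s ^ m) t * G t) volume (-1) 1 := by
    refine IntervalIntegrable.congr_ae ((hgi.mul_continuousOn hGc.continuousOn).add
      (i1.continuousOn_mul continuous_id.continuousOn)) ?_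
    rw [EventuallyEq, ae_restrict_iff' measurableSet_uIoc]
    filter_upwards [ae_uIoc_one hF.ae_diff] with t ht hmem
    have h : HasDerivAt (fun s => s * F s ^ m)
        (1 * F t ^ m + t * ((m:ℝ) * F t ^ (m - 1) * deriv F t)) t :=
      (hasDerivAt_id' t).mul ((ht hmem).hasDerivAt.fun_pow m)
    rw [h.deriv, ((ht hmem).hasDerivAt.fun_pow m).deriv]
    simp only [id_eq, Pi.add_apply]
    ring
  have iw : IntervalIntegrable (fun t => wgt m F t * G t) volume (-1) 1 := by
    refine IntervalIntegrable.congr_ae (igG.sub i3) ?_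
    rw [EventuallyEq, ae_restrict_iff' measurableSet_uIoc]
    filter_upwards [e2] with t ht hmem
    rw [ht hmem]; ring
  have h : Tendsto (fun k => F (rad k) ^ m * (rad k * G (rad k) + rad k * G (-rad k)) -
      ∫ t in (-rad k)..rad k, deriv (fun s => s * F s ^ m) t * G t) atTop
      (𝓝 (endv m F * (1 * G 1 + 1 * G (-1)) -
        ∫ t in (-1:ℝ)..1, deriv (fun s => s * F s ^ m) t * G t)) :=
    ((hF.tendsto_end m).mul ((tendsto_rad.mul ((hGc.tendsto _).comp tendsto_rad)).add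
      (tendsto_rad.mul ((hGc.tendsto _).comp tendsto_rad.neg)))).sub (tendsto_rad_integral i3)
  have h2 := tendsto_nhds_unique (tendsto_rad_integral i2) (h.congr fun k => by
    rw [(hag k).integral_mul_deriv_eq_deriv_mul
      hG.lipschitzOnWith.absolutelyContinuousOnInterval, hF.even]
    ring)
  rw [intervalIntegral.integral_congr_ae e2, intervalIntegral.integral_sub igG iw] at h2
  rw [show (fun t => F t ^ m * (((m:ℝ) + 1) * G t + t * deriv G t)) =
      fun t => ((m:ℝ) + 1) * (F t ^ m * G t) + t * F t ^ m * deriv G t from funext fun t => by ring,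
    intervalIntegral.integral_add igG i2, h2]
  ring

lemma IsProfile.wgt_integrable (hF : IsProfile F) {m : ℕ} (hm : m ≠ 0) :
    IntegrableOn (wgt m F) (Ioo (-1) 1) ∧ IntegrableOn (dgt m F) (Ioo (-1) 1) := by
  obtain ⟨hgi, hdl, hdr⟩ := hF.intervalIntegrable_pow m
  have h1 := (intervalIntegrable_iff_integrableOn_Ioo_of_le (by norm_num)).1 (hdl.trans hdr)
  have hd : IntegrableOn (dgt m F) (Ioo (-1) 1) := by
    refine h1.neg.congr ?_
    rw [EventuallyEq, ae_restrict_iff' measurableSet_Ioo]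
    filter_upwards [hF.deriv_pow m] with t ht hmem
    simp [ht hmem]
  refine ⟨?_, hd⟩
  have hg := (intervalIntegrable_iff_integrableOn_Ioo_of_le (by norm_num)).1 hgi
  have ht : IntegrableOn (fun t => t * dgt m F t) (Ioo (-1) 1) := by
    refine hd.bdd_mul measurable_id.aestronglyMeasurable (c := 1) ?_
    exact (ae_restrict_iff' measurableSet_Ioo).2 (.of_forall fun t ht => by
      rw [Real.norm_eq_abs]; exact (abs_lt.2 ht).le)
  refine IntegrableOn.congr_fun ((hg.const_mul (m:ℝ)).add ht) (fun t _ => ?_) measurableSet_Ioo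
  simp only [wgt, dgt, Pi.add_apply]
  rw [← pow_sub_one_mul hm (F t)]
  ring

/-- A clamped ramp, one up to `a` and zero after `a + 1/k`. -/
noncomputable def ramp (a : ℝ) (k : ℕ) (t : ℝ) : ℝ := max 0 (min 1 (1 - (k:ℝ) * (t - a)))

lemma ramp_lipschitz (a : ℝ) (k : ℕ) : LipschitzWith k (ramp a k) := by
  refine (LipschitzWith.const_min ?_ 1).const_max 0
  refine LipschitzWith.of_dist_le_mul fun x y => le_of_eq ?_
  rw [Real.dist_eq, Real.dist_eq, NNReal.coe_natCast,
    show 1 - (k:ℝ) * (x - a) - (1 - (k:ℝ) * (y - a)) = (k:ℝ) * (y - x) by ring, abs_mul,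
    abs_of_nonneg (Nat.cast_nonneg k), abs_sub_comm]

lemma ramp_mem (a : ℝ) (k : ℕ) (t : ℝ) : ramp a k t ∈ Icc (0:ℝ) 1 :=
  ⟨le_max_left _ _, max_le zero_le_one (min_le_left _ _)⟩

lemma ramp_tendsto (a t : ℝ) :
    Tendsto (fun k => ramp a k t ^ 2) atTop (𝓝 ((Iic a).indicator (fun _ => (1:ℝ)) t)) := by
  by_cases h : t ≤ a
  · rw [indicator_of_mem (mem_Iic.2 h)]
    refine tendsto_const_nhds.congr fun k => ?_
    have : (k:ℝ) * (t - a) ≤ 0 :=
      mul_nonpos_of_nonneg_of_nonpos (Nat.cast_nonneg k) (by linarith)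
    rw [ramp, min_eq_left (by linarith), max_eq_right zero_le_one, one_pow]
  · rw [indicator_of_notMem (by simpa using h)]
    refine tendsto_const_nhds.congr' ?_
    obtain ⟨K, hK⟩ := exists_nat_gt (1 / (t - a))
    filter_upwards [eventually_ge_atTop K] with k hk
    have h0 : 0 < t - a := by linarith
    have : 1 ≤ (k:ℝ) * (t - a) := by
      rw [← div_le_iff₀ h0]; exact hK.le.trans (Nat.cast_le.2 hk)
    rw [ramp, max_eq_left (min_le_of_right_le (by linarith)), zero_pow two_ne_zero]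

/-- Finite measures agreeing on squares of `[0,1]`-valued Lipschitz functions are equal. -/
lemma ext_sq (μ ν : Measure ℝ) [IsFiniteMeasure μ] [IsFiniteMeasure ν]
    (h : ∀ H : ℝ → ℝ, ∀ L : ℝ≥0, LipschitzWith L H → (∀ t, H t ∈ Icc (0:ℝ) 1) →
      ∫ t, H t ^ 2 ∂μ = ∫ t, H t ^ 2 ∂ν) : μ = ν := by
  refine Measure.ext_of_Iic μ ν fun a => ?_
  rw [← measureReal_eq_measureReal_iff]
  have key : ∀ ρ : Measure ℝ, IsFiniteMeasure ρ →
      Tendsto (fun k => ∫ t, ramp a k t ^ 2 ∂ρ) atTop (𝓝 (ρ.real (Iic a))) := by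
    intro ρ _
    rw [← integral_indicator_one measurableSet_Iic]
    refine tendsto_integral_of_dominated_convergence (fun _ => (1:ℝ))
      (fun k => ((ramp_lipschitz a k).continuous.pow 2).aestronglyMeasurable)
      (integrable_const 1) (fun k => .of_forall fun t => ?_)
      (.of_forall fun t => ramp_tendsto a t)
    rw [Real.norm_eq_abs, abs_of_nonneg (sq_nonneg _)]
    exact pow_le_one₀ (ramp_mem a k t).1 (ramp_mem a k t).2
  exact tendsto_nhds_unique (key μ inferInstance)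
    ((key ν inferInstance).congr fun k => (h _ _ (ramp_lipschitz a k) (ramp_mem a k)).symm)

end Vale.Agent.P237.AllN
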