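import Vale.Agent.P237.AllN.AvgCone
import Vale.Agent.P237.AllN.AvgProfile
import Vale.Agent.P237.Univ.Profile
import Vale.Agent.P237.Sharp.Fixed

/-!
# P237, all dimensions: the averaging fact

For a symmetric convex body and a convex `φ`, some direction has
`E[φ (p b) - φ b] ≤ 0`, where `b` follows the cone measure along the direction and
`p = -f'/(f - t f')` for the slice profile `f`.
-/

open MeasureTheory Set Real Metric Filter Topology
open Vale.Agent.P237.Univ
open scoped Pointwise RealInnerProductSpace NNReal ENNReal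

namespace Vale.Agent.P237.AllN

/-- The penalty of a profile. -/
noncomputable def penPhi (m : ℕ) (φ : ℝ → ℝ) (F : ℝ → ℝ) : ℝ :=
  ∫ t in (-1:ℝ)..1, wgt m F t * (φ (pbar F t) - φ t)

/-- The slice profile of `K` along `v`, with the support value scaled to one. -/
noncomputable def sliceProf {n : ℕ} (K : Set (E (n + 1))) (v : E (n + 1))
    (L : E (n + 1) ≃ₗᵢ[ℝ] E (n + 1)) (t : ℝ) : ℝ :=
  volume.real (slice (L '' K) (supp K v * t)) ^ ((n:ℝ)⁻¹)

variable {d : ℕ} {K : Set (E (d + 1 + 1))}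

lemma sliceProf_pow (K : Set (E (d + 1 + 1))) (v : E (d + 1 + 1))
    (L : E (d + 1 + 1) ≃ₗᵢ[ℝ] E (d + 1 + 1)) (t : ℝ) :
    sliceProf K v L t ^ (d + 1) = volume.real (slice (L '' K) (supp K v * t)) :=
  rpow_inv_natCast_pow measureReal_nonneg (by omega)

lemma measurable_sliceProf (hK : IsCompact K) (v : E (d + 1 + 1))
    (L : E (d + 1 + 1) ≃ₗᵢ[ℝ] E (d + 1 + 1)) : Measurable (sliceProf K v L) := by
  exact ((measurable_slice_volume (hK.image L.continuous).measurableSet).comp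
    (measurable_id.const_mul (supp K v))).pow_const _

lemma isProfile_sliceProf (hK : IsBody K) (hsym : ∀ x ∈ K, -x ∈ K) {v : E (d + 1 + 1)}
    (hv : ‖v‖ = 1) (L : E (d + 1 + 1) ≃ₗᵢ[ℝ] E (d + 1 + 1)) (hL : L v = e0) :
    IsProfile (sliceProf K v L) := by
  obtain ⟨hCc, hCv, hCs, h00, hbd, hne⟩ := supp_slice hK hsym L hL
  obtain ⟨hev, -, hpos⟩ := profile_full hK hsym hv L hL
  obtain ⟨hs, -⟩ := profile hK hsym hv L hL
  set s := supp K v with hsdef
  have hsne : ∀ t ∈ Icc (-1:ℝ) 1, (slice (L '' K) (s * t)).Nonempty := by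
    intro t ht
    rcases le_total 0 t with h1 | h1
    · exact slice_nonempty_mono hCv hCs hne ⟨mul_nonneg hs.le h1, mul_le_of_le_one_right hs.le ht.2⟩
    · have := slice_nonempty_mono hCv hCs hne (t := -(s * t))
        ⟨neg_nonneg.2 (mul_nonpos_of_nonneg_of_nonpos hs.le h1), by nlinarith [ht.1]⟩
      rw [slice_neg hCs] at this
      exact Set.nonempty_neg.1 this
  refine ⟨⟨convex_Icc _ _, fun x hx y hy p q hp hq hpq => ?_⟩, fun t => ?_,
    fun t _ => rpow_nonneg measureReal_nonneg _, fun t ht => rpow_pos_of_pos (hpos _ ?_) _⟩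
  · refine bm (n := d + 1) (by omega) (slice_convex hCv _) (slice_isCompact hCc _) (hsne x hx)
      (slice_convex hCv _) (slice_isCompact hCc _) (hsne y hy) (slice_convex hCv _)
      (slice_isCompact hCc _) hp hq hpq ?_
    intro z hz z' hz'
    have := hCv hz hz' hp hq hpq
    rw [smul_cons, smul_cons, cons_add] at this
    show cons (s * (p • x + q • y)) (p • z + q • z') ∈ L '' K
    rwa [show s * (p • x + q • y) = p * (s * x) + q * (s * y) by simp only [smul_eq_mul]; ring]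
  · simp only [sliceProf, mul_neg, hev]
  · exact ⟨by nlinarith [ht.1], by nlinarith [ht.2]⟩

/-- Integrals of functions of the coordinate along `v`, on the scaled axis. -/
lemma integral_axis (hK : IsBody K) (hsym : ∀ x ∈ K, -x ∈ K) {v : E (d + 1 + 1)}
    (hv : ‖v‖ = 1) (L : E (d + 1 + 1) ≃ₗᵢ[ℝ] E (d + 1 + 1)) (hL : L v = e0)
    {h : ℝ → ℝ} (hm : Measurable h) {M : ℝ} (hM : ∀ t ∈ Icc (-1:ℝ) 1, |h t| ≤ M) :
    ∫ x in K, h ⟪(supp K v)⁻¹ • v, x⟫ =
      supp K v * ∫ t in (-1:ℝ)..1, h t * sliceProf K v L t ^ (d + 1) := by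
  obtain ⟨hCc, hCv, hCs, h00, hbd, hne⟩ := supp_slice hK hsym L hL
  obtain ⟨hs, -⟩ := profile hK hsym hv L hL
  set s := supp K v with hsdef
  set A : ℝ → ℝ := fun u => volume.real (slice (L '' K) u) with hA
  have hmem : ∀ x ∈ L '' K, hd x ∈ Icc (-s) s := fun x hx => by
    refine ⟨?_, hbd x hx⟩
    have := hbd _ (hCs x hx)
    rw [map_neg] at this
    linarith
  have h1 : ∫ x in K, h ⟪s⁻¹ • v, x⟫ = ∫ y in L '' K, h (s⁻¹ * hd y) := by
    rw [(L.measurePreserving).setIntegral_image_emb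
      L.toHomeomorph.toMeasurableEquiv.measurableEmbedding]
    simp only [exists_isometry_slice hL, real_inner_smul_left, real_inner_comm v]
  rw [h1, integral_hd_slice hCc (φ := fun u => h (s⁻¹ * u)) (hm.comp (measurable_id.const_mul _))
    (M := M) fun x hx => hM _ ⟨?_, ?_⟩]
  rotate_left
  · rw [le_inv_mul_iff₀ hs]; linarith [(hmem x hx).1]
  · rw [inv_mul_le_iff₀ hs]; linarith [(hmem x hx).2]
  have hz : ∀ t, t ∉ Icc (-1:ℝ) 1 → h t * A (s * t) = 0 := by
    intro t ht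
    have : slice (L '' K) (s * t) = ∅ := eq_empty_iff_forall_notMem.2 fun y hy => ht (by
      have := hmem _ hy
      rw [hd_cons] at this
      exact ⟨by nlinarith [this.1], by nlinarith [this.2]⟩)
    simp [hA, this]
  have h2 := Measure.integral_comp_mul_left (fun u => h (s⁻¹ * u) * A u) s
  rw [abs_of_pos (inv_pos.2 hs), smul_eq_mul] at h2
  simp only [inv_mul_cancel_left₀ hs.ne'] at h2
  show ∫ u, h (s⁻¹ * u) * A u = _
  simp only [sliceProf_pow, ← hsdef]
  show _ = s * ∫ t in (-1:ℝ)..1, h t * A (s * t)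
  rw [intervalIntegral.integral_of_le (by norm_num), ← integral_Icc_eq_integral_Ioc,
    setIntegral_eq_integral_of_forall_compl_eq_zero hz, h2, mul_inv_cancel_left₀ hs.ne']

/-- Moments against nonnegative weights are determined by squares of Lipschitz functions. -/
lemma ext_moment {α : Type*} [MeasurableSpace α] (μ : Measure α) {b u : α → ℝ}
    (hb : Measurable b) (hu : Integrable u μ) (hu0 : 0 ≤ᵐ[μ] u) {W : ℝ → ℝ}
    (hW : IntegrableOn W (Ioo (-1) 1)) (hW0 : ∀ t ∈ Ioo (-1:ℝ) 1, 0 ≤ W t) {c₁ c₂ : ℝ}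
    (hc₁ : 0 ≤ c₁) (hc₂ : 0 ≤ c₂)
    (h : ∀ H : ℝ → ℝ, ∀ L : ℝ≥0, LipschitzWith L H → (∀ t, H t ∈ Icc (0:ℝ) 1) →
      ∫ x, u x * H (b x) ^ 2 ∂μ =
        (∫ t in Ioo (-1:ℝ) 1, W t * H t ^ 2) + c₁ * H 1 ^ 2 + c₂ * H (-1) ^ 2)
    {q : ℝ → ℝ} (hq : Measurable q) {M : ℝ} (hM : ∀ t, |q t| ≤ M) :
    ∫ x, u x * q (b x) ∂μ =
      (∫ t in Ioo (-1:ℝ) 1, W t * q t) + c₁ * q 1 + c₂ * q (-1) := by
  set μ' := (μ.withDensity fun x => ENNReal.ofReal (u x)).map b with hμ'
  set ν₀ := ((volume : Measure ℝ).restrict (Ioo (-1) 1)).withDensity fun t => ENNReal.ofReal (W t)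
    with hν₀
  set ν := ν₀ + ENNReal.ofReal c₁ • Measure.dirac (1:ℝ) + ENNReal.ofReal c₂ • Measure.dirac (-1:ℝ)
    with hν
  haveI : IsFiniteMeasure (μ.withDensity fun x => ENNReal.ofReal (u x)) :=
    isFiniteMeasure_withDensity_ofReal hu.hasFiniteIntegral
  haveI : IsFiniteMeasure ν₀ := isFiniteMeasure_withDensity_ofReal hW.hasFiniteIntegral
  haveI : IsFiniteMeasure μ' := inferInstanceAs (IsFiniteMeasure (Measure.map _ _))
  haveI : IsFiniteMeasure (ENNReal.ofReal c₁ • Measure.dirac (1:ℝ)) :=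
    Measure.smul_finite _ ENNReal.ofReal_ne_top
  haveI : IsFiniteMeasure (ENNReal.ofReal c₂ • Measure.dirac (-1:ℝ)) :=
    Measure.smul_finite _ ENNReal.ofReal_ne_top
  haveI : IsFiniteMeasure ν := by rw [hν]; infer_instance
  have hl : ∀ {g : ℝ → ℝ}, Measurable g → ∫ t, g t ∂μ' = ∫ x, u x * g (b x) ∂μ := by
    intro g hg
    rw [hμ', integral_map hb.aemeasurable hg.aestronglyMeasurable,
      integral_withDensity_eq_integral_toReal_smul₀ hu.aemeasurable.ennreal_ofReal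
        (ae_of_all _ fun _ => ENNReal.ofReal_lt_top)]
    refine integral_congr_ae ?_
    filter_upwards [hu0] with x hx
    rw [smul_eq_mul, ENNReal.toReal_ofReal hx]
  have hr : ∀ {g : ℝ → ℝ}, Measurable g → ∀ {B : ℝ}, (∀ t, |g t| ≤ B) →
      ∫ t, g t ∂ν = (∫ t in Ioo (-1:ℝ) 1, W t * g t) + c₁ * g 1 + c₂ * g (-1) := by
    intro g hg B hB
    have hi : ∀ ρ : Measure ℝ, IsFiniteMeasure ρ → Integrable g ρ := fun ρ _ =>
      Integrable.of_bound hg.aestronglyMeasurable B (ae_of_all _ fun t => by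
        rw [Real.norm_eq_abs]; exact hB t)
    rw [hν, integral_add_measure (hi _ inferInstance) (hi _ inferInstance),
      integral_add_measure (hi _ inferInstance) (hi _ inferInstance), integral_smul_measure,
      integral_smul_measure, integral_dirac, integral_dirac, ENNReal.toReal_ofReal hc₁,
      ENNReal.toReal_ofReal hc₂, smul_eq_mul, smul_eq_mul, hν₀,
      integral_withDensity_eq_integral_toReal_smul₀ hW.aemeasurable.ennreal_ofReal
        (ae_of_all _ fun _ => ENNReal.ofReal_lt_top)]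
    congr 2
    refine setIntegral_congr_fun measurableSet_Ioo fun t ht => ?_
    simp only [smul_eq_mul, ENNReal.toReal_ofReal (hW0 t ht)]
  have e : μ' = ν := ext_sq _ _ fun H L hL h01 => by
    have hm : Measurable fun t => H t ^ 2 := (hL.continuous.pow 2).measurable
    rw [hl hm, hr hm (B := 1) fun t => by
      rw [abs_of_nonneg (sq_nonneg _)]; exact pow_le_one₀ (h01 t).1 (h01 t).2]
    exact h H L hL h01
  rw [← hl hq, e, hr hq hM]

/-- Clamping to `[-1,1]`. -/
noncomputable def clamp (t : ℝ) : ℝ := max (-1) (min 1 t)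

lemma clamp_mem (t : ℝ) : clamp t ∈ Icc (-1:ℝ) 1 :=
  ⟨le_max_left _ _, max_le (by norm_num) (min_le_left _ _)⟩

lemma clamp_eq {t : ℝ} (ht : t ∈ Icc (-1:ℝ) 1) : clamp t = t := by
  rw [clamp, min_eq_right ht.2, max_eq_right ht.1]

lemma abs_smul_lt_one {r t : ℝ} (hr : r ∈ Ico (0:ℝ) 1) (ht : t ∈ Icc (-1:ℝ) 1) :
    r * t ∈ Ioo (-1:ℝ) 1 := by
  constructor <;> nlinarith [hr.1, hr.2, ht.1, ht.2]

/-- A bounded measurable subgradient of `t ↦ φ (r t)` on `[-1,1]`. -/
lemma exists_subgradient {φ : ℝ → ℝ} (hφ : ConvexOn ℝ (Icc (-1) 1) φ) {r : ℝ}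
    (hr : r ∈ Ico (0:ℝ) 1) :
    ∃ ψ : ℝ → ℝ, ∃ B : ℝ, Measurable ψ ∧ (∀ t, |ψ t| ≤ B) ∧
      ∀ a ∈ Icc (-1:ℝ) 1, ∀ p ∈ Icc (-1:ℝ) 1, φ (r * p) + ψ p * (a - p) ≤ φ (r * a) := by
  set R : ℝ → ℝ := fun s => derivWithin φ (Ioi s) s with hR
  have hint : interior (Icc (-1:ℝ) 1) = Ioo (-1) 1 := interior_Icc
  have hmono : MonotoneOn R (Ioo (-1) 1) := hint ▸ hφ.monotoneOn_rightDeriv
  set ψ : ℝ → ℝ := fun t => r * R (r * clamp t) with hψ
  have hψm : Monotone ψ := fun x y hxy => mul_le_mul_of_nonneg_left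
    (hmono (abs_smul_lt_one hr (clamp_mem x)) (abs_smul_lt_one hr (clamp_mem y))
      (mul_le_mul_of_nonneg_left (max_le_max le_rfl (min_le_min le_rfl hxy)) hr.1)) hr.1
  refine ⟨ψ, |ψ 1| + |ψ (-1)|, hψm.measurable, fun t => ?_, fun a ha p hp => ?_⟩
  · have e : ψ t = ψ (clamp t) := by simp only [hψ, clamp_eq (clamp_mem t)]
    have h1 := hψm (clamp_mem t).1
    have h2 := hψm (clamp_mem t).2
    rw [e, abs_le]
    constructor <;> linarith [abs_nonneg (ψ 1), abs_nonneg (ψ (-1)), le_abs_self (ψ 1),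
      neg_abs_le (ψ (-1))]
  · have hs := abs_smul_lt_one hr hp
    have hz := Ioo_subset_Icc_self (abs_smul_lt_one hr ha)
    have hs' : r * p ∈ interior (Icc (-1:ℝ) 1) := hint.symm ▸ hs
    simp only [hψ, clamp_eq hp]
    rw [show r * R (r * p) * (a - p) = R (r * p) * (r * a - r * p) by ring]
    rcases lt_trichotomy (r * a) (r * p) with h | h | h
    · have h1 := (hφ.slope_le_leftDeriv_of_mem_interior hz hs' h).trans
        (hφ.leftDeriv_le_rightDeriv_of_mem_interior hs')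
      rw [slope_def_field, div_le_iff₀ (sub_pos.2 h)] at h1
      simp only [hR]
      linarith
    · rw [h, sub_self, mul_zero, add_zero]
    · have h1 := hφ.rightDeriv_le_slope_of_mem_interior hs' hz h
      rw [slope_def_field, le_div_iff₀ (sub_pos.2 h)] at h1
      simp only [hR]
      linarith

/-- The transversal coordinate `⟪z_x, y⟫ / N y`. -/
noncomputable def aco {n : ℕ} (K : Set (E n)) (x y : E n) : ℝ := ⟪grad K x, y⟫ / gauge K y

lemma aco_mem {n : ℕ} {K : Set (E n)} (S : Setting K) (hsym : ∀ x ∈ K, -x ∈ K) (x y : E n) :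
    aco K x y ∈ Icc (-1:ℝ) 1 := by
  rw [mem_Icc, ← abs_le, aco, abs_div, abs_of_nonneg (gauge_nonneg y)]
  exact div_le_one_of_le₀ (abs_grad_le_gauge S hsym x y) (gauge_nonneg y)

lemma measurable_aco {n : ℕ} {K : Set (E n)} (S : Setting K) :
    Measurable fun z : E n × E n => aco K z.1 z.2 :=
  (((measurable_grad K).comp measurable_fst).inner measurable_snd).div
    (S.lip.continuous.measurable.comp measurable_snd)

lemma measurable_aco_left {n : ℕ} (K : Set (E n)) (y : E n) :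
    Measurable fun x => aco K x y := by
  unfold aco
  exact ((measurable_grad K).inner measurable_const).div_const _

lemma measurable_aco_right {n : ℕ} {K : Set (E n)} (S : Setting K) (y : E n) :
    Measurable fun x => aco K y x := by
  unfold aco
  exact (measurable_const.inner measurable_id).div S.lip.continuous.measurable

/-- The two cone moments along a direction, read on the slice profile. -/
lemma axis_moments (S : Setting K) (hK : IsBody K) (hsym : ∀ x ∈ K, -x ∈ K)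
    {v w z : E (d + 1 + 1)} (hv : ‖v‖ = 1) (L : E (d + 1 + 1) ≃ₗᵢ[ℝ] E (d + 1 + 1))
    (hL : L v = e0) (hsv : (supp K v)⁻¹ • v = w) (hwg : ∀ x, |⟪w, x⟫| ≤ gauge K x) (hz : z ∈ K)
    (hwz : ⟪w, z⟫ = 1) {H : ℝ → ℝ} {Lh : ℝ≥0} (hH : LipschitzWith Lh H)
    (h01 : ∀ t, H t ∈ Icc (0:ℝ) 1) :
    ((d + 1 + 1 : ℕ):ℝ) * (∫ x in K, H (⟪w, x⟫ / gauge K x) ^ 2) =
      supp K v * ((∫ t in Ioo (-1:ℝ) 1, wgt (d + 1) (sliceProf K v L) t * H t ^ 2) +
        endv (d + 1) (sliceProf K v L) * H 1 ^ 2 + endv (d + 1) (sliceProf K v L) * H (-1) ^ 2) ∧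
    ((d + 1 + 1 : ℕ):ℝ) * (∫ x in K, ⟪grad K x, z⟫ * H (⟪w, x⟫ / gauge K x) ^ 2) =
      supp K v * ((∫ t in Ioo (-1:ℝ) 1, dgt (d + 1) (sliceProf K v L) t * H t ^ 2) +
        endv (d + 1) (sliceProf K v L) * H 1 ^ 2 - endv (d + 1) (sliceProf K v L) * H (-1) ^ 2) := by
  obtain ⟨c1, c2⟩ := cone_moments S hsym hwg hz hwz hH h01
  have hG := lipschitz_sq hH h01
  have hP : IsProfile (sliceProf K v L) := isProfile_sliceProf hK hsym hv L hL
  obtain ⟨i1, i2⟩ := hP.ibp (m := d + 1) (by omega) hG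
  have hqm : Measurable (qd (d + 1 + 1) H) :=
    ((hH.continuous.measurable.pow_const 2).const_mul _).add
      (measurable_id.mul ((hH.continuous.measurable.const_mul 2).mul (measurable_deriv H)))
  have hqb : ∀ t ∈ Icc (-1:ℝ) 1,
      |qd (d + 1 + 1) H t| ≤ ((d + 1 + 1 : ℕ):ℝ) * 1 + 1 * (2 * 1 * Lh) := by
    intro t ht
    refine (abs_add_le _ _).trans (add_le_add ?_ ?_)
    · rw [abs_mul, Nat.abs_cast, abs_of_nonneg (sq_nonneg _)]
      exact mul_le_mul_of_nonneg_left (pow_le_one₀ (h01 t).1 (h01 t).2) (Nat.cast_nonneg _)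
    · rw [abs_mul, abs_mul, abs_mul, abs_two]
      exact mul_le_mul (abs_le.2 ht)
        (mul_le_mul (mul_le_mul_of_nonneg_left
          (abs_le.2 ⟨by linarith [(h01 t).1], (h01 t).2⟩) zero_le_two)
          (by simpa using norm_deriv_le_of_lipschitz hH) (abs_nonneg _) (by norm_num))
        (by positivity) zero_le_one
  have a1 := integral_axis hK hsym hv L hL hqm hqb
  rw [hsv] at a1
  have a2 := integral_axis hK hsym hv L hL (measurable_deriv fun t => H t ^ 2)
    (M := (2 * Lh : ℝ≥0)) fun t _ => by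
      simpa only [Real.norm_eq_abs] using norm_deriv_le_of_lipschitz hG
  rw [hsv] at a2
  set F := sliceProf K v L with hF
  have eq1 : (∫ t in (-1:ℝ)..1, qd (d + 1 + 1) H t * F t ^ (d + 1)) =
      ∫ t in (-1:ℝ)..1,
        F t ^ (d + 1) * ((((d + 1 : ℕ):ℝ) + 1) * H t ^ 2 + t * deriv (fun t => H t ^ 2) t) := by
    refine intervalIntegral.integral_congr_ae ?_
    filter_upwards [hH.ae_differentiableAt_real] with t ht _
    rw [(ht.hasDerivAt.fun_pow 2).deriv, qd]
    push_cast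
    ring
  have cv : ∀ g : ℝ → ℝ, (∫ t in Ioo (-1:ℝ) 1, g t) = ∫ t in (-1:ℝ)..1, g t := fun g => by
    rw [intervalIntegral.integral_of_le (by norm_num), integral_Ioc_eq_integral_Ioo]
  refine ⟨?_, ?_⟩
  · rw [c1, a1, eq1, i2, cv]; ring
  · rw [c2, a2, cv, intervalIntegral.integral_congr (fun t _ => mul_comm _ _), i1]; ring

/-- Both moments, extended from squares of Lipschitz functions to bounded measurable ones. -/
lemma moments_ext {α : Type*} [MeasurableSpace α] (μ : Measure α) [IsFiniteMeasure μ]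
    {A b : α → ℝ} (hAm : Measurable A) (hA : ∀ x, |A x| ≤ 1) (hbm : Measurable b)
    {nn s e : ℝ} (hn : 0 ≤ nn) (hs : 0 ≤ s) (he : 0 ≤ e) {W D : ℝ → ℝ}
    (hW : IntegrableOn W (Ioo (-1) 1)) (hD : IntegrableOn D (Ioo (-1) 1))
    (hWD : ∀ t ∈ Ioo (-1:ℝ) 1, |D t| ≤ W t)
    (mom : ∀ H : ℝ → ℝ, ∀ Lh : ℝ≥0, LipschitzWith Lh H → (∀ t, H t ∈ Icc (0:ℝ) 1) →
      nn * (∫ x, H (b x) ^ 2 ∂μ) =
        s * ((∫ t in Ioo (-1:ℝ) 1, W t * H t ^ 2) + e * H 1 ^ 2 + e * H (-1) ^ 2) ∧
      nn * (∫ x, A x * H (b x) ^ 2 ∂μ) =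
        s * ((∫ t in Ioo (-1:ℝ) 1, D t * H t ^ 2) + e * H 1 ^ 2 - e * H (-1) ^ 2))
    {q : ℝ → ℝ} {B : ℝ} (hq : Measurable q) (hB : ∀ t, |q t| ≤ B) :
    nn * (∫ x, q (b x) ∂μ) =
      s * ((∫ t in Ioo (-1:ℝ) 1, W t * q t) + e * q 1 + e * q (-1)) ∧
    nn * (∫ x, A x * q (b x) ∂μ) =
      s * ((∫ t in Ioo (-1:ℝ) 1, D t * q t) + e * q 1 - e * q (-1)) := by
  have hAi : Integrable A μ :=
    Integrable.of_bound hAm.aestronglyMeasurable 1 (ae_of_all _ fun x => by
      rw [Real.norm_eq_abs]; exact hA x)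
  have hW0 : ∀ t ∈ Ioo (-1:ℝ) 1, 0 ≤ W t := fun t ht => (abs_nonneg _).trans (hWD t ht)
  have e1 : nn * (∫ x, q (b x) ∂μ) =
      s * ((∫ t in Ioo (-1:ℝ) 1, W t * q t) + e * q 1 + e * q (-1)) := by
    have := ext_moment μ (u := fun _ => nn) hbm (integrable_const nn) (ae_of_all _ fun _ => hn)
      (hW.const_mul s) (fun t ht => mul_nonneg hs (hW0 t ht))
      (mul_nonneg hs he) (mul_nonneg hs he) (fun H Lh hH h01 => by
        simp only [integral_const_mul, mul_assoc]
        rw [(mom H Lh hH h01).1]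
        ring) hq hB
    simp only [integral_const_mul, mul_assoc] at this
    rw [this]; ring
  refine ⟨e1, ?_⟩
  have hsum : ∀ g : ℝ → ℝ, Measurable g → ∀ C : ℝ, (∀ t, |g t| ≤ C) →
      (∫ x, nn * (1 + A x) * g (b x) ∂μ) =
        nn * (∫ x, g (b x) ∂μ) + nn * ∫ x, A x * g (b x) ∂μ := fun g hg C hC => by
    have h1 : Integrable (fun x => g (b x)) μ :=
      Integrable.of_bound (hg.comp hbm).aestronglyMeasurable C (ae_of_all _ fun x => by
        rw [Real.norm_eq_abs]; exact hC _)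
    have h2 : Integrable (fun x => A x * g (b x)) μ :=
      Integrable.of_bound (hAm.mul (hg.comp hbm)).aestronglyMeasurable (1 * C)
        (ae_of_all _ fun x => by
          rw [Real.norm_eq_abs, abs_mul]
          exact mul_le_mul (hA x) (hC _) (abs_nonneg _) zero_le_one)
    rw [← mul_add, ← integral_add h1 h2, ← integral_const_mul]
    exact integral_congr_ae (ae_of_all _ fun x => by ring)
  have hsplit : ∀ g : ℝ → ℝ, Measurable g → ∀ C : ℝ, (∀ t, |g t| ≤ C) →
      (∫ t in Ioo (-1:ℝ) 1, s * (W t + D t) * g t) =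
        s * ((∫ t in Ioo (-1:ℝ) 1, W t * g t) + ∫ t in Ioo (-1:ℝ) 1, D t * g t) :=
    fun g hg C hC => by
    have hC' : ∀ t, ‖g t‖ ≤ C := fun t => by rw [Real.norm_eq_abs]; exact hC t
    rw [← integral_add (hW.mul_bdd hg.aestronglyMeasurable (ae_of_all _ hC'))
      (hD.mul_bdd hg.aestronglyMeasurable (ae_of_all _ hC')), ← integral_const_mul]
    exact integral_congr_ae (ae_of_all _ fun t => by ring)
  have := ext_moment μ (u := fun x => nn * (1 + A x))
    (W := fun t => s * (W t + D t)) (c₁ := s * (2 * e)) (c₂ := 0) hbm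
    (((integrable_const (1:ℝ)).add hAi).const_mul nn)
    (ae_of_all _ fun x => mul_nonneg hn (by linarith [(abs_le.1 (hA x)).1]))
    ((hW.add hD).const_mul s)
    (fun t ht => mul_nonneg hs (by linarith [neg_abs_le (D t), hWD t ht]))
    (mul_nonneg hs (by linarith)) le_rfl (fun H Lh hH h01 => by
      have hm : Measurable fun t => H t ^ 2 := (hH.continuous.pow 2).measurable
      have hB1 : ∀ t, |H t ^ 2| ≤ 1 := fun t => by
        rw [abs_of_nonneg (sq_nonneg _)]; exact pow_le_one₀ (h01 t).1 (h01 t).2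
      rw [hsum _ hm 1 hB1, hsplit _ hm 1 hB1, (mom H Lh hH h01).1, (mom H Lh hH h01).2]
      ring) hq hB
  rw [hsum q hq B hB, hsplit q hq B hB, e1] at this
  linarith

/-- Jensen's step, with the limit `r → 1`. -/
lemma jensen_step {α : Type*} [MeasurableSpace α] (μ : Measure α) [IsFiniteMeasure μ]
    {A b : α → ℝ} (hAm : Measurable A) (hA : ∀ x, A x ∈ Icc (-1:ℝ) 1) (hbm : Measurable b)
    (hb : ∀ x, b x ∈ Icc (-1:ℝ) 1)
    {nn s e : ℝ} (hn : 0 ≤ nn) {W D p : ℝ → ℝ} (hpm : Measurable p)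
    (hp : ∀ t ∈ Icc (-1:ℝ) 1, p t ∈ Icc (-1:ℝ) 1) (hp1 : p 1 = 1) (hp2 : p (-1) = -1)
    (hW : IntegrableOn W (Ioo (-1) 1)) (hD : IntegrableOn D (Ioo (-1) 1))
    (hW0 : ∀ t ∈ Ioo (-1:ℝ) 1, 0 ≤ W t) (hpW : ∀ t ∈ Ioo (-1:ℝ) 1, p t * W t = D t)
    (hmom : ∀ q : ℝ → ℝ, ∀ B : ℝ, Measurable q → (∀ t, |q t| ≤ B) →
      nn * (∫ x, q (b x) ∂μ) =
        s * ((∫ t in Ioo (-1:ℝ) 1, W t * q t) + e * q 1 + e * q (-1)) ∧
      nn * (∫ x, A x * q (b x) ∂μ) =
        s * ((∫ t in Ioo (-1:ℝ) 1, D t * q t) + e * q 1 - e * q (-1)))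
    {φ : ℝ → ℝ} (hφc : ContinuousOn φ (Icc (-1) 1)) (hφ : ConvexOn ℝ (Icc (-1) 1) φ) :
    s * (∫ t in Ioo (-1:ℝ) 1, W t * (φ (p t) - φ t)) ≤
      nn * ∫ x, (φ (A x) - φ (b x)) ∂μ := by
  set φ' : ℝ → ℝ := fun t => φ (clamp t) with hφ'
  have hφ'c : Continuous φ' :=
    hφc.comp_continuous (continuous_const.max (continuous_const.min continuous_id)) clamp_mem
  obtain ⟨M, hM⟩ := isCompact_Icc.exists_bound_of_continuousOn hφc
  have hM' : ∀ t, |φ' t| ≤ M := fun t => (Real.norm_eq_abs _) ▸ hM _ (clamp_mem t)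
  set pb : ℝ → ℝ := fun t => clamp (p t) with hpb
  have hpbm : Measurable pb :=
    (continuous_const.max (continuous_const.min continuous_id)).measurable.comp hpm
  have hpbI : ∀ t ∈ Icc (-1:ℝ) 1, pb t = p t := fun t ht => clamp_eq (hp t ht)
  have hbd : ∀ {g : α → ℝ} {B : ℝ}, Measurable g → (∀ x, |g x| ≤ B) → Integrable g μ :=
    fun {g B} hg hB => Integrable.of_bound hg.aestronglyMeasurable B
      (ae_of_all _ fun x => by rw [Real.norm_eq_abs]; exact hB x)
  have hstep : ∀ r ∈ Ico (0:ℝ) 1,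
      s * (∫ t in Ioo (-1:ℝ) 1, W t * (φ' (r * pb t) - φ' (r * t))) ≤
        nn * ∫ x, (φ' (r * A x) - φ' (r * b x)) ∂μ := by
    intro r hr
    obtain ⟨ψ, B, hψm, hψB, hsub⟩ := exists_subgradient hφ hr
    set q₀ : ℝ → ℝ := fun t => φ' (r * pb t) - φ' (r * t) - ψ (pb t) * pb t with hq₀
    have hq₀m : Measurable q₀ :=
      ((hφ'c.measurable.comp (hpbm.const_mul r)).sub
        (hφ'c.measurable.comp (measurable_id.const_mul r))).sub ((hψm.comp hpbm).mul hpbm)
    have hq₀B : ∀ t, |q₀ t| ≤ M + M + B * 1 := fun t =>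
      (abs_sub _ _).trans (add_le_add ((abs_sub _ _).trans (add_le_add (hM' _) (hM' _))) (by
        rw [abs_mul]
        exact mul_le_mul (hψB _) (abs_le.2 (clamp_mem _)) (abs_nonneg _)
          ((abs_nonneg _).trans (hψB 0))))
    have h1 : Integrable (fun x => q₀ (b x)) μ := hbd (hq₀m.comp hbm) fun x => hq₀B _
    have h2 : Integrable (fun x => A x * ψ (pb (b x))) μ :=
      hbd (B := 1 * B) (hAm.mul (hψm.comp (hpbm.comp hbm))) fun x => by
        rw [abs_mul]
        exact mul_le_mul (abs_le.2 (hA x)) (hψB _) (abs_nonneg _) zero_le_one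
    have h3 : Integrable (fun x => φ' (r * A x) - φ' (r * b x)) μ :=
      hbd (B := M + M) ((hφ'c.measurable.comp (hAm.const_mul r)).sub
        (hφ'c.measurable.comp (hbm.const_mul r))) fun x =>
        (abs_sub _ _).trans (add_le_add (hM' _) (hM' _))
    have hle : (∫ x, q₀ (b x) ∂μ) + (∫ x, A x * ψ (pb (b x)) ∂μ) ≤
        ∫ x, (φ' (r * A x) - φ' (r * b x)) ∂μ := by
      rw [← integral_add h1 h2]
      refine integral_mono (h1.add h2) h3 fun x => ?_
      have hp' : pb (b x) ∈ Icc (-1:ℝ) 1 := clamp_mem _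
      have := hsub _ (hA x) _ hp'
      have e1 : φ' (r * pb (b x)) = φ (r * pb (b x)) :=
        congrArg φ (clamp_eq (Ioo_subset_Icc_self (abs_smul_lt_one hr hp')))
      have e2 : φ' (r * A x) = φ (r * A x) :=
        congrArg φ (clamp_eq (Ioo_subset_Icc_self (abs_smul_lt_one hr (hA x))))
      simp only [hq₀, e1, e2]
      linarith
    have key := mul_le_mul_of_nonneg_left hle hn
    rw [mul_add, (hmom q₀ _ hq₀m hq₀B).1,
      (hmom (fun t => ψ (pb t)) B (hψm.comp hpbm) fun t => hψB _).2] at key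
    have p1 : pb 1 = 1 := by rw [hpbI 1 ⟨by norm_num, le_rfl⟩, hp1]
    have p2 : pb (-1) = -1 := by rw [hpbI (-1) ⟨le_rfl, by norm_num⟩, hp2]
    refine le_trans (le_of_eq ?_) key
    have e3 : (∫ t in Ioo (-1:ℝ) 1, W t * q₀ t) + (∫ t in Ioo (-1:ℝ) 1, D t * ψ (pb t)) =
        ∫ t in Ioo (-1:ℝ) 1, W t * (φ' (r * pb t) - φ' (r * t)) := by
      rw [← integral_add (hW.mul_bdd hq₀m.aestronglyMeasurable
          (ae_of_all _ fun t => by rw [Real.norm_eq_abs]; exact hq₀B t))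
        (hD.mul_bdd (g := fun t => ψ (pb t)) (hψm.comp hpbm).aestronglyMeasurable
          (ae_of_all _ fun t => by rw [Real.norm_eq_abs]; exact hψB _))]
      refine setIntegral_congr_fun measurableSet_Ioo fun t ht => ?_
      simp only [hq₀, Function.comp_apply, ← hpW t ht, ← hpbI t (Ioo_subset_Icc_self ht)]
      ring
    rw [← e3]
    simp only [hq₀, p1, p2]
    ring
  have hlimR : Tendsto (fun k => nn * ∫ x, (φ' (rad k * A x) - φ' (rad k * b x)) ∂μ) atTop
      (𝓝 (nn * ∫ x, (φ' (1 * A x) - φ' (1 * b x)) ∂μ)) := by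
    refine (tendsto_integral_of_dominated_convergence (fun _ => M + M) (fun k => ?_)
      (integrable_const _) (fun k => ae_of_all _ fun x => ?_) (ae_of_all _ fun x => ?_)).const_mul _
    · exact ((hφ'c.measurable.comp (hAm.const_mul _)).sub
        (hφ'c.measurable.comp (hbm.const_mul _))).aestronglyMeasurable
    · rw [Real.norm_eq_abs]; exact (abs_sub _ _).trans (add_le_add (hM' _) (hM' _))
    · exact ((hφ'c.tendsto _).comp (tendsto_rad.mul_const _)).sub
        ((hφ'c.tendsto _).comp (tendsto_rad.mul_const _))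
  have hlimL : Tendsto
      (fun k => s * ∫ t in Ioo (-1:ℝ) 1, W t * (φ' (rad k * pb t) - φ' (rad k * t)))
      atTop (𝓝 (s * ∫ t in Ioo (-1:ℝ) 1, W t * (φ' (1 * pb t) - φ' (1 * t)))) := by
    refine (tendsto_integral_of_dominated_convergence (fun t => W t * (M + M)) (fun k => ?_)
      (hW.mul_const _) (fun k => ?_) (ae_of_all _ fun t => ?_)).const_mul _
    · exact hW.aestronglyMeasurable.mul ((hφ'c.measurable.comp (hpbm.const_mul _)).sub
        (hφ'c.measurable.comp (measurable_id.const_mul _))).aestronglyMeasurable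
    · refine (ae_restrict_iff' measurableSet_Ioo).2 (ae_of_all _ fun t ht => ?_)
      rw [Real.norm_eq_abs, abs_mul, abs_of_nonneg (hW0 t ht)]
      exact mul_le_mul_of_nonneg_left ((abs_sub _ _).trans (add_le_add (hM' _) (hM' _)))
        (hW0 t ht)
    · exact (((hφ'c.tendsto _).comp (tendsto_rad.mul_const _)).sub
        ((hφ'c.tendsto _).comp (tendsto_rad.mul_const _))).const_mul _
  have h := le_of_tendsto_of_tendsto' hlimL hlimR fun k => hstep _ (rad_mem k)
  simp only [one_mul] at h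
  refine le_trans (le_of_eq ?_) (h.trans_eq ?_)
  · refine congrArg _ (setIntegral_congr_fun measurableSet_Ioo fun t ht => ?_)
    simp only [hφ', hpbI t (Ioo_subset_Icc_self ht), clamp_eq (Ioo_subset_Icc_self ht),
      clamp_eq (hp t (Ioo_subset_Icc_self ht))]
  · simp only [hφ', clamp_eq (hA _), clamp_eq (hb _)]

/-- The unit direction of the gradient at a point of differentiability. -/
lemma grad_direction (S : Setting K) (hK : IsBody K) {y : E (d + 1 + 1)}
    (hy : y ≠ 0) (hd : DifferentiableAt ℝ (gauge K) y) :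
    grad K y ≠ 0 ∧ supp K (‖grad K y‖⁻¹ • grad K y) = ‖grad K y‖⁻¹ ∧
      ⟪grad K y, (gauge K y)⁻¹ • y⟫ = 1 ∧ (gauge K y)⁻¹ • y ∈ K := by
  have hN0 : 0 < gauge K y :=
    (gauge_pos (absorbent_nhds_zero S.nhds) (NormedSpace.isVonNBounded_of_isBounded ℝ
      S.compact.isBounded)).2 hy
  set w := grad K y with hw
  set z := (gauge K y)⁻¹ • y with hz
  have hwy : ⟪w, y⟫ = gauge K y := grad_self S hd
  have hwz : ⟪w, z⟫ = 1 := by rw [hz, real_inner_smul_right, hwy, inv_mul_cancel₀ hN0.ne']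
  have hzK : z ∈ K := (S.gauge_le_one z).1 (by
    rw [hz, gauge_smul_of_nonneg (inv_nonneg.2 hN0.le), smul_eq_mul, inv_mul_cancel₀ hN0.ne'])
  have hw0 : w ≠ 0 := fun h => by simp [h] at hwz
  have hnw : 0 < ‖w‖ := norm_pos_iff.2 hw0
  refine ⟨hw0, ?_, hwz, hzK⟩
  refine le_antisymm (csSup_le ((Set.Nonempty.mono interior_subset hK.nonempty).image _) ?_) ?_
  · rintro _ ⟨x, hx, rfl⟩
    simp only [real_inner_smul_right, real_inner_comm w x]
    exact mul_le_of_le_one_right (inv_nonneg.2 hnw.le)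
      ((grad_le_gauge S y x).trans ((S.gauge_le_one x).2 hx))
  · have h1 := le_supp hK.compact (‖w‖⁻¹ • w) hzK
    rwa [real_inner_smul_right, real_inner_comm, hwz, mul_one] at h1

/-- The per-point inequality. -/
lemma pen_le (S : Setting K) (hK : IsBody K) (hsym : ∀ x ∈ K, -x ∈ K) {φ : ℝ → ℝ}
    (hφc : ContinuousOn φ (Icc (-1) 1)) (hφ : ConvexOn ℝ (Icc (-1) 1) φ) {y : E (d + 1 + 1)}
    (hy : y ≠ 0) (hd : DifferentiableAt ℝ (gauge K) y)
    (L : E (d + 1 + 1) ≃ₗᵢ[ℝ] E (d + 1 + 1)) (hL : L (‖grad K y‖⁻¹ • grad K y) = e0) :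
    ‖grad K y‖⁻¹ * penPhi (d + 1) φ (sliceProf K (‖grad K y‖⁻¹ • grad K y) L) ≤
      ((d + 1 + 1 : ℕ):ℝ) * ∫ x in K, (φ (aco K x y) - φ (aco K y x)) := by
  obtain ⟨hw0, hsupp, hwz, hzK⟩ := grad_direction S hK hy hd
  set w := grad K y with hw
  set z := (gauge K y)⁻¹ • y with hz
  have hnw : 0 < ‖w‖ := norm_pos_iff.2 hw0
  set v := ‖w‖⁻¹ • w with hv
  have hv1 : ‖v‖ = 1 := Sharp.norm_unit hw0
  rw [← hsupp]
  have hs0 : 0 < supp K v := by rw [hsupp]; positivity
  have hsv : (supp K v)⁻¹ • v = w := by rw [hsupp, inv_inv, hv, smul_inv_smul₀ hnw.ne']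
  have hwg : ∀ x, |⟪w, x⟫| ≤ gauge K x := abs_grad_le_gauge S hsym y
  have hP : IsProfile (sliceProf K v L) := isProfile_sliceProf hK hsym hv1 L hL
  obtain ⟨hWi, hDi⟩ := hP.wgt_integrable (m := d + 1) (by omega)
  have hAm : Measurable fun x => aco K x y := measurable_aco_left K y
  have hbm : Measurable fun x => aco K y x := measurable_aco_right S y
  have hAI : ∀ x, aco K x y ∈ Icc (-1:ℝ) 1 := fun x => aco_mem S hsym x y
  have hA' : ∀ x, aco K x y = ⟪grad K x, z⟫ := fun x => by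
    simp only [aco, hz, real_inner_smul_right, div_eq_inv_mul]
  have hb' : ∀ x, aco K y x = ⟪w, x⟫ / gauge K x := fun x => rfl
  haveI : IsFiniteMeasure ((volume : Measure (E (d + 1 + 1))).restrict K) :=
    ⟨by simpa using S.compact.measure_lt_top⟩
  have hFm : Measurable (sliceProf K v L) := measurable_sliceProf hK.compact v L
  have hpm : Measurable (pbar (sliceProf K v L)) := Measurable.ite measurableSet_Ioo
      ((measurable_deriv _).neg.div (hFm.sub (measurable_id.mul (measurable_deriv _))))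
      measurable_id
  have hmom : ∀ H : ℝ → ℝ, ∀ Lh : ℝ≥0, LipschitzWith Lh H → (∀ t, H t ∈ Icc (0:ℝ) 1) → _ :=
    fun H Lh hH h01 => axis_moments S hK hsym hv1 L hL hsv hwg hzK hwz hH h01
  simp only [← hA', ← hb'] at hmom
  have hext := fun q B hq hB => moments_ext (q := q) (B := B) (volume.restrict K) hAm
    (fun x => abs_le.2 (hAI x)) hbm (Nat.cast_nonneg (d + 1 + 1)) hs0.le (hP.endv_nonneg (d + 1))
    hWi hDi (fun t ht => hP.abs_dgt_le (d + 1) ht) hmom hq hB
  have h := jensen_step (volume.restrict K) hAm hAI hbm (fun x => aco_mem S hsym y x)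
    (Nat.cast_nonneg (d + 1 + 1)) hpm (fun t ht => hP.pbar_mem ht)
    (by rw [pbar, if_neg]; simp) (by rw [pbar, if_neg]; simp) hWi hDi
    (fun t ht => hP.wgt_nonneg _ ht) (fun t ht => hP.pbar_mul (d + 1) ht) hext hφc hφ
  refine le_trans (le_of_eq ?_) h
  rw [penPhi, intervalIntegral.integral_of_le (by norm_num), integral_Ioc_eq_integral_Ioo]

lemma penPhi_smul (m : ℕ) (hm : m ≠ 0) (φ F : ℝ → ℝ) {c : ℝ} (hc : c ≠ 0) :
    penPhi m φ (fun t => c * F t) = c ^ m * penPhi m φ F := by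
  rw [penPhi, penPhi, ← intervalIntegral.integral_const_mul]
  refine intervalIntegral.integral_congr fun t _ => ?_
  have hd : deriv (fun t => c * F t) t = c * deriv F t := deriv_const_mul_field _
  have e : pbar (fun t => c * F t) t = pbar F t := by
    simp only [pbar, hd]
    split_ifs
    · rw [show c * F t - t * (c * deriv F t) = c * (F t - t * deriv F t) by ring, ← mul_neg,
        mul_div_mul_left _ _ hc]
    · rfl
  simp only [e, wgt, hd, mul_pow]
  rw [← pow_sub_one_mul hm c]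
  ring

lemma gauge_scale (hK : IsBody K) (hsym : ∀ x ∈ K, -x ∈ K) {c : ℝ} (hc : 0 < c)
    (x : E (d + 1 + 1)) :
    gauge (c • K) x = c⁻¹ * gauge K x ∧ grad (c • K) x = c⁻¹ • grad K x := by
  have e : gauge (c • K) = c⁻¹ • gauge K := by
    rw [gauge_smul_left hsym c, abs_of_pos hc]
  refine ⟨by rw [e]; rfl, ?_⟩
  rw [grad, grad, e, fderiv_const_smul_field]
  exact LinearIsometryEquiv.map_smul _ _

/-- The per-point inequality for every symmetric body. -/
lemma pen_le_body (hK : IsBody K) (hsym : ∀ x ∈ K, -x ∈ K) {φ : ℝ → ℝ}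
    (hφc : ContinuousOn φ (Icc (-1) 1)) (hφ : ConvexOn ℝ (Icc (-1) 1) φ) {y : E (d + 1 + 1)}
    (hy : y ≠ 0) (hd : DifferentiableAt ℝ (gauge K) y)
    (L : E (d + 1 + 1) ≃ₗᵢ[ℝ] E (d + 1 + 1)) (hL : L (‖grad K y‖⁻¹ • grad K y) = e0) :
    supp K (‖grad K y‖⁻¹ • grad K y) = ‖grad K y‖⁻¹ ∧ grad K y ≠ 0 ∧
    ‖grad K y‖⁻¹ * penPhi (d + 1) φ (sliceProf K (‖grad K y‖⁻¹ • grad K y) L) ≤
      ((d + 1 + 1 : ℕ):ℝ) * ∫ x in K, (φ (aco K x y) - φ (aco K y x)) := by
  have h0 := mem_interior_iff_mem_nhds.1 (Sharp.zero_mem_interior hK hsym)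
  obtain ⟨r, hr, hrK⟩ := nhds_basis_closedBall.mem_iff.1 h0
  set c := r⁻¹ with hc
  have hc0 : 0 < c := inv_pos.2 hr
  set K' := c • K with hK'
  have hK'b : IsBody K' := Sharp.isBody_smul hK hc0
  have hK's : ∀ x ∈ K', -x ∈ K' := by
    rintro _ ⟨x, hx, rfl⟩
    exact ⟨-x, hsym x hx, smul_neg _ _⟩
  have hball : closedBall (0 : E (d + 1 + 1)) 1 ⊆ K' := by
    intro x hx
    rw [hK', mem_smul_set_iff_inv_smul_mem₀ hc0.ne', hc, inv_inv]
    refine hrK (mem_closedBall_zero_iff.2 ?_)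
    rw [norm_smul, Real.norm_eq_abs, abs_of_pos hr]
    exact mul_le_of_le_one_right hr.le (mem_closedBall_zero_iff.1 hx)
  obtain ⟨M, hM⟩ := hK'b.compact.isBounded.subset_closedBall (0 : E (d + 1 + 1))
  let S : Setting K' := ⟨max M 1, lt_of_lt_of_le one_pos (le_max_right _ _), hK'b.compact,
    hK'b.convex, hball, hM.trans (closedBall_subset_closedBall (le_max_left _ _))⟩
  have hg : ∀ x, gauge K' (c • x) = gauge K x := fun x => by
    rw [(gauge_scale hK hsym hc0 _).1, gauge_smul_of_nonneg hc0.le, smul_eq_mul,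
      inv_mul_cancel_left₀ hc0.ne']
  have hG : ∀ x, grad K' (c • x) = c⁻¹ • grad K x := fun x => by
    rw [(gauge_scale hK hsym hc0 _).2, grad_smul K hc0]
  have hd' : DifferentiableAt ℝ (gauge K') (c • y) := by
    have e : gauge K' = fun x => gauge K (c⁻¹ • x) := funext fun x => by
      rw [← hg, smul_inv_smul₀ hc0.ne']
    rw [e]
    refine DifferentiableAt.comp (g := gauge K) (f := fun x => c⁻¹ • x) (c • y) ?_ (differentiableAt_id.const_smul c⁻¹)
    simpa [inv_smul_smul₀ hc0.ne'] using hd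
  have hy' : c • y ≠ 0 := smul_ne_zero hc0.ne' hy
  obtain ⟨hw0, hsupp, -, -⟩ := grad_direction S hK'b hy' hd'
  rw [hG] at hw0 hsupp
  have hu : ‖c⁻¹ • grad K y‖⁻¹ • c⁻¹ • grad K y = ‖grad K y‖⁻¹ • grad K y := by
    rw [norm_smul, Real.norm_eq_abs, abs_of_pos (inv_pos.2 hc0), mul_inv, inv_inv, smul_smul]
    congr 1
    field_simp
  have hn : ‖c⁻¹ • grad K y‖⁻¹ = c * ‖grad K y‖⁻¹ := by
    rw [norm_smul, Real.norm_eq_abs, abs_of_pos (inv_pos.2 hc0), mul_inv, inv_inv]
  rw [hu, hn, hK', Sharp.supp_smul K hc0.le] at hsupp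
  refine ⟨mul_left_cancel₀ hc0.ne' hsupp, fun h => hw0 (by rw [h, smul_zero]), ?_⟩
  have h := pen_le S hK'b hK's hφc hφ hy' hd' L (by rw [hG, hu]; exact hL)
  rw [hG, hu, hn] at h
  set v := ‖grad K y‖⁻¹ • grad K y with hv
  have e : sliceProf K' v L = fun t => c * sliceProf K v L t := by
    funext t
    have hsl : slice (L '' K') (supp K' v * t) = c • slice (L '' K) (supp K v * t) := by
      ext z
      rw [hK', Sharp.supp_smul K hc0.le v, image_smul_set, mem_smul_set_iff_inv_smul_mem₀ hc0.ne']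
      show cons _ _ ∈ c • (L '' K) ↔ cons _ _ ∈ L '' K
      rw [mem_smul_set_iff_inv_smul_mem₀ hc0.ne', smul_cons, mul_assoc,
        inv_mul_cancel_left₀ hc0.ne']
    rw [sliceProf, hsl, Sharp.volume_real_smul _ hc0.le, mul_rpow (by positivity) measureReal_nonneg,
      ← rpow_natCast c, ← rpow_mul hc0.le, mul_inv_cancel₀ (Nat.cast_ne_zero.2 (by omega)),
      rpow_one]
    rfl
  rw [e, penPhi_smul _ (by omega) φ _ hc0.ne'] at h
  have hI := Measure.setIntegral_comp_smul_of_pos (volume : Measure (E (d + 1 + 1)))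
    (fun x => φ (aco K' x (c • y)) - φ (aco K' (c • y) x)) K hc0
  rw [finrank_euclideanSpace_fin, smul_eq_mul] at hI
  have ha : ∀ x z, aco K' (c • x) (c • z) = aco K x z := fun x z => by
    simp only [aco, hg, hG, real_inner_smul_left, real_inner_smul_right,
      mul_inv_cancel_left₀ hc0.ne']
  simp only [ha] at hI
  rw [hI, ← mul_le_mul_iff_of_pos_left (pow_pos hc0 (d + 1 + 1))]
  refine le_trans (le_of_eq ?_) (h.trans_eq ?_)
  · rw [pow_succ]; ring
  · rw [← hK']; field_simp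

/-- The averaged excess at a point. -/
noncomputable def excess (φ : ℝ → ℝ) (K : Set (E (d + 1 + 1))) (y : E (d + 1 + 1)) : ℝ :=
  ∫ x in K, (φ (aco K x y) - φ (aco K y x))

lemma aco_mem_body (hK : IsBody K) (hsym : ∀ x ∈ K, -x ∈ K) (x y : E (d + 1 + 1)) :
    aco K x y ∈ Icc (-1:ℝ) 1 := by
  have hN : K ∈ 𝓝 (0 : E (d + 1 + 1)) :=
    mem_interior_iff_mem_nhds.1 (Sharp.zero_mem_interior hK hsym)
  have key : ∀ z, ⟪grad K x, z⟫ ≤ gauge K z := fun z => by
    by_cases hx : DifferentiableAt ℝ (gauge K) x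
    · have h : HasLineDerivAt ℝ (gauge K) (fderiv ℝ (gauge K) x z) x z :=
        hx.hasFDerivAt.hasLineDerivAt z
      rw [inner_grad]
      refine le_of_tendsto h.tendsto_slope_zero_right ?_
      filter_upwards [self_mem_nhdsWithin] with t (ht : (0:ℝ) < t)
      rw [smul_eq_mul, inv_mul_le_iff₀ ht]
      have h1 := gauge_add_le hK.convex (absorbent_nhds_zero hN) x (t • z)
      rw [gauge_smul_of_nonneg ht.le, smul_eq_mul] at h1
      linarith
    · rw [grad_eq_zero hx, inner_zero_left]; exact gauge_nonneg z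
  have h1 := key (-y)
  rw [inner_neg_right, gauge_neg hsym] at h1
  rw [mem_Icc, ← abs_le, aco, abs_div, abs_of_nonneg (gauge_nonneg y)]
  exact div_le_one_of_le₀ (abs_le.2 ⟨by linarith, key y⟩) (gauge_nonneg y)

lemma ae_good (hK : IsBody K) (hsym : ∀ x ∈ K, -x ∈ K) :
    ∀ᵐ y ∂volume.restrict K, y ≠ 0 ∧ DifferentiableAt ℝ (gauge K) y := by
  obtain ⟨r, hr, hrK⟩ := nhds_basis_ball.mem_iff.1
    (mem_interior_iff_mem_nhds.1 (Sharp.zero_mem_interior hK hsym))
  have hl := hK.convex.lipschitzWith_gauge (r := ⟨r, hr.le⟩) hr hrK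
  refine ae_restrict_of_ae ?_
  filter_upwards [hl.ae_differentiableAt (μ := (volume : Measure (E (d + 1 + 1)))),
    compl_mem_ae_iff.2 (measure_singleton (0 : E (d + 1 + 1)))] with y h1 h2
  exact ⟨h2, h1⟩

/-- The excess is integrable and has mean zero. -/
lemma excess_mean (hK : IsBody K) (hsym : ∀ x ∈ K, -x ∈ K) {φ : ℝ → ℝ}
    (hφc : ContinuousOn φ (Icc (-1) 1)) :
    IntegrableOn (excess φ K) K ∧ ∫ y in K, excess φ K y = 0 := by
  haveI : IsFiniteMeasure ((volume : Measure (E (d + 1 + 1))).restrict K) :=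
    ⟨by simpa using hK.compact.measure_lt_top⟩
  set μ := (volume : Measure (E (d + 1 + 1))).restrict K with hμ
  obtain ⟨M, hM⟩ := isCompact_Icc.exists_bound_of_continuousOn hφc
  have hφ'c : Continuous fun t => φ (clamp t) :=
    hφc.comp_continuous (continuous_const.max (continuous_const.min continuous_id)) clamp_mem
  have hgm : Measurable (gauge K) :=
    (continuous_gauge hK.convex
      (mem_interior_iff_mem_nhds.1 (Sharp.zero_mem_interior hK hsym))).measurable
  have hmm : Measurable fun z : E (d + 1 + 1) × E (d + 1 + 1) => aco K z.1 z.2 := by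
    unfold aco
    exact (((measurable_grad K).comp measurable_fst).inner measurable_snd).div
      (hgm.comp measurable_snd)
  have hj : Integrable (fun z : E (d + 1 + 1) × E (d + 1 + 1) => φ (aco K z.1 z.2))
      (μ.prod μ) := by
    refine Integrable.of_bound (Measurable.aestronglyMeasurable ?_) M
      (ae_of_all _ fun z => hM _ (aco_mem_body hK hsym _ _))
    simpa only [Function.comp_def, clamp_eq (aco_mem_body hK hsym _ _)] using
      hφ'c.measurable.comp hmm
  have hj' := hj.swap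
  refine ⟨(hj'.sub hj).integral_prod_left, ?_⟩
  have h1 := integral_prod _ (hj'.sub hj)
  have h2 := integral_sub hj' hj
  simp only [Pi.sub_apply, Function.comp_apply, Prod.fst_swap, Prod.snd_swap] at h1 h2
  have h3 := integral_prod_swap (μ := μ) (ν := μ) (fun z => φ (aco K z.1 z.2))
  simp only [Prod.fst_swap, Prod.snd_swap] at h3
  rw [h2, h3, sub_self] at h1
  exact h1.symm

/-- Nonnegative excess almost everywhere vanishes almost everywhere. -/
lemma excess_zero (hK : IsBody K) (hsym : ∀ x ∈ K, -x ∈ K) {φ : ℝ → ℝ}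
    (hφc : ContinuousOn φ (Icc (-1) 1)) (h : ∀ᵐ y ∂volume.restrict K, 0 ≤ excess φ K y) :
    ∀ᵐ y ∂volume.restrict K, excess φ K y = 0 :=
  (integral_eq_zero_iff_of_nonneg_ae h (excess_mean hK hsym hφc).1).1 (excess_mean hK hsym hφc).2

lemma grad_ne_zero (hK : IsBody K) (hsym : ∀ x ∈ K, -x ∈ K) {y : E (d + 1 + 1)} (hy : y ≠ 0)
    (hd : DifferentiableAt ℝ (gauge K) y) : grad K y ≠ 0 := fun h => by
  have hz : (0:ℝ) < gauge K y :=
    (gauge_pos (absorbent_nhds_zero (mem_interior_iff_mem_nhds.1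
      (Sharp.zero_mem_interior hK hsym))) (NormedSpace.isVonNBounded_of_isBounded ℝ
      hK.compact.isBounded)).2 hy
  have hl : HasLineDerivAt ℝ (gauge K) (fderiv ℝ (gauge K) y y) y y :=
    hd.hasFDerivAt.hasLineDerivAt y
  have hl2 : HasDerivAt (fun t : ℝ => gauge K (y + t • y)) (gauge K y) 0 := by
    have e : (fun t : ℝ => gauge K (y + t • y)) =ᶠ[𝓝 0] fun t => (1 + t) * gauge K y := by
      filter_upwards [Ioi_mem_nhds (neg_one_lt_zero : (-1:ℝ) < 0)] with t ht
      rw [show y + t • y = (1 + t) • y by module,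
        gauge_smul_of_nonneg (by linarith [Set.mem_Ioi.1 ht]), smul_eq_mul]
    refine HasDerivAt.congr_of_eventuallyEq ?_ e
    simpa using ((hasDerivAt_id (0:ℝ)).const_add 1).mul_const (gauge K y)
  have h1 := hl.unique hl2
  rw [← inner_grad, h, inner_zero_left] at h1
  linarith

/-- **The averaging fact.** -/
theorem average {d : ℕ} {K : Set (E (d + 1 + 1))} (hK : IsBody K) (hsym : ∀ x ∈ K, -x ∈ K)
    {φ : ℝ → ℝ} (hφc : ContinuousOn φ (Icc (-1) 1)) (hφ : ConvexOn ℝ (Icc (-1) 1) φ) :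
    ∃ v : E (d + 1 + 1), ‖v‖ = 1 ∧ ∀ L : E (d + 1 + 1) ≃ₗᵢ[ℝ] E (d + 1 + 1), L v = e0 →
      penPhi (d + 1) φ (sliceProf K v L) ≤ 0 := by
  obtain ⟨y, ⟨hy0, hyd⟩, hle⟩ : ∃ y, (y ≠ 0 ∧ DifferentiableAt ℝ (gauge K) y) ∧
      excess φ K y ≤ 0 := by
    by_contra hcon
    push Not at hcon
    have hpos : ∀ᵐ y ∂volume.restrict K, 0 < excess φ K y :=
      (ae_good hK hsym).mono fun y hy => hcon y hy
    have hz := excess_zero hK hsym hφc (hpos.mono fun y => le_of_lt)
    have : (volume : Measure (E (d + 1 + 1))).restrict K = 0 := by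
      rw [← ae_eq_bot, ← eventually_false_iff_eq_bot]
      filter_upwards [hpos, hz] with y h1 h2
      rw [h2] at h1
      exact lt_irrefl _ h1
    rw [Measure.restrict_eq_zero] at this
    have := hK.volume_pos
    rw [measureReal_def, ‹volume K = 0›] at this
    simp at this
  have hne : ∀ L : E (d + 1 + 1) ≃ₗᵢ[ℝ] E (d + 1 + 1),
      L (‖grad K y‖⁻¹ • grad K y) = e0 → grad K y ≠ 0 ∧
        penPhi (d + 1) φ (sliceProf K (‖grad K y‖⁻¹ • grad K y) L) ≤ 0 := by
    intro L hL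
    obtain ⟨-, hw, hp⟩ := pen_le_body hK hsym hφc hφ hy0 hyd L hL
    refine ⟨hw, not_lt.1 fun hcon => ?_⟩
    have hn : 0 < ‖grad K y‖⁻¹ := inv_pos.2 (norm_pos_iff.2 hw)
    nlinarith [mul_pos hn hcon,
      mul_nonpos_of_nonneg_of_nonpos (Nat.cast_nonneg (d + 1 + 1) : (0:ℝ) ≤ _) hle,
      show excess φ K y = ∫ x in K, (φ (aco K x y) - φ (aco K y x)) from rfl]
  have hw : grad K y ≠ 0 := grad_ne_zero hK hsym hy0 hyd
  exact ⟨_, Sharp.norm_unit hw, fun L hL => (hne L hL).2⟩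

end Vale.Agent.P237.AllN
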