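import Vale.Agent.P237.Univ.Flux

/-!
# P237, all dimensions: the cone measure of a convex body, by cutoffs

For a `0`-homogeneous `H`, the shell integrals converge to `d ∫_K H`; with Euler's identity and
integration by parts this gives the two moments of the cone measure along a functional.
-/

open MeasureTheory Set Real Metric Filter Topology
open Vale.Agent.P237.Univ
open scoped Pointwise RealInnerProductSpace NNReal

namespace Vale.Agent.P237.AllN

variable {d : ℕ} {K : Set (E d)}

/-- The gradient of the gauge. -/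
noncomputable def grad (K : Set (E d)) (x : E d) : E d :=
  (InnerProductSpace.toDual ℝ (E d)).symm (fderiv ℝ (gauge K) x)

lemma inner_grad (K : Set (E d)) (x z : E d) : ⟪grad K x, z⟫ = fderiv ℝ (gauge K) x z :=
  InnerProductSpace.toDual_symm_apply

lemma measurable_grad (K : Set (E d)) : Measurable (grad K) :=
  (InnerProductSpace.toDual ℝ (E d)).symm.continuous.measurable.comp
    (measurable_fderiv ℝ (gauge K))

lemma grad_eq_zero {x : E d} (h : ¬ DifferentiableAt ℝ (gauge K) x) : grad K x = 0 := by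
  rw [grad, fderiv_zero_of_not_differentiableAt h, map_zero]

lemma grad_le_gauge (S : Setting K) (x z : E d) : ⟪grad K x, z⟫ ≤ gauge K z := by
  by_cases hx : DifferentiableAt ℝ (gauge K) x
  · have h : HasLineDerivAt ℝ (gauge K) (fderiv ℝ (gauge K) x z) x z :=
      hx.hasFDerivAt.hasLineDerivAt z
    rw [inner_grad]
    refine le_of_tendsto h.tendsto_slope_zero_right ?_
    filter_upwards [self_mem_nhdsWithin] with t (ht : (0:ℝ) < t)
    rw [smul_eq_mul, inv_mul_le_iff₀ ht]
    have h1 := gauge_add_le S.convex (absorbent_nhds_zero S.nhds) x (t • z)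
    rw [gauge_smul_of_nonneg ht.le, smul_eq_mul] at h1
    linarith
  · rw [grad_eq_zero hx, inner_zero_left]; exact gauge_nonneg z

lemma abs_grad_le_gauge (S : Setting K) (hsym : ∀ x ∈ K, -x ∈ K) (x z : E d) :
    |⟪grad K x, z⟫| ≤ gauge K z := by
  refine abs_le.2 ⟨?_, grad_le_gauge S x z⟩
  have := grad_le_gauge S x (-z)
  rw [inner_neg_right, gauge_neg hsym] at this
  linarith

lemma grad_self (S : Setting K) {x : E d} (hx : DifferentiableAt ℝ (gauge K) x) :
    ⟪grad K x, x⟫ = gauge K x := by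
  rw [inner_grad]
  have h : HasLineDerivAt ℝ (gauge K) (fderiv ℝ (gauge K) x x) x x :=
    hx.hasFDerivAt.hasLineDerivAt x
  have h2 : HasLineDerivAt ℝ (gauge K) (gauge K x) x x := by
    show HasDerivAt (fun t : ℝ => gauge K (x + t • x)) (gauge K x) 0
    have e : (fun t : ℝ => gauge K (x + t • x)) =ᶠ[𝓝 0] fun t => (1 + t) * gauge K x := by
      filter_upwards [Ioi_mem_nhds (neg_one_lt_zero : (-1:ℝ) < 0)] with t ht
      rw [show x + t • x = (1 + t) • x by module,
        gauge_smul_of_nonneg (by linarith [Set.mem_Ioi.1 ht]), smul_eq_mul]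
    refine HasDerivAt.congr_of_eventuallyEq ?_ e
    simpa using ((hasDerivAt_id (0:ℝ)).const_add 1).mul_const (gauge K x)
  exact h.unique h2

lemma grad_smul (K : Set (E d)) {r : ℝ} (hr : 0 < r) (x : E d) :
    grad K (r • x) = grad K x := by
  have e : (fun y => gauge K (r • y)) = r • gauge K := by
    funext y; rw [gauge_smul_of_nonneg hr.le]; rfl
  have h1 := fderiv_comp_smul (𝕜 := ℝ) (f := gauge K) (x := x) r
  rw [e, fderiv_const_smul_field] at h1
  rw [grad, grad]
  exact congrArg _ (smul_right_injective _ hr.ne' h1).symm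

/-- Scaling: shell and body integrals of a homogeneous function. -/
lemma shell_hom (S : Setting K) {ε : ℝ} (hε : 0 < ε) (hε1 : ε ≤ 1) {H : E d → ℝ}
    (hm : Measurable H) {C : ℝ} (hC : ∀ x, |H x| ≤ C)
    (hh : ∀ r : ℝ, 0 < r → ∀ x, H (r • x) = H x) :
    ∫ x, (-deriv (cut ε) (gauge K x) * gauge K x) * H x =
      (d:ℝ) * ∫ x, cut ε (gauge K x) * H x := by
  set φ := cut ε with hφ
  obtain ⟨Cl, hCl⟩ := exists_lipschitz_cut hε
  have hN : Continuous (gauge K) := S.lip.continuous
  have hφc : Continuous φ := (cut_contDiff ε).continuous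
  have hdφc : Continuous (deriv φ) := (cut_contDiff ε).continuous_deriv_one
  have hHi : IntegrableOn H S.big :=
    IntegrableOn.of_bound (isCompact_closedBall _ _).measure_lt_top hm.aestronglyMeasurable C
      (ae_of_all _ fun x => by rw [Real.norm_eq_abs]; exact hC x)
  set F : ℝ → E d → ℝ := fun r x => φ (r * gauge K x) * H x with hF
  set F' : E d → ℝ := fun x => deriv φ (gauge K x) * gauge K x * H x with hF'
  have hFm : ∀ r, AEStronglyMeasurable (F r) volume := fun r =>
    ((hφc.comp (hN.const_mul r)).measurable.mul hm).aestronglyMeasurable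
  obtain ⟨hint, hder⟩ := hasDerivAt_integral_of_dominated_loc_of_lip
    (μ := (volume : Measure (E d))) (F := F) (F' := F') (x₀ := (1:ℝ))
    (s := Metric.ball (1:ℝ) (1/2))
    (bound := S.big.indicator fun x => (Cl:ℝ) * gauge K x * C)
    (Metric.ball_mem_nhds _ (by norm_num)) (Eventually.of_forall hFm)
    (by
      simpa [hF] using S.integrable_mul (hφc.comp hN)
        (fun x hx => S.cut_outside hε hε1 hx) hHi)
    (((hdφc.comp hN).mul hN).measurable.mul hm).aestronglyMeasurable
    (ae_of_all _ fun x => LipschitzOnWith.of_dist_le_mul fun r hr s hs => by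
      rw [Metric.mem_ball, Real.dist_eq, abs_lt] at hr hs
      by_cases hx : x ∈ S.big
      · rw [indicator_of_mem hx, Real.dist_eq, Real.dist_eq, Real.coe_nnabs,
          abs_of_nonneg (mul_nonneg (mul_nonneg (NNReal.coe_nonneg Cl) (gauge_nonneg (s := K) x))
            ((abs_nonneg _).trans (hC x)))]
        have h1 := hCl.dist_le_mul (r * gauge K x) (s * gauge K x)
        rw [Real.dist_eq, Real.dist_eq, ← sub_mul, abs_mul, abs_of_nonneg (gauge_nonneg x)] at h1
        simp only [hF]
        rw [← sub_mul, abs_mul]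
        calc _ ≤ (Cl:ℝ) * (|r - s| * gauge K x) * C :=
              mul_le_mul h1 (hC x) (abs_nonneg _)
                (mul_nonneg Cl.2 (mul_nonneg (abs_nonneg _) (gauge_nonneg x)))
          _ = _ := by ring
      · have hg := S.four_lt_gauge hx
        have h0 : ∀ a, 1/2 < a → F a x = 0 := fun a ha => by
          simp only [hF, hφ]
          rw [cut_of_ge hε (by nlinarith), zero_mul]
        rw [h0 r (by linarith), h0 s (by linarith), dist_self]
        positivity)
    ((integrable_indicator_iff (isClosed_closedBall (x := (0 : E d))).measurableSet).2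
      (((hN.const_mul _).mul_const _).continuousOn.integrableOn_compact
        (isCompact_closedBall _ _)))
    (ae_of_all _ fun x => by
      have := ((((cut_contDiff ε).differentiable (by simp)) (1 * gauge K x)).hasDerivAt.comp 1
        ((hasDerivAt_id (1:ℝ)).mul_const (gauge K x))).mul_const (H x)
      simpa [Function.comp_def, hF, hF', hφ] using this)
  have hscale : (fun r => ∫ x, F r x) =ᶠ[𝓝 (1:ℝ)] fun r => (r ^ d)⁻¹ * ∫ x, F 1 x := by
    filter_upwards [Ioi_mem_nhds one_pos] with r hr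
    have hr0 : (0:ℝ) < r := hr
    have := Measure.integral_comp_smul_of_nonneg (volume : Measure (E d)) (F 1) r
      (hR := hr0.le)
    rw [finrank_euclideanSpace_fin, smul_eq_mul] at this
    rw [← this]
    refine integral_congr_ae (ae_of_all _ fun x => ?_)
    simp only [hF, one_mul, gauge_smul_of_nonneg hr0.le, smul_eq_mul, hh r hr0 x]
  have hd : HasDerivAt (fun r : ℝ => (r ^ d)⁻¹ * ∫ x, F 1 x) (-(d:ℝ) * ∫ x, F 1 x) 1 := by
    have := ((hasDerivAt_pow d (1:ℝ)).inv (by simp)).mul_const (∫ x, F 1 x)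
    simpa using this
  have hkey := (hder.congr_of_eventuallyEq hscale.symm).unique hd
  simp only [hF', hF, one_mul] at hkey
  simp only [neg_mul, integral_neg, hkey, neg_neg]

lemma deriv_cut_region {ε s : ℝ} (hε : 0 < ε) (hs : s ∉ Icc 1 (1 + ε)) : deriv (cut ε) s = 0 := by
  rcases lt_or_ge s 1 with h | h
  · exact deriv_cut_eq_zero_of_lt hε h
  · exact deriv_cut_eq_zero_of_gt hε (not_le.1 fun h' => hs ⟨h, h'⟩)

/-- Shell integrals of a function close to `gauge K * H` converge to `d ∫_K H`. -/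
lemma tendsto_shell (S : Setting K) {H Q : E d → ℝ} (hm : Measurable H) {C : ℝ}
    (hC : ∀ x, |H x| ≤ C) (hh : ∀ r : ℝ, 0 < r → ∀ x, H (r • x) = H x) (hQ : Measurable Q)
    {B : ℝ} (hB : ∀ x, gauge K x ∈ Icc (1:ℝ) 2 →
      |Q x - gauge K x * H x| ≤ B * (gauge K x - 1)) :
    Tendsto (fun n : ℕ => ∫ x, -deriv (cut (1 / ((n:ℝ) + 1))) (gauge K x) * Q x) atTop
      (𝓝 ((d:ℝ) * ∫ x in K, H x)) := by
  set ε : ℕ → ℝ := fun n => 1 / ((n:ℝ) + 1) with hεdef
  have hε : ∀ n, 0 < ε n ∧ ε n ≤ 1 := fun n =>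
    ⟨by positivity, by simp only [hεdef]; rw [div_le_one (by positivity)]; simp⟩
  have hN : Continuous (gauge K) := S.lip.continuous
  have hHi : IntegrableOn H S.big :=
    IntegrableOn.of_bound (isCompact_closedBall _ _).measure_lt_top hm.aestronglyMeasurable C
      (ae_of_all _ fun x => by rw [Real.norm_eq_abs]; exact hC x)
  set w : ℕ → E d → ℝ := fun n x => -deriv (cut (ε n)) (gauge K x) * gauge K x with hw
  have hwc : ∀ n, Continuous (w n) := fun n =>
    ((cut_contDiff _).continuous_deriv_one.comp hN).neg.mul hN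
  have hw0 : ∀ n x, 0 ≤ w n x := fun n x =>
    mul_nonneg (neg_nonneg.2 (deriv_cut_nonpos (hε n).1 _)) (gauge_nonneg x)
  have hwout : ∀ n, ∀ x ∉ S.big, w n x = 0 := fun n x hx => by
    simp [hw, S.deriv_cut_outside (hε n).1 (hε n).2 hx]
  have iw : ∀ n, Integrable (w n) := fun n =>
    (hwc n).integrable_of_hasCompactSupport (S.hasCompactSupport (hwout n))
  have iwH : ∀ n, Integrable fun x => w n x * H x := fun n =>
    S.integrable_mul (hwc n) (hwout n) hHi
  have hpt : ∀ n x,
      |-deriv (cut (ε n)) (gauge K x) * Q x - w n x * H x| ≤ max B 0 * ε n * w n x := by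
    intro n x
    by_cases hx : gauge K x ∈ Icc 1 (1 + ε n)
    · have h1 := hB x ⟨hx.1, hx.2.trans (by linarith [(hε n).2])⟩
      have hD : 0 ≤ -deriv (cut (ε n)) (gauge K x) :=
        neg_nonneg.2 (deriv_cut_nonpos (hε n).1 _)
      simp only [hw]
      rw [mul_assoc _ (gauge K x) (H x), ← mul_sub, abs_mul, abs_of_nonneg hD]
      have h2 : B * (gauge K x - 1) ≤ max B 0 * ε n :=
        mul_le_mul (le_max_left _ _) (by linarith [hx.2]) (by linarith [hx.1]) (le_max_right _ _)
      calc _ ≤ -deriv (cut (ε n)) (gauge K x) * (max B 0 * ε n) :=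
            mul_le_mul_of_nonneg_left (h1.trans h2) hD
        _ ≤ -deriv (cut (ε n)) (gauge K x) * gauge K x * (max B 0 * ε n) :=
            mul_le_mul_of_nonneg_right (le_mul_of_one_le_right hD hx.1)
              (mul_nonneg (le_max_right _ _) (hε n).1.le)
        _ = _ := by ring
    · simp [hw, deriv_cut_region (hε n).1 hx]
  have iQ : ∀ n, Integrable fun x => -deriv (cut (ε n)) (gauge K x) * Q x - w n x * H x :=
    fun n => Integrable.mono' ((iw n).const_mul (max B 0 * ε n))
      (((((cut_contDiff _).continuous_deriv_one.comp hN).neg.measurable.mul hQ).sub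
        ((hwc n).measurable.mul hm)).aestronglyMeasurable)
      (ae_of_all _ fun x => by rw [Real.norm_eq_abs]; exact hpt n x)
  have e : ∀ n, ∫ x, -deriv (cut (ε n)) (gauge K x) * Q x =
      (∫ x, -deriv (cut (ε n)) (gauge K x) * Q x - w n x * H x) +
        (d:ℝ) * ∫ x, cut (ε n) (gauge K x) * H x := fun n => by
    rw [← shell_hom S (hε n).1 (hε n).2 hm hC hh]
    rw [← integral_add (iQ n) (iwH n)]
    simp
  have hone : Tendsto (fun n => ∫ x, w n x) atTop (𝓝 ((d:ℝ) * ∫ _ in K, (1:ℝ))) := by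
    have hev : ∀ n, ∫ x, w n x = (d:ℝ) * ∫ x, cut (ε n) (gauge K x) * (1:ℝ) := fun n => by
      rw [← shell_hom S (hε n).1 (hε n).2 measurable_const (C := 1) (by simp) (by simp)]
      simp [hw]
    simp only [hev]
    exact (S.tendsto_cut (integrableOn_const (isCompact_closedBall _ _).measure_lt_top.ne)).const_mul _
  have herr : Tendsto (fun n => ∫ x, -deriv (cut (ε n)) (gauge K x) * Q x - w n x * H x) atTop
      (𝓝 0) := by
    refine squeeze_zero_norm (a := fun n => max B 0 * ε n * ∫ x, w n x) (fun n => ?_) ?_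
    · rw [← integral_const_mul]
      exact norm_integral_le_of_norm_le ((iw n).const_mul _)
        (ae_of_all _ fun x => by rw [Real.norm_eq_abs]; exact hpt n x)
    · have h0 : Tendsto ε atTop (𝓝 (0:ℝ)) := tendsto_one_div_add_atTop_nhds_zero_nat
      simpa only [mul_zero, zero_mul] using (h0.const_mul (max B 0)).mul hone
  have h := herr.add ((S.tendsto_cut hHi).const_mul (d:ℝ))
  rw [zero_add] at h
  exact h.congr fun n => (e n).symm

/-- Integration by parts along `v`, for a function of a functional with value `1` at `v`. -/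
lemma parts_dir (S : Setting K) {ε : ℝ} (hε : 0 < ε) (hε1 : ε ≤ 1) {G : ℝ → ℝ} {L : ℝ≥0}
    (hG : LipschitzWith L G) {w v : E d} (hwv : ⟪w, v⟫ = 1) :
    ∫ x, cut ε (gauge K x) * deriv G ⟪w, x⟫ =
      ∫ x, -deriv (cut ε) (gauge K x) * (⟪grad K x, v⟫ * G ⟪w, x⟫) := by
  obtain ⟨C, hC⟩ := exists_lipschitz_cut hε
  have hf : LipschitzWith (L * ‖innerSL ℝ w‖₊) fun x : E d => G ⟪w, x⟫ :=
    hG.comp (innerSL ℝ w).lipschitz
  have hibp := LipschitzWith.integral_lineDeriv_mul_eq (μ := (volume : Measure (E d))) hf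
    (hC.comp S.lip) (S.hasCompactSupport fun x hx => S.cut_outside hε hε1 hx) v
  have hline : ∀ x : E d, lineDeriv ℝ (fun x => G ⟪w, x⟫) x v = deriv G ⟪w, x⟫ := by
    intro x
    have : (fun t : ℝ => G ⟪w, x + t • v⟫) = fun t => G (⟪w, x⟫ + t) := by
      funext t
      rw [inner_add_right, real_inner_smul_right, hwv, mul_one]
    rw [lineDeriv, this, deriv_comp_const_add, add_zero]
  have hL : ∫ x, cut ε (gauge K x) * deriv G ⟪w, x⟫ =
      ∫ x, lineDeriv ℝ (fun x => G ⟪w, x⟫) x v * (cut ε ∘ gauge K) x :=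
    integral_congr_ae (ae_of_all _ fun x => by simp only [hline, Function.comp_apply]; ring)
  rw [hL, hibp]
  refine integral_congr_ae ?_
  filter_upwards [S.lip.ae_differentiableAt (μ := (volume : Measure (E d)))] with x hx
  have hd : DifferentiableAt ℝ (cut ε) (gauge K x) :=
    ((cut_contDiff ε).differentiable (by simp)) _
  rw [(hd.comp x hx).lineDeriv_eq_fderiv, fderiv_comp x hd hx, inner_grad]
  simp only [ContinuousLinearMap.comp_apply, map_neg, fderiv_eq_deriv_mul]
  ring

variable {H : ℝ → ℝ} {Lh : ℝ≥0}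

lemma lipschitz_sq (hH : LipschitzWith Lh H) (h01 : ∀ t, H t ∈ Icc (0:ℝ) 1) :
    LipschitzWith (2 * Lh) fun t => H t ^ 2 := by
  refine LipschitzWith.of_dist_le_mul fun x y => ?_
  have h := hH.dist_le_mul x y
  rw [Real.dist_eq] at h ⊢
  rw [show H x ^ 2 - H y ^ 2 = (H x + H y) * (H x - H y) by ring, abs_mul, NNReal.coe_mul,
    NNReal.coe_ofNat]
  calc _ ≤ 2 * ((Lh:ℝ) * dist x y) := by
        refine mul_le_mul ?_ h (abs_nonneg _) zero_le_two
        rw [abs_le]; constructor <;> linarith [(h01 x).1, (h01 x).2, (h01 y).1, (h01 y).2]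
    _ = _ := by ring

/-- The two cone moments along a functional `w` bounded by the gauge, against `G = H²`. -/
lemma cone_moments (S : Setting K) (hsym : ∀ x ∈ K, -x ∈ K) {w v : E d}
    (hw : ∀ x, |⟪w, x⟫| ≤ gauge K x) (hv : v ∈ K) (hwv : ⟪w, v⟫ = 1)
    (hH : LipschitzWith Lh H) (h01 : ∀ t, H t ∈ Icc (0:ℝ) 1) :
    ((d:ℝ) * ∫ x in K, H (⟪w, x⟫ / gauge K x) ^ 2) = (∫ x in K, qd d H ⟪w, x⟫) ∧
    ((d:ℝ) * ∫ x in K, ⟪grad K x, v⟫ * H (⟪w, x⟫ / gauge K x) ^ 2) =
      ∫ x in K, deriv (fun t => H t ^ 2) ⟪w, x⟫ := by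
  have hbig : IsCompact S.big := isCompact_closedBall _ _
  have hN : Continuous (gauge K) := S.lip.continuous
  have hG := lipschitz_sq hH h01
  have hG1 : ∀ t, |H t ^ 2| ≤ 1 := fun t => by
    rw [abs_of_nonneg (sq_nonneg _)]; exact pow_le_one₀ (h01 t).1 (h01 t).2
  have hbm : Measurable fun x : E d => ⟪w, x⟫ / gauge K x :=
    (innerSL ℝ w).continuous.measurable.div hN.measurable
  have hGm : Measurable fun x : E d => H (⟪w, x⟫ / gauge K x) ^ 2 :=
    hG.continuous.measurable.comp hbm
  have hbh : ∀ r : ℝ, 0 < r → ∀ x : E d,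
      ⟪w, r • x⟫ / gauge K (r • x) = ⟪w, x⟫ / gauge K x := fun r hr x => by
    rw [real_inner_smul_right, gauge_smul_of_nonneg hr.le, smul_eq_mul,
      mul_div_mul_left _ _ hr.ne']
  have hclose : ∀ x, gauge K x ∈ Icc (1:ℝ) 2 →
      |H ⟪w, x⟫ ^ 2 - H (⟪w, x⟫ / gauge K x) ^ 2| ≤ (2 * Lh : ℝ≥0) * (gauge K x - 1) := by
    intro x hx
    have h := hG.dist_le_mul ⟪w, x⟫ (⟪w, x⟫ / gauge K x)
    rw [Real.dist_eq, Real.dist_eq] at h
    refine h.trans (mul_le_mul_of_nonneg_left ?_ (NNReal.coe_nonneg _))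
    have h0 : 0 < gauge K x := by linarith [hx.1]
    rw [show ⟪w, x⟫ - ⟪w, x⟫ / gauge K x = ⟪w, x⟫ / gauge K x * (gauge K x - 1) by field_simp,
      abs_mul, abs_of_nonneg (sub_nonneg.2 hx.1)]
    refine mul_le_of_le_one_left (sub_nonneg.2 hx.1) ?_
    rw [abs_div, abs_of_pos h0, div_le_one h0]
    exact hw x
  have hgv : ∀ x, |⟪grad K x, v⟫| ≤ 1 := fun x =>
    (abs_grad_le_gauge S hsym x v).trans ((S.gauge_le_one v).2 hv)
  constructor
  · refine tendsto_nhds_unique
      (tendsto_shell S (H := fun x => H (⟪w, x⟫ / gauge K x) ^ 2)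
        (Q := fun x => gauge K x * H ⟪w, x⟫ ^ 2) hGm (C := 1) (fun x => hG1 _)
        (fun r hr x => by simp only [hbh r hr x])
        (hN.measurable.mul (hG.continuous.measurable.comp (innerSL ℝ w).continuous.measurable))
        (B := 2 * (2 * Lh : ℝ≥0)) fun x hx => ?_)
      ((S.tendsto_cut (integrableOn_qd hH w _ hbig)).congr fun n => ?_)
    · rw [← mul_sub, abs_mul, abs_of_nonneg (gauge_nonneg x), mul_assoc]
      exact mul_le_mul hx.2 (hclose x hx) (abs_nonneg _) zero_le_two
    · rw [← S.euler (by positivity) (by rw [div_le_one (by positivity)]; simp) hH w]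
      exact integral_congr_ae (ae_of_all _ fun x => by ring)
  · refine tendsto_nhds_unique
      (tendsto_shell S (H := fun x => ⟪grad K x, v⟫ * H (⟪w, x⟫ / gauge K x) ^ 2)
        (Q := fun x => ⟪grad K x, v⟫ * H ⟪w, x⟫ ^ 2)
        (((measurable_grad K).inner measurable_const).mul hGm) (C := 1) (fun x => ?_)
        (fun r hr x => by simp only [hbh r hr x, grad_smul K hr x])
        (((measurable_grad K).inner measurable_const).mul
          (hG.continuous.measurable.comp (innerSL ℝ w).continuous.measurable))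
        (B := (2 * Lh : ℝ≥0) + 1) fun x hx => ?_)
      ((S.tendsto_cut (integrableOn_deriv_inner hG w _ hbig)).congr fun n =>
        parts_dir S (by positivity) (by rw [div_le_one (by positivity)]; simp) hG hwv)
    · rw [abs_mul]
      exact mul_le_one₀ (hgv x) (abs_nonneg _) (hG1 _)
    · set p := ⟪grad K x, v⟫ with hp
      set A := H ⟪w, x⟫ ^ 2
      set Bv := H (⟪w, x⟫ / gauge K x) ^ 2
      have hBv : |Bv| ≤ 1 := hG1 _
      rw [show p * A - gauge K x * (p * Bv) = p * ((A - Bv) - (gauge K x - 1) * Bv) by ring,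
        abs_mul]
      refine (mul_le_of_le_one_left (abs_nonneg _) (hgv x)).trans ((abs_sub _ _).trans ?_)
      rw [abs_mul, abs_of_nonneg (sub_nonneg.2 hx.1), add_mul, one_mul]
      exact add_le_add (hclose x hx) (mul_le_of_le_one_right (sub_nonneg.2 hx.1) hBv)

end Vale.Agent.P237.AllN
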