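import Mathlib

/-!
# P237, all dimensions: the calibration function of the one-dimensional lemma

In dimension `n = m + 1` the ball has slice profile `√(1 - t²)`; `Zb j = ∫_{-1}^{1} √(1-t²)^(j-1)`.
`psi m` is the odd solution of `(1 - t²) ψ' - (n + 1) t ψ = 1 - cst m / √(1 - t²)` on `(-1, 1)`;
it is increasing, so its primitive `phi m` is convex on `[-1, 1]`.
-/

open MeasureTheory Set Real intervalIntegral Filter Topology

namespace Vale.Agent.P237.AllN

/-- `∫_{-π/2}^{π/2} cos^j`. -/
noncomputable def cosI (j : ℕ) : ℝ := ∫ a in (-(π / 2))..(π / 2), cos a ^ j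

/-- The ratio `Z₀ / P₀` of the ball in dimension `m + 1`. -/
noncomputable def cst (m : ℕ) : ℝ := cosI (m + 1) / cosI m

/-- The integrand of `tailI`. -/
noncomputable def gI (m : ℕ) (a : ℝ) : ℝ := (cst m - cos a) * cos a ^ m

/-- `∫_a^{π/2} (c - cos) cos^m`. -/
noncomputable def tailI (m : ℕ) (a : ℝ) : ℝ := ∫ x in a..(π / 2), gI m x

/-- The calibration in the angle. -/
noncomputable def psiA (m : ℕ) (a : ℝ) : ℝ := tailI m a / cos a ^ (m + 2)

/-- The calibration. -/
noncomputable def psi (m : ℕ) (t : ℝ) : ℝ := psiA m (arcsin t)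

/-- The derivative of `phi` in the angle. -/
noncomputable def phiD (m : ℕ) (a : ℝ) : ℝ := tailI m a / cos a ^ (m + 1)

/-- The convex primitive of `psi`. -/
noncomputable def phi (m : ℕ) (t : ℝ) : ℝ := ∫ a in (0 : ℝ)..arcsin t, phiD m a

variable {m : ℕ}

theorem intervalIntegrable_cos_pow (j : ℕ) (a b : ℝ) :
    IntervalIntegrable (fun x => cos x ^ j) volume a b :=
  (continuous_cos.pow j).intervalIntegrable a b

theorem cosI_pos (j : ℕ) : 0 < cosI j := by
  refine intervalIntegral_pos_of_pos_on (intervalIntegrable_cos_pow j _ _) (fun x hx => ?_)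
    (by linarith [pi_pos])
  exact pow_pos (cos_pos_of_mem_Ioo hx) j

theorem cosI_succ_lt (j : ℕ) : cosI (j + 1) < cosI j := by
  refine integral_lt_integral_of_continuousOn_of_le_of_exists_lt (by linarith [pi_pos])
    (continuous_cos.pow (j + 1)).continuousOn (continuous_cos.pow j).continuousOn ?_ ?_
  · intro x hx
    rw [pow_succ]
    exact mul_le_of_le_one_right (pow_nonneg (cos_nonneg_of_mem_Icc ⟨hx.1.le, hx.2⟩) j) (cos_le_one x)
  · refine ⟨π / 3, ⟨by linarith [pi_pos], by linarith [pi_pos]⟩, ?_⟩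
    rw [pow_succ, cos_pi_div_three]
    linarith [show (0 : ℝ) < (1 / 2) ^ j by positivity]

theorem cst_pos (m : ℕ) : 0 < cst m := div_pos (cosI_pos _) (cosI_pos _)

theorem cst_lt_one (m : ℕ) : cst m < 1 := (div_lt_one (cosI_pos m)).2 (cosI_succ_lt m)

@[fun_prop]
theorem continuous_gI (m : ℕ) : Continuous (gI m) := by unfold gI; fun_prop

theorem intervalIntegrable_gI (m : ℕ) (a b : ℝ) : IntervalIntegrable (gI m) volume a b :=
  (continuous_gI m).intervalIntegrable a b

theorem hasDerivAt_tailI (m : ℕ) (a : ℝ) : HasDerivAt (tailI m) (-gI m a) a :=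
  intervalIntegral.integral_hasDerivAt_left (intervalIntegrable_gI m _ _)
    (continuous_gI m).aestronglyMeasurable.stronglyMeasurableAtFilter (continuous_gI m).continuousAt

@[fun_prop]
theorem continuous_tailI (m : ℕ) : Continuous (tailI m) :=
  continuous_iff_continuousAt.2 fun a => (hasDerivAt_tailI m a).continuousAt

theorem tailI_neg (m : ℕ) (a : ℝ) : tailI m (-a) = -tailI m a := by
  have hfull : ∫ x in (-(π / 2))..(π / 2), gI m x = 0 := by
    have h : ∀ x, gI m x = cst m * cos x ^ m - cos x ^ (m + 1) := fun x => by rw [gI]; ring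
    simp only [h]
    rw [intervalIntegral.integral_sub ((intervalIntegrable_cos_pow m _ _).const_mul _)
      (intervalIntegrable_cos_pow _ _ _), intervalIntegral.integral_const_mul]
    rw [← cosI, ← cosI, cst, div_mul_cancel₀ _ (cosI_pos m).ne', sub_self]
  have hsymm : ∫ x in (-(π / 2))..(-a), gI m x = tailI m a := by
    rw [tailI, ← intervalIntegral.integral_comp_neg]
    exact integral_congr fun x _ => by simp [gI]
  have hsplit := integral_add_adjacent_intervals (intervalIntegrable_gI m (-(π / 2)) (-a))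
    (intervalIntegrable_gI m (-a) (π / 2))
  rw [hfull, hsymm] at hsplit
  exact eq_neg_of_add_eq_zero_right hsplit

theorem tailI_zero (m : ℕ) : tailI m 0 = 0 := by
  have h := tailI_neg m 0
  rw [neg_zero] at h
  linarith

/-- On `[0, π/2]` the tail integral is nonnegative. -/
theorem tailI_nonneg {a : ℝ} (h0 : 0 ≤ a) (h1 : a ≤ π / 2) : 0 ≤ tailI m a := by
  rcases le_or_gt (cos a) (cst m) with h | h
  · refine integral_nonneg h1 fun x hx => mul_nonneg (sub_nonneg.2 ?_)
      (pow_nonneg (cos_nonneg_of_mem_Icc ⟨by linarith [hx.1, pi_pos], hx.2⟩) m)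
    exact (cos_le_cos_of_nonneg_of_le_pi h0 (by linarith [hx.2, pi_pos]) hx.1).trans h
  · have hneg : ∫ x in (0 : ℝ)..a, gI m x ≤ 0 := by
      have h2 : ∀ x ∈ Icc 0 a, 0 ≤ -gI m x := fun x hx => neg_nonneg.2
        (mul_nonpos_of_nonpos_of_nonneg
          (sub_nonpos.2 (h.le.trans (cos_le_cos_of_nonneg_of_le_pi hx.1 (by linarith [pi_pos]) hx.2)))
          (pow_nonneg (cos_nonneg_of_mem_Icc ⟨by linarith [hx.1, pi_pos], hx.2.trans h1⟩) m))
      have h3 : 0 ≤ ∫ x in (0 : ℝ)..a, -gI m x := integral_nonneg h0 h2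
      rw [intervalIntegral.integral_neg] at h3
      linarith
    have hsplit := integral_add_adjacent_intervals (intervalIntegrable_gI m 0 a)
      (intervalIntegrable_gI m a (π / 2))
    rw [← tailI, ← tailI, tailI_zero] at hsplit
    linarith

theorem abs_phiD_le (m : ℕ) : ∀ a, |a| < π / 2 → |phiD m a| ≤ π := by
  intro a ha
  wlog h0 : 0 ≤ a generalizing a
  · have h := this (-a) (by rwa [abs_neg]) (by linarith)
    rwa [phiD, tailI_neg, cos_neg, neg_div, abs_neg, ← phiD] at h
  rw [abs_of_nonneg h0] at ha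
  have hc : 0 < cos a := cos_pos_of_mem_Ioo ⟨by linarith [pi_pos], ha⟩
  have h1 : tailI m a ≤ (π / 2 - a) * cos a ^ m := by
    have h2 : ∫ x in a..(π / 2), gI m x ≤ ∫ _x in a..(π / 2), cos a ^ m := by
      refine integral_mono_on ha.le (intervalIntegrable_gI m _ _) intervalIntegrable_const
        fun x hx => ?_
      have hx0 : 0 ≤ cos x := cos_nonneg_of_mem_Icc ⟨by linarith [hx.1, pi_pos], hx.2⟩
      have hxa : cos x ≤ cos a := cos_le_cos_of_nonneg_of_le_pi h0 (by linarith [hx.2, pi_pos]) hx.1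
      calc (cst m - cos x) * cos x ^ m ≤ 1 * cos x ^ m :=
            mul_le_mul_of_nonneg_right (by linarith [cst_lt_one m]) (pow_nonneg hx0 m)
        _ ≤ cos a ^ m := by rw [one_mul]; exact pow_le_pow_left₀ hx0 hxa m
    rwa [intervalIntegral.integral_const, smul_eq_mul] at h2
  have h3 : π / 2 - a ≤ π / 2 * cos a := by
    have h := mul_le_sin (x := π / 2 - a) (by linarith) (by linarith)
    rw [sin_pi_div_two_sub] at h
    have := mul_le_mul_of_nonneg_left h (show (0 : ℝ) ≤ π / 2 by positivity)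
    rwa [← mul_assoc, show π / 2 * (2 / π) = 1 by field_simp, one_mul] at this
  rw [phiD, abs_of_nonneg (div_nonneg (tailI_nonneg h0 ha.le) (by positivity)),
    div_le_iff₀ (by positivity)]
  calc tailI m a ≤ (π / 2 * cos a) * cos a ^ m :=
        h1.trans (mul_le_mul_of_nonneg_right h3 (by positivity))
    _ ≤ π * cos a ^ (m + 1) := by
        rw [mul_assoc, ← pow_succ']
        exact mul_le_mul_of_nonneg_right (by linarith [pi_pos]) (by positivity)

theorem hasDerivAt_cos_pow (k : ℕ) (a : ℝ) :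
    HasDerivAt (fun x => cos x ^ (k + 1)) (-((k + 1) * (cos a ^ k * sin a))) a := by
  have h := (hasDerivAt_cos a).pow (k + 1)
  refine h.congr_deriv ?_
  simp [mul_assoc]

/-- The inequality equivalent to monotonicity of the calibration, for a nonnegative angle. -/
theorem key_ineq {a : ℝ} (h0 : 0 ≤ a) (h1 : a < π / 2) :
    cos a ^ (m + 1) * (cst m - cos a) ≤ (m + 2) * sin a * tailI m a := by
  have hsin : 0 ≤ sin a := sin_nonneg_of_nonneg_of_le_pi h0 (by linarith [pi_pos])
  have hI := tailI_nonneg (m := m) h0 h1.le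
  have hca : 0 < cos a := cos_pos_of_mem_Ioo ⟨by linarith [pi_pos], h1⟩
  rcases le_or_gt (cst m) (cos a) with h | h
  · exact (mul_nonpos_of_nonneg_of_nonpos (by positivity) (sub_nonpos.2 h)).trans (by positivity)
  have hapos : 0 < a := by
    rcases h0.eq_or_lt with h' | h'
    · rw [← h', cos_zero] at h; linarith [cst_lt_one m]
    · exact h'
  set E : ℝ → ℝ := fun x => tailI m x - cos x ^ (m + 1) * (cst m - cos x) / ((m + 2) * sin x) with hE
  have hsx : ∀ x ∈ Icc a (π / 2), 0 < sin x := fun x hx =>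
    sin_pos_of_pos_of_lt_pi (hapos.trans_le hx.1) (by linarith [hx.2, pi_pos])
  have hder : ∀ x ∈ Icc a (π / 2), HasDerivAt E
      (cos x ^ m / (m + 2) * (-cst m + cos x ^ 2 * (cst m - cos x) / sin x ^ 2)) x := by
    intro x hx
    have hs := (hsx x hx).ne'
    have hd := (hasDerivAt_tailI m x).sub
      (((hasDerivAt_cos_pow m x).mul ((hasDerivAt_cos x).const_sub (cst m))).div
        ((hasDerivAt_sin x).const_mul ((m : ℝ) + 2)) (mul_ne_zero (by positivity) hs))
    refine hd.congr_deriv ?_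
    simp only [gI, Pi.mul_apply, pow_succ]
    field_simp
    ring
  have hanti : AntitoneOn E (Icc a (π / 2)) := by
    refine antitoneOn_of_deriv_nonpos (convex_Icc _ _)
      (fun x hx => (hder x hx).continuousAt.continuousWithinAt)
      (fun x hx => (hder x (interior_subset hx)).differentiableAt.differentiableWithinAt) ?_
    intro x hx
    rw [interior_Icc] at hx
    rw [(hder x (Ioo_subset_Icc_self hx)).deriv]
    have hxc : 0 < cos x := cos_pos_of_mem_Ioo ⟨by linarith [hx.1, pi_pos], hx.2⟩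
    have hxa : cos x ≤ cos a := cos_le_cos_of_nonneg_of_le_pi h0 (by linarith [hx.2, pi_pos]) hx.1.le
    have hs := hsx x (Ioo_subset_Icc_self hx)
    refine mul_nonpos_of_nonneg_of_nonpos (by positivity) ?_
    rw [neg_add_eq_sub, sub_nonpos, div_le_iff₀ (by positivity), sin_sq]
    nlinarith [cos_le_one x, cst_lt_one m,
      mul_nonneg (mul_nonneg hxc.le (sub_nonneg.2 (hxa.trans h.le))) (sub_nonneg.2 (cos_le_one x)),
      mul_nonneg hxc.le (sub_nonneg.2 (cos_le_one x)),
      mul_nonneg (mul_nonneg (cst_pos m).le (sub_nonneg.2 (cos_le_one x))) hxc.le]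
  have hend : E (π / 2) = 0 := by simp [hE, tailI]
  have hmain := hanti ⟨le_rfl, h1.le⟩ ⟨h1.le, le_rfl⟩ h1.le
  rw [hend] at hmain
  simp only [hE, sub_nonneg] at hmain
  rw [div_le_iff₀ (mul_pos (by positivity) (hsx a ⟨le_rfl, h1.le⟩))] at hmain
  linarith

theorem key_ineq' {a : ℝ} (h : |a| < π / 2) :
    cos a ^ (m + 1) * (cst m - cos a) ≤ (m + 2) * sin a * tailI m a := by
  rcases le_total 0 a with h0 | h0
  · exact key_ineq h0 (abs_lt.1 h).2
  · have := key_ineq (m := m) (a := -a) (by linarith) (by linarith [(abs_lt.1 h).1])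
    rw [cos_neg, sin_neg, tailI_neg] at this
    linarith

theorem hasDerivAt_psiA {a : ℝ} (h : cos a ≠ 0) :
    HasDerivAt (psiA m)
      (((m + 2) * sin a * tailI m a - cos a ^ (m + 1) * (cst m - cos a)) / cos a ^ (m + 3)) a := by
  refine ((hasDerivAt_tailI m a).div (hasDerivAt_cos_pow (m + 1) a) (pow_ne_zero _ h)).congr_deriv ?_
  simp only [gI, pow_succ]
  push_cast
  field_simp
  ring

theorem monotoneOn_psiA : MonotoneOn (psiA m) (Ioo (-(π / 2)) (π / 2)) := by
  have hne : ∀ a ∈ Ioo (-(π / 2)) (π / 2), cos a ≠ 0 := fun a ha => (cos_pos_of_mem_Ioo ha).ne'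
  refine monotoneOn_of_deriv_nonneg (convex_Ioo _ _)
    (fun a ha => (hasDerivAt_psiA (hne a ha)).continuousAt.continuousWithinAt)
    (fun a ha => (hasDerivAt_psiA (hne a (interior_subset ha))).differentiableAt.differentiableWithinAt) ?_
  intro a ha
  rw [interior_Ioo] at ha
  rw [(hasDerivAt_psiA (hne a ha)).deriv]
  exact div_nonneg (sub_nonneg.2 (key_ineq' (abs_lt.2 ha))) (pow_nonneg (cos_pos_of_mem_Ioo ha).le _)

theorem psi_neg (m : ℕ) (t : ℝ) : psi m (-t) = -psi m t := by
  simp [psi, psiA, arcsin_neg, tailI_neg, neg_div]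

theorem psi_zero (m : ℕ) : psi m 0 = 0 := by simp [psi, psiA, tailI_zero]

theorem monotoneOn_psi : MonotoneOn (psi m) (Ioo (-1) 1) := fun _ hx _ hy hxy =>
  monotoneOn_psiA ⟨neg_pi_div_two_lt_arcsin.2 hx.1, arcsin_lt_pi_div_two.2 hx.2⟩
    ⟨neg_pi_div_two_lt_arcsin.2 hy.1, arcsin_lt_pi_div_two.2 hy.2⟩ (arcsin_le_arcsin hxy)

/-- The differential equation of the calibration. -/
theorem hasDerivAt_psi {t : ℝ} (ht : t ∈ Ioo (-1 : ℝ) 1) :
    HasDerivAt (psi m) (((m + 2) * t * psi m t + 1 - cst m / √(1 - t ^ 2)) / (1 - t ^ 2)) t := by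
  have hc : cos (arcsin t) = √(1 - t ^ 2) := cos_arcsin t
  have hpos : (0 : ℝ) < 1 - t ^ 2 := by nlinarith [ht.1, ht.2]
  have hne : cos (arcsin t) ≠ 0 := by rw [hc]; positivity
  have hd := (hasDerivAt_psiA (m := m) hne).comp t (hasDerivAt_arcsin ht.1.ne' ht.2.ne)
  refine hd.congr_deriv ?_
  rw [sin_arcsin ht.1.le ht.2.le, psi, psiA, hc]
  have hsq : √(1 - t ^ 2) ^ 2 = 1 - t ^ 2 := sq_sqrt hpos.le
  set w := √(1 - t ^ 2) with hw
  have hw0 : w ≠ 0 := by positivity
  rw [← hsq]
  simp only [pow_succ]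
  field_simp
  ring

theorem intervalIntegrable_phiD {a b : ℝ} (ha : a ∈ Icc (-(π / 2)) (π / 2))
    (hb : b ∈ Icc (-(π / 2)) (π / 2)) : IntervalIntegrable (phiD m) volume a b := by
  have hm : Measurable (phiD m) :=
    (continuous_tailI m).measurable.div ((continuous_cos.pow _).measurable)
  have h : IntegrableOn (phiD m) (Icc (-(π / 2)) (π / 2)) := by
    refine Integrable.of_bound hm.aestronglyMeasurable π ?_
    filter_upwards [ae_restrict_mem measurableSet_Icc] with x hx
    rw [Real.norm_eq_abs]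
    rcases (abs_le.2 hx).eq_or_lt with h | h
    · have hcx : cos x = 0 := by rw [← cos_abs, h, cos_pi_div_two]
      simp [phiD, hcx, pi_pos.le]
    · exact abs_phiD_le m x h
  exact (h.mono_set (uIcc_subset_Icc ha hb)).intervalIntegrable

theorem continuousOn_phi : ContinuousOn (phi m) (Icc (-1) 1) := by
  have hpi : -(π / 2) ≤ π / 2 := by linarith [pi_pos]
  have h : ContinuousOn (fun a => ∫ x in (0 : ℝ)..a, phiD m x) (Icc (-(π / 2)) (π / 2)) := by
    have := continuousOn_primitive_interval' (μ := volume)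
      (intervalIntegrable_phiD (m := m) ⟨le_rfl, hpi⟩ ⟨hpi, le_rfl⟩)
      (show (0 : ℝ) ∈ uIcc (-(π / 2)) (π / 2) by rw [uIcc_of_le hpi]; constructor <;> linarith [pi_pos])
    rwa [uIcc_of_le hpi] at this
  exact h.comp continuous_arcsin.continuousOn fun t _ => arcsin_mem_Icc t

theorem hasDerivAt_phi {t : ℝ} (ht : t ∈ Ioo (-1 : ℝ) 1) : HasDerivAt (phi m) (psi m t) t := by
  have hlo := neg_pi_div_two_lt_arcsin.2 ht.1
  have hhi := arcsin_lt_pi_div_two.2 ht.2
  have hc : ContinuousAt (phiD m) (arcsin t) := by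
    refine (continuous_tailI m).continuousAt.div₀ (continuous_cos.pow _).continuousAt ?_
    exact pow_ne_zero _ (cos_pos_of_mem_Ioo ⟨hlo, hhi⟩).ne'
  have hm : StronglyMeasurableAtFilter (phiD m) (𝓝 (arcsin t)) volume :=
    (((continuous_tailI m).measurable.div
      (continuous_cos.pow _).measurable).stronglyMeasurable).aestronglyMeasurable.stronglyMeasurableAtFilter
  have h1 := intervalIntegral.integral_hasDerivAt_right
    (intervalIntegrable_phiD (m := m) (a := 0) ⟨by linarith [pi_pos], by linarith [pi_pos]⟩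
      ⟨hlo.le, hhi.le⟩) hm hc
  refine (h1.comp t (hasDerivAt_arcsin ht.1.ne' ht.2.ne)).congr_deriv ?_
  rw [phiD, psi, psiA, cos_arcsin, pow_succ (√(1 - t ^ 2)) (m + 1)]
  field_simp

/-- The primitive of the calibration is convex. -/
theorem convexOn_phi : ConvexOn ℝ (Icc (-1) 1) (phi m) := by
  refine MonotoneOn.convexOn_of_deriv (convex_Icc _ _) continuousOn_phi ?_ ?_
  · rw [interior_Icc]
    exact fun t ht => (hasDerivAt_phi ht).differentiableAt.differentiableWithinAt
  · rw [interior_Icc]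
    intro x hx y hy hxy
    rw [(hasDerivAt_phi hx).deriv, (hasDerivAt_phi hy).deriv]
    exact monotoneOn_psi hx hy hxy

theorem phi_zero (m : ℕ) : phi m 0 = 0 := by simp [phi]

theorem phi_neg (m : ℕ) (t : ℝ) : phi m (-t) = phi m t := by
  have h : ∀ x, phiD m (-x) = -phiD m x := fun x => by simp [phiD, tailI_neg, neg_div]
  have h2 := intervalIntegral.integral_comp_neg (f := phiD m) (a := 0) (b := arcsin t)
  simp only [h, intervalIntegral.integral_neg, neg_zero] at h2
  rw [phi, phi, arcsin_neg, integral_symm, ← h2, neg_neg]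

/-- The ball profile: `∫_{-1}^{1} √(1-t²)^j = ∫ cos^(j+1)`. -/
theorem integral_ball (j : ℕ) : ∫ t in (-1 : ℝ)..1, √(1 - t ^ 2) ^ j = cosI (j + 1) := by
  have h := intervalIntegral.integral_comp_mul_deriv (a := -(π / 2)) (b := π / 2)
    (f := sin) (f' := cos) (g := fun t => √(1 - t ^ 2) ^ j)
    (fun x _ => hasDerivAt_sin x) continuous_cos.continuousOn (by fun_prop)
  rw [sin_neg, sin_pi_div_two] at h
  rw [← h, cosI]
  refine integral_congr fun x hx => ?_
  rw [uIcc_of_le (by linarith [pi_pos])] at hx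
  simp only [Function.comp]
  rw [← cos_sq', sqrt_sq (cos_nonneg_of_mem_Icc hx), pow_succ]

end Vale.Agent.P237.AllN
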