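import Mathlib
import Vale.Agent.P237.Univ.Spec
import Vale.Agent.P237.Sharp.Ellipsoid
import Vale.Agent.P237.AllN.Phi

/-!
# P237, all dimensions: interface of the reduction to one profile inequality

In dimension `m + 1` a profile is `f : [0,1] → ℝ`, the `m`-th root of the volume of the slices of a
symmetric body along a functional `w` with `h_K(w) = 1`.
-/

open MeasureTheory Set Real
open scoped Pointwise RealInnerProductSpace Gradient

namespace Vale.Agent.P237.AllN

/-- The ratio `p = -f' / (f - t f')` of a profile. -/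
noncomputable def pProf (f : ℝ → ℝ) (t : ℝ) : ℝ := -deriv f t / (f t - t * deriv f t)

/-- The penalty integrand of a profile. -/
noncomputable def penDens (m : ℕ) (f : ℝ → ℝ) (t : ℝ) : ℝ :=
  f t ^ (m - 1) * (f t - t * deriv f t) * (phi m (pProf f t) - phi m t)

/-- The penalty of a profile, up to a positive factor. -/
noncomputable def pen (m : ℕ) (f : ℝ → ℝ) : ℝ := ∫ t in (0 : ℝ)..1, penDens m f t

/-- The one-dimensional lemma for profiles in dimension `m + 1`, with its equality case. -/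
def Lemma1D (m : ℕ) : Prop :=
  ∀ f : ℝ → ℝ, ConcaveOn ℝ (Icc 0 1) f → AntitoneOn f (Icc 0 1) → (∀ t ∈ Icc (0 : ℝ) 1, 0 ≤ f t) →
    (0 < ∫ t in (0 : ℝ)..1, f t ^ m) → pen m f ≤ 0 →
    Univ.ballInt (m - 1) ^ m * (∫ t in (0 : ℝ)..1, f t ^ m) ^ (m - 1) ≤
        (∫ t in (0 : ℝ)..1, f t ^ (m - 1)) ^ m * Univ.ballInt m ^ (m - 1) ∧
      (Univ.ballInt (m - 1) ^ m * (∫ t in (0 : ℝ)..1, f t ^ m) ^ (m - 1) =
        (∫ t in (0 : ℝ)..1, f t ^ (m - 1)) ^ m * Univ.ballInt m ^ (m - 1) →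
          ∃ s : ℝ, ∀ t ∈ Ioo (0 : ℝ) 1, f t = s * √(1 - t ^ 2))

open Classical in
/-- A rotation taking the direction of `w` to `e0`. -/
noncomputable def frameAt {n : ℕ} (w : E (n + 1)) : E (n + 1) ≃ₗᵢ[ℝ] E (n + 1) :=
  if h : ‖‖w‖⁻¹ • w‖ = 1 then (exists_frame h).choose else LinearIsometryEquiv.refl ℝ _

/-- The profile of `K` along `w`: the root of the volume of the slice `⟪w, x⟫ = t`. -/
noncomputable def profAt {k : ℕ} (K : Set (E (k + 1 + 1))) (w : E (k + 1 + 1)) (t : ℝ) : ℝ :=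
  volume.real (slice (frameAt w '' K) (‖w‖⁻¹ * t)) ^ (((k + 1 : ℕ) : ℝ)⁻¹)

/-- The averaged fact in dimension `k + 2`: over `y` in the body, with `w = ∇ gauge K y`,
the penalty has mean `≤ 0`; stated as the consequence that is used. -/
def AvgFact (k : ℕ) : Prop :=
  ∀ K : Set (E (k + 1 + 1)), IsBody K → (∀ x ∈ K, -x ∈ K) →
    (∀ᵐ y ∂volume.restrict K, 0 ≤ pen (k + 1) (profAt K (∇ (gauge K) y))) →
    ∀ᵐ y ∂volume.restrict K, pen (k + 1) (profAt K (∇ (gauge K) y)) = 0

/-- Petty's projection-volume conjecture in every dimension `n ≥ 3`, with the equality cases. -/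
def PettyAll : Prop :=
  ∀ n : ℕ, 3 ≤ n → ∀ K : Set (E n), IsCompact K → Convex ℝ K → (interior K).Nonempty →
    kap (n - 1) ^ n / kap n ^ (n - 2) * volume.real K ^ (n - 1) ≤ volume.real (projBody K) ∧
      (kap (n - 1) ^ n / kap n ^ (n - 2) * volume.real K ^ (n - 1) = volume.real (projBody K) ↔
        IsEllipsoid K)

end Vale.Agent.P237.AllN
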