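import Vale.Agent.P237.AllN.Average
import Vale.Agent.P237.AllN.Spec

/-!
# P237, all dimensions: the averaged fact, in the vocabulary of the reduction
-/

open MeasureTheory Set Real Metric
open scoped Pointwise RealInnerProductSpace Gradient

namespace Vale.Agent.P237.AllN

/-- The penalty of a profile on `[0,1]` for a general even function, up to a positive factor. -/
noncomputable def penEven (m : ℕ) (φ f : ℝ → ℝ) : ℝ :=
  ∫ t in (0:ℝ)..1, f t ^ (m - 1) * (f t - t * deriv f t) * (φ (pProf f t) - φ t)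

lemma penEven_phi (m : ℕ) (f : ℝ → ℝ) : penEven m (phi m) f = pen m f := rfl

lemma penPhi_eq {m : ℕ} (hm : m ≠ 0) {F φ : ℝ → ℝ} (hF : IsProfile F) (hFm : Measurable F)
    (hφc : ContinuousOn φ (Icc (-1) 1)) (hφe : ∀ t, φ (-t) = φ t) :
    penPhi m φ F = 2 * m * penEven m φ F := by
  set g : ℝ → ℝ := fun t => wgt m F t * (φ (pbar F t) - φ t) with hg
  have hFneg : ∀ t, deriv F (-t) = -deriv F t := fun t => by
    have h := deriv_comp_neg (f := F) (x := t)
    simp only [hF.even] at h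
    linarith
  have hpn : ∀ t, pbar F (-t) = -pbar F t := fun t => by
    by_cases ht : t ∈ Ioo (-1:ℝ) 1
    · have ht' : -t ∈ Ioo (-1:ℝ) 1 := ⟨by linarith [ht.2], by linarith [ht.1]⟩
      rw [pbar, pbar, if_pos ht, if_pos ht', hFneg, hF.even, neg_mul_neg, neg_neg, neg_div,
        neg_neg]
    · have ht' : -t ∉ Ioo (-1:ℝ) 1 := fun h => ht ⟨by linarith [h.2], by linarith [h.1]⟩
      rw [pbar, pbar, if_neg ht, if_neg ht']
  have hgn : ∀ t, g (-t) = g t := fun t => by
    simp only [hg, wgt, hFneg, hF.even, hpn, hφe, neg_mul_neg]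
  obtain ⟨M, hM⟩ := isCompact_Icc.exists_bound_of_continuousOn hφc
  have hφ'c : Continuous fun t => φ (clamp t) :=
    hφc.comp_continuous (continuous_const.max (continuous_const.min continuous_id)) clamp_mem
  have hpm : Measurable (pbar F) := Measurable.ite measurableSet_Ioo
    ((measurable_deriv _).neg.div (hFm.sub (measurable_id.mul (measurable_deriv _)))) measurable_id
  have hgi : IntervalIntegrable g volume (-1) 1 := by
    rw [intervalIntegrable_iff_integrableOn_Ioo_of_le (by norm_num)]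
    have h := (hF.wgt_integrable hm).1.mul_bdd (g := fun t => φ (clamp (pbar F t)) - φ (clamp t))
      (c := M + M) ((hφ'c.measurable.comp hpm).sub hφ'c.measurable).aestronglyMeasurable
      (ae_of_all _ fun t => (norm_sub_le _ _).trans
        (add_le_add (hM _ (clamp_mem _)) (hM _ (clamp_mem _))))
    refine IntegrableOn.congr_fun h (fun t ht => ?_) measurableSet_Ioo
    simp only [hg, clamp_eq (hF.pbar_mem (Ioo_subset_Icc_self ht)),
      clamp_eq (Ioo_subset_Icc_self ht)]
  have h0 : IntervalIntegrable g volume (-1) 0 := hgi.mono_set (by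
    rw [uIcc_of_le (by norm_num), uIcc_of_le (by norm_num)]
    exact Icc_subset_Icc le_rfl zero_le_one)
  have h1 : IntervalIntegrable g volume 0 1 := hgi.mono_set (by
    rw [uIcc_of_le zero_le_one, uIcc_of_le (by norm_num)]
    exact Icc_subset_Icc (by norm_num) le_rfl)
  have h2 := intervalIntegral.integral_comp_neg (f := g) (a := 0) (b := 1)
  simp only [hgn, neg_zero] at h2
  have h3 : (∫ t in (0:ℝ)..1, g t) = (m:ℝ) * penEven m φ F := by
    rw [penEven, ← intervalIntegral.integral_const_mul]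
    refine intervalIntegral.integral_congr_ae ?_
    rw [uIoc_of_le zero_le_one]
    filter_upwards [compl_mem_ae_iff.2 (measure_singleton (1:ℝ))] with t hne ht
    simp only [hg, wgt, pbar, pProf]
    rw [if_pos ⟨by linarith [ht.1], lt_of_le_of_ne ht.2 hne⟩]
    ring
  show (∫ t in (-1:ℝ)..1, g t) = _
  rw [← intervalIntegral.integral_add_adjacent_intervals h0 h1, ← h2, h3]
  ring

/-- Almost every direction: the penalty, in units of the slice volumes, is at most the excess. -/
theorem penEven_le_excess {k : ℕ} {K : Set (E (k + 1 + 1))} (hK : IsBody K)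
    (hsym : ∀ x ∈ K, -x ∈ K) {φ : ℝ → ℝ} (hφc : ContinuousOn φ (Icc (-1) 1))
    (hφ : ConvexOn ℝ (Icc (-1) 1) φ) (hφe : ∀ t, φ (-t) = φ t) :
    ∀ᵐ y ∂volume.restrict K,
      0 < (∫ t in (0:ℝ)..1, profAt K (∇ (gauge K) y) t ^ (k + 1)) ∧
      ((k + 1 : ℕ):ℝ) / ((k + 1 + 1 : ℕ):ℝ) * volume.real K *
          (penEven (k + 1) φ (profAt K (∇ (gauge K) y)) /
            ∫ t in (0:ℝ)..1, profAt K (∇ (gauge K) y) t ^ (k + 1)) ≤ excess φ K y := by
  filter_upwards [ae_good hK hsym] with y hy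
  set w := grad K y with hw
  show 0 < (∫ t in (0:ℝ)..1, profAt K w t ^ (k + 1)) ∧ _ *
    (penEven (k + 1) φ (profAt K w) / ∫ t in (0:ℝ)..1, profAt K w t ^ (k + 1)) ≤ excess φ K y
  have hw0 : w ≠ 0 := grad_ne_zero hK hsym hy.1 hy.2
  have hu : ‖‖w‖⁻¹ • w‖ = 1 := Sharp.norm_unit hw0
  have hL : frameAt w (‖w‖⁻¹ • w) = e0 := by
    rw [frameAt, dif_pos hu]
    exact (exists_frame hu).choose_spec
  obtain ⟨hs, -, hp⟩ := pen_le_body hK hsym hφc hφ hy.1 hy.2 (frameAt w) hL
  obtain ⟨-, -, -, -, eV⟩ := profile hK hsym hu (frameAt w) hL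
  have e : sliceProf K (‖w‖⁻¹ • w) (frameAt w) = profAt K w := by
    funext t
    simp only [sliceProf, profAt, hs, hw]
  have hFm := measurable_sliceProf hK.compact (‖w‖⁻¹ • w) (frameAt w)
  have hF := isProfile_sliceProf hK hsym hu (frameAt w) hL
  rw [penPhi_eq (by omega) hF hFm hφc hφe, e] at hp
  have hV := hK.volume_pos
  set Z := ∫ t in (0:ℝ)..1, profAt K w t ^ (k + 1) with hZ
  have eZ : volume.real K = 2 * (‖w‖⁻¹ * Z) := by
    have hpow : ∀ t, profAt K w t ^ (k + 1) =
        volume.real (slice (frameAt w '' K) (‖w‖⁻¹ * t)) := fun t => by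
      rw [profAt]
      exact rpow_inv_natCast_pow measureReal_nonneg (by omega)
    have h1 := intervalIntegral.smul_integral_comp_mul_left (a := (0:ℝ)) (b := 1)
      (fun t => volume.real (slice (frameAt w '' K) t)) ‖w‖⁻¹
    simp only [smul_eq_mul, mul_zero, mul_one] at h1
    rw [eV, hs, ← hw, ← h1]
    simp only [hZ, hpow]
  have hnw : 0 < ‖w‖⁻¹ := inv_pos.2 (norm_pos_iff.2 hw0)
  have hZ0 : 0 < Z := by
    rw [eZ] at hV
    exact pos_of_mul_pos_right (pos_of_mul_pos_right hV zero_le_two) hnw.le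
  refine ⟨hZ0, ?_⟩
  have hn : (0:ℝ) < ((k + 1 + 1 : ℕ):ℝ) := by positivity
  change _ ≤ ((k + 1 + 1 : ℕ):ℝ) * excess φ K y at hp
  refine le_of_mul_le_mul_left (le_trans (le_of_eq ?_) hp) hn
  rw [eZ, ← hw]
  field_simp

/-- The averaged fact for an even continuous convex function. -/
theorem avgFact_gen {k : ℕ} {K : Set (E (k + 1 + 1))} (hK : IsBody K) (hsym : ∀ x ∈ K, -x ∈ K)
    {φ : ℝ → ℝ} (hφc : ContinuousOn φ (Icc (-1) 1)) (hφ : ConvexOn ℝ (Icc (-1) 1) φ)
    (hφe : ∀ t, φ (-t) = φ t)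
    (h : ∀ᵐ y ∂volume.restrict K, 0 ≤ penEven (k + 1) φ (profAt K (∇ (gauge K) y))) :
    ∀ᵐ y ∂volume.restrict K, penEven (k + 1) φ (profAt K (∇ (gauge K) y)) = 0 := by
  have key := penEven_le_excess hK hsym hφc hφ hφe
  have hc : 0 < ((k + 1 : ℕ):ℝ) / ((k + 1 + 1 : ℕ):ℝ) * volume.real K :=
    mul_pos (by positivity) hK.volume_pos
  have hex : ∀ᵐ y ∂volume.restrict K, 0 ≤ excess φ K y := by
    filter_upwards [key, h] with y ⟨hZ, hle⟩ h0
    exact (mul_nonneg hc.le (div_nonneg h0 hZ.le)).trans hle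
  filter_upwards [key, h, excess_zero hK hsym hφc hex] with y ⟨hZ, hle⟩ h0 hz
  rw [hz] at hle
  have := nonpos_of_mul_nonpos_right hle hc
  rw [div_nonpos_iff] at this
  rcases this with ⟨-, h2⟩ | ⟨h2, -⟩
  · exact absurd h2 (not_le.2 hZ)
  · exact le_antisymm h2 h0

/-- **The averaged fact** of the reduction. -/
theorem avgFact (k : ℕ) : AvgFact k := fun _ hK hsym h =>
  avgFact_gen hK hsym continuousOn_phi convexOn_phi (phi_neg (k + 1)) h

end Vale.Agent.P237.AllN
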