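import Vale.Agent.P237.AllN.AvgFact

/-!
# P237, all dimensions: the averaged fact for pair functions

For `Φ (a, b)` convex in `a` with `Φ (a, b) + Φ (b, a) ≤ 0`, the mean over the directions of
`E[Φ (p b, b)]` is at most zero (helper32's strengthening of the averaged fact).
-/

open MeasureTheory Set Real Metric Filter Topology
open Vale.Agent.P237.Univ
open scoped Pointwise RealInnerProductSpace Gradient

namespace Vale.Agent.P237.AllN

/-- The hypotheses on a pair function. -/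
structure IsPair (Φ : ℝ → ℝ → ℝ) : Prop where
  meas : Measurable fun z : ℝ × ℝ => Φ z.1 z.2
  bdd : ∃ M : ℝ, ∀ a ∈ Icc (-1:ℝ) 1, ∀ b ∈ Icc (-1:ℝ) 1, |Φ a b| ≤ M
  cont : ∀ b ∈ Icc (-1:ℝ) 1, ContinuousOn (fun a => Φ a b) (Icc (-1) 1)
  conv : ∀ b ∈ Icc (-1:ℝ) 1, ConvexOn ℝ (Icc (-1) 1) fun a => Φ a b
  anti : ∀ a ∈ Icc (-1:ℝ) 1, ∀ b ∈ Icc (-1:ℝ) 1, Φ a b + Φ b a ≤ 0
  symm : ∀ a b, Φ (-a) (-b) = Φ a b
  corner : 0 ≤ Φ 1 1

/-- A jointly measurable bounded subgradient in the first variable, at radius `r`. -/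
lemma IsPair.exists_subgradient {Φ : ℝ → ℝ → ℝ} (hΦ : IsPair Φ) {r : ℝ}
    (hr : r ∈ Ico (0:ℝ) 1) :
    ∃ ψ : ℝ → ℝ → ℝ, ∃ B : ℝ, (Measurable fun z : ℝ × ℝ => ψ z.1 z.2) ∧
      (∀ p b, |ψ p b| ≤ B) ∧
      ∀ b ∈ Icc (-1:ℝ) 1, ∀ a ∈ Icc (-1:ℝ) 1, ∀ p ∈ Icc (-1:ℝ) 1,
        Φ (r * p) b + ψ p b * (a - p) ≤ Φ (r * a) b := by
  obtain ⟨M, hM⟩ := hΦ.bdd
  set s : ℝ → ℝ := fun p => r * clamp p with hs
  set D : ℝ → ℝ → ℝ := fun p b =>
    derivWithin (fun a => Φ a (clamp b)) (Ioi (s p)) (s p) with hD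
  have hint : interior (Icc (-1:ℝ) 1) = Ioo (-1) 1 := interior_Icc
  have hsI : ∀ p, s p ∈ Ioo (-1:ℝ) 1 := fun p => abs_smul_lt_one hr (clamp_mem p)
  have hder : ∀ p b, HasDerivWithinAt (fun a => Φ a (clamp b)) (D p b) (Ioi (s p)) (s p) :=
    fun p b => (hΦ.conv _ (clamp_mem b)).hasDerivWithinAt_rightDeriv_of_mem_interior
      (hint.symm ▸ hsI p)
  have hlim : ∀ p b, Tendsto (fun k : ℕ => ((k:ℝ) + 1) *
      (Φ (clamp (s p + 1 / ((k:ℝ) + 1))) (clamp b) - Φ (s p) (clamp b))) atTop (𝓝 (D p b)) := by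
    intro p b
    have h1 : Tendsto (fun k : ℕ => s p + 1 / ((k:ℝ) + 1)) atTop (𝓝[Ioi (s p)] (s p)) :=
      tendsto_nhdsWithin_iff.2 ⟨by
        simpa using (tendsto_one_div_add_atTop_nhds_zero_nat (𝕜 := ℝ)).const_add (s p),
        .of_forall fun k => by
          have : (0:ℝ) < 1 / ((k:ℝ) + 1) := by positivity
          show s p < s p + _
          linarith⟩
    have h2 := ((hasDerivWithinAt_iff_tendsto_slope' self_notMem_Ioi).1 (hder p b)).comp h1
    refine h2.congr' ?_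
    have h3 : ∀ᶠ k : ℕ in atTop, s p + 1 / ((k:ℝ) + 1) ∈ Iio (1:ℝ) :=
      h1.eventually (mem_nhdsWithin_of_mem_nhds (Iio_mem_nhds (hsI p).2))
    filter_upwards [h3] with k hk
    have hk0 : (0:ℝ) < 1 / ((k:ℝ) + 1) := by positivity
    have hc : clamp (s p + 1 / ((k:ℝ) + 1)) = s p + 1 / ((k:ℝ) + 1) :=
      clamp_eq ⟨by linarith [(hsI p).1], (Set.mem_Iio.1 hk).le⟩
    simp only [Function.comp_apply, slope_def_field, hc, add_sub_cancel_left]
    rw [div_div_eq_mul_div, div_one]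
    ring
  have hcm : Measurable clamp :=
    (continuous_const.max (continuous_const.min continuous_id)).measurable
  have hsm : Measurable s := hcm.const_mul r
  have hDm : Measurable fun z : ℝ × ℝ => D z.1 z.2 := by
    refine measurable_of_tendsto_metrizable (fun k => ?_)
      (tendsto_pi_nhds.2 fun z => hlim z.1 z.2)
    exact ((hΦ.meas.comp ((hcm.comp ((hsm.comp measurable_fst).add_const _)).prodMk
      (hcm.comp measurable_snd))).sub (hΦ.meas.comp ((hsm.comp measurable_fst).prodMk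
      (hcm.comp measurable_snd)))).const_mul _
  refine ⟨fun p b => r * D p b, r * (2 * M / (1 - r)), hDm.const_mul r, fun p b => ?_,
    fun b hb a ha p hp => ?_⟩
  · rw [abs_mul, abs_of_nonneg hr.1]
    refine mul_le_mul_of_nonneg_left ?_ hr.1
    have hb := clamp_mem b
    have hc := hΦ.conv _ hb
    have hsp : s p ∈ interior (Icc (-1:ℝ) 1) := hint.symm ▸ hsI p
    have hr1 : 0 < 1 - r := by linarith [hr.2]
    have hsr : |s p| ≤ r := by
      rw [hs, abs_mul, abs_of_nonneg hr.1]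
      exact mul_le_of_le_one_right hr.1 (abs_le.2 (clamp_mem p))
    rw [abs_le] at hsr
    have hup := hc.rightDeriv_le_slope_of_mem_interior hsp (y := 1) ⟨by norm_num, le_rfl⟩ (hsI p).2
    have hlo := (hc.slope_le_leftDeriv_of_mem_interior (x := -1) ⟨le_rfl, by norm_num⟩ hsp
      (hsI p).1).trans (hc.leftDeriv_le_rightDeriv_of_mem_interior hsp)
    rw [slope_def_field] at hup hlo
    have e1 := abs_le.1 (hM _ (⟨by linarith [(hsI p).1], (hsI p).2.le⟩) _ hb)
    have e2 := abs_le.1 (hM 1 ⟨by norm_num, le_rfl⟩ _ hb)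
    have e3 := abs_le.1 (hM (-1) ⟨le_rfl, by norm_num⟩ _ hb)
    rw [abs_le]
    constructor
    · refine le_trans ?_ hlo
      rw [le_div_iff₀ (by linarith [(hsI p).1]), neg_mul, neg_le, div_mul_eq_mul_div,
        le_div_iff₀ hr1]
      nlinarith [mul_nonneg (by linarith [e1.2, e1.1] : (0:ℝ) ≤ 2 * M)
        (by linarith [hsr.1] : (0:ℝ) ≤ s p - -1 - (1 - r))]
    · refine hup.trans ?_
      rw [div_le_iff₀ (by linarith [(hsI p).2]), div_mul_eq_mul_div, le_div_iff₀ hr1]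
      nlinarith [mul_nonneg (by linarith [e1.2, e1.1] : (0:ℝ) ≤ 2 * M)
        (by linarith [hsr.2] : (0:ℝ) ≤ 1 - s p - (1 - r))]
  · have hs0 := abs_smul_lt_one hr hp
    have hz := Ioo_subset_Icc_self (abs_smul_lt_one hr ha)
    have hs' : r * p ∈ interior (Icc (-1:ℝ) 1) := hint.symm ▸ hs0
    have hφ := hΦ.conv b hb
    simp only [hD, hs, clamp_eq hp, clamp_eq hb]
    rw [show r * derivWithin (fun a => Φ a b) (Ioi (r * p)) (r * p) * (a - p) =
      derivWithin (fun a => Φ a b) (Ioi (r * p)) (r * p) * (r * a - r * p) by ring]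
    rcases lt_trichotomy (r * a) (r * p) with h | h | h
    · have h1 := (hφ.slope_le_leftDeriv_of_mem_interior hz hs' h).trans
        (hφ.leftDeriv_le_rightDeriv_of_mem_interior hs')
      rw [slope_def_field, div_le_iff₀ (sub_pos.2 h)] at h1
      linarith
    · rw [h, sub_self, mul_zero, add_zero]
    · have h1 := hφ.rightDeriv_le_slope_of_mem_interior hs' hz h
      rw [slope_def_field, le_div_iff₀ (sub_pos.2 h)] at h1
      linarith

/-- Jensen's step for a pair function. -/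
lemma jensen_pair {α : Type*} [MeasurableSpace α] (μ : Measure α) [IsFiniteMeasure μ]
    {A b : α → ℝ} (hAm : Measurable A) (hA : ∀ x, A x ∈ Icc (-1:ℝ) 1) (hbm : Measurable b)
    (hb : ∀ x, b x ∈ Icc (-1:ℝ) 1)
    {nn s e : ℝ} (hn : 0 ≤ nn) (hs : 0 ≤ s) (he : 0 ≤ e) {W D p : ℝ → ℝ} (hpm : Measurable p)
    (hp : ∀ t ∈ Icc (-1:ℝ) 1, p t ∈ Icc (-1:ℝ) 1) (hp1 : p 1 = 1) (hp2 : p (-1) = -1)
    (hW : IntegrableOn W (Ioo (-1) 1)) (hD : IntegrableOn D (Ioo (-1) 1))
    (hW0 : ∀ t ∈ Ioo (-1:ℝ) 1, 0 ≤ W t) (hpW : ∀ t ∈ Ioo (-1:ℝ) 1, p t * W t = D t)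
    (hmom : ∀ q : ℝ → ℝ, ∀ B : ℝ, Measurable q → (∀ t, |q t| ≤ B) →
      nn * (∫ x, q (b x) ∂μ) =
        s * ((∫ t in Ioo (-1:ℝ) 1, W t * q t) + e * q 1 + e * q (-1)) ∧
      nn * (∫ x, A x * q (b x) ∂μ) =
        s * ((∫ t in Ioo (-1:ℝ) 1, D t * q t) + e * q 1 - e * q (-1)))
    {Φ : ℝ → ℝ → ℝ} (hΦ : IsPair Φ) :
    s * (∫ t in Ioo (-1:ℝ) 1, W t * Φ (p t) t) ≤ nn * ∫ x, Φ (A x) (b x) ∂μ := by
  obtain ⟨M, hM⟩ := hΦ.bdd
  set Ψ : ℝ → ℝ → ℝ := fun a c => Φ (clamp a) (clamp c) with hΨ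
  have hcm : Measurable clamp :=
    (continuous_const.max (continuous_const.min continuous_id)).measurable
  have hcc : Continuous clamp := continuous_const.max (continuous_const.min continuous_id)
  have hΨm : Measurable fun z : ℝ × ℝ => Ψ z.1 z.2 :=
    hΦ.meas.comp ((hcm.comp measurable_fst).prodMk (hcm.comp measurable_snd))
  have hΨc : ∀ c, Continuous fun a => Ψ a c := fun c =>
    (hΦ.cont _ (clamp_mem c)).comp_continuous hcc clamp_mem
  have hM' : ∀ a c, |Ψ a c| ≤ M := fun a c => hM _ (clamp_mem _) _ (clamp_mem _)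
  set pb : ℝ → ℝ := fun t => clamp (p t) with hpb
  have hpbm : Measurable pb := hcm.comp hpm
  have hpbI : ∀ t ∈ Icc (-1:ℝ) 1, pb t = p t := fun t ht => clamp_eq (hp t ht)
  have p1 : pb 1 = 1 := by rw [hpbI 1 ⟨by norm_num, le_rfl⟩, hp1]
  have p2 : pb (-1) = -1 := by rw [hpbI (-1) ⟨le_rfl, by norm_num⟩, hp2]
  have hbd : ∀ {g : α → ℝ} {B : ℝ}, Measurable g → (∀ x, |g x| ≤ B) → Integrable g μ :=
    fun {g B} hg hB => Integrable.of_bound hg.aestronglyMeasurable B
      (ae_of_all _ fun x => by rw [Real.norm_eq_abs]; exact hB x)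
  have hstep : ∀ r ∈ Ico (0:ℝ) 1,
      s * ((∫ t in Ioo (-1:ℝ) 1, W t * Ψ (r * pb t) t) + e * Ψ r 1 + e * Ψ (-r) (-1)) ≤
        nn * ∫ x, Ψ (r * A x) (b x) ∂μ := by
    intro r hr
    obtain ⟨ψ, B, hψm, hψB, hsub⟩ := hΦ.exists_subgradient hr
    set g : ℝ → ℝ := fun t => ψ (pb t) t with hg
    have hgm : Measurable g := by
      have h := hψm.comp (hpbm.prodMk measurable_id)
      exact h
    have hgB : ∀ t, |g t| ≤ B := fun t => hψB _ _
    set q₀ : ℝ → ℝ := fun t => Ψ (r * pb t) t - g t * pb t with hq₀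
    have hq₀m : Measurable q₀ := by
      have h := (hΨm.comp ((hpbm.const_mul r).prodMk measurable_id)).sub (hgm.mul hpbm)
      exact h
    have hq₀B : ∀ t, |q₀ t| ≤ M + B * 1 := fun t =>
      (abs_sub _ _).trans (add_le_add (hM' _ _) (by
        rw [abs_mul]
        exact mul_le_mul (hgB _) (abs_le.2 (clamp_mem _)) (abs_nonneg _)
          ((abs_nonneg _).trans (hgB 0))))
    have h1 : Integrable (fun x => q₀ (b x)) μ := hbd (hq₀m.comp hbm) fun x => hq₀B _
    have h2 : Integrable (fun x => A x * g (b x)) μ :=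
      hbd (B := 1 * B) (hAm.mul (hgm.comp hbm)) fun x => by
        rw [abs_mul]
        exact mul_le_mul (abs_le.2 (hA x)) (hgB _) (abs_nonneg _) zero_le_one
    have h3 : Integrable (fun x => Ψ (r * A x) (b x)) μ :=
      hbd (B := M) (hΨm.comp ((hAm.const_mul r).prodMk hbm)) fun x => hM' _ _
    have hle : (∫ x, q₀ (b x) ∂μ) + (∫ x, A x * g (b x) ∂μ) ≤
        ∫ x, Ψ (r * A x) (b x) ∂μ := by
      rw [← integral_add h1 h2]
      refine integral_mono (h1.add h2) h3 fun x => ?_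
      have hp' : pb (b x) ∈ Icc (-1:ℝ) 1 := clamp_mem _
      have := hsub _ (hb x) _ (hA x) _ hp'
      simp only [hq₀, hg, hΨ, clamp_eq (hb x),
        clamp_eq (Ioo_subset_Icc_self (abs_smul_lt_one hr hp')),
        clamp_eq (Ioo_subset_Icc_self (abs_smul_lt_one hr (hA x)))]
      linarith
    have key := mul_le_mul_of_nonneg_left hle hn
    rw [mul_add, (hmom q₀ _ hq₀m hq₀B).1, (hmom g B hgm hgB).2] at key
    refine le_trans (le_of_eq ?_) key
    have e3 : (∫ t in Ioo (-1:ℝ) 1, W t * q₀ t) + (∫ t in Ioo (-1:ℝ) 1, D t * g t) =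
        ∫ t in Ioo (-1:ℝ) 1, W t * Ψ (r * pb t) t := by
      rw [← integral_add (hW.mul_bdd hq₀m.aestronglyMeasurable
          (ae_of_all _ fun t => by rw [Real.norm_eq_abs]; exact hq₀B t))
        (hD.mul_bdd hgm.aestronglyMeasurable
          (ae_of_all _ fun t => by rw [Real.norm_eq_abs]; exact hgB _))]
      refine setIntegral_congr_fun measurableSet_Ioo fun t ht => ?_
      simp only [hq₀, ← hpW t ht, ← hpbI t (Ioo_subset_Icc_self ht)]
      ring
    rw [← e3]
    simp only [hq₀, p1, p2, mul_one, mul_neg]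
    ring
  have hlimR : Tendsto (fun k => nn * ∫ x, Ψ (rad k * A x) (b x) ∂μ) atTop
      (𝓝 (nn * ∫ x, Ψ (1 * A x) (b x) ∂μ)) := by
    refine (tendsto_integral_of_dominated_convergence (fun _ => M) (fun k => ?_)
      (integrable_const _) (fun k => ae_of_all _ fun x => ?_) (ae_of_all _ fun x => ?_)).const_mul _
    · have h := hΨm.comp ((hAm.const_mul (rad k)).prodMk hbm)
      exact h.aestronglyMeasurable
    · rw [Real.norm_eq_abs]; exact hM' _ _
    · exact ((hΨc _).tendsto _).comp (tendsto_rad.mul_const _)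
  have hlimI : Tendsto (fun k => ∫ t in Ioo (-1:ℝ) 1, W t * Ψ (rad k * pb t) t) atTop
      (𝓝 (∫ t in Ioo (-1:ℝ) 1, W t * Ψ (1 * pb t) t)) := by
    refine tendsto_integral_of_dominated_convergence (fun t => W t * M) (fun k => ?_)
      (hW.mul_const _) (fun k => ?_) (ae_of_all _ fun t => ?_)
    · have h := hΨm.comp ((hpbm.const_mul (rad k)).prodMk measurable_id)
      exact hW.aestronglyMeasurable.mul h.aestronglyMeasurable
    · refine (ae_restrict_iff' measurableSet_Ioo).2 (ae_of_all _ fun t ht => ?_)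
      rw [Real.norm_eq_abs, abs_mul, abs_of_nonneg (hW0 t ht)]
      exact mul_le_mul_of_nonneg_left (hM' _ _) (hW0 t ht)
    · exact (((hΨc _).tendsto _).comp (tendsto_rad.mul_const _)).const_mul _
  have hlimL := ((hlimI.add ((((hΨc 1).tendsto 1).comp tendsto_rad).const_mul e)).add
    ((((hΨc (-1)).tendsto (-1)).comp tendsto_rad.neg).const_mul e)).const_mul s
  have h := le_of_tendsto_of_tendsto' hlimL hlimR fun k => hstep _ (rad_mem k)
  have hc : (0:ℝ) ≤ Ψ 1 1 := by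
    simp only [hΨ, clamp_eq (show (1:ℝ) ∈ Icc (-1:ℝ) 1 from ⟨by norm_num, le_rfl⟩)]
    exact hΦ.corner
  have hc' : (0:ℝ) ≤ Ψ (-1) (-1) := by
    simp only [hΨ, clamp_eq (show (-1:ℝ) ∈ Icc (-1:ℝ) 1 from ⟨le_rfl, by norm_num⟩)]
    rw [hΦ.symm]
    exact hΦ.corner
  simp only [one_mul] at h
  refine le_trans ?_ (h.trans_eq ?_)
  · refine mul_le_mul_of_nonneg_left ?_ hs
    have e1 : (∫ t in Ioo (-1:ℝ) 1, W t * Φ (p t) t) =
        ∫ t in Ioo (-1:ℝ) 1, W t * Ψ (pb t) t :=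
      setIntegral_congr_fun measurableSet_Ioo fun t ht => by
        simp only [hΨ, hpbI t (Ioo_subset_Icc_self ht), clamp_eq (Ioo_subset_Icc_self ht),
          clamp_eq (hp t (Ioo_subset_Icc_self ht))]
    rw [e1]
    nlinarith [mul_nonneg he hc, mul_nonneg he hc']
  · simp only [hΨ, clamp_eq (hA _), clamp_eq (hb _)]

variable {d : ℕ} {K : Set (E (d + 1 + 1))}

/-- Both moments along the gradient direction, for a body containing the unit ball. -/
lemma setting_moments (S : Setting K) (hK : IsBody K) (hsym : ∀ x ∈ K, -x ∈ K)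
    {y : E (d + 1 + 1)} (hy : y ≠ 0) (hd : DifferentiableAt ℝ (gauge K) y)
    (L : E (d + 1 + 1) ≃ₗᵢ[ℝ] E (d + 1 + 1)) (hL : L (‖grad K y‖⁻¹ • grad K y) = e0)
    {q : ℝ → ℝ} {B : ℝ} (hq : Measurable q) (hB : ∀ t, |q t| ≤ B) :
    let F := sliceProf K (‖grad K y‖⁻¹ • grad K y) L
    ((d + 1 + 1 : ℕ):ℝ) * (∫ x in K, q (aco K y x)) =
      ‖grad K y‖⁻¹ * ((∫ t in Ioo (-1:ℝ) 1, wgt (d + 1) F t * q t) + endv (d + 1) F * q 1 +
        endv (d + 1) F * q (-1)) ∧
    ((d + 1 + 1 : ℕ):ℝ) * (∫ x in K, aco K x y * q (aco K y x)) =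
      ‖grad K y‖⁻¹ * ((∫ t in Ioo (-1:ℝ) 1, dgt (d + 1) F t * q t) + endv (d + 1) F * q 1 -
        endv (d + 1) F * q (-1)) := by
  intro F
  obtain ⟨hw0, hsupp, hwz, hzK⟩ := grad_direction S hK hy hd
  have hnw : 0 < ‖grad K y‖ := norm_pos_iff.2 hw0
  have hv1 : ‖‖grad K y‖⁻¹ • grad K y‖ = 1 := Sharp.norm_unit hw0
  have hsv : (supp K (‖grad K y‖⁻¹ • grad K y))⁻¹ • (‖grad K y‖⁻¹ • grad K y) = grad K y := by
    rw [hsupp, inv_inv, smul_inv_smul₀ hnw.ne']
  have hP : IsProfile F := isProfile_sliceProf hK hsym hv1 L hL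
  obtain ⟨hWi, hDi⟩ := hP.wgt_integrable (m := d + 1) (by omega)
  have hA' : ∀ x, aco K x y = ⟪grad K x, (gauge K y)⁻¹ • y⟫ := fun x => by
    simp only [aco, real_inner_smul_right, div_eq_inv_mul]
  have hb' : ∀ x, aco K y x = ⟪grad K y, x⟫ / gauge K x := fun x => rfl
  haveI : IsFiniteMeasure ((volume : Measure (E (d + 1 + 1))).restrict K) :=
    ⟨by simpa using S.compact.measure_lt_top⟩
  have hmom : ∀ H : ℝ → ℝ, ∀ Lh : NNReal, LipschitzWith Lh H →
      (∀ t, H t ∈ Icc (0:ℝ) 1) → _ :=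
    fun H Lh hH h01 => axis_moments S hK hsym hv1 L hL hsv (abs_grad_le_gauge S hsym y) hzK hwz
      hH h01
  simp only [← hA', ← hb', hsupp] at hmom
  exact moments_ext (q := q) (B := B) (volume.restrict K) (measurable_aco_left K y)
    (fun x => abs_le.2 (aco_mem S hsym x y)) (measurable_aco_right S y)
    (Nat.cast_nonneg (d + 1 + 1)) (inv_nonneg.2 hnw.le) (hP.endv_nonneg (d + 1))
    hWi hDi (fun t ht => hP.abs_dgt_le (d + 1) ht) hmom hq hB

lemma wgt_smul (m : ℕ) (hm : m ≠ 0) (F : ℝ → ℝ) (c t : ℝ) :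
    wgt m (fun t => c * F t) t = c ^ m * wgt m F t ∧
    dgt m (fun t => c * F t) t = c ^ m * dgt m F t := by
  have hd : deriv (fun t => c * F t) t = c * deriv F t := deriv_const_mul_field _
  constructor
  · simp only [wgt, hd, mul_pow]; rw [← pow_sub_one_mul hm c]; ring
  · simp only [dgt, hd, mul_pow]; rw [← pow_sub_one_mul hm c]; ring

lemma endv_smul (m : ℕ) (F : ℝ → ℝ) (c : ℝ) :
    endv m (fun t => c * F t) = c ^ m * endv m F := by
  simp only [endv, mul_pow]
  rw [intervalIntegral.integral_congr (g := fun t => c ^ m * deriv (fun s => F s ^ m) t)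
    fun t _ => deriv_const_mul_field _, intervalIntegral.integral_const_mul]
  ring

/-- Both moments along the gradient direction, for every symmetric body. -/
lemma body_moments (hK : IsBody K) (hsym : ∀ x ∈ K, -x ∈ K) {y : E (d + 1 + 1)} (hy : y ≠ 0)
    (hd : DifferentiableAt ℝ (gauge K) y)
    (L : E (d + 1 + 1) ≃ₗᵢ[ℝ] E (d + 1 + 1)) (hL : L (‖grad K y‖⁻¹ • grad K y) = e0)
    {q : ℝ → ℝ} {B : ℝ} (hq : Measurable q) (hB : ∀ t, |q t| ≤ B) :
    let F := sliceProf K (‖grad K y‖⁻¹ • grad K y) L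
    ((d + 1 + 1 : ℕ):ℝ) * (∫ x in K, q (aco K y x)) =
      ‖grad K y‖⁻¹ * ((∫ t in Ioo (-1:ℝ) 1, wgt (d + 1) F t * q t) + endv (d + 1) F * q 1 +
        endv (d + 1) F * q (-1)) ∧
    ((d + 1 + 1 : ℕ):ℝ) * (∫ x in K, aco K x y * q (aco K y x)) =
      ‖grad K y‖⁻¹ * ((∫ t in Ioo (-1:ℝ) 1, dgt (d + 1) F t * q t) + endv (d + 1) F * q 1 -
        endv (d + 1) F * q (-1)) := by
  intro F
  have h0 := mem_interior_iff_mem_nhds.1 (Sharp.zero_mem_interior hK hsym)
  obtain ⟨r, hr, hrK⟩ := nhds_basis_closedBall.mem_iff.1 h0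
  set c := r⁻¹ with hc
  have hc0 : 0 < c := inv_pos.2 hr
  set K' := c • K with hK'
  have hK'b : IsBody K' := Sharp.isBody_smul hK hc0
  have hK's : ∀ x ∈ K', -x ∈ K' := by
    rintro _ ⟨x, hx, rfl⟩
    exact ⟨-x, hsym x hx, smul_neg _ _⟩
  have hball : closedBall (0 : E (d + 1 + 1)) 1 ⊆ K' := by
    intro x hx
    rw [hK', mem_smul_set_iff_inv_smul_mem₀ hc0.ne', hc, inv_inv]
    refine hrK (mem_closedBall_zero_iff.2 ?_)
    rw [norm_smul, Real.norm_eq_abs, abs_of_pos hr]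
    exact mul_le_of_le_one_right hr.le (mem_closedBall_zero_iff.1 hx)
  obtain ⟨M, hM⟩ := hK'b.compact.isBounded.subset_closedBall (0 : E (d + 1 + 1))
  let S : Setting K' := ⟨max M 1, lt_of_lt_of_le one_pos (le_max_right _ _), hK'b.compact,
    hK'b.convex, hball, hM.trans (closedBall_subset_closedBall (le_max_left _ _))⟩
  have hg : ∀ x, gauge K' (c • x) = gauge K x := fun x => by
    rw [(gauge_scale hK hsym hc0 _).1, gauge_smul_of_nonneg hc0.le, smul_eq_mul,
      inv_mul_cancel_left₀ hc0.ne']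
  have hG : ∀ x, grad K' (c • x) = c⁻¹ • grad K x := fun x => by
    rw [(gauge_scale hK hsym hc0 _).2, grad_smul K hc0]
  have ha : ∀ x z, aco K' (c • x) (c • z) = aco K x z := fun x z => by
    simp only [aco, hg, hG, real_inner_smul_left, real_inner_smul_right,
      mul_inv_cancel_left₀ hc0.ne']
  have hd' : DifferentiableAt ℝ (gauge K') (c • y) := by
    have e : gauge K' = fun x => gauge K (c⁻¹ • x) := funext fun x => by
      rw [← hg, smul_inv_smul₀ hc0.ne']
    rw [e]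
    refine DifferentiableAt.comp (g := gauge K) (f := fun x => c⁻¹ • x) (c • y) ?_
      (differentiableAt_id.const_smul c⁻¹)
    simpa [inv_smul_smul₀ hc0.ne'] using hd
  have hu : ‖c⁻¹ • grad K y‖⁻¹ • c⁻¹ • grad K y = ‖grad K y‖⁻¹ • grad K y := by
    rw [norm_smul, Real.norm_eq_abs, abs_of_pos (inv_pos.2 hc0), mul_inv, inv_inv, smul_smul]
    congr 1
    field_simp
  have hn : ‖c⁻¹ • grad K y‖⁻¹ = c * ‖grad K y‖⁻¹ := by
    rw [norm_smul, Real.norm_eq_abs, abs_of_pos (inv_pos.2 hc0), mul_inv, inv_inv]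
  have h := setting_moments S hK'b hK's (smul_ne_zero hc0.ne' hy) hd' L
    (by rw [hG, hu]; exact hL) hq hB
  simp only [hG, hu] at h
  simp only [hn] at h
  have e : sliceProf K' (‖grad K y‖⁻¹ • grad K y) L = fun t => c * F t := by
    funext t
    have hsl : slice (L '' K') (supp K' (‖grad K y‖⁻¹ • grad K y) * t) =
        c • slice (L '' K) (supp K (‖grad K y‖⁻¹ • grad K y) * t) := by
      ext z
      rw [hK', Sharp.supp_smul K hc0.le, image_smul_set, mem_smul_set_iff_inv_smul_mem₀ hc0.ne']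
      show cons _ _ ∈ c • (L '' K) ↔ cons _ _ ∈ L '' K
      rw [mem_smul_set_iff_inv_smul_mem₀ hc0.ne', smul_cons, mul_assoc,
        inv_mul_cancel_left₀ hc0.ne']
    rw [sliceProf, hsl, Sharp.volume_real_smul _ hc0.le, mul_rpow (by positivity) measureReal_nonneg,
      ← rpow_natCast c, ← rpow_mul hc0.le, mul_inv_cancel₀ (Nat.cast_ne_zero.2 (by omega)),
      rpow_one]
    rfl
  have hm0 : d + 1 ≠ 0 := by omega
  simp only [e, (wgt_smul _ hm0 F c _).1, (wgt_smul _ hm0 F c _).2, endv_smul, mul_assoc,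
    integral_const_mul] at h
  have hI : ∀ g : E (d + 1 + 1) → ℝ,
      (∫ x in K', g x) = c ^ (d + 1 + 1) * ∫ x in K, g (c • x) := fun g => by
    rw [Measure.setIntegral_comp_smul_of_pos (volume : Measure (E (d + 1 + 1))) g K hc0,
      finrank_euclideanSpace_fin, smul_eq_mul, ← hK',
      mul_inv_cancel_left₀ (pow_ne_zero _ hc0.ne')]
  obtain ⟨h1, h2⟩ := h
  rw [hI] at h1 h2
  simp only [ha] at h1 h2
  constructor
  · refine mul_left_cancel₀ (pow_ne_zero (d + 1 + 1) hc0.ne') ?_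
    linear_combination h1
  · refine mul_left_cancel₀ (pow_ne_zero (d + 1 + 1) hc0.ne') ?_
    linear_combination h2

/-- The penalty of a pair function, up to a positive factor. -/
noncomputable def penPair (m : ℕ) (Φ : ℝ → ℝ → ℝ) (f : ℝ → ℝ) : ℝ :=
  ∫ t in (0:ℝ)..1, f t ^ (m - 1) * (f t - t * deriv f t) * Φ (pProf f t) t

/-- The mean of the pair function at a point. -/
noncomputable def excess2 (Φ : ℝ → ℝ → ℝ) (K : Set (E (d + 1 + 1))) (y : E (d + 1 + 1)) : ℝ :=
  ∫ x in K, Φ (aco K x y) (aco K y x)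

lemma penPair_eq {m : ℕ} (hm : m ≠ 0) {F : ℝ → ℝ} (hF : IsProfile F) (hFm : Measurable F)
    {Φ : ℝ → ℝ → ℝ} (hΦ : IsPair Φ) :
    (∫ t in Ioo (-1:ℝ) 1, wgt m F t * Φ (pbar F t) t) = 2 * m * penPair m Φ F := by
  set g : ℝ → ℝ := fun t => wgt m F t * Φ (pbar F t) t with hg
  have hFneg : ∀ t, deriv F (-t) = -deriv F t := fun t => by
    have h := deriv_comp_neg (f := F) (x := t)
    simp only [hF.even] at h
    linarith
  have hgn : ∀ t, g (-t) = g t := fun t => by
    have hp : pbar F (-t) = -pbar F t := by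
      by_cases ht : t ∈ Ioo (-1:ℝ) 1
      · have ht' : -t ∈ Ioo (-1:ℝ) 1 := ⟨by linarith [ht.2], by linarith [ht.1]⟩
        rw [pbar, pbar, if_pos ht, if_pos ht', hFneg, hF.even, neg_mul_neg, neg_neg, neg_div,
          neg_neg]
      · have ht' : -t ∉ Ioo (-1:ℝ) 1 := fun h => ht ⟨by linarith [h.2], by linarith [h.1]⟩
        rw [pbar, pbar, if_neg ht, if_neg ht']
    simp only [hg, wgt, hFneg, hF.even, hp, hΦ.symm, neg_mul_neg]
  obtain ⟨M, hM⟩ := hΦ.bdd
  have hpm : Measurable (pbar F) := Measurable.ite measurableSet_Ioo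
    ((measurable_deriv _).neg.div (hFm.sub (measurable_id.mul (measurable_deriv _)))) measurable_id
  have hgi : IntegrableOn g (Ioo (-1) 1) := by
    have hm2 := hΦ.meas.comp (hpm.prodMk measurable_id)
    refine ((hF.wgt_integrable hm).1.mul_const M).mono'
      ((hF.wgt_integrable hm).1.aestronglyMeasurable.mul hm2.aestronglyMeasurable) ?_
    refine (ae_restrict_iff' measurableSet_Ioo).2 (ae_of_all _ fun t ht => ?_)
    rw [hg, Real.norm_eq_abs, abs_mul, abs_of_nonneg (hF.wgt_nonneg m ht)]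
    exact mul_le_mul_of_nonneg_left
      (hM _ (hF.pbar_mem (Ioo_subset_Icc_self ht)) _ (Ioo_subset_Icc_self ht))
      (hF.wgt_nonneg m ht)
  rw [← intervalIntegrable_iff_integrableOn_Ioo_of_le (by norm_num)] at hgi
  have h0 : IntervalIntegrable g volume (-1) 0 := hgi.mono_set (by
    rw [uIcc_of_le (by norm_num), uIcc_of_le (by norm_num)]
    exact Icc_subset_Icc le_rfl zero_le_one)
  have h1 : IntervalIntegrable g volume 0 1 := hgi.mono_set (by
    rw [uIcc_of_le zero_le_one, uIcc_of_le (by norm_num)]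
    exact Icc_subset_Icc (by norm_num) le_rfl)
  have h2 := intervalIntegral.integral_comp_neg (f := g) (a := 0) (b := 1)
  simp only [hgn, neg_zero] at h2
  have h3 : (∫ t in (0:ℝ)..1, g t) = (m:ℝ) * penPair m Φ F := by
    rw [penPair, ← intervalIntegral.integral_const_mul]
    refine intervalIntegral.integral_congr_ae ?_
    rw [uIoc_of_le zero_le_one]
    filter_upwards [compl_mem_ae_iff.2 (measure_singleton (1:ℝ))] with t hne ht
    simp only [hg, wgt, pbar, pProf]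
    rw [if_pos ⟨by linarith [ht.1], lt_of_le_of_ne ht.2 hne⟩]
    ring
  rw [← integral_Ioc_eq_integral_Ioo, ← intervalIntegral.integral_of_le (by norm_num)]
  rw [← intervalIntegral.integral_add_adjacent_intervals h0 h1, ← h2, h3]
  ring

/-- Almost every direction: the pair penalty, in units of the slice volumes, is at most the mean
of the pair function at the point. -/
theorem penPair_le_excess (hK : IsBody K) (hsym : ∀ x ∈ K, -x ∈ K) {Φ : ℝ → ℝ → ℝ}
    (hΦ : IsPair Φ) :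
    ∀ᵐ y ∂volume.restrict K,
      0 < (∫ t in (0:ℝ)..1, profAt K (∇ (gauge K) y) t ^ (d + 1)) ∧
      ((d + 1 : ℕ):ℝ) / ((d + 1 + 1 : ℕ):ℝ) * volume.real K *
          (penPair (d + 1) Φ (profAt K (∇ (gauge K) y)) /
            ∫ t in (0:ℝ)..1, profAt K (∇ (gauge K) y) t ^ (d + 1)) ≤ excess2 Φ K y := by
  filter_upwards [ae_good hK hsym] with y hy
  set w := grad K y with hw
  show 0 < (∫ t in (0:ℝ)..1, profAt K w t ^ (d + 1)) ∧ _ *
    (penPair (d + 1) Φ (profAt K w) / ∫ t in (0:ℝ)..1, profAt K w t ^ (d + 1)) ≤ excess2 Φ K y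
  have hw0 : w ≠ 0 := grad_ne_zero hK hsym hy.1 hy.2
  have hu : ‖‖w‖⁻¹ • w‖ = 1 := Sharp.norm_unit hw0
  have hL : frameAt w (‖w‖⁻¹ • w) = e0 := by
    rw [frameAt, dif_pos hu]
    exact (exists_frame hu).choose_spec
  haveI : IsFiniteMeasure ((volume : Measure (E (d + 1 + 1))).restrict K) :=
    ⟨by simpa using hK.compact.measure_lt_top⟩
  obtain ⟨hs, -, -⟩ := pen_le_body hK hsym (φ := fun _ => 0) continuousOn_const
    (convexOn_const 0 (convex_Icc _ _)) hy.1 hy.2 (frameAt w) hL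
  obtain ⟨-, -, -, -, eV⟩ := profile hK hsym hu (frameAt w) hL
  have e : sliceProf K (‖w‖⁻¹ • w) (frameAt w) = profAt K w := by
    funext t
    simp only [sliceProf, profAt, hs, hw]
  have hFm := measurable_sliceProf hK.compact (‖w‖⁻¹ • w) (frameAt w)
  have hF := isProfile_sliceProf hK hsym hu (frameAt w) hL
  obtain ⟨hWi, hDi⟩ := hF.wgt_integrable (m := d + 1) (by omega)
  have hgm : Measurable (gauge K) :=
    (continuous_gauge hK.convex
      (mem_interior_iff_mem_nhds.1 (Sharp.zero_mem_interior hK hsym))).measurable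
  have hbm : Measurable fun x => aco K y x := by
    unfold aco
    exact (measurable_const.inner measurable_id).div hgm
  have hpm : Measurable (pbar (sliceProf K (‖w‖⁻¹ • w) (frameAt w))) :=
    Measurable.ite measurableSet_Ioo
      ((measurable_deriv _).neg.div (hFm.sub (measurable_id.mul (measurable_deriv _))))
      measurable_id
  have hp := jensen_pair (volume.restrict K) (measurable_aco_left K y)
    (fun x => aco_mem_body hK hsym x y) hbm (fun x => aco_mem_body hK hsym y x)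
    (Nat.cast_nonneg (d + 1 + 1)) (inv_nonneg.2 (norm_nonneg w)) (hF.endv_nonneg (d + 1)) hpm
    (fun t ht => hF.pbar_mem ht) (by rw [pbar, if_neg]; simp) (by rw [pbar, if_neg]; simp) hWi hDi
    (fun t ht => hF.wgt_nonneg _ ht) (fun t ht => hF.pbar_mul (d + 1) ht)
    (fun q B hq hB => body_moments hK hsym hy.1 hy.2 (frameAt w) hL hq hB) hΦ
  rw [penPair_eq (by omega) hF hFm hΦ, e] at hp
  have hV := hK.volume_pos
  set Z := ∫ t in (0:ℝ)..1, profAt K w t ^ (d + 1) with hZ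
  have eZ : volume.real K = 2 * (‖w‖⁻¹ * Z) := by
    have hpow : ∀ t, profAt K w t ^ (d + 1) =
        volume.real (slice (frameAt w '' K) (‖w‖⁻¹ * t)) := fun t => by
      rw [profAt]
      exact rpow_inv_natCast_pow measureReal_nonneg (by omega)
    have h1 := intervalIntegral.smul_integral_comp_mul_left (a := (0:ℝ)) (b := 1)
      (fun t => volume.real (slice (frameAt w '' K) t)) ‖w‖⁻¹
    simp only [smul_eq_mul, mul_zero, mul_one] at h1
    rw [eV, hs, ← hw, ← h1]
    simp only [hZ, hpow]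
  have hnw : 0 < ‖w‖⁻¹ := inv_pos.2 (norm_pos_iff.2 hw0)
  have hZ0 : 0 < Z := by
    rw [eZ] at hV
    exact pos_of_mul_pos_right (pos_of_mul_pos_right hV zero_le_two) hnw.le
  refine ⟨hZ0, ?_⟩
  have hn : (0:ℝ) < ((d + 1 + 1 : ℕ):ℝ) := by positivity
  change _ ≤ ((d + 1 + 1 : ℕ):ℝ) * excess2 Φ K y at hp
  refine le_of_mul_le_mul_left (le_trans (le_of_eq ?_) hp) hn
  rw [eZ]
  field_simp

/-- The mean of the pair function at a point is integrable, with nonpositive mean. -/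
theorem excess2_mean (hK : IsBody K) (hsym : ∀ x ∈ K, -x ∈ K) {Φ : ℝ → ℝ → ℝ}
    (hΦ : IsPair Φ) :
    IntegrableOn (excess2 Φ K) K ∧ ∫ y in K, excess2 Φ K y ≤ 0 := by
  haveI : IsFiniteMeasure ((volume : Measure (E (d + 1 + 1))).restrict K) :=
    ⟨by simpa using hK.compact.measure_lt_top⟩
  set μ := (volume : Measure (E (d + 1 + 1))).restrict K with hμ
  obtain ⟨M, hM⟩ := hΦ.bdd
  have hgm : Measurable (gauge K) :=
    (continuous_gauge hK.convex
      (mem_interior_iff_mem_nhds.1 (Sharp.zero_mem_interior hK hsym))).measurable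
  have hmm : Measurable fun z : E (d + 1 + 1) × E (d + 1 + 1) => aco K z.1 z.2 := by
    unfold aco
    exact (((measurable_grad K).comp measurable_fst).inner measurable_snd).div
      (hgm.comp measurable_snd)
  set j : E (d + 1 + 1) × E (d + 1 + 1) → ℝ :=
    fun z => Φ (aco K z.2 z.1) (aco K z.1 z.2) with hjdef
  have hjm : Measurable j := by
    have h := hΦ.meas.comp ((hmm.comp measurable_swap).prodMk hmm)
    exact h
  have hj : Integrable j (μ.prod μ) :=
    Integrable.of_bound hjm.aestronglyMeasurable M (ae_of_all _ fun z => by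
      rw [Real.norm_eq_abs]
      exact hM _ (aco_mem_body hK hsym _ _) _ (aco_mem_body hK hsym _ _))
  refine ⟨hj.integral_prod_left, ?_⟩
  have e1 : ∫ y, excess2 Φ K y ∂μ = ∫ z, j z ∂μ.prod μ := (integral_prod j hj).symm
  rw [e1]
  have h2 : ∫ z, (j z + j z.swap) ∂μ.prod μ ≤ 0 :=
    integral_nonpos fun z => hΦ.anti _ (aco_mem_body hK hsym _ _) _ (aco_mem_body hK hsym _ _)
  have h3 : Integrable (fun z => j z.swap) (μ.prod μ) := hj.swap
  rw [integral_add hj h3, integral_prod_swap (μ := μ) (ν := μ) j] at h2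
  linarith

end Vale.Agent.P237.AllN
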