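import Vale.Agent.P237.AllN.Phi

/-!
# P237, all dimensions: the first variation identity

For a slice volume profile `g` (`g = f ^ m`), integrating `psi` against `(1-t²) g' + m t g` gives exactly
`∫ g (c/√(1-t²) - 1)`: this is the linear part of the penalty `E[φ(p) - φ(b)]`.
-/

open MeasureTheory Set Real intervalIntegral Filter Topology

namespace Vale.Agent.P237.AllN

variable {m : ℕ}

/-- `(1 - t²) ψ`, continuous up to the endpoints. -/
noncomputable def flux (m : ℕ) (t : ℝ) : ℝ := (1 - t ^ 2) * psi m t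

theorem intervalIntegrable_invSqrt :
    IntervalIntegrable (fun t : ℝ => 1 / √(1 - t ^ 2)) volume (-1) 1 := by
  rw [intervalIntegrable_iff_integrableOn_Ioc_of_le (by norm_num)]
  exact integrableOn_deriv_of_nonneg continuous_arcsin.continuousOn
    (fun x hx => hasDerivAt_arcsin hx.1.ne' hx.2.ne) fun x _ => by positivity

theorem sqrt_mul_psi {t : ℝ} (ht : t ∈ Ioo (-1 : ℝ) 1) :
    √(1 - t ^ 2) * psi m t = phiD m (arcsin t) := by
  have : (0 : ℝ) < 1 - t ^ 2 := by nlinarith [ht.1, ht.2]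
  rw [phiD, psi, psiA, cos_arcsin, pow_succ (√(1 - t ^ 2)) (m + 1)]
  field_simp

theorem abs_psi_le {t : ℝ} (ht : t ∈ Ioo (-1 : ℝ) 1) : |psi m t| ≤ π * (1 / √(1 - t ^ 2)) := by
  have hpos : (0 : ℝ) < √(1 - t ^ 2) := sqrt_pos.2 (by nlinarith [ht.1, ht.2])
  have h := abs_phiD_le m (arcsin t)
    (abs_lt.2 ⟨neg_pi_div_two_lt_arcsin.2 ht.1, arcsin_lt_pi_div_two.2 ht.2⟩)
  rw [← sqrt_mul_psi ht, abs_mul, abs_of_pos hpos] at h
  rw [mul_one_div, le_div_iff₀ hpos, mul_comm]
  exact h

theorem intervalIntegrable_psi : IntervalIntegrable (psi m) volume (-1) 1 := by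
  rw [intervalIntegrable_iff_integrableOn_Ioo_of_le (by norm_num)]
  have hb : IntegrableOn (fun t : ℝ => π * (1 / √(1 - t ^ 2))) (Ioo (-1) 1) :=
    (intervalIntegrable_iff_integrableOn_Ioo_of_le (by norm_num)).1
      (intervalIntegrable_invSqrt.const_mul π)
  have hc : ContinuousOn (psi m) (Ioo (-1) 1) := fun t ht =>
    (hasDerivAt_psi ht).continuousAt.continuousWithinAt
  refine hb.mono' (hc.aestronglyMeasurable measurableSet_Ioo) ?_
  filter_upwards [ae_restrict_mem measurableSet_Ioo] with t ht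
  exact abs_psi_le ht

theorem continuousOn_flux : ContinuousOn (flux m) (Icc (-1) 1) := by
  intro t ht
  by_cases hi : t ∈ Ioo (-1 : ℝ) 1
  · have h1 : ContinuousAt (fun t : ℝ => 1 - t ^ 2) t := by fun_prop
    exact (h1.mul (hasDerivAt_psi hi).continuousAt).continuousWithinAt
  have hsq : t ^ 2 = 1 := by
    rcases not_and_or.1 hi with h | h
    · rw [le_antisymm (not_lt.1 h) ht.1]; norm_num
    · rw [le_antisymm ht.2 (not_lt.1 h)]; norm_num
  have h0 : flux m t = 0 := by simp [flux, hsq]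
  rw [ContinuousWithinAt, h0]
  have hlim : Tendsto (fun x : ℝ => π * √(1 - x ^ 2)) (𝓝[Icc (-1) 1] t) (𝓝 0) := by
    have : Tendsto (fun x : ℝ => π * √(1 - x ^ 2)) (𝓝[Icc (-1) 1] t) (𝓝 (π * √(1 - t ^ 2))) :=
      (Continuous.tendsto (by fun_prop) t).mono_left nhdsWithin_le_nhds
    simpa [hsq] using this
  refine squeeze_zero_norm' ?_ hlim
  filter_upwards [self_mem_nhdsWithin] with x hx
  rw [Real.norm_eq_abs, flux, abs_mul, abs_of_nonneg (show (0 : ℝ) ≤ 1 - x ^ 2 by nlinarith [hx.1, hx.2])]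
  by_cases hxi : x ∈ Ioo (-1 : ℝ) 1
  · refine (mul_le_mul_of_nonneg_left (abs_psi_le hxi) (by nlinarith [hx.1, hx.2])).trans (le_of_eq ?_)
    rw [mul_left_comm, mul_one_div, div_sqrt]
  · have hx2 : x ^ 2 = 1 := by
      rcases not_and_or.1 hxi with h | h
      · rw [le_antisymm (not_lt.1 h) hx.1]; norm_num
      · rw [le_antisymm hx.2 (not_lt.1 h)]; norm_num
    simp [hx2]

theorem hasDerivAt_flux {t : ℝ} (ht : t ∈ Ioo (-1 : ℝ) 1) :
    HasDerivAt (flux m) (m * t * psi m t + (1 - cst m / √(1 - t ^ 2))) t := by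
  have h := ((hasDerivAt_pow 2 t).const_sub 1).mul (hasDerivAt_psi (m := m) ht)
  refine h.congr_deriv ?_
  have h1 : (1 : ℝ) - t ^ 2 ≠ 0 := by nlinarith [ht.1, ht.2]
  rw [mul_div_cancel₀ _ h1]
  push_cast
  ring

/-- The first variation identity. -/
theorem first_variation {g g' : ℝ → ℝ} (hg : ContinuousOn g (Icc (-1) 1))
    (hd : ∀ t ∈ Ioo (-1 : ℝ) 1, HasDerivWithinAt g (g' t) (Ioi t) t)
    (hi : IntervalIntegrable g' volume (-1) 1) :
    ∫ t in (-1 : ℝ)..1, psi m t * ((1 - t ^ 2) * g' t + m * t * g t) =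
      ∫ t in (-1 : ℝ)..1, g t * (cst m / √(1 - t ^ 2) - 1) := by
  have hu : uIcc (-1 : ℝ) 1 = Icc (-1) 1 := uIcc_of_le (by norm_num)
  have hfl : ContinuousOn (flux m) (uIcc (-1) 1) := by rw [hu]; exact continuousOn_flux
  have hg' : ContinuousOn g (uIcc (-1) 1) := by rw [hu]; exact hg
  have i1 : IntervalIntegrable (fun t => g t * (cst m / √(1 - t ^ 2) - 1)) volume (-1) 1 := by
    refine IntervalIntegrable.continuousOn_mul ?_ hg'
    refine IntervalIntegrable.sub ?_ intervalIntegrable_const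
    simpa only [mul_one_div] using intervalIntegrable_invSqrt.const_mul (cst m)
  have hmt : ContinuousOn (fun t => (m : ℝ) * t * g t) (uIcc (-1) 1) := by fun_prop
  have i2 : IntervalIntegrable (fun t => psi m t * ((1 - t ^ 2) * g' t + m * t * g t)) volume (-1) 1 := by
    have h1 : IntervalIntegrable (fun t => flux m t * g' t) volume (-1) 1 := hi.continuousOn_mul hfl
    have h2 : IntervalIntegrable (fun t => psi m t * ((m : ℝ) * t * g t)) volume (-1) 1 :=
      (intervalIntegrable_psi (m := m)).mul_continuousOn hmt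
    exact (h1.add h2).congr fun t _ => by simp only [flux]; ring
  have hftc := integral_eq_sub_of_hasDeriv_right_of_le (f := fun t => flux m t * g t)
    (f' := fun t => psi m t * ((1 - t ^ 2) * g' t + m * t * g t) - g t * (cst m / √(1 - t ^ 2) - 1))
    (show (-1 : ℝ) ≤ 1 by norm_num) (continuousOn_flux.mul hg) (fun t ht => by
      refine ((hasDerivAt_flux (m := m) ht).hasDerivWithinAt.mul (hd t ht)).congr_deriv ?_
      simp only [flux]; ring) (i2.sub i1)
  rw [intervalIntegral.integral_sub i2 i1] at hftc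
  simp only [flux, one_pow, neg_one_sq, sub_self, zero_mul] at hftc
  exact sub_eq_zero.1 hftc

end Vale.Agent.P237.AllN
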