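import Vale.Agent.P237.AllN.PhiR

/-!
# P237, all dimensions: elementary bounds on the calibration remainder
-/

open MeasureTheory Set Real intervalIntegral Filter Topology

namespace Vale.Agent.P237.AllN

variable {m : ℕ}

theorem quad_pos (m : ℕ) : 0 < quad m := sub_pos.2 (cst_lt_one m)

theorem quad_lt_one (m : ℕ) : quad m < 1 := sub_lt_self 1 (cst_pos m)

theorem psiR_zero (m : ℕ) : psiR m 0 = 0 := by simp [psiR, psi_zero]

theorem psiR_neg (m : ℕ) (t : ℝ) : psiR m (-t) = -psiR m t := by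
  simp only [psiR, psi_neg]; ring

theorem psiR_nonneg {t : ℝ} (h0 : 0 ≤ t) (h1 : t < 1) : 0 ≤ psiR m t := by
  rw [← psiR_zero m]
  exact monotoneOn_psiR ⟨by norm_num, by norm_num⟩ ⟨by linarith, h1⟩ h0

/-- `psi t ≥ (1 - c) t`. -/
theorem quad_mul_le_psi {t : ℝ} (h0 : 0 ≤ t) (h1 : t < 1) : quad m * t ≤ psi m t :=
  sub_nonneg.1 (psiR_nonneg h0 h1)

theorem continuousOn_phiR : ContinuousOn (phiR m) (Icc (-1) 1) :=
  continuousOn_phi.sub (by fun_prop)

theorem phiR_zero (m : ℕ) : phiR m 0 = 0 := by simp [phiR, phi_zero]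

theorem monotoneOn_phiR : MonotoneOn (phiR m) (Icc 0 1) := by
  refine monotoneOn_of_deriv_nonneg (convex_Icc _ _)
    (continuousOn_phiR.mono (Icc_subset_Icc (by norm_num) le_rfl)) ?_ ?_
  · rw [interior_Icc]
    exact fun t ht => (hasDerivAt_phiR ⟨by linarith [ht.1], ht.2⟩).differentiableAt
      |>.differentiableWithinAt
  · rw [interior_Icc]
    intro t ht
    rw [(hasDerivAt_phiR ⟨by linarith [ht.1], ht.2⟩).deriv]
    exact psiR_nonneg ht.1.le ht.2

theorem phiR_nonneg {t : ℝ} (ht : t ∈ Icc (-1 : ℝ) 1) : 0 ≤ phiR m t := by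
  rw [← phiR_zero m]
  rcases le_total 0 t with h | h
  · exact monotoneOn_phiR ⟨le_rfl, zero_le_one⟩ ⟨h, ht.2⟩ h
  · rw [← phiR_neg m t]
    exact monotoneOn_phiR ⟨le_rfl, zero_le_one⟩ ⟨by linarith, by linarith [ht.1]⟩ (by linarith)

/-- `phi t ≥ (1 - c) t² / 2`. -/
theorem quad_sq_le_phi {t : ℝ} (ht : t ∈ Icc (-1 : ℝ) 1) : quad m * t ^ 2 / 2 ≤ phi m t :=
  sub_nonneg.1 (phiR_nonneg ht)

/-- The tangent inequality of the remainder. -/
theorem phiR_tangent {t p : ℝ} (ht : t ∈ Ioo (-1 : ℝ) 1) (hp : p ∈ Icc (-1 : ℝ) 1) :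
    phiR m t + psiR m t * (p - t) ≤ phiR m p := by
  have hd := hasDerivAt_phiR (m := m) ht
  rcases lt_trichotomy p t with h | h | h
  · have := (convexOn_phiR (m := m)).slope_le_deriv hp (Ioo_subset_Icc_self ht) h
      hd.differentiableAt
    rw [hd.deriv, slope_def_field, div_le_iff₀ (sub_pos.2 h)] at this
    linarith
  · simp [h]
  · have := (convexOn_phiR (m := m)).deriv_le_slope (Ioo_subset_Icc_self ht) hp h
      hd.differentiableAt
    rw [hd.deriv, slope_def_field, le_div_iff₀ (sub_pos.2 h)] at this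
    linarith

/-- The tangent inequality with its quadratic gain. -/
theorem phi_tangent_quad {t p : ℝ} (ht : t ∈ Ioo (-1 : ℝ) 1) (hp : p ∈ Icc (-1 : ℝ) 1) :
    phi m t + psi m t * (p - t) + quad m * (p - t) ^ 2 / 2 ≤ phi m p := by
  have h := phiR_tangent (m := m) ht hp
  simp only [phiR, psiR] at h
  linarith

end Vale.Agent.P237.AllN
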