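import Vale.Agent.P237.AllN.TraceBase
import Vale.Agent.P237.AllN.Spec

/-!
# P237, all dimensions: the trace fact and the mixed averaged fact

With `A = ∫_K ∇ gauge ⊗ ∇ gauge` and `w = ∇ gauge K y` one has
`1 / J_w ≥ vol K / n * ⟪w, A⁻¹ w⟫`, and the right side has mean `1` over `y ∈ K`. Together with
the averaging fact, every combination `a (1 / J - 1) - E[φ p - φ]` (`a ≥ 0`, `φ` even convex)
which is `≤ 0` almost everywhere vanishes almost everywhere.
-/

open MeasureTheory Set Real Metric Filter Topology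
open Vale.Agent.P237.Univ
open scoped Pointwise RealInnerProductSpace NNReal ENNReal Gradient

namespace Vale.Agent.P237.AllN

/-- The moment `n E[p²]` of a profile on `[0,1]`, in dimension `m + 1`. -/
noncomputable def jay (m : ℕ) (f : ℝ → ℝ) : ℝ :=
  (m:ℝ) + 1 - (∫ t in (0:ℝ)..1, (m:ℝ) * f t ^ (m - 1) * (f t - t * deriv f t) *
    (1 - pProf f t ^ 2)) / ∫ t in (0:ℝ)..1, f t ^ m

/-- The mean of `φ p - φ` under the cone measure of a profile on `[0,1]`. -/
noncomputable def penMean (m : ℕ) (φ f : ℝ → ℝ) : ℝ :=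
  (m:ℝ) * (∫ t in (0:ℝ)..1, f t ^ (m - 1) * (f t - t * deriv f t) * (φ (pProf f t) - φ t)) /
    (((m:ℝ) + 1) * ∫ t in (0:ℝ)..1, f t ^ m)

section Even

variable {F : ℝ → ℝ}

lemma half {h : ℝ → ℝ} (hev : ∀ t, h (-t) = h t) (hi : IntervalIntegrable h volume (-1) 1) :
    ∫ t in (-1:ℝ)..1, h t = 2 * ∫ t in (0:ℝ)..1, h t := by
  have hu : (0:ℝ) ∈ uIcc (-1) 1 := by rw [mem_uIcc]; left; constructor <;> norm_num
  rw [← intervalIntegral.integral_add_adjacent_intervals
    (hi.mono_set (uIcc_subset_uIcc left_mem_uIcc hu))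
    (hi.mono_set (uIcc_subset_uIcc hu right_mem_uIcc))]
  have := intervalIntegral.integral_comp_neg (a := (0:ℝ)) (b := 1) h
  simp only [hev, neg_zero] at this
  rw [← this, two_mul]

lemma IsProfile.deriv_neg' (hF : IsProfile F) (t : ℝ) : deriv F (-t) = -deriv F t := by
  have h := deriv_comp_neg F t
  rw [show (fun x => F (-x)) = F from funext hF.even] at h
  linarith

/-- A moment of the conditional mean on `[-1,1]` as one on `[0,1]`. -/
lemma IsProfile.fold (hF : IsProfile F) {m : ℕ} (hm : m ≠ 0) {g : ℝ → ℝ → ℝ}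
    (hg : ∀ a t, g (-a) (-t) = g a t)
    (hgm : AEStronglyMeasurable (fun t => g (pbar F t) t) (volume.restrict (Ioo (-1) 1))) {B : ℝ}
    (hB : ∀ a ∈ Icc (-1:ℝ) 1, ∀ t ∈ Icc (-1:ℝ) 1, |g a t| ≤ B) :
    ∫ t in (-1:ℝ)..1, wgt m F t * g (pbar F t) t =
      2 * ∫ t in (0:ℝ)..1, (m:ℝ) * F t ^ (m - 1) * (F t - t * deriv F t) *
        g (pProf F t) t := by
  have hh : ∀ t, wgt m F (-t) * g (pbar F (-t)) (-t) = wgt m F t * g (pbar F t) t := by
    intro t
    have hw : wgt m F (-t) = wgt m F t := by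
      simp only [wgt, hF.even, hF.deriv_neg']; ring
    have hp : pbar F (-t) = -pbar F t := by
      simp only [pbar, hF.even, hF.deriv_neg']
      by_cases h : t ∈ Ioo (-1:ℝ) 1
      · rw [if_pos h, if_pos ⟨by linarith [h.2], by linarith [h.1]⟩,
          show -t * -deriv F t = t * deriv F t by ring, ← neg_div]
      · rw [if_neg h, if_neg fun h' => h ⟨by linarith [h'.2], by linarith [h'.1]⟩]
    rw [hw, hp, hg]
  rw [half hh ?_]
  · congr 1
    refine intervalIntegral.integral_congr_ae ?_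
    filter_upwards [compl_mem_ae_iff.2 (measure_singleton (1:ℝ))] with t hne ht
    rw [uIoc_of_le zero_le_one] at ht
    rw [pbar, if_pos ⟨by linarith [ht.1], lt_of_le_of_ne ht.2 hne⟩, wgt, pProf]
  · refine (intervalIntegrable_iff_integrableOn_Ioo_of_le (by norm_num)).2
      ((hF.wgt_integrable hm).1.mul_bdd (c := B) hgm ?_)
    refine (ae_restrict_iff' measurableSet_Ioo).2 (ae_of_all _ fun t ht => ?_)
    rw [Real.norm_eq_abs]
    exact hB _ (hF.pbar_mem (Ioo_subset_Icc_self ht)) _ (Ioo_subset_Icc_self ht)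

lemma IsProfile.fold_pow (hF : IsProfile F) (m : ℕ) :
    ∫ t in (-1:ℝ)..1, F t ^ m = 2 * ∫ t in (0:ℝ)..1, F t ^ m :=
  half (fun t => by rw [hF.even]) (hF.intervalIntegrable_pow m).1

lemma measurable_pbar (hFm : Measurable F) : Measurable (pbar F) :=
  Measurable.ite measurableSet_Ioo
    ((measurable_deriv _).neg.div (hFm.sub (measurable_id.mul (measurable_deriv _))))
    measurable_id

lemma IsProfile.jayAxis_eq (hF : IsProfile F) {m : ℕ} (hm : m ≠ 0) (hFm : Measurable F) :
    jayAxis m F = jay m F := by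
  rw [jayAxis, jay, hF.fold hm (g := fun a _ => 1 - a ^ 2) (fun a t => by rw [neg_sq])
    ((measurable_const.sub ((measurable_pbar hFm).pow_const 2)).aestronglyMeasurable) (B := 1)
    (fun a ha t _ => by rw [abs_le]; constructor <;> nlinarith [ha.1, ha.2, sq_nonneg a]),
    hF.fold_pow, mul_div_mul_left _ _ two_ne_zero]

lemma IsProfile.penPhi_eq (hF : IsProfile F) {m : ℕ} (hm : m ≠ 0) (hFm : Measurable F)
    {φ : ℝ → ℝ} (hφc : ContinuousOn φ (Icc (-1) 1)) (hev : ∀ t, φ (-t) = φ t) :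
    penPhi m φ F / (((m:ℝ) + 1) * ∫ t in (-1:ℝ)..1, F t ^ m) = penMean m φ F := by
  obtain ⟨M, hM⟩ := isCompact_Icc.exists_bound_of_continuousOn hφc
  have hφm : Measurable fun t => φ (clamp t) :=
    (hφc.comp_continuous (continuous_const.max (continuous_const.min continuous_id))
      clamp_mem).measurable
  have hgm : AEStronglyMeasurable (fun t => φ (pbar F t) - φ t)
      (volume.restrict (Ioo (-1) 1)) := by
    refine ((hφm.comp (measurable_pbar hFm)).sub hφm).aestronglyMeasurable.congr ?_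
    refine (ae_restrict_iff' measurableSet_Ioo).2 (ae_of_all _ fun t ht => ?_)
    simp only [Pi.sub_apply, Function.comp_apply, clamp_eq (Ioo_subset_Icc_self ht),
      clamp_eq (hF.pbar_mem (Ioo_subset_Icc_self ht))]
  rw [penPhi, hF.fold hm (g := fun a t => φ a - φ t) (fun a t => by rw [hev, hev]) hgm
    (B := M + M) (fun a ha t ht => (abs_sub _ _).trans (add_le_add
      ((Real.norm_eq_abs _) ▸ hM a ha) ((Real.norm_eq_abs _) ▸ hM t ht))), hF.fold_pow, penMean,
    ← intervalIntegral.integral_const_mul (m:ℝ), mul_left_comm _ (2:ℝ),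
    mul_div_mul_left _ _ two_ne_zero]
  simp only [mul_assoc]

end Even

section Cov

variable {n : ℕ} {K : Set (E n)}

lemma exists_grad_bound (hK : IsBody K) (hsym : ∀ x ∈ K, -x ∈ K) :
    ∃ R : ℝ, ∀ x, ‖grad K x‖ ≤ R := by
  obtain ⟨r, hr, hrK⟩ := nhds_basis_ball.mem_iff.1
    (mem_interior_iff_mem_nhds.1 (Sharp.zero_mem_interior hK hsym))
  have hl := hK.convex.lipschitzWith_gauge (r := ⟨r, hr.le⟩) hr hrK
  exact ⟨_, fun x => by
    rw [grad, LinearIsometryEquiv.norm_map]; exact norm_fderiv_le_of_lipschitz ℝ hl⟩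

lemma integrable_smul_grad (hK : IsBody K) (hsym : ∀ x ∈ K, -x ∈ K) (a : E n) :
    Integrable (fun x => ⟪grad K x, a⟫ • grad K x) (volume.restrict K) := by
  haveI : IsFiniteMeasure ((volume : Measure (E n)).restrict K) :=
    ⟨by simpa using hK.compact.measure_lt_top⟩
  obtain ⟨R, hR⟩ := exists_grad_bound hK hsym
  have hi : Measurable fun x => ⟪grad K x, a⟫ := (measurable_grad K).inner measurable_const
  have hm : Measurable fun x => ⟪grad K x, a⟫ • grad K x := hi.smul (measurable_grad K)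
  refine Integrable.of_bound hm.aestronglyMeasurable (R * ‖a‖ * R) (ae_of_all _ fun x => ?_)
  rw [norm_smul, Real.norm_eq_abs]
  exact mul_le_mul ((abs_real_inner_le_norm _ _).trans
    (mul_le_mul_of_nonneg_right (hR x) (norm_nonneg a))) (hR x) (norm_nonneg _)
    (mul_nonneg ((norm_nonneg _).trans (hR x)) (norm_nonneg a))

/-- The second moment map `a ↦ ∫_K ⟪∇N, a⟫ ∇N`. -/
noncomputable def cov (hK : IsBody K) (hsym : ∀ x ∈ K, -x ∈ K) : E n →ₗ[ℝ] E n where
  toFun a := ∫ x in K, ⟪grad K x, a⟫ • grad K x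
  map_add' a b := by
    rw [← integral_add (integrable_smul_grad hK hsym a) (integrable_smul_grad hK hsym b)]
    exact integral_congr_ae (ae_of_all _ fun x => by simp only [inner_add_right, add_smul])
  map_smul' c a := by
    rw [RingHom.id_apply, ← integral_smul]
    exact integral_congr_ae (ae_of_all _ fun x => by simp only [real_inner_smul_right, smul_smul])

lemma inner_cov (hK : IsBody K) (hsym : ∀ x ∈ K, -x ∈ K) (a b : E n) :
    ⟪cov hK hsym a, b⟫ = ∫ x in K, ⟪grad K x, a⟫ * ⟪grad K x, b⟫ := by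
  rw [real_inner_comm]
  show (innerSL ℝ b) (∫ x in K, ⟪grad K x, a⟫ • grad K x) = _
  rw [← (innerSL ℝ b).integral_comp_comm (integrable_smul_grad hK hsym a)]
  refine integral_congr_ae (ae_of_all _ fun x => ?_)
  simp [real_inner_comm b]

end Cov

variable {d : ℕ} {K : Set (E (d + 1 + 1))}

lemma cov_pos_setting (S : Setting K) (hsym : ∀ x ∈ K, -x ∈ K) {a : E (d + 1 + 1)}
    (ha : a ≠ 0) : ¬ ∀ᵐ x ∂(volume : Measure (E (d + 1 + 1))), ⟪grad K x, a⟫ = 0 := by
  intro h
  have hwv : ⟪(‖a‖ ^ 2)⁻¹ • a, a⟫ = 1 := by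
    rw [real_inner_smul_left, real_inner_self_eq_norm_sq,
      inv_mul_cancel₀ (pow_ne_zero 2 (norm_ne_zero_iff.2 ha))]
  have e := parts_dir S one_pos le_rfl (LipschitzWith.id (α := ℝ)) hwv
  simp only [deriv_id, mul_one, id_eq] at e
  rw [integral_eq_zero_of_ae (f := fun x => -deriv (cut 1) (gauge K x) *
    (⟪grad K x, a⟫ * ⟪(‖a‖ ^ 2)⁻¹ • a, x⟫)) (h.mono fun x hx => by simp [hx])] at e
  have hc : Continuous fun x => cut 1 (gauge K x) :=
    (cut_contDiff 1).continuous.comp S.lip.continuous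
  have hp : 0 < ∫ x, cut 1 (gauge K x) := by
    refine hc.integral_pos_of_hasCompactSupport_nonneg_nonzero
      (S.hasCompactSupport fun x hx => S.cut_outside one_pos le_rfl hx) (fun x => cut_nonneg _ _)
      (x := 0) ?_
    rw [gauge_zero, cut_of_le_one one_pos zero_le_one]
    exact one_ne_zero
  exact hp.ne' e

lemma cov_pos (hK : IsBody K) (hsym : ∀ x ∈ K, -x ∈ K) {a : E (d + 1 + 1)} (ha : a ≠ 0) :
    0 < ⟪cov hK hsym a, a⟫ := by
  haveI : IsFiniteMeasure ((volume : Measure (E (d + 1 + 1))).restrict K) :=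
    ⟨by simpa using hK.compact.measure_lt_top⟩
  obtain ⟨R, hR⟩ := exists_grad_bound hK hsym
  rw [inner_cov]
  refine lt_of_le_of_ne (integral_nonneg fun x => mul_self_nonneg _) fun h0 => ?_
  have hi : Integrable (fun x => ⟪grad K x, a⟫ * ⟪grad K x, a⟫) (volume.restrict K) :=
    Integrable.of_bound (((measurable_grad K).inner measurable_const).mul
      ((measurable_grad K).inner measurable_const)).aestronglyMeasurable (R * ‖a‖ * (R * ‖a‖))
      (ae_of_all _ fun x => by
        rw [Real.norm_eq_abs, abs_mul]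
        have := (abs_real_inner_le_norm (grad K x) a).trans
          (mul_le_mul_of_nonneg_right (hR x) (norm_nonneg a))
        exact mul_le_mul this this (abs_nonneg _) ((abs_nonneg _).trans this))
  have hzero := (integral_eq_zero_iff_of_nonneg (fun x => mul_self_nonneg _) hi).1 h0.symm
  rw [EventuallyEq, ae_restrict_iff' hK.compact.measurableSet] at hzero
  have hall : ∀ᵐ x ∂(volume : Measure (E (d + 1 + 1))), ⟪grad K x, a⟫ = 0 := by
    -- every point has a positive multiple in `K`, and the gradient is `0`-homogeneous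
    have h0 := mem_interior_iff_mem_nhds.1 (Sharp.zero_mem_interior hK hsym)
    have hk : ∀ k : ℕ, ∀ᵐ x ∂(volume : Measure (E (d + 1 + 1))),
        ((k:ℝ) + 1)⁻¹ • x ∈ K → ⟪grad K x, a⟫ = 0 := fun k => by
      have hr : (0:ℝ) < ((k:ℝ) + 1)⁻¹ := by positivity
      have hmap := Measure.map_addHaar_smul (volume : Measure (E (d + 1 + 1))) hr.ne'
      have hm : Measurable fun x : E (d + 1 + 1) => ((k:ℝ) + 1)⁻¹ • x :=
        (continuous_const_smul _).measurable
      have hae := ae_of_ae_map hm.aemeasurable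
        (p := fun z => z ∈ K → ⟪grad K z, a⟫ * ⟪grad K z, a⟫ = 0)
        (hmap ▸ Measure.ae_smul_measure hzero _)
      filter_upwards [hae] with x hx hxK
      have := hx hxK
      rw [grad_smul K hr] at this
      exact mul_self_eq_zero.1 this
    filter_upwards [ae_all_iff.2 hk] with x hx
    have ht : Tendsto (fun k : ℕ => ((k:ℝ) + 1)⁻¹ • x) atTop (𝓝 0) := by
      have := (tendsto_one_div_add_atTop_nhds_zero_nat (𝕜 := ℝ)).smul_const x
      simpa [one_div] using this
    obtain ⟨k, hk⟩ := (ht.eventually_mem h0).exists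
    exact hx k hk
  obtain ⟨r, hr, hrK⟩ := nhds_basis_closedBall.mem_iff.1
    (mem_interior_iff_mem_nhds.1 (Sharp.zero_mem_interior hK hsym))
  set c := r⁻¹ with hc
  have hc0 : 0 < c := inv_pos.2 hr
  have hK'b : IsBody (c • K) := Sharp.isBody_smul hK hc0
  have hK's : ∀ x ∈ c • K, -x ∈ c • K := by
    rintro _ ⟨x, hx, rfl⟩
    exact ⟨-x, hsym x hx, smul_neg _ _⟩
  have hball : closedBall (0 : E (d + 1 + 1)) 1 ⊆ c • K := by
    intro x hx
    rw [mem_smul_set_iff_inv_smul_mem₀ hc0.ne', hc, inv_inv]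
    refine hrK (mem_closedBall_zero_iff.2 ?_)
    rw [norm_smul, Real.norm_eq_abs, abs_of_pos hr]
    exact mul_le_of_le_one_right hr.le (mem_closedBall_zero_iff.1 hx)
  obtain ⟨M, hM⟩ := hK'b.compact.isBounded.subset_closedBall (0 : E (d + 1 + 1))
  let S : Setting (c • K) := ⟨max M 1, lt_of_lt_of_le one_pos (le_max_right _ _), hK'b.compact,
    hK'b.convex, hball, hM.trans (closedBall_subset_closedBall (le_max_left _ _))⟩
  refine cov_pos_setting S hK's ha (hall.mono fun x hx => ?_)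
  rw [(gauge_scale hK hsym hc0 x).2, real_inner_smul_left, hx, mul_zero]

/-- The inverse of the second moment map. -/
noncomputable def covInv (hK : IsBody K) (hsym : ∀ x ∈ K, -x ∈ K) :
    E (d + 1 + 1) ≃ₗ[ℝ] E (d + 1 + 1) :=
  (LinearEquiv.ofInjectiveEndo (cov hK hsym) (LinearMap.ker_eq_bot.1
    ((Submodule.eq_bot_iff _).2 fun a ha => by
      by_contra h
      have := cov_pos hK hsym h
      rw [LinearMap.mem_ker.1 ha, inner_zero_left] at this
      exact lt_irrefl _ this))).symm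

lemma cov_covInv (hK : IsBody K) (hsym : ∀ x ∈ K, -x ∈ K) (a : E (d + 1 + 1)) :
    cov hK hsym (covInv hK hsym a) = a := by
  rw [covInv]
  exact (LinearEquiv.ofInjectiveEndo (cov hK hsym) _).apply_symm_apply a

lemma covInv_symm (hK : IsBody K) (hsym : ∀ x ∈ K, -x ∈ K) (a b : E (d + 1 + 1)) :
    ⟪a, covInv hK hsym b⟫ = ⟪covInv hK hsym a, b⟫ := by
  conv_lhs => rw [← cov_covInv hK hsym a]
  conv_rhs => rw [← cov_covInv hK hsym b]
  rw [real_inner_comm (cov hK hsym (covInv hK hsym b)), inner_cov, inner_cov]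
  exact integral_congr_ae (ae_of_all _ fun x => mul_comm _ _)

/-- The lower bound for `1 / J` with mean one: `vol K / n * ⟪w, A⁻¹ w⟫`. -/
noncomputable def traceLow (hK : IsBody K) (hsym : ∀ x ∈ K, -x ∈ K) (y : E (d + 1 + 1)) : ℝ :=
  volume.real K / ((d + 1 + 1 : ℕ):ℝ) * ⟪grad K y, covInv hK hsym (grad K y)⟫

/-- The lower bound is integrable with mean one. -/
lemma traceLow_mean (hK : IsBody K) (hsym : ∀ x ∈ K, -x ∈ K) :
    IntegrableOn (traceLow hK hsym) K ∧ ∫ y in K, traceLow hK hsym y = volume.real K := by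
  haveI : IsFiniteMeasure ((volume : Measure (E (d + 1 + 1))).restrict K) :=
    ⟨by simpa using hK.compact.measure_lt_top⟩
  obtain ⟨R, hR⟩ := exists_grad_bound hK hsym
  set e := EuclideanSpace.basisFun (Fin (d + 1 + 1)) ℝ with he
  have hexp : ∀ y, ⟪grad K y, covInv hK hsym (grad K y)⟫ =
      ∑ i, ⟪grad K y, e i⟫ * ⟪grad K y, covInv hK hsym (e i)⟫ := fun y => by
    rw [← e.sum_inner_mul_inner (grad K y) (covInv hK hsym (grad K y))]
    refine Finset.sum_congr rfl fun i _ => ?_
    rw [covInv_symm hK hsym (e i) (grad K y), real_inner_comm (grad K y)]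
  have hi : ∀ a b : E (d + 1 + 1),
      Integrable (fun y => ⟪grad K y, a⟫ * ⟪grad K y, b⟫) (volume.restrict K) := fun a b =>
    Integrable.of_bound (((measurable_grad K).inner measurable_const).mul
      ((measurable_grad K).inner measurable_const)).aestronglyMeasurable (R * ‖a‖ * (R * ‖b‖))
      (ae_of_all _ fun x => by
        rw [Real.norm_eq_abs, abs_mul]
        have ha := (abs_real_inner_le_norm (grad K x) a).trans
          (mul_le_mul_of_nonneg_right (hR x) (norm_nonneg a))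
        have hb := (abs_real_inner_le_norm (grad K x) b).trans
          (mul_le_mul_of_nonneg_right (hR x) (norm_nonneg b))
        exact mul_le_mul ha hb (abs_nonneg _) ((abs_nonneg _).trans ha))
  have hsum : Integrable (fun y => ∑ i, ⟪grad K y, e i⟫ * ⟪grad K y, covInv hK hsym (e i)⟫)
      (volume.restrict K) := integrable_finsetSum _ fun i _ => hi _ _
  refine ⟨?_, ?_⟩
  · refine Integrable.congr (hsum.const_mul (volume.real K / ((d + 1 + 1 : ℕ):ℝ))) ?_
    exact ae_of_all _ fun y => by simp only [traceLow, hexp]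
  · simp only [traceLow, hexp]
    rw [integral_const_mul, integral_finsetSum _ fun i _ => hi _ _]
    have h1 : ∀ i, ∫ y in K, ⟪grad K y, e i⟫ * ⟪grad K y, covInv hK hsym (e i)⟫ = 1 := fun i => by
      rw [show (fun y => ⟪grad K y, e i⟫ * ⟪grad K y, covInv hK hsym (e i)⟫) =
          fun y => ⟪grad K y, covInv hK hsym (e i)⟫ * ⟪grad K y, e i⟫ from
        funext fun y => mul_comm _ _, ← inner_cov hK hsym, cov_covInv]
      rw [real_inner_self_eq_norm_sq, e.orthonormal.1 i, one_pow]
    simp only [h1, Finset.sum_const, Finset.card_univ, Fintype.card_fin, nsmul_eq_mul, mul_one]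
    rw [div_mul_cancel₀ _ (Nat.cast_ne_zero.2 (by omega))]

lemma frame_at_spec {n : ℕ} {w : E (n + 1)} (hw : w ≠ 0) :
    frameAt w (‖w‖⁻¹ • w) = e0 := by
  rw [frameAt, dif_pos (Sharp.norm_unit hw)]
  exact (exists_frame (Sharp.norm_unit hw)).choose_spec

/-- At a good point: the slice profile, `J > 0`, and the two pointwise bounds. -/
lemma mixed_pointwise (hK : IsBody K) (hsym : ∀ x ∈ K, -x ∈ K) {φ : ℝ → ℝ}
    (hφc : ContinuousOn φ (Icc (-1) 1)) (hφ : ConvexOn ℝ (Icc (-1) 1) φ)
    (hev : ∀ t, φ (-t) = φ t) {y : E (d + 1 + 1)} (hy : y ≠ 0)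
    (hd : DifferentiableAt ℝ (gauge K) y) :
    traceLow hK hsym y ≤ (jay (d + 1) (profAt K (grad K y)))⁻¹ ∧
    penMean (d + 1) φ (profAt K (grad K y)) ≤ excess φ K y / volume.real K ∧
    0 < jay (d + 1) (profAt K (grad K y)) := by
  set w := grad K y with hw
  set L := frameAt w with hLdef
  set v := ‖w‖⁻¹ • w with hv
  have hw0 : w ≠ 0 := by
    intro h
    have hN : (0:ℝ) < gauge K y :=
      (gauge_pos (absorbent_nhds_zero (mem_interior_iff_mem_nhds.1
        (Sharp.zero_mem_interior hK hsym))) (NormedSpace.isVonNBounded_of_isBounded ℝ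
        hK.compact.isBounded)).2 hy
    have h1 := inner_grad K y y
    rw [← hw, h, inner_zero_left] at h1
    have hl : HasLineDerivAt ℝ (gauge K) (fderiv ℝ (gauge K) y y) y y :=
      hd.hasFDerivAt.hasLineDerivAt y
    have hl2 : HasDerivAt (fun t : ℝ => gauge K (y + t • y)) (gauge K y) 0 := by
      have e : (fun t : ℝ => gauge K (y + t • y)) =ᶠ[𝓝 0] fun t => (1 + t) * gauge K y := by
        filter_upwards [Ioi_mem_nhds (neg_one_lt_zero : (-1:ℝ) < 0)] with t ht
        rw [show y + t • y = (1 + t) • y by module,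
          gauge_smul_of_nonneg (by linarith [Set.mem_Ioi.1 ht]), smul_eq_mul]
      refine HasDerivAt.congr_of_eventuallyEq ?_ e
      simpa using ((hasDerivAt_id (0:ℝ)).const_add 1).mul_const (gauge K y)
    have := hl.unique hl2
    linarith
  have hL : L v = e0 := frame_at_spec hw0
  have hv1 : ‖v‖ = 1 := Sharp.norm_unit hw0
  obtain ⟨hsupp, -, hpen⟩ := pen_le_body hK hsym hφc hφ hy hd L hL
  have hprof : profAt K w = sliceProf K v L := by
    funext t
    rw [profAt, sliceProf, hsupp]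
  have hP : IsProfile (sliceProf K v L) := isProfile_sliceProf hK hsym hv1 L hL
  have hFm : Measurable (sliceProf K v L) := measurable_sliceProf hK.compact v L
  rw [hprof, ← hP.jayAxis_eq (by omega) hFm, ← hP.penPhi_eq (by omega) hFm hφc hev]
  have hvolK := hK.volume_pos
  have hvol : volume.real K = ‖w‖⁻¹ * ∫ t in (-1:ℝ)..1, sliceProf K v L t ^ (d + 1) := by
    have a1 := integral_axis hK hsym hv1 L hL (h := fun _ => (1:ℝ)) measurable_const (M := 1)
      (by simp)
    rw [setIntegral_const, smul_eq_mul, mul_one, hsupp] at a1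
    simpa using a1
  set u := covInv hK hsym w with hu
  have hcu : cov hK hsym u = w := cov_covInv hK hsym w
  have hu0 : u ≠ 0 := fun h => hw0 (by rw [← hcu, h, map_zero])
  set c := ⟪w, u⟫ with hc
  have hc0 : 0 < c := by rw [hc, ← hcu]; exact cov_pos hK hsym hu0
  have hv₀ : ⟪w, c⁻¹ • u⟫ = 1 := by rw [real_inner_smul_right, ← hc, inv_mul_cancel₀ hc0.ne']
  obtain ⟨hJ0, hJ⟩ := jayAxis_le hK hsym hy hd L hL hv₀
  rw [← hw, ← hv] at hJ0 hJ
  have hint : ∫ x in K, ⟪grad K x, c⁻¹ • u⟫ ^ 2 = c⁻¹ := by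
    rw [show (fun x => ⟪grad K x, c⁻¹ • u⟫ ^ 2) =
        fun x => (c⁻¹ * c⁻¹) * (⟪grad K x, u⟫ * ⟪grad K x, u⟫) from funext fun x => by
      rw [real_inner_smul_right]; ring, integral_const_mul, ← inner_cov hK hsym, hcu, ← hc]
    field_simp
  rw [hint] at hJ
  refine ⟨?_, ?_, hJ0⟩
  · show volume.real K / ((d + 1 + 1 : ℕ):ℝ) * c ≤ _
    have hn0 : (0:ℝ) < ((d + 1 + 1 : ℕ):ℝ) := by positivity
    rw [inv_eq_one_div, le_div_iff₀ hJ0, div_mul_eq_mul_div, div_mul_eq_mul_div, div_le_one hn0]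
    rw [← le_div_iff₀ hvolK, ← div_eq_mul_inv, div_right_comm, le_div_iff₀ hc0,
      le_div_iff₀ hvolK] at hJ
    linarith
  · rw [show excess φ K y = ∫ x in K, (φ (aco K x y) - φ (aco K y x)) from rfl, hvol]
    have hs : 0 < ‖w‖⁻¹ := inv_pos.2 (norm_pos_iff.2 hw0)
    have hF0 : 0 < ∫ t in (-1:ℝ)..1, sliceProf K v L t ^ (d + 1) :=
      pos_of_mul_pos_right (hvol ▸ hvolK) hs.le
    rw [div_le_div_iff₀ (by positivity) (by positivity)]
    rw [← hw, ← hv] at hpen
    have := mul_le_mul_of_nonneg_right hpen hF0.le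
    push_cast at this ⊢
    linarith

/-- **The trace fact and the averaging fact, mixed.** If `a (1/J - 1) - E[φ p - φ] ≤ 0` at almost
every `y`, with `w = ∇ gauge K y`, then it vanishes almost everywhere. -/
theorem mixed_fact (hK : IsBody K) (hsym : ∀ x ∈ K, -x ∈ K) {a : ℝ} (ha : 0 ≤ a) {φ : ℝ → ℝ}
    (hφc : ContinuousOn φ (Icc (-1) 1)) (hφ : ConvexOn ℝ (Icc (-1) 1) φ)
    (hev : ∀ t, φ (-t) = φ t)
    (h : ∀ᵐ y ∂volume.restrict K, a * ((jay (d + 1) (profAt K (∇ (gauge K) y)))⁻¹ - 1) -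
      penMean (d + 1) φ (profAt K (∇ (gauge K) y)) ≤ 0) :
    ∀ᵐ y ∂volume.restrict K, a * ((jay (d + 1) (profAt K (∇ (gauge K) y)))⁻¹ - 1) -
      penMean (d + 1) φ (profAt K (∇ (gauge K) y)) = 0 := by
  haveI : IsFiniteMeasure ((volume : Measure (E (d + 1 + 1))).restrict K) :=
    ⟨by simpa using hK.compact.measure_lt_top⟩
  set g : E (d + 1 + 1) → ℝ := fun y =>
    a * (traceLow hK hsym y - 1) - excess φ K y / volume.real K with hg
  have hle : ∀ᵐ y ∂volume.restrict K, g y ≤
      a * ((jay (d + 1) (profAt K (∇ (gauge K) y)))⁻¹ - 1) -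
        penMean (d + 1) φ (profAt K (∇ (gauge K) y)) := by
    filter_upwards [ae_good hK hsym] with y hy
    obtain ⟨h1, h2, -⟩ := mixed_pointwise hK hsym hφc hφ hev hy.1 hy.2
    exact sub_le_sub (mul_le_mul_of_nonneg_left (sub_le_sub_right h1 1) ha) h2
  obtain ⟨ti, tm⟩ := traceLow_mean hK hsym
  obtain ⟨ei, em⟩ := excess_mean hK hsym hφc
  have i1 : Integrable (fun y => a * (traceLow hK hsym y - 1)) (volume.restrict K) :=
    (Integrable.sub ti (integrable_const 1)).const_mul a
  have i2 : Integrable (fun y => excess φ K y / volume.real K) (volume.restrict K) :=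
    Integrable.div_const ei _
  have hgi : Integrable g (volume.restrict K) := i1.sub i2
  have hgz : ∫ y in K, g y = 0 := by
    simp only [hg]
    rw [integral_sub i1 i2, integral_const_mul, integral_sub ti (integrable_const 1), tm,
      integral_div, em, setIntegral_const]
    simp
  have hneg : ∫ y in K, -g y = 0 := by rw [integral_neg, hgz, neg_zero]
  have hg0 : ∀ᵐ y ∂volume.restrict K, -g y = 0 :=
    (integral_eq_zero_iff_of_nonneg_ae (by
      filter_upwards [hle, h] with y h1 h2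
      exact neg_nonneg.2 (h1.trans h2)) hgi.neg).1 hneg
  filter_upwards [hle, h, hg0] with y h1 h2 h3
  linarith

end Vale.Agent.P237.AllN
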