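import Mathlib
import Vale.Agent.P237.AllN.Trace
import Vale.Agent.P237.AllN.PhiRBounds
import Vale.Agent.P237.AllN.FirstVariation
import Vale.Agent.P237.Univ.OneD

/-!
# P237, all dimensions: transport of the ball's marginal to a profile

For a profile `f` on `[0,1]` in dimension `m + 1` the increasing `rr : [0,1] → [0,1]` pushes
`f ^ m / Z` to `√(1 - θ²) ^ m / Z₀`; `tt` is its inverse and `stretch = tt'`.
With `D = (1 - θ²) stretch + tt θ` this file proves `E D⁻² ≤ J` exactly (no regularity of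
`stretch`), the identity for `P`, the null identity, and the tangent bound for the remainder `phiR`.
-/

open MeasureTheory Set Real Filter Topology
open Vale.Agent.P237.Univ.OneD (w B Binv Lp)

namespace Vale.Agent.P237.AllN

/-! ### Profiles on `[0,1]` -/

/-- A profile on `[0,1]`, positive before `1`. -/
structure HalfProf (f : ℝ → ℝ) : Prop where
  conc : ConcaveOn ℝ (Icc 0 1) f
  anti : AntitoneOn f (Icc 0 1)
  nonneg : ∀ t ∈ Icc (0:ℝ) 1, 0 ≤ f t
  pos : ∀ t ∈ Ico (0:ℝ) 1, 0 < f t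

theorem halfProf_of {f : ℝ → ℝ} {m : ℕ} (hm : m ≠ 0) (hc : ConcaveOn ℝ (Icc 0 1) f)
    (ha : AntitoneOn f (Icc 0 1)) (hn : ∀ t ∈ Icc (0:ℝ) 1, 0 ≤ f t)
    (hZ : 0 < ∫ t in (0:ℝ)..1, f t ^ m) : HalfProf f := by
  refine ⟨hc, ha, hn, fun t ht => lt_of_le_of_ne (hn t ⟨ht.1, ht.2.le⟩) fun h => ?_⟩
  have h0 := hc.2 (left_mem_Icc.2 zero_le_one) (right_mem_Icc.2 zero_le_one)
    (show (0:ℝ) ≤ 1 - t by linarith [ht.2]) ht.1 (by ring)
  simp only [smul_eq_mul, mul_zero, zero_add, mul_one, ← h] at h0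
  have hz : f 0 = 0 := by
    have := hn 1 (right_mem_Icc.2 zero_le_one)
    have := hn 0 (left_mem_Icc.2 zero_le_one)
    nlinarith [mul_nonneg ht.1 (hn 1 (right_mem_Icc.2 zero_le_one)), ht.2]
  refine hZ.ne' ?_
  rw [intervalIntegral.integral_congr (g := fun _ => (0:ℝ)) fun x hx => ?_,
    intervalIntegral.integral_zero]
  rw [uIcc_of_le zero_le_one] at hx
  show f x ^ m = 0
  rw [le_antisymm (hz ▸ ha (left_mem_Icc.2 zero_le_one) hx hx.1) (hn x hx), zero_pow hm]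

namespace HalfProf

variable {f : ℝ → ℝ} (P : HalfProf f) {t : ℝ}
include P

theorem isProfile : IsProfile fun t => f |t| := by
  have hm : ∀ t ∈ Icc (-1:ℝ) 1, |t| ∈ Icc (0:ℝ) 1 := fun t ht => ⟨abs_nonneg t, abs_le.2 ht⟩
  refine ⟨⟨convex_Icc _ _, fun x hx y hy p q hp hq hpq => ?_⟩, fun t => by simp only [abs_neg],
    fun t ht => P.nonneg _ (hm t ht), fun t ht => P.pos _ ⟨abs_nonneg t, abs_lt.2 ht⟩⟩
  have hle : |p * x + q * y| ≤ p * |x| + q * |y| := (abs_add_le _ _).trans_eq (by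
    rw [abs_mul, abs_mul, abs_of_nonneg hp, abs_of_nonneg hq])
  have hmem : p * |x| + q * |y| ∈ Icc (0:ℝ) 1 := (convex_Icc (0:ℝ) 1) (hm x hx) (hm y hy) hp hq hpq
  exact (P.conc.2 (hm x hx) (hm y hy) hp hq hpq).trans
    (P.anti (hm _ ((convex_Icc (-1:ℝ) 1) hx hy hp hq hpq)) hmem hle)

theorem lp {r : ℝ} (hr : r < 1) : Lp r f := by
  obtain ⟨C, hC⟩ := P.isProfile.lipschitzOn hr
  refine ⟨C, fun x hx y hy => ?_⟩
  have := hC (x := x) ⟨by linarith [hx.1, hx.2], hx.2⟩ (y := y) ⟨by linarith [hy.1, hy.2], hy.2⟩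
  simpa [abs_of_nonneg hx.1, abs_of_nonneg hy.1] using this

theorem continuousOn : ContinuousOn f (Ico 0 1) := fun t ht => by
  obtain ⟨r, h1, h2⟩ := exists_between ht.2
  refine ((P.lp h2).cont t ⟨ht.1, h1.le⟩).mono_of_mem_nhdsWithin ?_
  exact mem_nhdsWithin.2 ⟨Iio r, isOpen_Iio, h1, fun x hx => ⟨hx.2.1, hx.1.le⟩⟩

theorem continuousAt (ht : t ∈ Ioo (0:ℝ) 1) : ContinuousAt f t :=
  P.continuousOn.continuousAt (Ico_mem_nhds ht.1 ht.2)

theorem intPow (i : ℕ) : IntervalIntegrable (fun s => f s ^ i) volume 0 1 := by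
  refine AntitoneOn.intervalIntegrable fun x hx y hy hxy => ?_
  rw [uIcc_of_le zero_le_one] at hx hy
  exact pow_le_pow_left₀ (P.nonneg y hy) (P.anti hx hy hxy) i

omit P in
theorem eventuallyEq_abs (f : ℝ → ℝ) (ht : t ∈ Ioo (0:ℝ) 1) : (fun s => f |s|) =ᶠ[𝓝 t] f := by
  filter_upwards [Ioi_mem_nhds ht.1] with s hs
  rw [abs_of_pos (mem_Ioi.1 hs)]

theorem ae_diff : ∀ᵐ t : ℝ, t ∈ Ioo (0:ℝ) 1 → DifferentiableAt ℝ f t := by
  filter_upwards [P.isProfile.ae_diff] with t ht hmem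
  exact (ht ⟨by linarith [hmem.1], hmem.2⟩).congr_of_eventuallyEq (eventuallyEq_abs f hmem).symm

theorem bounds (ht : t ∈ Ioo (0:ℝ) 1) :
    0 < f t - t * deriv f t ∧ pProf f t ∈ Icc (-1:ℝ) 1 := by
  have hmem : t ∈ Ioo (-1:ℝ) 1 := ⟨by linarith [ht.1], ht.2⟩
  have h1 := (P.isProfile.bounds hmem).1
  have h2 := P.isProfile.pbar_mem (t := t) ⟨hmem.1.le, hmem.2.le⟩
  rw [pbar, if_pos hmem, (eventuallyEq_abs f ht).deriv_eq, abs_of_pos ht.1] at h2
  rw [(eventuallyEq_abs f ht).deriv_eq, abs_of_pos ht.1] at h1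
  exact ⟨h1, h2⟩

theorem intDeriv {m : ℕ} (_hm : m ≠ 0) :
    IntervalIntegrable (fun s => (m:ℝ) * f s ^ (m - 1) * deriv f s) volume 0 1 := by
  refine IntervalIntegrable.congr_ae (P.isProfile.intervalIntegrable_pow m).2.2 ?_
  rw [EventuallyEq, ae_restrict_iff' measurableSet_uIoc]
  filter_upwards [P.isProfile.deriv_pow m, Measure.ae_ne volume (1:ℝ)] with s hs hne hmem
  rw [uIoc_of_le zero_le_one] at hmem
  have hs' : s ∈ Ioo (0:ℝ) 1 := ⟨hmem.1, lt_of_le_of_ne hmem.2 hne⟩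
  rw [hs ⟨by linarith [hs'.1], hs'.2⟩, dgt, neg_neg, (eventuallyEq_abs f hs').deriv_eq,
    abs_of_pos hs'.1]

theorem intWgt {m : ℕ} (hm : m ≠ 0) :
    IntervalIntegrable (fun s => (m:ℝ) * f s ^ (m - 1) * (f s - s * deriv f s)) volume 0 1 := by
  refine (((P.intPow m).const_mul (m:ℝ)).sub
    ((P.intDeriv hm).continuousOn_mul continuousOn_id)).congr fun s _ => ?_
  rw [← pow_sub_one_mul hm (f s)]
  simp only [id_eq]
  ring

theorem measurable_pProf :
    AEStronglyMeasurable (pProf f) (volume.restrict (Ioo (0:ℝ) 1)) := by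
  have hf : AEMeasurable f (volume.restrict (Ioo (0:ℝ) 1)) :=
    (P.continuousOn.mono Ioo_subset_Ico_self).aemeasurable measurableSet_Ioo
  exact (((measurable_deriv f).neg.aemeasurable).div
    (hf.sub (aemeasurable_id.mul (measurable_deriv f).aemeasurable))).aestronglyMeasurable

theorem intWgt_mul {m : ℕ} (hm : m ≠ 0) {F : ℝ → ℝ} {C : ℝ}
    (hF : AEStronglyMeasurable F (volume.restrict (Ioo (0:ℝ) 1)))
    (hC : ∀ s ∈ Ioo (0:ℝ) 1, |F s| ≤ C) :
    IntervalIntegrable (fun s => (m:ℝ) * f s ^ (m - 1) * (f s - s * deriv f s) * F s) volume 0 1 := by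
  rw [intervalIntegrable_iff_integrableOn_Ioo_of_le zero_le_one]
  exact ((intervalIntegrable_iff_integrableOn_Ioo_of_le zero_le_one).1 (P.intWgt hm)).mul_bdd hF
    ((ae_restrict_iff' measurableSet_Ioo).2 (.of_forall fun s hs => hC s hs))

end HalfProf

/-! ### The transport -/

/-- `Z₀ / Z`. -/
noncomputable def scal (m : ℕ) (f : ℝ → ℝ) : ℝ :=
  Univ.ballInt m / ∫ t in (0:ℝ)..1, f t ^ m

/-- The transport from the profile to the ball on `[0,1]`. -/
noncomputable def rr (m : ℕ) (f : ℝ → ℝ) (t : ℝ) : ℝ :=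
  Binv m (scal m f * ∫ s in (0:ℝ)..t, f s ^ m)

/-- `b = (Z₀ / Z) f^m`. -/
noncomputable def bb (m : ℕ) (f : ℝ → ℝ) (t : ℝ) : ℝ := scal m f * f t ^ m

/-- `a = √(1 - rr²) ^ (m + 2)`. -/
noncomputable def aa (m : ℕ) (f : ℝ → ℝ) (t : ℝ) : ℝ := √(1 - rr m f t ^ 2) ^ (m + 2)

/-- `a + t rr b`, which is `b D`. -/
noncomputable def den (m : ℕ) (f : ℝ → ℝ) (t : ℝ) : ℝ :=
  aa m f t + t * rr m f t * bb m f t

/-- The test function `θ / D` in the variable of the profile. -/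
noncomputable def hh (m : ℕ) (f : ℝ → ℝ) (t : ℝ) : ℝ := rr m f t * bb m f t / den m f t

/-- `1 / D` in the variable of the profile. -/
noncomputable def invD (m : ℕ) (f : ℝ → ℝ) (t : ℝ) : ℝ := bb m f t / den m f t

/-- The exact primitive of the tangent bound. -/
noncomputable def prim (m : ℕ) (f : ℝ → ℝ) (t : ℝ) : ℝ :=
  t * f t ^ m + (scal m f)⁻¹ * (aa m f t * rr m f t * bb m f t * bb m f t *
    (den m f t * den m f t)⁻¹) - f t ^ m * (2 * hh m f t - t * (hh m f t * hh m f t))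

section transport

variable {f : ℝ → ℝ} {m : ℕ} (P : HalfProf f) (hm : m ≠ 0) {t : ℝ}
include P hm

omit hm in
theorem Z_pos : 0 < ∫ t in (0:ℝ)..1, f t ^ m :=
  intervalIntegral.intervalIntegral_pos_of_pos_on (P.intPow m)
    (fun x hx => pow_pos (P.pos x ⟨hx.1.le, hx.2⟩) m) one_pos

omit hm in
theorem scal_pos : 0 < scal m f := div_pos (Univ.OneD.ballInt_pos m) (Z_pos P)

omit hm in
theorem bb_pos (ht : t ∈ Ico (0:ℝ) 1) : 0 < bb m f t :=
  mul_pos (scal_pos P) (pow_pos (P.pos t ht) m)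

omit P hm in
theorem rr_zero : rr m f 0 = 0 := by
  rw [rr, intervalIntegral.integral_same, mul_zero]
  conv_lhs => rw [← Univ.OneD.B_zero m, Univ.OneD.Binv_B]

omit hm in
theorem rr_one : rr m f 1 = 1 := by
  rw [rr, scal, div_mul_cancel₀ _ (Z_pos P).ne', ← Univ.OneD.B_one, Univ.OneD.Binv_B]

omit hm in
theorem int_sub (ht : t ∈ Icc (0:ℝ) 1) (i : ℕ) :
    IntervalIntegrable (fun s => f s ^ i) volume 0 t :=
  (P.intPow i).mono_set (by
    rw [uIcc_of_le ht.1, uIcc_of_le zero_le_one]; exact Icc_subset_Icc le_rfl ht.2)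

omit hm in
theorem rr_strictMono : StrictMonoOn (rr m f) (Icc 0 1) := by
  intro x hx y hy hxy
  refine Univ.OneD.Binv_mono m (mul_lt_mul_of_pos_left ?_ (scal_pos P))
  have h : 0 < ∫ s in x..y, f s ^ m :=
    intervalIntegral.intervalIntegral_pos_of_pos_on
      ((int_sub P hx m).symm.trans (int_sub P hy m))
      (fun z hz => pow_pos (P.pos z ⟨by linarith [hx.1, hz.1], by linarith [hy.2, hz.2]⟩) m) hxy
  rw [← intervalIntegral.integral_interval_sub_left (int_sub P hy m) (int_sub P hx m)] at h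
  linarith

omit hm in
theorem rr_mem (ht : t ∈ Icc (0:ℝ) 1) : rr m f t ∈ Icc (0:ℝ) 1 :=
  ⟨(rr_zero (m := m) (f := f)) ▸ (rr_strictMono P).monotoneOn (left_mem_Icc.2 zero_le_one) ht ht.1,
    (rr_one P (m := m)) ▸ (rr_strictMono P).monotoneOn ht (right_mem_Icc.2 zero_le_one) ht.2⟩

omit hm in
theorem rr_lt_one (ht : t ∈ Ico (0:ℝ) 1) : rr m f t < 1 :=
  (rr_one P (m := m)) ▸ rr_strictMono P ⟨ht.1, ht.2.le⟩ (right_mem_Icc.2 zero_le_one) ht.2

omit hm in
theorem rr_pos (ht : t ∈ Ioc (0:ℝ) 1) : 0 < rr m f t :=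
  (rr_zero (m := m) (f := f)) ▸ rr_strictMono P (left_mem_Icc.2 zero_le_one) ⟨ht.1.le, ht.2⟩ ht.1

omit hm in
theorem rr_sq_lt (ht : t ∈ Ico (0:ℝ) 1) : rr m f t ^ 2 < 1 := by
  have h1 := rr_lt_one P (m := m) ht
  have h0 := (rr_mem P (m := m) ⟨ht.1, ht.2.le⟩).1
  nlinarith

omit hm in
theorem continuousOn_rr : ContinuousOn (rr m f) (Icc 0 1) := by
  have h := intervalIntegral.continuousOn_primitive_interval'
    (P.intPow m) (left_mem_uIcc (a := (0:ℝ)) (b := 1))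
  rw [uIcc_of_le zero_le_one] at h
  exact (Univ.OneD.Binv_cont m).comp_continuousOn (h.const_smul (scal m f))

omit hm in
theorem hasDerivAt_rr (ht : t ∈ Ioo (0:ℝ) 1) :
    HasDerivAt (rr m f) (bb m f t / √(1 - rr m f t ^ 2) ^ m) t := by
  have hsm : StronglyMeasurableAtFilter (fun s => f s ^ m) (𝓝 t) :=
    ((P.continuousOn.mono Ioo_subset_Ico_self).pow m).stronglyMeasurableAtFilter isOpen_Ioo t ht
  have h1 := intervalIntegral.integral_hasDerivAt_right (int_sub P ⟨ht.1.le, ht.2.le⟩ m) hsm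
    ((P.continuousAt ht).pow m)
  have hlt := rr_sq_lt P (m := m) ⟨ht.1.le, ht.2⟩
  have h := (Univ.OneD.Binv_hasDerivAt m (y := scal m f * ∫ s in (0:ℝ)..t, f s ^ m) hlt.ne).comp t
    (h1.const_mul (scal m f))
  refine h.congr_deriv ?_
  rw [show Binv m (scal m f * ∫ s in (0:ℝ)..t, f s ^ m) = rr m f t from rfl,
    Univ.OneD.w_eq m hlt.le, bb]
  ring

omit hm in
theorem aa_pos (ht : t ∈ Ico (0:ℝ) 1) : 0 < aa m f t :=
  pow_pos (sqrt_pos.2 (sub_pos.2 (rr_sq_lt P ht))) _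

omit hm in
theorem den_pos (ht : t ∈ Ico (0:ℝ) 1) : 0 < den m f t :=
  add_pos_of_pos_of_nonneg (aa_pos P ht)
    (mul_nonneg (mul_nonneg ht.1 (rr_mem P ⟨ht.1, ht.2.le⟩).1) (bb_pos P ht).le)

omit hm in
theorem continuousOn_invD : ContinuousOn (invD m f) (Ico 0 1) := by
  have hf := P.continuousOn
  have hr : ContinuousOn (rr m f) (Ico 0 1) := (continuousOn_rr P).mono Ico_subset_Icc_self
  refine ContinuousOn.div ?_ ?_ fun x hx => (den_pos P hx).ne'
  · exact continuousOn_const.mul (hf.pow m)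
  · exact ((continuous_sqrt.comp_continuousOn (continuousOn_const.sub (hr.pow 2))).pow _).add
      ((continuousOn_id.mul hr).mul (continuousOn_const.mul (hf.pow m)))

omit hm in
theorem intInvD : IntervalIntegrable (fun t => f t ^ m * invD m f t ^ 2) volume 0 1 := by
  rw [intervalIntegrable_iff_integrableOn_Ioo_of_le zero_le_one]
  have hc : ContinuousOn (fun t => f t ^ m * invD m f t ^ 2) (Ico 0 1) :=
    (P.continuousOn.pow m).mul ((continuousOn_invD P).pow 2)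
  obtain ⟨C, hC⟩ := (isCompact_Icc (a := (0:ℝ)) (b := 1/2)).exists_bound_of_continuousOn
    (hc.mono fun x hx => ⟨hx.1, by linarith [hx.2]⟩)
  refine IntegrableOn.of_bound measure_Ioo_lt_top
    ((hc.mono Ioo_subset_Ico_self).aestronglyMeasurable measurableSet_Ioo)
    (max C (f 0 ^ m * (1 / (1/2 * rr m f (1/2))) ^ 2)) ?_
  refine (ae_restrict_iff' measurableSet_Ioo).2 (.of_forall fun x hx => ?_)
  rcases le_total x (1/2) with h | h
  · exact (hC x ⟨hx.1.le, h⟩).trans (le_max_left _ _)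
  · refine le_trans ?_ (le_max_right _ _)
    have hxI : x ∈ Ico (0:ℝ) 1 := ⟨hx.1.le, hx.2⟩
    have h0 : 0 < rr m f (1/2) := rr_pos P ⟨by norm_num, by norm_num⟩
    have hmono : rr m f (1/2) ≤ rr m f x :=
      (rr_strictMono P).monotoneOn ⟨by norm_num, by norm_num⟩ ⟨hx.1.le, hx.2.le⟩ h
    have hb := bb_pos P (m := m) hxI
    have hxr : 0 < x * rr m f x := mul_pos hx.1 (rr_pos P ⟨hx.1, hx.2.le⟩)
    have hle : invD m f x ≤ 1 / (1/2 * rr m f (1/2)) := by
      refine le_trans ?_ (one_div_le_one_div_of_le (by positivity)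
        (mul_le_mul h hmono h0.le hx.1.le))
      rw [invD, div_le_div_iff₀ (den_pos P hxI) hxr, one_mul, den]
      nlinarith [aa_pos P (m := m) hxI]
    have hnn : 0 ≤ invD m f x := div_nonneg hb.le (den_pos P hxI).le
    rw [Real.norm_eq_abs, abs_of_nonneg (mul_nonneg (pow_nonneg (P.pos x hxI).le _) (sq_nonneg _))]
    exact mul_le_mul (pow_le_pow_left₀ (P.pos x hxI).le
      (P.anti (left_mem_Icc.2 zero_le_one) ⟨hx.1.le, hx.2.le⟩ hx.1.le) m)
      (pow_le_pow_left₀ hnn hle 2) (sq_nonneg _)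
      (pow_nonneg (P.nonneg 0 (left_mem_Icc.2 zero_le_one)) _)

omit hm in
theorem lp_prim {r : ℝ} (hr0 : 0 < r) (hr1 : r < 1) : Lp r (prim m f) := by
  have hin : ∀ x ∈ Icc 0 r, x ∈ Ico (0:ℝ) 1 := fun x hx => ⟨hx.1, hx.2.trans_lt hr1⟩
  have hF : Lp r f := P.lp hr1
  have hG : Lp r fun t => f t ^ m := hF.pow m
  -- the primitive of `f ^ m` is Lipschitz
  have hI : Lp r fun t => ∫ s in (0:ℝ)..t, f s ^ m := by
    obtain ⟨C, hC⟩ := isCompact_Icc.exists_bound_of_continuousOn hG.cont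
    refine ⟨C.toNNReal, LipschitzOnWith.of_dist_le_mul fun x hx y hy => ?_⟩
    rw [Real.dist_eq, Real.dist_eq,
      intervalIntegral.integral_interval_sub_left (int_sub P ⟨hx.1, by linarith [hx.2]⟩ m)
        (int_sub P ⟨hy.1, by linarith [hy.2]⟩ m), ← Real.norm_eq_abs (∫ s in y..x, f s ^ m)]
    refine intervalIntegral.norm_integral_le_of_norm_le_const fun s hs => ?_
    exact (hC s (uIcc_subset_Icc hy hx (uIoc_subset_uIcc hs))).trans (Real.le_coe_toNNReal C)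
  have hmaps : ∀ x ∈ Icc 0 r, rr m f x ∈ Icc 0 (rr m f r) := fun x hx =>
    ⟨(rr_mem P ⟨hx.1, by linarith [hx.2]⟩).1,
      (rr_strictMono P).monotoneOn ⟨hx.1, by linarith [hx.2]⟩ ⟨hr0.le, hr1.le⟩ hx.2⟩
  have hc1 : rr m f r < 1 := rr_lt_one P ⟨hr0.le, hr1⟩
  have hsub : ∀ y ∈ Icc (0:ℝ) (B m (rr m f r)), Binv m y ^ 2 < 1 := fun y hy => by
    have h1 := (Univ.OneD.Binv_mono m).monotone hy.1
    have h2 := (Univ.OneD.Binv_mono m).monotone hy.2
    rw [← Univ.OneD.B_zero m, Univ.OneD.Binv_B] at h1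
    rw [Univ.OneD.Binv_B] at h2
    nlinarith
  have hR : Lp r (rr m f) := by
    refine Lp.comp (φ := Binv m) (φ' := fun y => (w m (Binv m y))⁻¹) (lo := 0)
      (hi := B m (rr m f r)) (hI.const_mul (scal m f))
      (fun y hy => Univ.OneD.Binv_hasDerivAt m (hsub y hy).ne) ?_ ?_
    · exact ContinuousOn.inv₀ ((Univ.OneD.w_cont m).comp (Univ.OneD.Binv_cont m)).continuousOn
        fun y hy => (Univ.OneD.w_pos m (hsub y hy).ne).ne'
    · intro x hx
      have h := (Univ.OneD.B_strictMono m).monotone (hmaps x hx).2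
      rw [rr, Univ.OneD.B_Binv] at h
      refine ⟨mul_nonneg (scal_pos P).le (intervalIntegral.integral_nonneg hx.1 fun s hs =>
        pow_nonneg (P.nonneg s ⟨hs.1, by linarith [hs.2, hx.2]⟩) _), h⟩
  have hA : Lp r (aa m f) := by
    refine Lp.comp (φ := fun x => √(1 - x ^ 2) ^ (m + 2))
      (φ' := fun x => -((m + 2) * x * √(1 - x ^ 2) ^ m)) (lo := 0) (hi := rr m f r) hR
      (fun x hx => hasDerivAt_sqrt_pow ⟨by linarith [hx.1], hx.2.trans_lt hc1⟩ m) (by fun_prop)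
      fun x hx => hmaps x hx
  have hB : Lp r (bb m f) := hG.const_mul _
  have hD : Lp r (den m f) := hA.add ((Lp.ident.mul hR).mul hB)
  have hinv : ∀ {g : ℝ → ℝ}, Lp r g → (∀ x ∈ Icc 0 r, 0 < g x) → Lp r fun t => (g t)⁻¹ := by
    intro g hg hpos
    obtain ⟨x₀, hx₀, hmin⟩ := isCompact_Icc.exists_isMinOn (nonempty_Icc.2 hr0.le) hg.cont
    obtain ⟨x₁, hx₁, hmax⟩ := isCompact_Icc.exists_isMaxOn (nonempty_Icc.2 hr0.le) hg.cont
    refine Lp.comp (φ := fun y => y⁻¹) (φ' := fun y => -(y ^ 2)⁻¹) (lo := g x₀) (hi := g x₁) hg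
      (fun y hy => hasDerivAt_inv ((hpos x₀ hx₀).trans_le hy.1).ne') ?_
      fun x hx => ⟨hmin hx, hmax hx⟩
    exact (ContinuousOn.inv₀ (by fun_prop) fun y hy =>
      (pow_pos ((hpos x₀ hx₀).trans_le hy.1) 2).ne').neg
  have hH : Lp r (hh m f) := by
    have := (hR.mul hB).mul (hinv hD fun x hx => den_pos P (hin x hx))
    have e : hh m f = fun t => rr m f t * bb m f t * (den m f t)⁻¹ :=
      funext fun t => by rw [hh, div_eq_mul_inv]
    rwa [e]
  exact ((Lp.ident.mul hG).add (((((hA.mul hR).mul hB).mul hB).mul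
    (hinv (hD.mul hD) fun x hx => mul_pos (den_pos P (hin x hx))
      (den_pos P (hin x hx)))).const_mul _)).sub
    (hG.mul ((hH.const_mul 2).sub (Lp.ident.mul (hH.mul hH))))

/-- The derivative of `prim` where the profile is differentiable. -/
theorem deriv_prim (ht : t ∈ Ioo (0:ℝ) 1) (hd : DifferentiableAt ℝ f t) :
    deriv (prim m f) t = f t ^ m + t * ((m:ℝ) * f t ^ (m - 1) * deriv f t)
      - 2 * ((m:ℝ) * f t ^ (m - 1) * deriv f t) * hh m f t
      - (m:ℝ) * f t ^ (m - 1) * (f t - t * deriv f t) * hh m f t ^ 2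
      - f t ^ m * invD m f t ^ 2 := by
  have htI : t ∈ Ico (0:ℝ) 1 := ⟨ht.1.le, ht.2⟩
  set R := rr m f t with hRdef
  have hR0 : 0 < R := rr_pos P ⟨ht.1, ht.2.le⟩
  have hR1 : R ^ 2 < 1 := rr_sq_lt P htI
  set S := √(1 - R ^ 2) ^ m with hSdef
  have hS : 0 < S := pow_pos (sqrt_pos.2 (sub_pos.2 hR1)) _
  have hk := scal_pos P (m := m)
  set g' := (m:ℝ) * f t ^ (m - 1) * deriv f t with hg'
  have hgd : HasDerivAt (fun x => f x ^ m) g' t := hd.hasDerivAt.fun_pow m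
  have hbd : HasDerivAt (bb m f) (scal m f * g') t := hgd.const_mul (scal m f)
  have hRd := hasDerivAt_rr P (m := m) ht
  have hAd : HasDerivAt (aa m f) (-((m + 2) * R * bb m f t)) t := by
    have := (hasDerivAt_sqrt_pow (t := R) ⟨by linarith, rr_lt_one P htI⟩ m).comp t hRd
    refine this.congr_deriv ?_
    rw [← hRdef, ← hSdef]
    field_simp
  set d' := -((m + 2) * R * bb m f t) +
    ((1 * R + t * (bb m f t / S)) * bb m f t + t * R * (scal m f * g')) with hd'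
  have hDd : HasDerivAt (den m f) d' t := hAd.add (((hasDerivAt_id' t).mul hRd).mul hbd)
  have hden := den_pos P (m := m) htI
  set h' := ((bb m f t / S * bb m f t + R * (scal m f * g')) * den m f t -
    R * bb m f t * d') / den m f t ^ 2 with hh'
  have hHd : HasDerivAt (hh m f) h' t := (hRd.mul hbd).div hDd hden.ne'
  have h := (((hasDerivAt_id' t).mul hgd).add
    (((((hAd.mul hRd).mul hbd).mul hbd).mul
      ((hDd.mul hDd).inv (show den m f t * den m f t ≠ 0 from (mul_pos hden hden).ne'))).const_mul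
        (scal m f)⁻¹)).sub
    (hgd.mul ((hHd.const_mul 2).sub ((hasDerivAt_id' t).mul (hHd.mul hHd))))
  refine h.deriv.trans ?_
  simp only [Pi.mul_apply, Pi.sub_apply, Pi.inv_apply]
  have ha : aa m f t = S * (1 - R ^ 2) := by
    rw [aa, hSdef, ← hRdef, pow_add, sq_sqrt (by linarith)]
  have hden' : den m f t = S * (1 - R ^ 2) + t * R * bb m f t := by rw [den, ha]
  simp only [hh, invD, hh', hd', ← hRdef, ← hSdef]
  have hk0 := hk.ne'
  have hne := hden.ne'
  rw [ha]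
  field_simp
  rw [hden']
  simp only [bb, hg', ← pow_sub_one_mul hm (f t)]
  generalize f t ^ (m - 1) = G
  ring

/-- **The transport bound for `J`:** `∫ f^m / D² ≤ J Z`. -/
theorem jay_ge : ∫ t in (0:ℝ)..1, f t ^ m * invD m f t ^ 2 ≤
    jay m f * ∫ t in (0:ℝ)..1, f t ^ m := by
  have hZ := Z_pos P (m := m)
  set wq : ℝ → ℝ := fun t => (m:ℝ) * f t ^ (m - 1) * (f t - t * deriv f t) * (1 - pProf f t ^ 2)
    with hwq
  have hwi : IntervalIntegrable wq volume 0 1 := P.intWgt_mul hm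
    (aestronglyMeasurable_const.sub (P.measurable_pProf.pow 2)) (C := 1) fun s hs => by
      have := (P.bounds hs).2
      rw [abs_le]; constructor <;> nlinarith [this.1, this.2]
  set L : ℝ → ℝ := fun t => ((m:ℝ) + 1) * f t ^ m - wq t with hL
  have hLi : IntervalIntegrable L volume 0 1 := ((P.intPow m).const_mul _).sub hwi
  have e : jay m f * ∫ t in (0:ℝ)..1, f t ^ m = ∫ t in (0:ℝ)..1, L t := by
    rw [hL, intervalIntegral.integral_sub ((P.intPow m).const_mul _) hwi,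
      intervalIntegral.integral_const_mul, jay, sub_mul, div_mul_cancel₀ _ hZ.ne']
  rw [e]
  have hIi := intInvD P (m := m)
  -- on `[0,r]`, up to `f 0 ^ m (1 - r²) / r`
  have hr : ∀ r ∈ Ioo (0:ℝ) 1,
      -(f 0 ^ m * ((1 - r ^ 2) / r)) ≤ ∫ t in (0:ℝ)..r, (L t - f t ^ m * invD m f t ^ 2) := by
    intro r hr
    have hlp := lp_prim P (m := m) hr.1 hr.2
    have hsub : uIcc (0:ℝ) r ⊆ uIcc 0 1 := by
      rw [uIcc_of_le hr.1.le, uIcc_of_le zero_le_one]; exact Icc_subset_Icc le_rfl hr.2.le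
    have h1 : ∫ t in (0:ℝ)..r, deriv (prim m f) t ≤
        ∫ t in (0:ℝ)..r, (L t - f t ^ m * invD m f t ^ 2) := by
      refine intervalIntegral.integral_mono_ae_restrict hr.1.le (hlp.intDeriv hr.1.le)
        ((hLi.sub hIi).mono_set hsub) ?_
      rw [EventuallyLE, ae_restrict_iff' measurableSet_Icc]
      filter_upwards [P.ae_diff, Measure.ae_ne volume (0:ℝ)] with t htd h0 htm
      have ht : t ∈ Ioo (0:ℝ) 1 := ⟨lt_of_le_of_ne htm.1 (Ne.symm h0), htm.2.trans_lt hr.2⟩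
      rw [deriv_prim P hm ht (htd ht)]
      obtain ⟨hb, -⟩ := P.bounds ht
      have hf : 0 < f t := P.pos t ⟨ht.1.le, ht.2⟩
      have key : 0 ≤ (m:ℝ) * f t ^ (m - 1) * (f t - t * deriv f t) * (pProf f t - hh m f t) ^ 2 := by
        positivity
      have hp : (m:ℝ) * f t ^ (m - 1) * (f t - t * deriv f t) * pProf f t =
          -((m:ℝ) * f t ^ (m - 1) * deriv f t) := by
        rw [pProf]; field_simp
      simp only [hL, hwq]
      rw [← pow_sub_one_mul hm (f t)] at *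
      linear_combination key - 2 * hh m f t * hp
    rw [hlp.ftc hr.1.le] at h1
    refine le_trans ?_ h1
    have hrI : r ∈ Ico (0:ℝ) 1 := ⟨hr.1.le, hr.2⟩
    have h0 : prim m f 0 = 0 := by simp [prim, hh, rr_zero]
    rw [h0, sub_zero, prim]
    set h := hh m f r
    have h2 : 0 ≤ (scal m f)⁻¹ * (aa m f r * rr m f r * bb m f r * bb m f r *
        (den m f r * den m f r)⁻¹) := by
      have := scal_pos P (m := m)
      have := aa_pos P (m := m) hrI
      have := (rr_mem P (m := m) ⟨hr.1.le, hr.2.le⟩).1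
      have := bb_pos P (m := m) hrI
      have := den_pos P (m := m) hrI
      positivity
    have h3 : -((1 - r ^ 2) / r) ≤ r - (2 * h - r * (h * h)) := by
      rw [← neg_div, div_le_iff₀ hr.1]
      nlinarith [sq_nonneg (r * h - 1)]
    have hfr : 0 ≤ f r ^ m := pow_nonneg (P.pos r hrI).le _
    have hf0 : f r ^ m ≤ f 0 ^ m := pow_le_pow_left₀ (P.pos r hrI).le
      (P.anti (left_mem_Icc.2 zero_le_one) ⟨hr.1.le, hr.2.le⟩ hr.1.le) m
    have hnn : 0 ≤ (1 - r ^ 2) / r := div_nonneg (by nlinarith [hr.1, hr.2]) hr.1.le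
    nlinarith [mul_le_mul_of_nonneg_left h3 hfr, mul_le_mul_of_nonneg_right hf0 hnn]
  -- pass to the limit
  have hK := hLi.sub hIi
  have hc := intervalIntegral.continuousOn_primitive_interval' hK (left_mem_uIcc (a := (0:ℝ)) (b := 1))
  rw [uIcc_of_le zero_le_one] at hc
  have : (𝓝[<] (1:ℝ)).NeBot := inferInstance
  have t1 : Tendsto (fun r => ∫ t in (0:ℝ)..r, (L t - f t ^ m * invD m f t ^ 2)) (𝓝[<] 1)
      (𝓝 (∫ t in (0:ℝ)..1, (L t - f t ^ m * invD m f t ^ 2))) := by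
    refine ((hc 1 (right_mem_Icc.2 zero_le_one)).tendsto).mono_left ?_
    rw [nhdsWithin_le_iff]
    exact mem_of_superset (Ioo_mem_nhdsLT one_pos) Ioo_subset_Icc_self
  have t2 : Tendsto (fun r : ℝ => -(f 0 ^ m * ((1 - r ^ 2) / r))) (𝓝[<] 1) (𝓝 0) := by
    have hct : ContinuousAt (fun r : ℝ => -(f 0 ^ m * ((1 - r ^ 2) / r))) 1 := by
      fun_prop (disch := norm_num)
    simpa using hct.tendsto.mono_left nhdsWithin_le_nhds
  have := le_of_tendsto_of_tendsto t2 t1 (mem_of_superset (Ioo_mem_nhdsLT one_pos) hr)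
  rw [intervalIntegral.integral_sub hLi hIi] at this
  linarith

end transport

/-! ### The inverse transport, in the variable of the ball -/

/-- `rr` extended by the identity outside `[0,1]`. -/
noncomputable def rre (m : ℕ) (f : ℝ → ℝ) (t : ℝ) : ℝ :=
  rr m f (max 0 (min 1 t)) + (t - max 0 (min 1 t))

open Classical in
/-- The transport from the ball to the profile. -/
noncomputable def tt (m : ℕ) (f : ℝ → ℝ) : ℝ → ℝ :=
  if h : StrictMono (rre m f) ∧ Function.Surjective (rre m f) then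
    (StrictMono.orderIsoOfSurjective (rre m f) h.1 h.2).symm else id

/-- The derivative of `tt`. -/
noncomputable def stretch (m : ℕ) (f : ℝ → ℝ) (θ : ℝ) : ℝ :=
  √(1 - θ ^ 2) ^ m / bb m f (tt m f θ)

/-- `D = (1 - θ²) T' + T θ`. -/
noncomputable def dee (m : ℕ) (f : ℝ → ℝ) (θ : ℝ) : ℝ :=
  (1 - θ ^ 2) * stretch m f θ + tt m f θ * θ

section ball

variable {f : ℝ → ℝ} {m : ℕ} (P : HalfProf f) {t θ : ℝ}
include P

omit P in
theorem rre_eq (ht : t ∈ Icc (0:ℝ) 1) : rre m f t = rr m f t := by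
  rw [rre, min_eq_right ht.2, max_eq_right ht.1, sub_self, add_zero]

theorem rre_facts : StrictMono (rre m f) ∧ Continuous (rre m f) ∧
    Function.Surjective (rre m f) := by
  have hcl : ∀ t : ℝ, max 0 (min 1 t) ∈ Icc (0:ℝ) 1 := fun t =>
    ⟨le_max_left _ _, max_le zero_le_one (min_le_left _ _)⟩
  have hmono : StrictMono (rre m f) := by
    intro x y hxy
    have h1 : max 0 (min 1 x) ≤ max 0 (min 1 y) := max_le_max le_rfl (min_le_min le_rfl hxy.le)
    have h2 : x - max 0 (min 1 x) ≤ y - max 0 (min 1 y) := by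
      rcases max_cases 0 (min 1 x) with a | a <;> rcases min_cases 1 x with b | b <;>
        rcases max_cases 0 (min 1 y) with c | c <;> rcases min_cases 1 y with d | d <;>
        linarith
    rcases h1.lt_or_eq with h | h
    · exact add_lt_add_of_lt_of_le (rr_strictMono P (hcl x) (hcl y) h) h2
    · rw [rre, rre, h]; linarith
  have hcont : Continuous (rre m f) :=
    ((continuousOn_rr P).comp_continuous (by fun_prop) hcl).add (by fun_prop)
  refine ⟨hmono, hcont, fun y => ?_⟩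
  rcases lt_or_ge y 0 with h | h
  · exact ⟨y, by rw [rre, min_eq_right (by linarith), max_eq_left h.le, rr_zero]; ring⟩
  rcases lt_or_ge 1 y with h' | h'
  · exact ⟨y, by rw [rre, min_eq_left h'.le, max_eq_right zero_le_one, rr_one P]; ring⟩
  obtain ⟨x, -, hx⟩ := intermediate_value_Icc zero_le_one hcont.continuousOn
    (show y ∈ Icc (rre m f 0) (rre m f 1) by
      rw [rre_eq (left_mem_Icc.2 zero_le_one), rre_eq (right_mem_Icc.2 zero_le_one), rr_zero,
        rr_one P]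
      exact ⟨h, h'⟩)
  exact ⟨x, hx⟩

theorem tt_eq : tt m f = (StrictMono.orderIsoOfSurjective (rre m f) (rre_facts P).1
    (rre_facts P).2.2).symm := by
  rw [tt, dif_pos ⟨(rre_facts P).1, (rre_facts P).2.2⟩]

theorem rre_tt (θ : ℝ) : rre m f (tt m f θ) = θ := by
  rw [tt_eq P]; exact StrictMono.orderIsoOfSurjective_self_symm_apply _ _ _ θ

theorem tt_rre (t : ℝ) : tt m f (rre m f t) = t := by
  rw [tt_eq P]; exact StrictMono.orderIsoOfSurjective_symm_apply_self _ _ _ t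

theorem continuous_tt : Continuous (tt m f) := by
  rw [tt_eq P]; exact OrderIso.continuous _

theorem tt_strictMono : StrictMono (tt m f) := by
  rw [tt_eq P]; exact OrderIso.strictMono _

theorem tt_zero : tt m f 0 = 0 := by
  have := tt_rre P (m := m) 0
  rwa [rre_eq (left_mem_Icc.2 zero_le_one), rr_zero] at this

theorem tt_one : tt m f 1 = 1 := by
  have := tt_rre P (m := m) 1
  rwa [rre_eq (right_mem_Icc.2 zero_le_one), rr_one P] at this

theorem tt_mem (h : θ ∈ Ioo (0:ℝ) 1) : tt m f θ ∈ Ioo (0:ℝ) 1 :=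
  ⟨(tt_zero P (m := m)) ▸ tt_strictMono P h.1, (tt_one P (m := m)) ▸ tt_strictMono P h.2⟩

theorem tt_mem_Icc (h : θ ∈ Icc (0:ℝ) 1) : tt m f θ ∈ Icc (0:ℝ) 1 :=
  ⟨(tt_zero P (m := m)) ▸ (tt_strictMono P).monotone h.1,
    (tt_one P (m := m)) ▸ (tt_strictMono P).monotone h.2⟩

theorem rr_tt (h : θ ∈ Icc (0:ℝ) 1) : rr m f (tt m f θ) = θ := by
  rw [← rre_eq (tt_mem_Icc P h), rre_tt P]

theorem stretch_pos (h : θ ∈ Ioo (0:ℝ) 1) : 0 < stretch m f θ :=
  div_pos (pow_pos (sqrt_pos.2 (by nlinarith [h.1, h.2])) _)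
    (bb_pos P ⟨(tt_mem P h).1.le, (tt_mem P h).2⟩)

theorem hasDerivAt_tt (h : θ ∈ Ioo (0:ℝ) 1) : HasDerivAt (tt m f) (stretch m f θ) θ := by
  have hm' := tt_mem P (m := m) h
  have hev : rre m f =ᶠ[𝓝 (tt m f θ)] rr m f := by
    filter_upwards [Ioo_mem_nhds hm'.1 hm'.2] with x hx
    exact rre_eq ⟨hx.1.le, hx.2.le⟩
  have hd := (hasDerivAt_rr P (m := m) hm').congr_of_eventuallyEq hev
  rw [rr_tt P ⟨h.1.le, h.2.le⟩] at hd
  have hne : bb m f (tt m f θ) / √(1 - θ ^ 2) ^ m ≠ 0 :=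
    (div_pos (bb_pos P ⟨hm'.1.le, hm'.2⟩) (pow_pos (sqrt_pos.2 (by nlinarith [h.1, h.2])) _)).ne'
  have := HasDerivAt.of_local_left_inverse (continuous_tt P).continuousAt hd hne
    (.of_forall (rre_tt P))
  rwa [inv_div] at this

theorem intStretch : IntervalIntegrable (stretch m f) volume 0 1 := by
  rw [intervalIntegrable_iff_integrableOn_Ioc_of_le zero_le_one]
  exact intervalIntegral.integrableOn_deriv_of_nonneg (continuous_tt P).continuousOn
    (fun x hx => hasDerivAt_tt P hx) fun x hx => (stretch_pos P hx).le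

/-- Change of variables between the ball and the profile. -/
theorem change_var (F : ℝ → ℝ) :
    ∫ θ in (0:ℝ)..1, √(1 - θ ^ 2) ^ m * F θ =
      scal m f * ∫ t in (0:ℝ)..1, f t ^ m * F (rr m f t) := by
  rw [intervalIntegral.integral_of_le zero_le_one, intervalIntegral.integral_of_le zero_le_one,
    integral_Ioc_eq_integral_Ioo, integral_Ioc_eq_integral_Ioo, ← integral_const_mul]
  have himg : rr m f '' Ioo 0 1 = Ioo (0:ℝ) 1 := by
    ext θ
    constructor
    · rintro ⟨t, ht, rfl⟩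
      exact ⟨rr_pos P ⟨ht.1, ht.2.le⟩, rr_lt_one P ⟨ht.1.le, ht.2⟩⟩
    · exact fun h => ⟨tt m f θ, tt_mem P h, rr_tt P ⟨h.1.le, h.2.le⟩⟩
  conv_lhs => rw [← himg]
  rw [integral_image_eq_integral_abs_deriv_smul measurableSet_Ioo
    (fun t ht => (hasDerivAt_rr P ht).hasDerivWithinAt)
    ((rr_strictMono P).injOn.mono Ioo_subset_Icc_self)]
  refine setIntegral_congr_fun measurableSet_Ioo fun t ht => ?_
  have hs : 0 < √(1 - rr m f t ^ 2) ^ m :=
    pow_pos (sqrt_pos.2 (sub_pos.2 (rr_sq_lt P ⟨ht.1.le, ht.2⟩))) _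
  rw [smul_eq_mul, abs_of_pos (div_pos (bb_pos P ⟨ht.1.le, ht.2⟩) hs), bb]
  field_simp

/-- `1 / D²` in the two variables. -/
theorem invD_eq (ht : t ∈ Ioo (0:ℝ) 1) :
    f t ^ m * (dee m f (rr m f t) ^ 2)⁻¹ = f t ^ m * invD m f t ^ 2 := by
  have htI : t ∈ Ico (0:ℝ) 1 := ⟨ht.1.le, ht.2⟩
  have htt : tt m f (rr m f t) = t := by
    rw [← rre_eq ⟨ht.1.le, ht.2.le⟩, tt_rre P]
  have hb := (bb_pos P (m := m) htI).ne'
  have ha : aa m f t = √(1 - rr m f t ^ 2) ^ m * (1 - rr m f t ^ 2) := by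
    rw [aa, pow_add, sq_sqrt (sub_pos.2 (rr_sq_lt P htI)).le]
  have e : dee m f (rr m f t) = den m f t / bb m f t := by
    rw [dee, stretch, htt, den, ha]; field_simp
  simp only [e, invD]
  rw [← inv_pow, inv_div]

theorem power_key (hm : 2 ≤ m) (h : θ ∈ Ioo (0:ℝ) 1) :
    √(1 - θ ^ 2) ^ (m - 1) * stretch m f θ ^ (m:ℝ)⁻¹ =
      √(1 - θ ^ 2) ^ m * (scal m f ^ (m:ℝ)⁻¹ * f (tt m f θ))⁻¹ := by
  have hk := scal_pos P (m := m)
  set c := scal m f ^ (m:ℝ)⁻¹ with hc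
  have hc0 : 0 < c := rpow_pos_of_pos hk _
  have hcm : c ^ m = scal m f := rpow_inv_natCast_pow hk.le (by omega)
  have hf : 0 < f (tt m f θ) := P.pos _ ⟨(tt_mem P h).1.le, (tt_mem P h).2⟩
  rw [stretch, bb, ← hcm, ← mul_pow, ← div_pow,
    pow_rpow_inv_natCast (div_nonneg (sqrt_nonneg _) (mul_pos hc0 hf).le) (by omega),
    ← pow_sub_one_mul (show m ≠ 0 by omega) (√(1 - θ ^ 2))]
  ring

/-- Change of variables for integrability. -/
theorem change_var_integrable (F : ℝ → ℝ)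
    (h : IntervalIntegrable (fun t => f t ^ m * F (rr m f t)) volume 0 1) :
    IntervalIntegrable (fun θ => √(1 - θ ^ 2) ^ m * F θ) volume 0 1 := by
  have himg : rr m f '' Ioo 0 1 = Ioo (0:ℝ) 1 := by
    ext θ
    constructor
    · rintro ⟨t, ht, rfl⟩
      exact ⟨rr_pos P ⟨ht.1, ht.2.le⟩, rr_lt_one P ⟨ht.1.le, ht.2⟩⟩
    · exact fun h => ⟨tt m f θ, tt_mem P h, rr_tt P ⟨h.1.le, h.2.le⟩⟩
  rw [intervalIntegrable_iff_integrableOn_Ioo_of_le zero_le_one] at h ⊢
  rw [← himg, integrableOn_image_iff_integrableOn_abs_deriv_smul measurableSet_Ioo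
    (fun t ht => (hasDerivAt_rr P ht).hasDerivWithinAt)
    ((rr_strictMono P).injOn.mono Ioo_subset_Icc_self)]
  refine IntegrableOn.congr_fun (h.const_mul (scal m f)) (fun t ht => ?_) measurableSet_Ioo
  have hs : 0 < √(1 - rr m f t ^ 2) ^ m :=
    pow_pos (sqrt_pos.2 (sub_pos.2 (rr_sq_lt P ⟨ht.1.le, ht.2⟩))) _
  rw [smul_eq_mul, abs_of_pos (div_pos (bb_pos P ⟨ht.1.le, ht.2⟩) hs), bb]
  field_simp

/-- `s^m / D²` is integrable. -/
theorem intBall : IntervalIntegrable (fun θ => √(1 - θ ^ 2) ^ m / dee m f θ ^ 2) volume 0 1 := by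
  simp only [div_eq_mul_inv]
  refine change_var_integrable P (fun θ => (dee m f θ ^ 2)⁻¹) ((intInvD P (m := m)).congr_ae ?_)
  rw [EventuallyEq, ae_restrict_iff' measurableSet_uIoc]
  filter_upwards [Measure.ae_ne volume (1:ℝ)] with t hne hmem
  rw [uIoc_of_le zero_le_one] at hmem
  exact (invD_eq P ⟨hmem.1, lt_of_le_of_ne hmem.2 hne⟩).symm

/-- `s^(m-1) z^(1/m)` is integrable. -/
theorem intPower (hm : 2 ≤ m) : IntervalIntegrable
    (fun θ => √(1 - θ ^ 2) ^ (m - 1) * stretch m f θ ^ (m:ℝ)⁻¹) volume 0 1 := by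
  have hk := scal_pos P (m := m)
  have h := change_var_integrable P (m := m)
    (fun θ => (scal m f ^ (m:ℝ)⁻¹ * f (tt m f θ))⁻¹)
    (((P.intPow (m - 1)).const_mul (scal m f ^ (m:ℝ)⁻¹)⁻¹).congr_ae ?_)
  · refine h.congr_ae ?_
    rw [EventuallyEq, ae_restrict_iff' measurableSet_uIoc]
    filter_upwards [Measure.ae_ne volume (1:ℝ)] with θ hne hmem
    rw [uIoc_of_le zero_le_one] at hmem
    exact (power_key P hm ⟨hmem.1, lt_of_le_of_ne hmem.2 hne⟩).symm
  · rw [EventuallyEq, ae_restrict_iff' measurableSet_uIoc]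
    filter_upwards [Measure.ae_ne volume (1:ℝ)] with t hne hmem
    rw [uIoc_of_le zero_le_one] at hmem
    have ht : t ∈ Ioo (0:ℝ) 1 := ⟨hmem.1, lt_of_le_of_ne hmem.2 hne⟩
    have hf : f t ≠ 0 := (P.pos t ⟨ht.1.le, ht.2⟩).ne'
    have hc := (rpow_pos_of_pos hk ((m:ℝ)⁻¹)).ne'
    show _ = f t ^ m * _
    rw [show tt m f (rr m f t) = t by rw [← rre_eq ⟨ht.1.le, ht.2.le⟩, tt_rre P],
      ← pow_sub_one_mul (show m ≠ 0 by omega) (f t)]
    field_simp

/-- **The transport bound for `J`, on the ball:** `∫ s^m / D² ≤ J Z₀`. -/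
theorem jay_ge_ball (hm : m ≠ 0) :
    ∫ θ in (0:ℝ)..1, √(1 - θ ^ 2) ^ m / dee m f θ ^ 2 ≤ jay m f * Univ.ballInt m := by
  simp only [div_eq_mul_inv, change_var P fun θ => (dee m f θ ^ 2)⁻¹]
  rw [intervalIntegral.integral_of_le zero_le_one, integral_Ioc_eq_integral_Ioo,
    setIntegral_congr_fun measurableSet_Ioo (g := fun t => f t ^ m * invD m f t ^ 2)
      fun t ht => ?_, ← integral_Ioc_eq_integral_Ioo, ← intervalIntegral.integral_of_le zero_le_one]
  · refine (mul_le_mul_of_nonneg_left (jay_ge P hm) (scal_pos P).le).trans_eq ?_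
    have := (Z_pos P (m := m)).ne'
    rw [scal]; field_simp
  · exact invD_eq P ht

/-- The identity for `P = ∫ f^(m-1)` in transport variables. -/
theorem power_identity (hm : 2 ≤ m) :
    (∫ θ in (0:ℝ)..1, √(1 - θ ^ 2) ^ (m - 1) * stretch m f θ ^ (m:ℝ)⁻¹) ^ m =
      scal m f ^ (m - 1) * (∫ t in (0:ℝ)..1, f t ^ (m - 1)) ^ m := by
  have hk := scal_pos P (m := m)
  set c := scal m f ^ (m:ℝ)⁻¹ with hc
  have hc0 : 0 < c := rpow_pos_of_pos hk _
  have hcm : c ^ m = scal m f := rpow_inv_natCast_pow hk.le (by omega)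
  have key : ∀ θ ∈ Ioo (0:ℝ) 1, √(1 - θ ^ 2) ^ (m - 1) * stretch m f θ ^ (m:ℝ)⁻¹ =
      √(1 - θ ^ 2) ^ m * (c * f (tt m f θ))⁻¹ := fun θ h => power_key P hm h
  have e : ∫ θ in (0:ℝ)..1, √(1 - θ ^ 2) ^ (m - 1) * stretch m f θ ^ (m:ℝ)⁻¹ =
      scal m f * c⁻¹ * ∫ t in (0:ℝ)..1, f t ^ (m - 1) := by
    rw [integral_congr_Ioo' key, change_var P fun θ => (c * f (tt m f θ))⁻¹, mul_assoc _ c⁻¹,
      ← intervalIntegral.integral_const_mul c⁻¹]
    congr 1
    refine integral_congr_Ioo' fun t ht => ?_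
    rw [show tt m f (rr m f t) = t by rw [← rre_eq ⟨ht.1.le, ht.2.le⟩, tt_rre P],
      ← pow_sub_one_mul (show m ≠ 0 by omega) (f t)]
    have hf : f t ≠ 0 := (P.pos t ⟨ht.1.le, ht.2⟩).ne'
    field_simp
  rw [e, mul_pow, mul_pow, inv_pow, hcm, ← pow_sub_one_mul (show m ≠ 0 by omega) (scal m f)]
  field_simp
where
  integral_congr_Ioo' {g g' : ℝ → ℝ} (h : ∀ t ∈ Ioo (0:ℝ) 1, g t = g' t) :
      ∫ t in (0:ℝ)..1, g t = ∫ t in (0:ℝ)..1, g' t := by
    rw [intervalIntegral.integral_of_le zero_le_one, intervalIntegral.integral_of_le zero_le_one,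
      integral_Ioc_eq_integral_Ioo, integral_Ioc_eq_integral_Ioo]
    exact setIntegral_congr_fun measurableSet_Ioo h

/-- The profile inequality is `E z^(1/m) ≥ 1` in transport variables. -/
theorem profile_ineq_iff (hm : 2 ≤ m) :
    Univ.ballInt (m - 1) ^ m * (∫ t in (0:ℝ)..1, f t ^ m) ^ (m - 1) ≤
        (∫ t in (0:ℝ)..1, f t ^ (m - 1)) ^ m * Univ.ballInt m ^ (m - 1) ↔
      Univ.ballInt (m - 1) ≤
        ∫ θ in (0:ℝ)..1, √(1 - θ ^ 2) ^ (m - 1) * stretch m f θ ^ (m:ℝ)⁻¹ := by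
  have hI : 0 ≤ ∫ θ in (0:ℝ)..1, √(1 - θ ^ 2) ^ (m - 1) * stretch m f θ ^ (m:ℝ)⁻¹ := by
    rw [intervalIntegral.integral_of_le zero_le_one, integral_Ioc_eq_integral_Ioo]
    exact setIntegral_nonneg measurableSet_Ioo fun θ h =>
      mul_nonneg (pow_nonneg (sqrt_nonneg _) _) (rpow_nonneg (stretch_pos P h).le _)
  rw [← pow_le_pow_iff_left₀ (Univ.OneD.ballInt_pos _).le hI (show m ≠ 0 by omega),
    power_identity P hm, scal, div_pow, div_mul_eq_mul_div,
    le_div_iff₀ (pow_pos (Z_pos P) _), mul_comm ((∫ t in (0:ℝ)..1, f t ^ (m - 1)) ^ m)]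

/-- The null identity, general form. -/
theorem null_identity_gen {C C₁ C₂ : ℝ → ℝ → ℝ} {a b : ℝ}
    (hC : ∀ θ ∈ Ioo (0:ℝ) 1, HasFDerivAt (fun p : ℝ × ℝ => C p.1 p.2)
      (C₁ θ (tt m f θ) • ContinuousLinearMap.fst ℝ ℝ ℝ +
        C₂ θ (tt m f θ) • ContinuousLinearMap.snd ℝ ℝ ℝ) (θ, tt m f θ))
    (hi : IntervalIntegrable (fun θ => √(1 - θ ^ 2) ^ m *
      ((m:ℝ) * θ * C θ (tt m f θ) / (1 - θ ^ 2) - C₁ θ (tt m f θ) -
        stretch m f θ * C₂ θ (tt m f θ))) volume 0 1)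
    (ha : Tendsto (fun θ => √(1 - θ ^ 2) ^ m * C θ (tt m f θ)) (𝓝[>] 0) (𝓝 a))
    (hb : Tendsto (fun θ => √(1 - θ ^ 2) ^ m * C θ (tt m f θ)) (𝓝[<] 1) (𝓝 b)) :
    ∫ θ in (0:ℝ)..1, √(1 - θ ^ 2) ^ m * ((m:ℝ) * θ * C θ (tt m f θ) / (1 - θ ^ 2) -
      C₁ θ (tt m f θ) - stretch m f θ * C₂ θ (tt m f θ)) = a - b := by
  have hd : ∀ θ ∈ Ioo (0:ℝ) 1, HasDerivAt (fun x => -(√(1 - x ^ 2) ^ m * C x (tt m f x)))
      (√(1 - θ ^ 2) ^ m * ((m:ℝ) * θ * C θ (tt m f θ) / (1 - θ ^ 2) - C₁ θ (tt m f θ) -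
        stretch m f θ * C₂ θ (tt m f θ))) θ := by
    intro θ h
    have h1 : HasDerivAt (fun x => C x (tt m f x))
        (C₁ θ (tt m f θ) + stretch m f θ * C₂ θ (tt m f θ)) θ := by
      have := (hC θ h).comp_hasDerivAt θ ((hasDerivAt_id' θ).prodMk (hasDerivAt_tt P h))
      refine this.congr_deriv ?_
      simp [mul_comm]
    have hpos : (0:ℝ) < 1 - θ ^ 2 := by nlinarith [h.1, h.2]
    have h2 : HasDerivAt (fun x : ℝ => √(1 - x ^ 2) ^ m)
        (-((m:ℝ) * θ * √(1 - θ ^ 2) ^ m / (1 - θ ^ 2))) θ := by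
      refine ((((hasDerivAt_pow 2 θ).const_sub 1).sqrt hpos.ne').fun_pow m).congr_deriv ?_
      have hs := sqrt_pos.2 hpos
      rcases Nat.eq_zero_or_pos m with h0 | h0
      · simp [h0]
      · rw [← pow_sub_one_mul h0.ne' (√(1 - θ ^ 2))]
        field_simp
        rw [sq_sqrt hpos.le]
        ring
    refine ((h2.mul h1).neg).congr_deriv ?_
    ring
  rw [intervalIntegral.integral_eq_sub_of_hasDerivAt_of_tendsto zero_lt_one hd hi ha.neg hb.neg]
  ring

/-- The null identity for a `C¹` function: `E[m θ C / (1-θ²) - C_θ - z C_τ] = C (0,0) / Z₀`. -/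
theorem null_identity (hm : 2 ≤ m) {C C₁ C₂ : ℝ → ℝ → ℝ}
    (hC : ∀ θ τ, HasFDerivAt (fun p : ℝ × ℝ => C p.1 p.2)
      (C₁ θ τ • ContinuousLinearMap.fst ℝ ℝ ℝ + C₂ θ τ • ContinuousLinearMap.snd ℝ ℝ ℝ) (θ, τ))
    (h1 : Continuous fun p : ℝ × ℝ => C₁ p.1 p.2) (h2 : Continuous fun p : ℝ × ℝ => C₂ p.1 p.2) :
    IntervalIntegrable (fun θ => √(1 - θ ^ 2) ^ m *
      ((m:ℝ) * θ * C θ (tt m f θ) / (1 - θ ^ 2) - C₁ θ (tt m f θ) -
        stretch m f θ * C₂ θ (tt m f θ))) volume 0 1 ∧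
    ∫ θ in (0:ℝ)..1, √(1 - θ ^ 2) ^ m * ((m:ℝ) * θ * C θ (tt m f θ) / (1 - θ ^ 2) -
      C₁ θ (tt m f θ) - stretch m f θ * C₂ θ (tt m f θ)) = C 0 0 := by
  have hT := continuous_tt P (m := m)
  have hCc : Continuous fun p : ℝ × ℝ => C p.1 p.2 :=
    continuous_iff_continuousAt.2 fun p => (hC p.1 p.2).continuousAt
  have c0 : Continuous fun θ => C θ (tt m f θ) := hCc.comp (continuous_id.prodMk hT)
  have c1 : Continuous fun θ => C₁ θ (tt m f θ) := h1.comp (continuous_id.prodMk hT)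
  have c2 : Continuous fun θ => C₂ θ (tt m f θ) := h2.comp (continuous_id.prodMk hT)
  have hi : IntervalIntegrable (fun θ => √(1 - θ ^ 2) ^ m *
      ((m:ℝ) * θ * C θ (tt m f θ) / (1 - θ ^ 2) - C₁ θ (tt m f θ) -
        stretch m f θ * C₂ θ (tt m f θ))) volume 0 1 := by
    have hA : Continuous fun θ : ℝ => (m:ℝ) * θ * √(1 - θ ^ 2) ^ (m - 2) * C θ (tt m f θ) -
        √(1 - θ ^ 2) ^ m * C₁ θ (tt m f θ) := by fun_prop
    have hB : ContinuousOn (fun θ : ℝ => √(1 - θ ^ 2) ^ m * C₂ θ (tt m f θ)) (uIcc 0 1) := by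
      fun_prop
    refine IntervalIntegrable.congr_ae ((hA.intervalIntegrable 0 1).sub
      ((intStretch P (m := m)).continuousOn_mul hB)) ?_
    rw [EventuallyEq, ae_restrict_iff' measurableSet_uIoc]
    filter_upwards [Measure.ae_ne volume (1:ℝ)] with θ hne hmem
    rw [uIoc_of_le zero_le_one] at hmem
    have hpos : (0:ℝ) < 1 - θ ^ 2 := by
      nlinarith [hmem.1, lt_of_le_of_ne hmem.2 hne]
    have e : √(1 - θ ^ 2) ^ m = √(1 - θ ^ 2) ^ (m - 2) * (1 - θ ^ 2) := by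
      conv_lhs => rw [← Nat.sub_add_cancel hm, pow_add, sq_sqrt hpos.le]
    rw [e]
    field_simp
  refine ⟨hi, ?_⟩
  have c : Continuous fun θ => √(1 - θ ^ 2) ^ m * C θ (tt m f θ) := by fun_prop
  rw [null_identity_gen P (fun θ _ => hC _ _) hi ((c.tendsto 0).mono_left nhdsWithin_le_nhds)
    ((c.tendsto 1).mono_left nhdsWithin_le_nhds)]
  simp [tt_zero P, show m ≠ 0 by omega]

end ball

/-! ### The tangent bound for the remainder -/

/-- **The tangent bound:** `n E[φ_r p - φ_r t] ≥ (1-c) S + c - c U`, times `Z`. -/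
theorem penR_ge {f : ℝ → ℝ} {m : ℕ} (P : HalfProf f) (hm : m ≠ 0) :
    quad m * ((m:ℝ) + 3) * (∫ t in (0:ℝ)..1, t ^ 2 * f t ^ m) +
        cst m * (∫ t in (0:ℝ)..1, f t ^ m) -
        cst m * (∫ t in (0:ℝ)..1, f t ^ m / √(1 - t ^ 2)) ≤
      ((m:ℝ) + 1) * (∫ t in (0:ℝ)..1, f t ^ m) * penMean m (phiR m) f := by
  have hZ := Z_pos P (m := m)
  set wd : ℝ → ℝ := fun t => (m:ℝ) * f t ^ (m - 1) * (f t - t * deriv f t) *
    (phiR m (pProf f t) - phiR m t) with hwd
  have hcR : ContinuousOn (phiR m) (Icc (-1) 1) := continuousOn_phi.sub (by fun_prop)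
  obtain ⟨Mb, hMb⟩ := isCompact_Icc.exists_bound_of_continuousOn hcR
  have hmeas : AEStronglyMeasurable (fun s => phiR m (pProf f s) - phiR m s)
      (volume.restrict (Ioo (0:ℝ) 1)) := by
    have hc : Continuous fun a : ℝ => phiR m (max (-1) (min 1 a)) :=
      hcR.comp_continuous (by fun_prop) fun a =>
        ⟨le_max_left _ _, max_le (by norm_num) (min_le_left _ _)⟩
    refine ((hc.comp_aestronglyMeasurable P.measurable_pProf).sub
      hc.aestronglyMeasurable).congr ?_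
    filter_upwards [ae_restrict_mem measurableSet_Ioo] with s hs
    obtain ⟨-, h1, h2⟩ := P.bounds hs
    simp only [Pi.sub_apply]
    rw [min_eq_right h2, max_eq_right h1, min_eq_right hs.2.le, max_eq_right (by linarith [hs.1])]
  have hwi : IntervalIntegrable wd volume 0 1 := P.intWgt_mul hm hmeas (C := Mb + Mb) fun s hs =>
    (abs_sub _ _).trans (add_le_add (hMb _ (P.bounds hs).2)
      (hMb s ⟨by linarith [hs.1], hs.2.le⟩))
  have e : ((m:ℝ) + 1) * (∫ t in (0:ℝ)..1, f t ^ m) * penMean m (phiR m) f =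
      ∫ t in (0:ℝ)..1, wd t := by
    rw [penMean, hwd]
    simp only [mul_assoc, intervalIntegral.integral_const_mul]
    field_simp
  rw [e]
  -- the integrands
  set g : ℝ → ℝ := fun t => f t ^ m with hg
  set gd : ℝ → ℝ := fun t => (m:ℝ) * f t ^ (m - 1) * deriv f t with hgd
  set V : ℝ → ℝ := fun t => -(flux m t * g t) + quad m * (t * (1 - t ^ 2) * g t) with hV
  set rhs : ℝ → ℝ := fun t => quad m * ((m:ℝ) + 3) * (t ^ 2 * g t) +
    cst m * g t - cst m * (g t / √(1 - t ^ 2)) with hrhs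
  have hgi : IntervalIntegrable g volume 0 1 := P.intPow m
  have hgu : IntervalIntegrable (fun t => g t / √(1 - t ^ 2)) volume 0 1 := by
    have h1 : IntervalIntegrable (fun t : ℝ => 1 / √(1 - t ^ 2)) volume 0 1 :=
      intervalIntegrable_invSqrt.mono_set (uIcc_subset_uIcc (mem_uIcc.2 (.inl ⟨by norm_num,
        by norm_num⟩)) right_mem_uIcc)
    rw [intervalIntegrable_iff_integrableOn_Ioo_of_le zero_le_one] at h1 ⊢
    refine IntegrableOn.congr_fun (h1.bdd_mul (c := f 0 ^ m) (f := g)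
      (((P.continuousOn.pow m).mono Ioo_subset_Ico_self).aestronglyMeasurable measurableSet_Ioo)
      ((ae_restrict_iff' measurableSet_Ioo).2 (.of_forall fun s hs => ?_)))
      (fun s _ => by simp only [mul_one_div]) measurableSet_Ioo
    rw [Real.norm_eq_abs, abs_of_nonneg (pow_nonneg (P.nonneg s ⟨hs.1.le, hs.2.le⟩) m)]
    exact pow_le_pow_left₀ (P.nonneg s ⟨hs.1.le, hs.2.le⟩)
      (P.anti (left_mem_Icc.2 zero_le_one) ⟨hs.1.le, hs.2.le⟩ hs.1.le) m
  have hsq : IntervalIntegrable (fun t => t ^ 2 * g t) volume 0 1 :=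
    hgi.continuousOn_mul (by fun_prop)
  have hri : IntervalIntegrable rhs volume 0 1 :=
    ((hsq.const_mul _).add (hgi.const_mul _)).sub (hgu.const_mul _)
  have hrhs' : ∫ t in (0:ℝ)..1, rhs t = quad m * ((m:ℝ) + 3) * (∫ t in (0:ℝ)..1, t ^ 2 * g t) +
      cst m * (∫ t in (0:ℝ)..1, g t) - cst m * ∫ t in (0:ℝ)..1, g t / √(1 - t ^ 2) := by
    rw [hrhs, intervalIntegral.integral_sub ((hsq.const_mul _).add (hgi.const_mul _))
      (hgu.const_mul _), intervalIntegral.integral_add (hsq.const_mul _) (hgi.const_mul _),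
      intervalIntegral.integral_const_mul, intervalIntegral.integral_const_mul,
      intervalIntegral.integral_const_mul]
  rw [← hrhs']
  -- `∫ (wd - rhs) ≥ V r - V 0` on `[0,r]`
  have hr : ∀ r ∈ Ioo (0:ℝ) 1, V r ≤ ∫ t in (0:ℝ)..r, (wd t - rhs t) := by
    intro r hr
    have hIr : ∀ x ∈ Icc 0 r, x ∈ Ioo (-1:ℝ) 1 := fun x hx =>
      ⟨by linarith [hx.1], hx.2.trans_lt hr.2⟩
    have hflux : Lp r (flux m) :=
      Lp.comp (φ := flux m) (φ' := fun x => (m:ℝ) * x * psi m x + (1 - cst m / √(1 - x ^ 2)))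
        (lo := 0) (hi := r) Lp.ident (fun x hx => hasDerivAt_flux (hIr x hx))
        (fun x hx => by
          have h1 : (0:ℝ) < 1 - x ^ 2 := by nlinarith [(hIr x hx).1, (hIr x hx).2]
          have hps : ContinuousAt (psi m) x := (hasDerivAt_psi (hIr x hx)).continuousAt
          exact ((ContinuousAt.mul (by fun_prop) hps).add (continuousAt_const.sub
            (continuousAt_const.div (by fun_prop) (sqrt_pos.2 h1).ne'))).continuousWithinAt)
        fun _ hx => hx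
    have hG : Lp r g := (P.lp hr.2).pow m
    have hlp : Lp r V := by
      have := ((hflux.mul hG).const_mul (-1)).add
        (((Lp.ident.mul ((Univ.OneD.Lp.const 1).sub (Lp.ident.pow 2))).mul hG).const_mul (quad m))
      simpa [hV, neg_one_mul] using this
    have hsub : uIcc (0:ℝ) r ⊆ uIcc 0 1 := by
      rw [uIcc_of_le hr.1.le, uIcc_of_le zero_le_one]; exact Icc_subset_Icc le_rfl hr.2.le
    have h1 : ∫ t in (0:ℝ)..r, deriv V t ≤ ∫ t in (0:ℝ)..r, (wd t - rhs t) := by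
      refine intervalIntegral.integral_mono_ae_restrict hr.1.le (hlp.intDeriv hr.1.le)
        ((hwi.sub hri).mono_set hsub) ?_
      rw [EventuallyLE, ae_restrict_iff' measurableSet_Icc]
      filter_upwards [P.ae_diff, Measure.ae_ne volume (0:ℝ)] with t htd h0 htm
      have ht : t ∈ Ioo (0:ℝ) 1 := ⟨lt_of_le_of_ne htm.1 (Ne.symm h0), htm.2.trans_lt hr.2⟩
      have hgd' : HasDerivAt g (gd t) t := (htd ht).hasDerivAt.fun_pow m
      have hVd : HasDerivAt V (-((((m:ℝ) * t * psi m t + (1 - cst m / √(1 - t ^ 2))) * g t +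
          flux m t * gd t)) + quad m * ((1 - 3 * t ^ 2) * g t + t * (1 - t ^ 2) * gd t)) t := by
        refine (((hasDerivAt_flux (hIr t htm)).mul hgd').neg.add
          ((((hasDerivAt_id' t).mul ((hasDerivAt_pow 2 t).const_sub 1)).mul hgd').const_mul
            (quad m))).congr_deriv ?_
        simp only [Pi.mul_apply]
        push_cast
        ring
      rw [hVd.deriv]
      obtain ⟨hb, hp⟩ := P.bounds ht
      have hw0 : 0 ≤ (m:ℝ) * f t ^ (m - 1) * (f t - t * deriv f t) := by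
        have := P.pos t ⟨ht.1.le, ht.2⟩
        positivity
      have htan := mul_le_mul_of_nonneg_left
        (le_sub_iff_add_le'.2 (phiR_tangent (m := m) (hIr t htm) hp)) hw0
      refine le_trans (le_of_eq ?_) (sub_le_sub_right htan _)
      have hmul : (m:ℝ) * f t ^ (m - 1) * (f t - t * deriv f t) * pProf f t = -gd t := by
        rw [pProf, hgd]; field_simp
      have hgg : g t = f t ^ (m - 1) * f t := (pow_sub_one_mul hm (f t)).symm
      simp only [hrhs, psiR, flux, hgd, quad] at hmul ⊢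
      rw [hgg]
      linear_combination -(psi m t - (1 - cst m) * t) * hmul
    rw [hlp.ftc hr.1.le] at h1
    have h0 : V 0 = 0 := by simp [hV, flux, psi_zero]
    rwa [h0, sub_zero] at h1
  have hK := hwi.sub hri
  have hc := intervalIntegral.continuousOn_primitive_interval' hK (left_mem_uIcc (a := (0:ℝ)) (b := 1))
  rw [uIcc_of_le zero_le_one] at hc
  have : (𝓝[<] (1:ℝ)).NeBot := inferInstance
  have t1 : Tendsto (fun r => ∫ t in (0:ℝ)..r, (wd t - rhs t)) (𝓝[<] 1)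
      (𝓝 (∫ t in (0:ℝ)..1, (wd t - rhs t))) := by
    refine ((hc 1 (right_mem_Icc.2 zero_le_one)).tendsto).mono_left ?_
    rw [nhdsWithin_le_iff]
    exact mem_of_superset (Ioo_mem_nhdsLT one_pos) Ioo_subset_Icc_self
  have t2 : Tendsto V (𝓝[<] 1) (𝓝 0) := by
    have hmem : Ioo (0:ℝ) 1 ∈ 𝓝[<] (1:ℝ) := Ioo_mem_nhdsLT one_pos
    have hfl : Tendsto (flux m) (𝓝[<] 1) (𝓝 0) := by
      have h := (continuousOn_flux (m := m) 1 (right_mem_Icc.2 (by norm_num))).tendsto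
      rw [show flux m 1 = 0 by simp [flux]] at h
      refine h.mono_left ?_
      rw [nhdsWithin_le_iff]
      exact mem_of_superset hmem fun x hx => ⟨by linarith [hx.1], hx.2.le⟩
    have hq : Tendsto (fun x : ℝ => |flux m x| + |quad m| * |x * (1 - x ^ 2)|) (𝓝[<] 1) (𝓝 0) := by
      have h2 : Tendsto (fun x : ℝ => |quad m| * |x * (1 - x ^ 2)|) (𝓝[<] 1) (𝓝 0) := by
        simpa using ((show Continuous fun x : ℝ => |quad m| * |x * (1 - x ^ 2)| by fun_prop).tendsto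
          1).mono_left nhdsWithin_le_nhds
      simpa using hfl.abs.add h2
    have hq' : Tendsto (fun x : ℝ => f 0 ^ m * (|flux m x| + |quad m| * |x * (1 - x ^ 2)|))
        (𝓝[<] 1) (𝓝 0) := by
      have := hq.const_mul (f 0 ^ m)
      rwa [mul_zero] at this
    refine squeeze_zero_norm' ?_ hq'
    filter_upwards [hmem] with x hx
    have hgn : 0 ≤ g x := pow_nonneg (P.nonneg x ⟨hx.1.le, hx.2.le⟩) m
    have hgle : g x ≤ f 0 ^ m := pow_le_pow_left₀ (P.nonneg x ⟨hx.1.le, hx.2.le⟩)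
      (P.anti (left_mem_Icc.2 zero_le_one) ⟨hx.1.le, hx.2.le⟩ hx.1.le) m
    rw [Real.norm_eq_abs, hV]
    calc |-(flux m x * g x) + quad m * (x * (1 - x ^ 2) * g x)|
        ≤ |flux m x| * g x + |quad m| * (|x * (1 - x ^ 2)| * g x) := by
          refine (abs_add_le _ _).trans (le_of_eq ?_)
          rw [abs_neg, abs_mul (flux m x), abs_mul (quad m), abs_mul (x * (1 - x ^ 2)), abs_of_nonneg hgn]
      _ = g x * (|flux m x| + |quad m| * |x * (1 - x ^ 2)|) := by ring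
      _ ≤ _ := mul_le_mul_of_nonneg_right hgle (by positivity)
  have := le_of_tendsto_of_tendsto t2 t1 (mem_of_superset (Ioo_mem_nhdsLT one_pos) hr)
  rw [intervalIntegral.integral_sub hwi hri] at this
  linarith

end Vale.Agent.P237.AllN
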