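import Vale.Agent.P237.AllN.Mix
import Vale.Agent.P237.AllN.Transport

/-!
# P237, all dimensions: assembly of the profile lemma in inverse-gauge variables

With `f 0 = 1`, `X = Z / Z₀ - 1`, `j = (1 + X) J` and
`L = X - m / (m - 1) (P / P₀ - 1)`, suppose
`(1 + X) (n E[φ_r p - φ_r t] + b (J - 1)) ≥ L + G`.
If `Λ = K - 1/J ≤ 0` this gives `L + G ≤ b (j - 1 - X)² / j`. So a bound
`b (j - 1 - X)² / j < L + G` away from the ball, on profiles violating the profile inequality,
gives `LemmaMix`. Under that violation `L ≥ X - (m/q) ((1+X)^(q/m) - 1) ≥ 0`.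
-/

open MeasureTheory Set Real Filter Topology
open Vale.Agent.P237.Univ.OneD (Lp)

namespace Vale.Agent.P237.AllN.GaugeBall

variable {m : ℕ} {f : ℝ → ℝ}

/-- `Z / Z₀`. -/
noncomputable def volRatio (m : ℕ) (f : ℝ → ℝ) : ℝ :=
  (∫ t in (0:ℝ)..1, f t ^ m) / Univ.ballInt m

/-- `P / P₀`. -/
noncomputable def secRatio (m : ℕ) (f : ℝ → ℝ) : ℝ :=
  (∫ t in (0:ℝ)..1, f t ^ (m - 1)) / Univ.ballInt (m - 1)

/-- The linear gain `L = X - m / (m - 1) (P / P₀ - 1)`. -/
noncomputable def linGain (m : ℕ) (f : ℝ → ℝ) : ℝ :=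
  volRatio m f - 1 - (m:ℝ) / ((m:ℝ) - 1) * (secRatio m f - 1)

/-- The correction `b (j - 1 - X)² / j`, `j = (1 + X) J`. -/
noncomputable def corr (m : ℕ) (f : ℝ → ℝ) : ℝ :=
  quad m * (volRatio m f * jay m f - volRatio m f) ^ 2 / (volRatio m f * jay m f)

/-- The profile inequality in the normalised variables: `(P/P₀)^m ≥ (Z/Z₀)^(m-1)`. -/
theorem ineq_iff :
    Univ.ballInt (m - 1) ^ m * (∫ t in (0 : ℝ)..1, f t ^ m) ^ (m - 1) ≤
        (∫ t in (0 : ℝ)..1, f t ^ (m - 1)) ^ m * Univ.ballInt m ^ (m - 1) ↔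
      volRatio m f ^ (m - 1) ≤ secRatio m f ^ m := by
  have h1 := Univ.OneD.ballInt_pos m
  have h2 := Univ.OneD.ballInt_pos (m - 1)
  rw [volRatio, secRatio, div_pow, div_pow, div_le_div_iff₀ (by positivity) (by positivity),
    mul_comm (Univ.ballInt (m - 1) ^ m)]

theorem eq_iff :
    Univ.ballInt (m - 1) ^ m * (∫ t in (0 : ℝ)..1, f t ^ m) ^ (m - 1) =
        (∫ t in (0 : ℝ)..1, f t ^ (m - 1)) ^ m * Univ.ballInt m ^ (m - 1) ↔
      volRatio m f ^ (m - 1) = secRatio m f ^ m := by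
  have h1 := Univ.OneD.ballInt_pos m
  have h2 := Univ.OneD.ballInt_pos (m - 1)
  rw [volRatio, secRatio, div_pow, div_pow, div_eq_div_iff (by positivity) (by positivity),
    mul_comm (Univ.ballInt (m - 1) ^ m)]

theorem volRatio_pos (P : HalfProf f) : 0 < volRatio m f :=
  div_pos (Z_pos P) (Univ.OneD.ballInt_pos m)

theorem secRatio_pos (P : HalfProf f) : 0 < secRatio m f :=
  div_pos (Z_pos P) (Univ.OneD.ballInt_pos _)

/-- Under a reversed profile inequality, `L ≥ X - (m/q) ((1+X)^(q/m) - 1)`. -/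
theorem linGain_ge (P : HalfProf f) (hm : 2 ≤ m)
    (hN : secRatio m f ^ m ≤ volRatio m f ^ (m - 1)) :
    volRatio m f - 1 - (m:ℝ) / ((m:ℝ) - 1) * (volRatio m f ^ (((m:ℝ) - 1) / m) - 1) ≤
      linGain m f := by
  have hv := volRatio_pos P (m := m)
  have hm0 : (0:ℝ) < m := by exact_mod_cast (show 0 < m by omega)
  have hm1 : (1:ℝ) < m := by exact_mod_cast (show 1 < m by omega)
  have hs : secRatio m f ≤ volRatio m f ^ (((m:ℝ) - 1) / m) := by
    refine le_of_pow_le_pow_left₀ (show m ≠ 0 by omega) (by positivity) (hN.trans_eq ?_)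
    rw [← rpow_natCast, ← rpow_natCast (volRatio m f ^ _), ← rpow_mul hv.le,
      div_mul_cancel₀ _ hm0.ne', Nat.cast_sub (by omega), Nat.cast_one]
  have hk : 0 ≤ (m:ℝ) / ((m:ℝ) - 1) := div_nonneg hm0.le (by linarith)
  have := mul_le_mul_of_nonneg_left (sub_le_sub_right hs 1) hk
  simp only [linGain]
  linarith

/-- Bernoulli: `v^(q/m) ≤ 1 + (q/m)(v - 1)`, strictly for `v ≠ 1`. -/
theorem xi_nonneg (hm : 2 ≤ m) {v : ℝ} (hv : 0 < v) :
    0 ≤ v - 1 - (m:ℝ) / ((m:ℝ) - 1) * (v ^ (((m:ℝ) - 1) / m) - 1) ∧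
      (v ≠ 1 → 0 < v - 1 - (m:ℝ) / ((m:ℝ) - 1) * (v ^ (((m:ℝ) - 1) / m) - 1)) := by
  have hm1 : (1:ℝ) < m := by exact_mod_cast (show 1 < m by omega)
  set a : ℝ := ((m:ℝ) - 1) / m
  have ha0 : 0 < a := div_pos (by linarith) (by linarith)
  have ha1 : a < 1 := (div_lt_one (by linarith)).2 (by linarith)
  have e : (m:ℝ) / ((m:ℝ) - 1) = a⁻¹ := (inv_div _ _).symm
  have hle : v ^ a ≤ 1 + a * (v - 1) := by
    simpa using rpow_one_add_le_one_add_mul_self (show -1 ≤ v - 1 by linarith) ha0.le ha1.le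
  rw [e]
  refine ⟨?_, fun hne => ?_⟩
  · rw [sub_nonneg, inv_mul_le_iff₀ ha0]
    linarith
  · have hlt : v ^ a < 1 + a * (v - 1) := by
      simpa using rpow_one_add_lt_one_add_mul_self (show -1 ≤ v - 1 by linarith)
        (sub_ne_zero.2 hne) ha0 ha1
    rw [sub_pos, inv_mul_lt_iff₀ ha0]
    linarith

theorem linGain_nonneg (P : HalfProf f) (hm : 2 ≤ m)
    (hN : secRatio m f ^ m ≤ volRatio m f ^ (m - 1)) : 0 ≤ linGain m f :=
  (xi_nonneg hm (volRatio_pos P)).1.trans (linGain_ge P hm hN)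

/-- `L = 0` under a reversed inequality forces `Z = Z₀` and `P = P₀`. -/
theorem linGain_eq_zero (P : HalfProf f) (hm : 2 ≤ m)
    (hN : secRatio m f ^ m ≤ volRatio m f ^ (m - 1)) (h0 : linGain m f = 0) :
    volRatio m f = 1 ∧ secRatio m f = 1 := by
  have h1 : volRatio m f = 1 := by
    by_contra hne
    exact absurd ((xi_nonneg hm (volRatio_pos P)).2 hne)
      (not_lt.2 ((linGain_ge P hm hN).trans_eq h0))
  refine ⟨h1, ?_⟩
  have hm1 : (1:ℝ) < m := by exact_mod_cast (show 1 < m by omega)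
  simp only [linGain, h1, sub_self, zero_sub, neg_eq_zero, mul_eq_zero, div_eq_zero_iff] at h0
  rcases h0 with (h | h) | h <;> linarith

/-- `J > 0`. -/
theorem jay_pos (P : HalfProf f) (hm : m ≠ 0) : 0 < jay m f := by
  refine pos_of_mul_pos_left (lt_of_lt_of_le ?_ (jay_ge P hm)) (Z_pos P (m := m)).le
  refine intervalIntegral.intervalIntegral_pos_of_pos_on (intInvD P) (fun t ht => ?_) one_pos
  have h : t ∈ Ico (0:ℝ) 1 := ⟨ht.1.le, ht.2⟩
  exact mul_pos (pow_pos (P.pos t h) m) (pow_pos (div_pos (bb_pos P h) (den_pos P h)) 2)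

/-- The selection `Λ ≤ 0` turns the exact identity into an upper bound on the gain. -/
theorem gain_le_corr (P : HalfProf f) (hm : m ≠ 0) {G : ℝ}
    (hid : linGain m f + G ≤ volRatio m f *
      (((m:ℝ) + 1) * penMean m (phiR m) f + quad m * (jay m f - 1)))
    (hsel : lamMix m f ≤ 0) : linGain m f + G ≤ corr m f := by
  have hb := quad_pos m
  have hv := volRatio_pos P (m := m)
  have hJ := jay_pos P hm
  rw [lamMix] at hsel
  have h2 : ((m:ℝ) + 1) * penMean m (phiR m) f / quad m ≤ (jay m f)⁻¹ - 1 := by linarith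
  rw [div_le_iff₀ hb] at h2
  refine hid.trans ((mul_le_mul_of_nonneg_left (add_le_add_left h2 _) hv.le).trans_eq ?_)
  simp only [corr]
  field_simp
  ring

/-! ### Rigidity -/

/-- If the slopes agree with those of the ball at the same level and `Z = Z₀`, it is the ball. -/
theorem rigid (P : HalfProf f) (hm : m ≠ 0) (h0 : f 0 = 1)
    (hp : ∀ᵐ t : ℝ, t ∈ Ioo (0:ℝ) 1 → pProf f t = √(1 - f t ^ 2))
    (hV : volRatio m f = 1) : ∀ t ∈ Ioo (0:ℝ) 1, f t = √(1 - t ^ 2) := by
  have hle1 : ∀ t ∈ Icc (0:ℝ) 1, f t ≤ 1 := fun t ht =>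
    h0 ▸ P.anti (left_mem_Icc.2 zero_le_one) ht ht.1
  have hge : ∀ r ∈ Ico (0:ℝ) 1, √(1 - r ^ 2) ≤ f r := by
    intro r hr
    have hsub : Icc 0 r ⊆ Icc (0:ℝ) 1 := Icc_subset_Icc le_rfl hr.2.le
    have hfpos : ∀ t ∈ Icc 0 r, 0 < f t := fun t ht => P.pos t ⟨ht.1, ht.2.trans_lt hr.2⟩
    have hfr := P.pos r hr
    have hD : √(1 - f r ^ 2) ≤ r := by
      refine le_of_forall_pos_le_add fun η hη => ?_
      -- regularisation parameter
      set ε : ℝ := min (η ^ 2 / 4) (η / 2 * f r) with hε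
      have he : 0 < ε := lt_min (by positivity) (by positivity)
      set H : ℝ → ℝ := fun t => (√(ε + (1 - f t ^ 2)) - t) * (f t)⁻¹ - ε * (t * (f t)⁻¹) with hH
      have hlpf := P.lp hr.2
      have hinv : Lp r fun t => (f t)⁻¹ :=
        Lp.comp (φ := fun x => x⁻¹) (φ' := fun x => -(x ^ 2)⁻¹) (lo := f r) (hi := 1) hlpf
          (fun x hx => hasDerivAt_inv (hfr.trans_le hx.1).ne')
          (ContinuousOn.neg (ContinuousOn.inv₀ (by fun_prop)
            fun x hx => pow_ne_zero 2 (hfr.trans_le hx.1).ne'))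
          fun t ht => ⟨P.anti (hsub ht) ⟨hr.1, hr.2.le⟩ ht.2, hle1 t (hsub ht)⟩
      have hrad : ∀ x ∈ Icc (0:ℝ) 1, 0 < ε + (1 - x ^ 2) := fun x hx => by nlinarith [hx.1, hx.2]
      have hsq : Lp r fun t => √(ε + (1 - f t ^ 2)) :=
        Lp.comp (φ := fun x => √(ε + (1 - x ^ 2)))
          (φ' := fun x => -x / √(ε + (1 - x ^ 2))) (lo := 0) (hi := 1) hlpf
          (fun x hx => by
            have := (((hasDerivAt_pow 2 x).const_sub 1).const_add ε).sqrt (hrad x hx).ne'
            refine this.congr_deriv ?_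
            push_cast
            field_simp)
          (ContinuousOn.div (by fun_prop) (by fun_prop)
            fun x hx => (sqrt_pos.2 (hrad x hx)).ne')
          fun t ht => ⟨(hfpos t ht).le, hle1 t (hsub ht)⟩
      have hlp : Lp r H := ((hsq.sub Lp.ident).mul hinv).sub ((Lp.ident.mul hinv).const_mul ε)
      have hmono : H r - H 0 ≤ 0 := by
        rw [← hlp.ftc hr.1, show (0:ℝ) = ∫ _ in (0:ℝ)..r, (0:ℝ) by simp]
        simp only [intervalIntegral.integral_zero]
        refine le_trans (intervalIntegral.integral_mono_ae_restrict hr.1 (hlp.intDeriv hr.1)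
          intervalIntegrable_const (g := fun _ => (0:ℝ)) ?_) (by simp)
        rw [EventuallyLE, ae_restrict_iff' measurableSet_Icc]
        filter_upwards [P.ae_diff, hp, Measure.ae_ne volume (0:ℝ)] with t htd htp hne htm
        have ht : t ∈ Ioo (0:ℝ) 1 := ⟨lt_of_le_of_ne htm.1 (Ne.symm hne), htm.2.trans_lt hr.2⟩
        have hf := (htd ht).hasDerivAt
        set d := deriv f t
        have hft := hfpos t htm
        have hr2 := hrad (f t) ⟨hft.le, hle1 t (hsub htm)⟩
        have hW := (P.bounds ht).1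
        have hd : HasDerivAt H _ t := (((((hf.fun_pow 2).const_sub 1).const_add ε).sqrt hr2.ne').sub
          (hasDerivAt_id' t)).mul (hf.inv hft.ne') |>.sub
          (((hasDerivAt_id' t).mul (hf.inv hft.ne')).const_mul ε)
        rw [hd.deriv]
        set R := √(ε + (1 - f t ^ 2)) with hR
        have hR0 : 0 < R := sqrt_pos.2 hr2
        have hR2 : R ^ 2 = ε + (1 - f t ^ 2) := sq_sqrt hr2.le
        set D := √(1 - f t ^ 2)
        have hD0 : 0 ≤ D := sqrt_nonneg _
        have hDR : D ≤ R := sqrt_le_sqrt (by linarith)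
        have hdd : -d = D * (f t - t * d) := by
          rw [show D = pProf f t from (htp ht).symm, pProf, div_mul_cancel₀ _ hW.ne']
        have key : (-d) * (1 + ε) ≤ R * (1 + ε) * (f t - t * d) := by
          rw [hdd]
          nlinarith [mul_nonneg (mul_nonneg hW.le (sub_nonneg.2 hDR)) (by linarith : 0 ≤ 1 + ε)]
        simp only [Pi.sub_apply, Pi.inv_apply, ← hR]
        have e : (-((2:ℕ) * f t ^ (2 - 1) * d) / (2 * R) - 1) * (f t)⁻¹ +
            (R - t) * (-d / f t ^ 2) - ε * (1 * (f t)⁻¹ + t * (-d / f t ^ 2)) =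
            ((-d) * (1 + ε) - R * (1 + ε) * (f t - t * d)) / (R * f t ^ 2) := by
          field_simp
          push_cast
          linear_combination (-2 * d) * hR2
        rw [e]
        exact div_nonpos_of_nonpos_of_nonneg (sub_nonpos.2 key) (by positivity)
      have hH0 : H 0 = √ε := by simp [hH, h0]
      have hse : √ε ≤ η / 2 := by
        rw [sqrt_le_left (by positivity)]
        exact (min_le_left _ _).trans_eq (by ring)
      have hee : ε ≤ η / 2 * f r := min_le_right _ _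
      have hmul : f r * H r = √(ε + (1 - f r ^ 2)) - r - ε * r := by
        simp only [hH]
        field_simp
      have hDR : √(1 - f r ^ 2) ≤ √(ε + (1 - f r ^ 2)) := sqrt_le_sqrt (by linarith)
      have h1 : f r * H r ≤ f r * √ε := mul_le_mul_of_nonneg_left (by linarith) hfr.le
      have h2 : f r * √ε ≤ η / 2 := by
        refine (mul_le_of_le_one_left (sqrt_nonneg _) (hle1 r ⟨hr.1, hr.2.le⟩)).trans hse
      have h3 : ε * r ≤ η / 2 := by
        nlinarith [hle1 r ⟨hr.1, hr.2.le⟩, hr.1, hr.2]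
      linarith
    rw [sqrt_le_left hfr.le]
    have := (sqrt_le_left hr.1).1 hD
    linarith
  intro t ht
  by_contra hne
  have hlt : √(1 - t ^ 2) < f t := lt_of_le_of_ne (hge t ⟨ht.1.le, ht.2⟩) (Ne.symm hne)
  obtain ⟨a, hat, ha⟩ : ∃ a ∈ Ioo (0:ℝ) t, ∀ x ∈ Icc a t, √(1 - x ^ 2) < f x := by
    have hc : ContinuousAt (fun x => f x - √(1 - x ^ 2)) t :=
      (P.continuousAt ht).sub (by fun_prop)
    obtain ⟨δ, hδ, hball⟩ := Metric.eventually_nhds_iff.1
      (hc.eventually (lt_mem_nhds (show (0:ℝ) < _ from sub_pos.2 hlt)))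
    refine ⟨max (t / 2) (t - δ / 2), ⟨lt_max_of_lt_left (by linarith [ht.1]),
      max_lt (by linarith [ht.1]) (by linarith)⟩, fun x hx => sub_pos.1 (hball ?_)⟩
    rw [Real.dist_eq, abs_lt]
    constructor <;> linarith [hx.2, le_max_right (t / 2) (t - δ / 2), hx.1]
  have h1 : Univ.ballInt m < ∫ x in (0:ℝ)..1, f x ^ m := by
    have hg : IntervalIntegrable (fun x : ℝ => √(1 - x ^ 2) ^ m) volume 0 1 :=
      (by fun_prop : Continuous fun x : ℝ => √(1 - x ^ 2) ^ m).intervalIntegrable _ _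
    refine intervalIntegral.integral_lt_integral_of_ae_le_of_measure_setOfPred_lt_ne_zero zero_le_one
      hg (P.intPow m) ?_ ?_
    · rw [EventuallyLE, ae_restrict_iff' measurableSet_Ioc]
      filter_upwards [Measure.ae_ne volume (1:ℝ)] with x hx hxm
      exact pow_le_pow_left₀ (sqrt_nonneg _)
        (hge x ⟨hxm.1.le, lt_of_le_of_ne hxm.2 hx⟩) m
    · refine fun hz => ?_
      rw [Measure.restrict_apply' measurableSet_Ioc] at hz
      have hsubs : Ioo a t ⊆ {x | √(1 - x ^ 2) ^ m < f x ^ m} ∩ Ioc (0:ℝ) 1 := fun x hx =>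
        ⟨pow_lt_pow_left₀ (ha x (Ioo_subset_Icc_self hx)) (sqrt_nonneg _) hm,
          hat.1.trans hx.1, (hx.2.trans ht.2).le⟩
      have := measure_mono_null hsubs hz
      rw [Real.volume_Ioo, ENNReal.ofReal_eq_zero] at this
      linarith [hat.2]
  rw [volRatio, div_eq_one_iff_eq (Univ.OneD.ballInt_pos m).ne'] at hV
  linarith

/-! ### Normalisation -/

theorem penMean_smul {c : ℝ} (hc : c ≠ 0) (hm : m ≠ 0) (φ : ℝ → ℝ) :
    penMean m φ (fun t => c * f t) = penMean m φ f := by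
  have hd : deriv (fun t => c * f t) = fun t => c * deriv f t :=
    funext fun _ => deriv_const_mul_field _
  have hp : pProf (fun t => c * f t) = pProf f := by
    funext t
    simp only [pProf, hd, mul_left_comm t c, ← mul_sub, neg_mul_eq_mul_neg]
    rw [mul_div_mul_left _ _ hc]
  have e : (fun t => (c * f t) ^ (m - 1) * (c * f t - t * (c * deriv f t)) *
      (φ (pProf f t) - φ t)) = fun t => c ^ m *
        (f t ^ (m - 1) * (f t - t * deriv f t) * (φ (pProf f t) - φ t)) := by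
    funext t
    rw [← pow_sub_one_mul hm c]
    ring
  simp only [penMean, hd, hp, mul_pow c _ m]
  rw [e]
  simp only [intervalIntegral.integral_const_mul]
  have := pow_ne_zero m hc
  field_simp

theorem jay_smul {c : ℝ} (hc : c ≠ 0) (hm : m ≠ 0) :
    jay m (fun t => c * f t) = jay m f := by
  have hd : deriv (fun t => c * f t) = fun t => c * deriv f t :=
    funext fun _ => deriv_const_mul_field _
  have hp : pProf (fun t => c * f t) = pProf f := by
    funext t
    simp only [pProf, hd, mul_left_comm t c, ← mul_sub, neg_mul_eq_mul_neg]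
    rw [mul_div_mul_left _ _ hc]
  have e : (fun t => (m:ℝ) * (c * f t) ^ (m - 1) * (c * f t - t * (c * deriv f t)) *
      (1 - pProf f t ^ 2)) = fun t => c ^ m *
        ((m:ℝ) * f t ^ (m - 1) * (f t - t * deriv f t) * (1 - pProf f t ^ 2)) := by
    funext t
    rw [← pow_sub_one_mul hm c]
    ring
  simp only [jay, hd, hp, mul_pow c _ m]
  rw [e]
  simp only [intervalIntegral.integral_const_mul]
  rw [mul_div_mul_left _ _ (pow_ne_zero m hc)]

/-- `LemmaMix` may be proved for profiles with `f 0 = 1` only. -/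
theorem lemmaMix_of_normalised (hm : 2 ≤ m)
    (h : ∀ f : ℝ → ℝ, HalfProf f → f 0 = 1 → lamMix m f ≤ 0 →
      Univ.ballInt (m - 1) ^ m * (∫ t in (0 : ℝ)..1, f t ^ m) ^ (m - 1) ≤
          (∫ t in (0 : ℝ)..1, f t ^ (m - 1)) ^ m * Univ.ballInt m ^ (m - 1) ∧
        (Univ.ballInt (m - 1) ^ m * (∫ t in (0 : ℝ)..1, f t ^ m) ^ (m - 1) =
          (∫ t in (0 : ℝ)..1, f t ^ (m - 1)) ^ m * Univ.ballInt m ^ (m - 1) →
            ∀ t ∈ Ioo (0 : ℝ) 1, f t = √(1 - t ^ 2))) :
    LemmaMix m := by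
  intro f hc ha hn hZ hle
  have hm0 : m ≠ 0 := by omega
  have P := halfProf_of hm0 hc ha hn hZ
  have hf0 : 0 < f 0 := P.pos 0 ⟨le_rfl, one_pos⟩
  set c := (f 0)⁻¹ with hcdef
  have hc0 : 0 < c := inv_pos.2 hf0
  have Pg : HalfProf fun t => c * f t := by
    refine ⟨⟨convex_Icc _ _, fun x hx y hy p q hp hq hpq => ?_⟩, fun x hx y hy hxy =>
      mul_le_mul_of_nonneg_left (ha hx hy hxy) hc0.le, fun t ht => mul_nonneg hc0.le (hn t ht),
      fun t ht => mul_pos hc0 (P.pos t ht)⟩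
    have := hc.2 hx hy hp hq hpq
    simp only [smul_eq_mul] at this ⊢
    nlinarith
  have hl : lamMix m (fun t => c * f t) ≤ 0 := by
    rw [lamMix] at hle ⊢
    rwa [penMean_smul hc0.ne' hm0, jay_smul hc0.ne' hm0]
  obtain ⟨h1, h2⟩ := h _ Pg (inv_mul_cancel₀ hf0.ne') hl
  simp only [mul_pow, intervalIntegral.integral_const_mul] at h1 h2
  have e : (c ^ m) ^ (m - 1) = (c ^ (m - 1)) ^ m := pow_right_comm c m (m - 1)
  rw [e, ← mul_assoc, mul_comm (Univ.ballInt (m - 1) ^ m), mul_assoc, mul_assoc] at h1 h2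
  have hcp : 0 < (c ^ (m - 1)) ^ m := by positivity
  refine ⟨le_of_mul_le_mul_left h1 hcp, fun heq => ⟨f 0, fun t ht => ?_⟩⟩
  have := h2 (by rw [heq]) t ht
  rw [hcdef, inv_mul_eq_iff_eq_mul₀ hf0.ne'] at this
  exact this

/-- **Assembly.** An exact gain `G` with `(1+X)(n E[φ_r p - φ_r t] + b (J-1)) ≥ L + G`, the scalar
bound `b (j-1-X)²/j ≤ L + G` under a reversed profile inequality, strict unless `L = 0` and the
slopes are those of the ball, give `LemmaMix`. -/
theorem lemmaMix_of_gain (hm : 2 ≤ m) (G : (ℝ → ℝ) → ℝ)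
    (hid : ∀ f : ℝ → ℝ, HalfProf f → f 0 = 1 → linGain m f + G f ≤ volRatio m f *
      (((m:ℝ) + 1) * penMean m (phiR m) f + quad m * (jay m f - 1)))
    (hscalar : ∀ f : ℝ → ℝ, HalfProf f → f 0 = 1 →
      secRatio m f ^ m ≤ volRatio m f ^ (m - 1) →
      linGain m f + G f ≤ corr m f →
        linGain m f = 0 ∧ ∀ᵐ t : ℝ, t ∈ Ioo (0:ℝ) 1 → pProf f t = √(1 - f t ^ 2)) :
    LemmaMix m := by
  refine lemmaMix_of_normalised hm fun f P h0 hle => ?_
  have hg := gain_le_corr P (by omega) (hid f P h0) hle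
  have key : secRatio m f ^ m ≤ volRatio m f ^ (m - 1) →
      volRatio m f ^ (m - 1) = secRatio m f ^ m ∧ ∀ t ∈ Ioo (0:ℝ) 1, f t = √(1 - t ^ 2) := by
    intro hN
    obtain ⟨hL, hp⟩ := hscalar f P h0 hN hg
    obtain ⟨e1, e2⟩ := linGain_eq_zero P hm hN hL
    exact ⟨by rw [e1, e2, one_pow, one_pow], rigid P (by omega) h0 hp e1⟩
  refine ⟨ineq_iff.2 ?_, fun heq => (key (eq_iff.1 heq).ge).2⟩
  rcases le_total (volRatio m f ^ (m - 1)) (secRatio m f ^ m) with h | h
  · exact h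
  · exact (key h).1.le

end Vale.Agent.P237.AllN.GaugeBall
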