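import Vale.Agent.P237.AllN.Mix
import Vale.Agent.P237.AllN.Transport

/-!
# P237, all dimensions: a priori ranges in the inverse gauge coordinates

For a profile `f` on `[0,1]` with `f 0 = 1`, dimension `n = m + 1`, put `θ = √(1 - f²)` (so that
`σ = (t - θ) / f` in the inverse gauge), `1 + X = Z / Z₀` and `1 + ξ = gauMom / Z₀`. Proved here:
the bounds on `t - θ`, on `Z`, on `gauMom`, `Z₀² ≤ J Z gauMom`, the bound `X ≤ c⁻ᵐ - 1` under the
reversed profile inequality with `c⁻²ᵐ ≤ e`, and the lower bound for the power gap.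
-/

open MeasureTheory Set Real Filter Topology
open Vale.Agent.P237.Univ.OneD (Lp)

namespace Vale.Agent.P237.AllN

/-- `(m+1) Z - m (m+3)/(m+2) ∫ f^(m+2)`: the moment of `1 - f²` under the cone measure. -/
noncomputable def gauMom (m : ℕ) (f : ℝ → ℝ) : ℝ :=
  ((m:ℝ) + 1) * (∫ t in (0:ℝ)..1, f t ^ m) -
    (m:ℝ) * ((m:ℝ) + 3) / ((m:ℝ) + 2) * ∫ t in (0:ℝ)..1, f t ^ (m + 2)

/-- The primitive of `m r^(m-1) √(1-r²)`. -/
noncomputable def thetaPrim (m : ℕ) (r : ℝ) : ℝ :=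
  ∫ v in (0:ℝ)..r, (m:ℝ) * v ^ (m - 1) * √(1 - v ^ 2)

/-- The primitive of `m r^(m-1) (1-r²)`. -/
noncomputable def sqPrim (m : ℕ) (r : ℝ) : ℝ :=
  r ^ m - (m:ℝ) / ((m:ℝ) + 2) * r ^ (m + 2)

theorem hasDerivAt_thetaPrim (m : ℕ) (r : ℝ) :
    HasDerivAt (thetaPrim m) ((m:ℝ) * r ^ (m - 1) * √(1 - r ^ 2)) r := by
  have hc : Continuous fun v : ℝ => (m:ℝ) * v ^ (m - 1) * √(1 - v ^ 2) := by fun_prop
  exact intervalIntegral.integral_hasDerivAt_right (hc.intervalIntegrable _ _)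
    hc.stronglyMeasurable.stronglyMeasurableAtFilter hc.continuousAt

theorem continuous_thetaPrim (m : ℕ) : Continuous (thetaPrim m) :=
  continuous_iff_continuousAt.2 fun r => (hasDerivAt_thetaPrim m r).continuousAt

theorem hasDerivAt_sqPrim {m : ℕ} (hm : m ≠ 0) (r : ℝ) :
    HasDerivAt (sqPrim m) ((m:ℝ) * r ^ (m - 1) * (1 - r ^ 2)) r := by
  refine ((hasDerivAt_pow m r).sub ((hasDerivAt_pow (m + 2) r).const_mul _)).congr_deriv ?_
  rw [show m + 2 - 1 = m - 1 + 2 by omega]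
  push_cast
  field_simp
  ring

/-- The ball: `m ∫₀¹ r^(m-1) √(1-r²) = Z₀`. -/
theorem thetaPrim_one {m : ℕ} (hm : m ≠ 0) : thetaPrim m 1 = Univ.ballInt m := by
  have hd : ∀ t ∈ Ioo (0:ℝ) 1, HasDerivAt
      (fun s : ℝ => s * √(1 - s ^ 2) ^ m - thetaPrim m √(1 - s ^ 2)) (√(1 - t ^ 2) ^ m) t := by
    intro t ht
    have hpos : 0 < 1 - t ^ 2 := by nlinarith [ht.1, ht.2]
    have hu := ((hasDerivAt_pow 2 t).const_sub 1).sqrt hpos.ne'
    refine (((hasDerivAt_id' t).mul (hu.fun_pow m)).sub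
      ((hasDerivAt_thetaPrim m _).comp t hu)).congr_deriv ?_
    rw [show √(1 - √(1 - t ^ 2) ^ 2) = t by
      rw [sq_sqrt hpos.le, sub_sub_cancel, sqrt_sq ht.1.le]]
    ring
  have h := intervalIntegral.integral_eq_sub_of_hasDerivAt_of_le zero_le_one
    (Continuous.continuousOn (Continuous.sub (by fun_prop)
      ((continuous_thetaPrim m).comp (by fun_prop)))) hd
    (Continuous.intervalIntegrable (by fun_prop) _ _)
  rw [Univ.ballInt, h]
  simp [thetaPrim, zero_pow hm]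

namespace HalfProf

variable {f : ℝ → ℝ} (P : HalfProf f) {t : ℝ} {m : ℕ}
include P

theorem le_start (ht : t ∈ Icc (0:ℝ) 1) : f t ≤ f 0 :=
  P.anti (left_mem_Icc.2 zero_le_one) ht ht.1

theorem chord (ht : t ∈ Icc (0:ℝ) 1) : (1 - t) * f 0 ≤ f t := by
  have h := P.conc.2 (left_mem_Icc.2 zero_le_one) (right_mem_Icc.2 zero_le_one)
    (show (0:ℝ) ≤ 1 - t by linarith [ht.2]) ht.1 (by ring)
  simp only [smul_eq_mul, mul_zero, zero_add, mul_one] at h
  linarith [mul_nonneg ht.1 (P.nonneg 1 (right_mem_Icc.2 zero_le_one))]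

theorem mem_unit (h0 : f 0 = 1) (ht : t ∈ Icc (0:ℝ) 1) : f t ∈ Icc (0:ℝ) 1 :=
  ⟨P.nonneg t ht, h0 ▸ P.le_start ht⟩

/-- The range of `σ f = t - θ`. -/
theorem gauge_dev (h0 : f 0 = 1) (ht : t ∈ Icc (0:ℝ) 1) :
    1 - f t - √(1 - f t ^ 2) ≤ t - √(1 - f t ^ 2) ∧
      t - √(1 - f t ^ 2) ≤ 1 - √(1 - f t ^ 2) ∧
      -f t ≤ t - √(1 - f t ^ 2) ∧ -√(1 - f t ^ 2) ≤ t - √(1 - f t ^ 2) ∧
      √(1 - f t ^ 2) * (t - √(1 - f t ^ 2)) ≤ f t ^ 2 / 2 := by
  have hc := P.chord ht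
  rw [h0, mul_one] at hc
  obtain ⟨hf0, hf1⟩ := P.mem_unit h0 ht
  set θ := √(1 - f t ^ 2) with hθ
  have hθ0 : 0 ≤ θ := sqrt_nonneg _
  have hθ2 : θ ^ 2 = 1 - f t ^ 2 := sq_sqrt (by nlinarith)
  have hθ1 : θ ≤ 1 := by nlinarith
  refine ⟨by linarith, by linarith [ht.2], by linarith, by linarith [ht.1], ?_⟩
  nlinarith [mul_le_mul_of_nonneg_left (show t - θ ≤ 1 - θ by linarith [ht.2]) hθ0,
    sq_nonneg (1 - θ)]

theorem pow_range (h0 : f 0 = 1) (j : ℕ) :
    1 / ((j:ℝ) + 1) ≤ ∫ t in (0:ℝ)..1, f t ^ j ∧ ∫ t in (0:ℝ)..1, f t ^ j ≤ 1 := by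
  constructor
  · have h := intervalIntegral.integral_mono_on zero_le_one
      (Continuous.intervalIntegrable (show Continuous fun t : ℝ => (1 - t) ^ j by fun_prop) _ _)
      (P.intPow j) fun t ht => pow_le_pow_left₀ (by linarith [ht.2])
        (by simpa [h0] using P.chord ht) j
    rw [intervalIntegral.integral_comp_sub_left (fun t => t ^ j), integral_pow] at h
    simpa using h
  · have h := intervalIntegral.integral_mono_on zero_le_one (P.intPow j)
      intervalIntegrable_const fun t ht => pow_le_one₀ (P.nonneg t ht) (P.mem_unit h0 ht).2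
    simpa using h

theorem pow_le_pow_int (h0 : f 0 = 1) :
    ∫ t in (0:ℝ)..1, f t ^ m ≤ ∫ t in (0:ℝ)..1, f t ^ (m - 1) :=
  intervalIntegral.integral_mono_on zero_le_one (P.intPow m) (P.intPow (m - 1)) fun t ht =>
    pow_le_pow_of_le_one (P.nonneg t ht) (P.mem_unit h0 ht).2 (Nat.sub_le m 1)

/-- The limit at the end of the profile, with the two integral identities. -/
theorem exists_end (h0 : f 0 = 1) : ∃ L ∈ Icc (0:ℝ) 1, ∀ φ φ' : ℝ → ℝ,
    (∀ r, HasDerivAt φ (φ' r) r) → Continuous φ' →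
    IntervalIntegrable (fun t => φ' (f t) * deriv f t) volume 0 1 ∧
    ∫ t in (0:ℝ)..1, φ' (f t) * deriv f t = φ L - φ 1 ∧
    ∫ t in (0:ℝ)..1, (φ (f t) + t * (φ' (f t) * deriv f t)) = φ L := by
  set L := endv 1 (fun t => f |t|)
  have hL : Tendsto (fun k => f (rad k)) atTop (𝓝 L) := by
    refine (P.isProfile.tendsto_end 1).congr fun k => ?_
    rw [pow_one, abs_of_nonneg (rad_mem k).1]
  have hmem : ∀ k, f (rad k) ∈ Icc (0:ℝ) 1 := fun k =>
    P.mem_unit h0 (Ico_subset_Icc_self (rad_mem k))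
  refine ⟨L, isClosed_Icc.mem_of_tendsto hL (Eventually.of_forall hmem), fun φ φ' hd hc => ?_⟩
  have hφc : Continuous φ := continuous_iff_continuousAt.2 fun r => (hd r).continuousAt
  obtain ⟨C, hC⟩ := (isCompact_Icc (a := (0:ℝ)) (b := 1)).exists_bound_of_continuousOn
    hc.continuousOn
  have hf : AEMeasurable f (volume.restrict (Ioo (0:ℝ) 1)) :=
    (P.continuousOn.mono Ioo_subset_Ico_self).aemeasurable measurableSet_Ioo
  have i1 : IntervalIntegrable (fun t => φ' (f t) * deriv f t) volume 0 1 := by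
    have h1 := P.intDeriv (m := 1) one_ne_zero
    simp only [Nat.cast_one, one_mul, Nat.sub_self, pow_zero] at h1
    rw [intervalIntegrable_iff_integrableOn_Ioo_of_le zero_le_one] at h1 ⊢
    exact Integrable.bdd_mul h1 (hc.measurable.comp_aemeasurable hf).aestronglyMeasurable
      ((ae_restrict_iff' measurableSet_Ioo).2 (.of_forall fun t ht =>
        hC (f t) (P.mem_unit h0 (Ioo_subset_Icc_self ht))))
  have i0 : IntervalIntegrable (fun t => φ (f t)) volume 0 1 := by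
    obtain ⟨D, hD⟩ := (isCompact_Icc (a := (0:ℝ)) (b := 1)).exists_bound_of_continuousOn
      hφc.continuousOn
    rw [intervalIntegrable_iff_integrableOn_Ioo_of_le zero_le_one]
    exact IntegrableOn.of_bound measure_Ioo_lt_top
      (hφc.measurable.comp_aemeasurable hf).aestronglyMeasurable D
      ((ae_restrict_iff' measurableSet_Ioo).2 (.of_forall fun t ht =>
        hD (f t) (P.mem_unit h0 (Ioo_subset_Icc_self ht))))
  have i2 : IntervalIntegrable (fun t => φ (f t) + t * (φ' (f t) * deriv f t)) volume 0 1 :=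
    i0.add (i1.continuousOn_mul continuousOn_id)
  have hlim : ∀ {h : ℝ → ℝ}, IntervalIntegrable h volume 0 1 →
      Tendsto (fun k => ∫ t in (0:ℝ)..rad k, h t) atTop (𝓝 (∫ t in (0:ℝ)..1, h t)) := by
    intro h hh
    refine ((intervalIntegral.continuousOn_primitive_interval' hh left_mem_uIcc)
      1 right_mem_uIcc).tendsto.comp (tendsto_nhdsWithin_iff.2 ⟨tendsto_rad, .of_forall fun k => ?_⟩)
    rw [uIcc_of_le zero_le_one]
    exact Ico_subset_Icc_self (rad_mem k)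
  have hLp : ∀ k, Lp (rad k) fun t => φ (f t) := fun k =>
    Lp.comp (φ' := φ') (P.lp (rad_mem k).2) (fun x _ => hd x) hc.continuousOn
      fun x hx => P.mem_unit h0 ⟨hx.1, hx.2.trans (rad_mem k).2.le⟩
  have hcg : ∀ k, ∀ {a b : ℝ → ℝ}, (∀ t ∈ Ioo (0:ℝ) 1, DifferentiableAt ℝ f t → a t = b t) →
      ∫ t in (0:ℝ)..rad k, a t = ∫ t in (0:ℝ)..rad k, b t := by
    intro k a b h
    refine intervalIntegral.integral_congr_ae ?_
    filter_upwards [P.ae_diff] with t ht hm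
    rw [uIoc_of_le (rad_mem k).1] at hm
    have hm' : t ∈ Ioo (0:ℝ) 1 := ⟨hm.1, hm.2.trans_lt (rad_mem k).2⟩
    exact h t hm' (ht hm')
  refine ⟨i1, tendsto_nhds_unique (hlim i1) ?_, tendsto_nhds_unique (hlim i2) ?_⟩
  · refine Tendsto.congr (fun k => ?_)
      (((hφc.tendsto L).comp hL).sub (tendsto_const_nhds (x := φ 1)))
    rw [hcg k (a := fun t => φ' (f t) * deriv f t) (b := deriv fun t => φ (f t))
      fun t _ hdt => ((hd (f t)).comp t hdt.hasDerivAt).deriv.symm, (hLp k).ftc (rad_mem k).1, h0]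
    rfl
  · have e : Tendsto (fun k => rad k * φ (f (rad k))) atTop (𝓝 (φ L)) := by
      simpa using tendsto_rad.mul ((hφc.tendsto L).comp hL)
    refine Tendsto.congr (fun k => ?_) e
    rw [hcg k (a := fun t => φ (f t) + t * (φ' (f t) * deriv f t))
      (b := deriv fun t => t * φ (f t)) fun t _ hdt => ?_,
      (Lp.ident.mul (hLp k)).ftc (rad_mem k).1]
    · simp
    · refine (((hasDerivAt_id' t).mul ((hd (f t)).comp t hdt.hasDerivAt)).deriv.trans ?_).symm
      simp only [Function.comp_apply]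
      ring

theorem pow_pred_mul_intWgt (hm : m ≠ 0) {φ : ℝ → ℝ} (hc : Continuous φ) (h0 : f 0 = 1) :
    IntervalIntegrable
      (fun t => (m:ℝ) * f t ^ (m - 1) * (f t - t * deriv f t) * φ (f t)) volume 0 1 := by
  obtain ⟨C, hC⟩ := (isCompact_Icc (a := (0:ℝ)) (b := 1)).exists_bound_of_continuousOn
    hc.continuousOn
  exact P.intWgt_mul hm (hc.measurable.comp_aemeasurable
    ((P.continuousOn.mono Ioo_subset_Ico_self).aemeasurable measurableSet_Ioo)).aestronglyMeasurable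
    fun t ht => hC (f t) (P.mem_unit h0 (Ioo_subset_Icc_self ht))

/-- The layer identities: the total weight, the moment of `θ²`, and that of `θ p`. -/
theorem layer (hm : m ≠ 0) (h0 : f 0 = 1) : ∃ L ∈ Icc (0:ℝ) 1,
    (∫ t in (0:ℝ)..1, (m:ℝ) * f t ^ (m - 1) * (f t - t * deriv f t)) =
      ((m:ℝ) + 1) * (∫ t in (0:ℝ)..1, f t ^ m) - L ^ m ∧
    (∫ t in (0:ℝ)..1, (m:ℝ) * f t ^ (m - 1) * (f t - t * deriv f t) * (1 - f t ^ 2)) =
      gauMom m f - sqPrim m L ∧
    ∀ φ φ' : ℝ → ℝ, (∀ r, HasDerivAt φ (φ' r) r) → Continuous φ' →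
      IntervalIntegrable (fun t => φ' (f t) * deriv f t) volume 0 1 ∧
      ∫ t in (0:ℝ)..1, φ' (f t) * deriv f t = φ L - φ 1 := by
  obtain ⟨L, hL, h⟩ := P.exists_end h0
  refine ⟨L, hL, ?_, ?_, fun φ φ' hd hc => ⟨(h φ φ' hd hc).1, (h φ φ' hd hc).2.1⟩⟩
  · have e := (h (fun r => r ^ m) (fun r => (m:ℝ) * r ^ (m - 1))
      (fun r => hasDerivAt_pow m r) (by fun_prop)).2.2
    have e' : ∫ t in (0:ℝ)..1, (f t ^ m + t * ((m:ℝ) * f t ^ (m - 1) * deriv f t)) =
        ∫ t in (0:ℝ)..1, (((m:ℝ) + 1) * f t ^ m -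
          (m:ℝ) * f t ^ (m - 1) * (f t - t * deriv f t)) :=
      intervalIntegral.integral_congr fun t _ => by
        rw [← pow_sub_one_mul hm (f t)]; ring
    rw [e', intervalIntegral.integral_sub ((P.intPow m).const_mul _) (P.intWgt hm),
      intervalIntegral.integral_const_mul] at e
    linarith
  · have e := (h (sqPrim m) (fun r => (m:ℝ) * r ^ (m - 1) * (1 - r ^ 2))
      (hasDerivAt_sqPrim hm) (by fun_prop)).2.2
    have i := P.pow_pred_mul_intWgt hm (φ := fun r => 1 - r ^ 2) (by fun_prop) h0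
    have e' : ∫ t in (0:ℝ)..1, (sqPrim m (f t) +
          t * ((m:ℝ) * f t ^ (m - 1) * (1 - f t ^ 2) * deriv f t)) =
        ∫ t in (0:ℝ)..1, (((m:ℝ) + 1) * f t ^ m -
          (m:ℝ) * ((m:ℝ) + 3) / ((m:ℝ) + 2) * f t ^ (m + 2) -
          (m:ℝ) * f t ^ (m - 1) * (f t - t * deriv f t) * (1 - f t ^ 2)) :=
      intervalIntegral.integral_congr fun t _ => by
        rw [sqPrim, pow_add (f t) m 2, ← pow_sub_one_mul hm (f t)]
        field_simp
        ring
    rw [e', intervalIntegral.integral_sub (((P.intPow m).const_mul _).sub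
        ((P.intPow (m + 2)).const_mul _)) i,
      intervalIntegral.integral_sub ((P.intPow m).const_mul _) ((P.intPow (m + 2)).const_mul _),
      intervalIntegral.integral_const_mul, intervalIntegral.integral_const_mul] at e
    rw [gauMom]
    linarith

/-- Almost everywhere the weight is between `-f'` and `-f' / (1 - f)`. -/
theorem weight_bounds (h0 : f 0 = 1) (ht : t ∈ Ioo (0:ℝ) 1) (hd : DifferentiableAt ℝ f t) :
    -deriv f t ≤ f t - t * deriv f t ∧
      (f t - t * deriv f t) * (1 - f t) ≤ -deriv f t := by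
  have hmem : t ∈ Icc (0:ℝ) 1 := Ioo_subset_Icc_self ht
  obtain ⟨hf0, hf1⟩ := P.mem_unit h0 hmem
  have hb := (P.bounds ht).2
  have hg := (P.bounds ht).1
  rw [pProf] at hb
  have h1 : -deriv f t ≤ f t - t * deriv f t := (div_le_one hg).1 hb.2
  refine ⟨h1, ?_⟩
  have hs := P.conc.deriv_le_slope (left_mem_Icc.2 zero_le_one) hmem ht.1 hd
  rw [slope_def_field, h0, le_div_iff₀ (sub_pos.2 ht.1)] at hs
  have : 1 - f t ≤ t * -deriv f t := by linarith
  have h2 : 0 ≤ -deriv f t :=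
    nonneg_of_mul_nonneg_right ((sub_nonneg.2 hf1).trans this) ht.1
  nlinarith [mul_le_mul_of_nonneg_left this hf0, mul_nonneg h2 (sub_nonneg.2 hmem.2),
    mul_nonneg (mul_nonneg h2 ht.1.le) (sub_nonneg.2 hf1)]

/-- The range of `gauMom = Z₀ (1 + ξ)`. -/
theorem gauMom_range (hm : m ≠ 0) (h0 : f 0 = 1) :
    2 / ((m:ℝ) + 2) ≤ gauMom m f ∧ gauMom m f ≤ 1 + (m:ℝ) / ((m:ℝ) + 1) ∧
      gauMom m f ≤ ((m:ℝ) + 1) * ∫ t in (0:ℝ)..1, f t ^ m := by
  obtain ⟨L, hL, e1, e2, h⟩ := P.layer hm h0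
  have i := P.pow_pred_mul_intWgt hm (φ := fun r => 1 - r ^ 2) (by fun_prop) h0
  have hmr : (0:ℝ) < (m:ℝ) + 2 := by positivity
  have hae : ∀ᵐ t : ℝ, t ∈ Ioc (0:ℝ) 1 → t ∈ Ioo (0:ℝ) 1 ∧ DifferentiableAt ℝ f t := by
    filter_upwards [P.ae_diff, Measure.ae_ne volume (1:ℝ)] with t ht hne hmem
    have := (⟨hmem.1, lt_of_le_of_ne hmem.2 hne⟩ : t ∈ Ioo (0:ℝ) 1)
    exact ⟨this, ht this⟩
  have mono : ∀ {a b : ℝ → ℝ}, IntervalIntegrable a volume 0 1 →
      IntervalIntegrable b volume 0 1 →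
      (∀ t ∈ Ioo (0:ℝ) 1, DifferentiableAt ℝ f t → a t ≤ b t) →
      ∫ t in (0:ℝ)..1, a t ≤ ∫ t in (0:ℝ)..1, b t := by
    intro a b ia ib hab
    refine intervalIntegral.integral_mono_ae_restrict zero_le_one ia ib ?_
    filter_upwards [ae_restrict_of_ae hae, ae_restrict_mem measurableSet_Icc,
      ae_restrict_of_ae (Measure.ae_ne volume (0:ℝ))] with t ht hI hne
    obtain ⟨h1, h2⟩ := ht ⟨lt_of_le_of_ne hI.1 (Ne.symm hne), hI.2⟩
    exact hab t h1 h2
  have hsq : sqPrim m 1 = 2 / ((m:ℝ) + 2) := by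
    rw [sqPrim, one_pow, one_pow]; field_simp; ring
  refine ⟨?_, ?_, ?_⟩
  · obtain ⟨i', e'⟩ := h (sqPrim m) (fun r => (m:ℝ) * r ^ (m - 1) * (1 - r ^ 2))
      (hasDerivAt_sqPrim hm) (by fun_prop)
    have := mono i'.neg i fun t ht hd => by
      obtain ⟨hf0, hf1⟩ := P.mem_unit h0 (Ioo_subset_Icc_self ht)
      have hk : 0 ≤ (m:ℝ) * f t ^ (m - 1) * (1 - f t ^ 2) :=
        mul_nonneg (mul_nonneg (Nat.cast_nonneg m) (pow_nonneg hf0 _)) (by nlinarith)
      have := mul_le_mul_of_nonneg_left (P.weight_bounds h0 ht hd).1 hk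
      simp only [Pi.neg_apply]
      linarith
    simp only [Pi.neg_apply, intervalIntegral.integral_neg, e', e2] at this
    linarith
  · obtain ⟨i', e'⟩ := h (fun r => r ^ m + (m:ℝ) / ((m:ℝ) + 1) * r ^ (m + 1))
      (fun r => (m:ℝ) * r ^ (m - 1) * (1 + r)) (fun r => by
        refine ((hasDerivAt_pow m r).add ((hasDerivAt_pow (m + 1) r).const_mul _)).congr_deriv ?_
        rw [Nat.add_sub_cancel]
        push_cast
        field_simp
        conv_lhs => rw [← pow_sub_one_mul hm r]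
        ring) (by fun_prop)
    have := mono i i'.neg fun t ht hd => by
      obtain ⟨hf0, hf1⟩ := P.mem_unit h0 (Ioo_subset_Icc_self ht)
      have hk : 0 ≤ (m:ℝ) * f t ^ (m - 1) * (1 + f t) :=
        mul_nonneg (mul_nonneg (Nat.cast_nonneg m) (pow_nonneg hf0 _)) (by linarith)
      have := mul_le_mul_of_nonneg_left (P.weight_bounds h0 ht hd).2 hk
      simp only [Pi.neg_apply]
      linarith
    simp only [Pi.neg_apply, intervalIntegral.integral_neg, e', e2, one_pow, mul_one] at this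
    have h1 : 0 ≤ (m:ℝ) / ((m:ℝ) + 2) * L ^ (m + 2) :=
      mul_nonneg (by positivity) (pow_nonneg hL.1 _)
    have h2 : 0 ≤ (m:ℝ) / ((m:ℝ) + 1) * L ^ (m + 1) :=
      mul_nonneg (by positivity) (pow_nonneg hL.1 _)
    simp only [sqPrim] at this
    linarith
  · have := mono i (P.intWgt hm) fun t ht _ =>
      mul_le_of_le_one_right (mul_nonneg (mul_nonneg (Nat.cast_nonneg m)
        (pow_nonneg (P.nonneg t (Ioo_subset_Icc_self ht)) _)) (P.bounds ht).1.le)
        (by nlinarith [sq_nonneg (f t)])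
    rw [e1, e2, sqPrim] at this
    have h1 : 0 ≤ (m:ℝ) / ((m:ℝ) + 2) * L ^ (m + 2) :=
      mul_nonneg (by positivity) (pow_nonneg hL.1 _)
    linarith

/-- The Cauchy-Schwarz lower bound of the moment: `j (1 + ξ) ≥ 1`, and `J ≤ n`. -/
theorem jay_range (hm : m ≠ 0) (h0 : f 0 = 1) :
    Univ.ballInt m ^ 2 ≤ jay m f * (∫ t in (0:ℝ)..1, f t ^ m) * gauMom m f ∧
      jay m f ≤ (m:ℝ) + 1 := by
  obtain ⟨L, hL, e1, e2, h⟩ := P.layer hm h0
  have hZ : 0 < ∫ t in (0:ℝ)..1, f t ^ m :=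
    lt_of_lt_of_le (by positivity) (P.pow_range h0 m).1
  set Z := ∫ t in (0:ℝ)..1, f t ^ m with hZdef
  set G := gauMom m f with hGdef
  set T : ℝ → ℝ := fun t => (m:ℝ) * f t ^ (m - 1) * (f t - t * deriv f t) with hT
  have ip : IntervalIntegrable (fun t => T t * (1 - pProf f t ^ 2)) volume 0 1 :=
    P.intWgt_mul hm (C := 1) (aestronglyMeasurable_const.sub (P.measurable_pProf.pow 2))
      fun t ht => by
        have hp := (P.bounds ht).2
        rw [abs_le]; constructor <;> nlinarith [hp.1, hp.2, sq_nonneg (pProf f t)]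
  have hJ : jay m f * Z = ((m:ℝ) + 1) * Z - ∫ t in (0:ℝ)..1, T t * (1 - pProf f t ^ 2) := by
    rw [jay, ← hZdef, sub_mul, div_mul_cancel₀ _ hZ.ne']
  have hTnn : ∀ t ∈ Ioo (0:ℝ) 1, 0 ≤ T t := fun t ht =>
    mul_nonneg (mul_nonneg (Nat.cast_nonneg m)
      (pow_nonneg (P.nonneg t (Ioo_subset_Icc_self ht)) _)) (P.bounds ht).1.le
  refine ⟨?_, le_of_mul_le_mul_right ?_ hZ⟩
  swap
  · rw [hJ]
    refine sub_le_self _ (intervalIntegral.integral_nonneg_of_ae_restrict zero_le_one ?_)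
    filter_upwards [ae_restrict_mem measurableSet_Icc, ae_restrict_of_ae
      (Measure.ae_ne volume (0:ℝ)), ae_restrict_of_ae (Measure.ae_ne volume (1:ℝ))] with t hI h1 h2
    have ht : t ∈ Ioo (0:ℝ) 1 := ⟨lt_of_le_of_ne hI.1 (Ne.symm h1), lt_of_le_of_ne hI.2 h2⟩
    have hp := (P.bounds ht).2
    exact mul_nonneg (hTnn t ht) (by nlinarith [hp.1, hp.2])
  obtain ⟨i3, e3⟩ := h (thetaPrim m) (fun r => (m:ℝ) * r ^ (m - 1) * √(1 - r ^ 2))
    (hasDerivAt_thetaPrim m) (by fun_prop)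
  have i := P.pow_pred_mul_intWgt hm (φ := fun r => 1 - r ^ 2) (by fun_prop) h0
  have hG : 0 < G := lt_of_lt_of_le (by positivity) (P.gauMom_range hm h0).1
  set l := Univ.ballInt m / G with hl
  -- the layer above the end
  have hend : 2 * l * thetaPrim m L - l ^ 2 * sqPrim m L ≤ L ^ m := by
    have hmono : MonotoneOn (fun r => r ^ m - 2 * l * thetaPrim m r + l ^ 2 * sqPrim m r)
        (Icc 0 1) := by
      have hd : ∀ r : ℝ, HasDerivAt (fun r => r ^ m - 2 * l * thetaPrim m r + l ^ 2 * sqPrim m r)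
          ((m:ℝ) * r ^ (m - 1) * (1 - 2 * l * √(1 - r ^ 2) + l ^ 2 * (1 - r ^ 2))) r := fun r =>
        (((hasDerivAt_pow m r).sub ((hasDerivAt_thetaPrim m r).const_mul (2 * l))).add
          ((hasDerivAt_sqPrim hm r).const_mul (l ^ 2))).congr_deriv (by ring)
      refine monotoneOn_of_deriv_nonneg (convex_Icc 0 1)
        (continuous_iff_continuousAt.2 fun r => (hd r).continuousAt).continuousOn
        (fun r _ => (hd r).differentiableAt.differentiableWithinAt) fun r hr => ?_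
      rw [interior_Icc] at hr
      rw [(hd r).deriv]
      refine mul_nonneg (mul_nonneg (Nat.cast_nonneg m) (pow_nonneg hr.1.le _)) ?_
      nlinarith [sq_nonneg (1 - l * √(1 - r ^ 2)),
        sq_sqrt (show 0 ≤ 1 - r ^ 2 by nlinarith [hr.1, hr.2])]
    have := hmono (left_mem_Icc.2 zero_le_one) hL hL.1
    simp [thetaPrim, sqPrim, zero_pow hm, zero_pow (show m + 2 ≠ 0 by omega)] at this
    simp only [sqPrim, thetaPrim]
    linarith
  -- the layers below the end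
  have hmain : (-2 * l) * (thetaPrim m L - thetaPrim m 1) - l ^ 2 * (G - sqPrim m L) ≤
      (∫ t in (0:ℝ)..1, T t) - ∫ t in (0:ℝ)..1, T t * (1 - pProf f t ^ 2) := by
    have e2' : ∫ t in (0:ℝ)..1, T t * (1 - f t ^ 2) = G - sqPrim m L := e2
    rw [← e3, ← e2', ← intervalIntegral.integral_const_mul (-2 * l),
      ← intervalIntegral.integral_const_mul (l ^ 2),
      ← intervalIntegral.integral_sub (i3.const_mul _) (i.const_mul _),
      ← intervalIntegral.integral_sub (P.intWgt hm) ip]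
    refine intervalIntegral.integral_mono_ae_restrict zero_le_one
      ((i3.const_mul _).sub (i.const_mul _)) ((P.intWgt hm).sub ip) ?_
    filter_upwards [ae_restrict_mem measurableSet_Icc, ae_restrict_of_ae
      (Measure.ae_ne volume (0:ℝ)), ae_restrict_of_ae (Measure.ae_ne volume (1:ℝ))] with t hI h1 h2
    have ht : t ∈ Ioo (0:ℝ) 1 := ⟨lt_of_le_of_ne hI.1 (Ne.symm h1), lt_of_le_of_ne hI.2 h2⟩
    obtain ⟨hf0, hf1⟩ := P.mem_unit h0 hI
    have hg := (P.bounds ht).1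
    have hgp : -deriv f t = (f t - t * deriv f t) * pProf f t := by
      rw [pProf, mul_div_cancel₀ _ hg.ne']
    have hθ := sq_sqrt (show 0 ≤ 1 - f t ^ 2 by nlinarith)
    set θ := √(1 - f t ^ 2) with hθdef
    set k := (m:ℝ) * f t ^ (m - 1) with hk
    have hsq : 0 ≤ T t * (pProf f t - l * θ) ^ 2 := mul_nonneg (hTnn t ht) (sq_nonneg _)
    have hTk : T t = k * (f t - t * deriv f t) := rfl
    rw [show -2 * l * (k * θ * deriv f t) =
      2 * l * θ * (k * -deriv f t) by ring, hgp, ← mul_assoc k, ← hTk, ← hθ]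
    linarith
  have hwt : ∫ t in (0:ℝ)..1, T t = ((m:ℝ) + 1) * Z - L ^ m := e1
  rw [hwt, thetaPrim_one hm] at hmain
  have hl2 : l * G = Univ.ballInt m := div_mul_cancel₀ _ hG.ne'
  have key : l * Univ.ballInt m ≤ jay m f * Z := by
    rw [hJ]
    linear_combination hmain + hend + l * hl2
  calc Univ.ballInt m ^ 2 = l * Univ.ballInt m * G := by rw [← hl2]; ring
    _ ≤ jay m f * Z * G := mul_le_mul_of_nonneg_right key hG.le

/-- Under the reversed profile inequality `1 + X ≤ c⁻ᵐ`. -/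
theorem vol_le_of_reversed (h0 : f 0 = 1) (hm : 2 ≤ m)
    (h : (∫ t in (0:ℝ)..1, f t ^ (m - 1)) ^ m * Univ.ballInt m ^ (m - 1) ≤
      Univ.ballInt (m - 1) ^ m * (∫ t in (0:ℝ)..1, f t ^ m) ^ (m - 1)) :
    (∫ t in (0:ℝ)..1, f t ^ m) * (Univ.ballInt m / Univ.ballInt (m - 1)) ^ m ≤
      Univ.ballInt m := by
  obtain ⟨k, rfl⟩ : ∃ k, m = k + 1 := ⟨m - 1, by omega⟩
  simp only [Nat.add_sub_cancel] at h ⊢
  have hP0 := Univ.OneD.ballInt_pos k
  have hZ0 := Univ.OneD.ballInt_pos (k + 1)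
  set Z := ∫ t in (0:ℝ)..1, f t ^ (k + 1) with hZdef
  have hZ : 0 < Z := lt_of_lt_of_le (by positivity) (P.pow_range h0 (k + 1)).1
  have hZP := P.pow_le_pow_int h0 (m := k + 1)
  simp only [Nat.add_sub_cancel, ← hZdef] at hZP
  have h1 : Z * Univ.ballInt (k + 1) ^ k ≤ Univ.ballInt k ^ (k + 1) := by
    refine le_of_mul_le_mul_right ?_ (pow_pos hZ k)
    refine le_trans (le_of_eq ?_) ((mul_le_mul_of_nonneg_right
      (pow_le_pow_left₀ hZ.le hZP (k + 1)) (pow_nonneg hZ0.le k)).trans h)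
    ring
  rw [div_pow, mul_div_assoc', div_le_iff₀ (pow_pos hP0 _),
    pow_succ (Univ.ballInt (k + 1))]
  calc Z * (Univ.ballInt (k + 1) ^ k * Univ.ballInt (k + 1))
      = Z * Univ.ballInt (k + 1) ^ k * Univ.ballInt (k + 1) := by ring
    _ ≤ Univ.ballInt k ^ (k + 1) * Univ.ballInt (k + 1) :=
        mul_le_mul_of_nonneg_right h1 hZ0.le
    _ = _ := by ring

end HalfProf

/-! ### The constant `c = Z₀ / P₀` -/

theorem cosI_eq_ballInt (k : ℕ) : cosI (k + 1) = 2 * Univ.ballInt k := by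
  rw [← integral_ball, half (fun t => by rw [neg_sq])
    (Continuous.intervalIntegrable (by fun_prop) _ _), Univ.ballInt]

theorem cst_eq_ballInt {m : ℕ} (hm : m ≠ 0) :
    cst m = Univ.ballInt m / Univ.ballInt (m - 1) := by
  obtain ⟨k, rfl⟩ : ∃ k, m = k + 1 := ⟨m - 1, by omega⟩
  rw [cst, cosI_eq_ballInt, cosI_eq_ballInt, mul_div_mul_left _ _ two_ne_zero, Nat.add_sub_cancel]

theorem cst_mul_succ (m : ℕ) : cst m * cst (m + 1) = ((m:ℝ) + 1) / ((m:ℝ) + 2) := by
  have h : cosI (m + 2) = ((m:ℝ) + 1) / ((m:ℝ) + 2) * cosI m := by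
    rw [cosI, integral_cos_pow, cos_neg, cos_pi_div_two, zero_pow (by omega), zero_mul, zero_mul,
      sub_self, zero_div, zero_add, ← cosI]
  rw [cst, cst, mul_comm, div_mul_div_cancel₀ (cosI_pos (m + 1)).ne', h,
    mul_div_cancel_right₀ _ (cosI_pos m).ne']

theorem cst_mono (m : ℕ) : cst m ≤ cst (m + 1) := by
  set r := cst m
  have h : (0:ℝ) ≤ ∫ x in (-(π / 2))..(π / 2), cos x ^ m * (cos x - r) ^ 2 :=
    intervalIntegral.integral_nonneg (by linarith [pi_pos]) fun x hx =>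
      mul_nonneg (pow_nonneg (cos_nonneg_of_mem_Icc hx) _) (sq_nonneg _)
  rw [show (fun x => cos x ^ m * (cos x - r) ^ 2) = fun x =>
      cos x ^ (m + 2) - 2 * r * cos x ^ (m + 1) + r ^ 2 * cos x ^ m from funext fun x => by ring,
    intervalIntegral.integral_add ((intervalIntegrable_cos_pow _ _ _).sub
      ((intervalIntegrable_cos_pow _ _ _).const_mul _))
      ((intervalIntegrable_cos_pow _ _ _).const_mul _),
    intervalIntegral.integral_sub (intervalIntegrable_cos_pow _ _ _)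
      ((intervalIntegrable_cos_pow _ _ _).const_mul _),
    intervalIntegral.integral_const_mul, intervalIntegral.integral_const_mul,
    ← cosI, ← cosI, ← cosI] at h
  have e : cosI (m + 1) = r * cosI m := (div_mul_cancel₀ _ (cosI_pos m).ne').symm
  rw [e] at h
  show r ≤ cosI (m + 2) / cosI (m + 1)
  rw [le_div_iff₀ (cosI_pos _), e]
  linarith

/-- `m/(m+1) ≤ c² ≤ (m+1)/(m+2)`. -/
theorem cst_sq_range {m : ℕ} (hm : m ≠ 0) :
    (m:ℝ) / ((m:ℝ) + 1) ≤ cst m ^ 2 ∧ cst m ^ 2 ≤ ((m:ℝ) + 1) / ((m:ℝ) + 2) := by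
  obtain ⟨k, rfl⟩ : ∃ k, m = k + 1 := ⟨m - 1, by omega⟩
  constructor
  · have h := cst_mul_succ k
    push_cast
    rw [show (k:ℝ) + 1 + 1 = (k:ℝ) + 2 by ring, ← h, sq]
    exact mul_le_mul_of_nonneg_right (cst_mono k) (cst_pos _).le
  · rw [← cst_mul_succ, sq]
    exact mul_le_mul_of_nonneg_left (cst_mono _) (cst_pos _).le

/-- `c⁻²ᵐ ≤ e`. -/
theorem cst_inv_pow_sq_le {m : ℕ} (hm : m ≠ 0) : ((cst m ^ m)⁻¹) ^ 2 ≤ exp 1 := by
  have hm0 : (0:ℝ) < m := by exact_mod_cast Nat.pos_of_ne_zero hm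
  have h : (cst m ^ 2)⁻¹ ≤ exp (1 / (m:ℝ)) :=
    calc (cst m ^ 2)⁻¹ ≤ ((m:ℝ) / ((m:ℝ) + 1))⁻¹ :=
          inv_anti₀ (by positivity) (cst_sq_range hm).1
      _ = 1 / (m:ℝ) + 1 := by field_simp; ring
      _ ≤ exp (1 / (m:ℝ)) := add_one_le_exp _
  calc ((cst m ^ m)⁻¹) ^ 2 = ((cst m ^ 2)⁻¹) ^ m := by
        rw [inv_pow, inv_pow, ← pow_mul, ← pow_mul, mul_comm]
    _ ≤ exp (1 / (m:ℝ)) ^ m := pow_le_pow_left₀ (by positivity) h m
    _ = exp 1 := by rw [← exp_nat_mul]; field_simp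

theorem cst_inv_pow_le {m : ℕ} (hm : m ≠ 0) : (cst m ^ m)⁻¹ ≤ 33 / 20 := by
  have h := cst_inv_pow_sq_le hm
  have he := exp_one_lt_d9
  nlinarith [inv_nonneg.2 (pow_nonneg (cst_pos m).le m)]

/-- `X ≤ c⁻ᵐ - 1` under the reversed profile inequality, in the form `Z ≤ 1.65 Z₀`. -/
theorem HalfProf.vol_le {f : ℝ → ℝ} {m : ℕ} (P : HalfProf f) (h0 : f 0 = 1) (hm : 2 ≤ m)
    (h : (∫ t in (0:ℝ)..1, f t ^ (m - 1)) ^ m * Univ.ballInt m ^ (m - 1) ≤
      Univ.ballInt (m - 1) ^ m * (∫ t in (0:ℝ)..1, f t ^ m) ^ (m - 1)) :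
    ∫ t in (0:ℝ)..1, f t ^ m ≤ 33 / 20 * Univ.ballInt m := by
  have h1 := P.vol_le_of_reversed h0 hm h
  rw [← cst_eq_ballInt (by omega), ← le_div_iff₀ (pow_pos (cst_pos m) m), div_eq_mul_inv] at h1
  calc _ ≤ Univ.ballInt m * (cst m ^ m)⁻¹ := h1
    _ ≤ Univ.ballInt m * (33 / 20) := mul_le_mul_of_nonneg_left (cst_inv_pow_le (by omega))
        (Univ.OneD.ballInt_pos m).le
    _ = _ := by ring

/-- The gap of a power: `X - ((1+X)^(1-e) - 1)/(1-e) ≥ e X² / (2 max 1 (1+X))`. -/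
theorem power_gap {e X : ℝ} (he0 : 0 < e) (he1 : e < 1) (hX : -1 < X) :
    e * X ^ 2 / (2 * max 1 (1 + X)) ≤ X - ((1 + X) ^ (1 - e) - 1) / (1 - e) := by
  have hne : (1 - e) ≠ 0 := (sub_pos.2 he1).ne'
  have hd : ∀ x : ℝ, -1 < x →
      HasDerivAt (fun x : ℝ => x - ((1 + x) ^ (1 - e) - 1) / (1 - e)) (1 - (1 + x) ^ (-e)) x := by
    intro x hx
    refine ((hasDerivAt_id' x).sub (((((hasDerivAt_id' x).const_add 1).rpow_const
      (p := 1 - e) (Or.inl (show (1 + x) ≠ 0 by linarith))).sub_const 1).div_const (1 - e))).congr_deriv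
      ?_
    rw [show 1 - e - 1 = -e by ring]
    field_simp
  rcases le_total X 0 with h | h
  · rw [max_eq_left (by linarith)]
    have hd2 : ∀ x : ℝ, -1 < x → HasDerivAt
        (fun x : ℝ => x - ((1 + x) ^ (1 - e) - 1) / (1 - e) - e * x ^ 2 / 2)
        (1 - (1 + x) ^ (-e) - e * x) x := fun x hx =>
      ((hd x hx).sub (((hasDerivAt_pow 2 x).const_mul e).div_const 2)).congr_deriv (by ring)
    have hanti : AntitoneOn (fun x : ℝ => x - ((1 + x) ^ (1 - e) - 1) / (1 - e) - e * x ^ 2 / 2)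
        (Icc X 0) := by
      refine antitoneOn_of_deriv_nonpos (convex_Icc X 0)
        (fun x hx => (hd2 x (hX.trans_le hx.1)).continuousAt.continuousWithinAt)
        (fun x hx => by
          rw [interior_Icc] at hx
          exact (hd2 x (hX.trans hx.1)).differentiableAt.differentiableWithinAt) fun x hx => ?_
      rw [interior_Icc] at hx
      have hx1 : 0 < 1 + x := by linarith [hx.1]
      rw [(hd2 x (hX.trans hx.1)).deriv, rpow_def_of_pos hx1]
      have h1 := add_one_le_exp (log (1 + x) * -e)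
      nlinarith [log_le_sub_one_of_pos hx1, h1]
    have := hanti (left_mem_Icc.2 h) (right_mem_Icc.2 h) h
    simp at this
    linarith
  · rw [max_eq_right (by linarith)]
    have hd2 : ∀ x : ℝ, -1 < x → HasDerivAt
        (fun x : ℝ => x - ((1 + x) ^ (1 - e) - 1) / (1 - e) - e / 2 * (x - 1 + 1 / (1 + x)))
        (1 - (1 + x) ^ (-e) - e / 2 * (1 - 1 / (1 + x) ^ 2)) x := fun x hx => by
      refine ((hd x hx).sub ((((hasDerivAt_id' x).sub_const 1).add
        ((hasDerivAt_const x (1:ℝ)).div ((hasDerivAt_id' x).const_add 1)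
          (show (1 + x) ≠ 0 by linarith))).const_mul (e / 2))).congr_deriv ?_
      ring
    have hmono : MonotoneOn
        (fun x : ℝ => x - ((1 + x) ^ (1 - e) - 1) / (1 - e) - e / 2 * (x - 1 + 1 / (1 + x)))
        (Icc 0 X) := by
      refine monotoneOn_of_deriv_nonneg (convex_Icc 0 X)
        (fun x hx => (hd2 x (by linarith [hx.1])).continuousAt.continuousWithinAt)
        (fun x hx => by
          rw [interior_Icc] at hx
          exact (hd2 x (by linarith [hx.1])).differentiableAt.differentiableWithinAt) fun x hx => ?_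
      rw [interior_Icc] at hx
      have hy : 0 < 1 + x := by linarith [hx.1]
      rw [(hd2 x (by linarith [hx.1])).deriv]
      have hc := convexOn_exp.2 (mem_univ (0:ℝ)) (mem_univ (log (1 + x) * -2))
        (show (0:ℝ) ≤ 1 - e / 2 by linarith) (show (0:ℝ) ≤ e / 2 by linarith) (by ring)
      simp only [smul_eq_mul, mul_zero, zero_add, exp_zero, mul_one] at hc
      have h2 : exp (log (1 + x) * -2) = 1 / (1 + x) ^ 2 := by
        rw [← rpow_def_of_pos hy, rpow_neg hy.le, one_div, rpow_two]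
      rw [h2, show e / 2 * (log (1 + x) * -2) = log (1 + x) * -e by ring,
        ← rpow_def_of_pos hy] at hc
      linarith
    have h1 := hmono (left_mem_Icc.2 h) (right_mem_Icc.2 h) h
    simp at h1
    have h2 : X - 1 + 1 / (1 + X) = X ^ 2 / (1 + X) := by field_simp; ring
    rw [show e * X ^ 2 / (2 * (1 + X)) = e / 2 * (X ^ 2 / (1 + X)) by field_simp, ← h2]
    simp only [one_div]
    linarith

end Vale.Agent.P237.AllN
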