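import Vale.Agent.P237.AllN.InvEta
import Vale.Agent.P237.AllN.GamEnv

/-!
# P237, all dimensions: the Hardy inequality without the square term

`Hardy0 m cL` says `negR ≤ breg + bdry + cL Z₀ G` on normalised profiles violating the profile
inequality. With `cL` of order `1/n` it gives `LemmaMix m` for every `m ≥ 11` by the assembly
`lemmaMix_of_excess` (here `η = 0` and `θ = cL`); no case distinction on `J` is needed.
-/

open MeasureTheory Set Real Filter Topology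

namespace Vale.Agent.P237.AllN

variable {m : ℕ} {f : ℝ → ℝ}

/-- The Hardy inequality with the gain `breg + bdry` alone. -/
def Hardy0 (m : ℕ) (cL : ℝ) : Prop :=
  ∀ f : ℝ → ℝ, HalfProf f → f 0 = 1 →
    GaugeBall.secRatio m f ^ m ≤ GaugeBall.volRatio m f ^ (m - 1) →
    negR m f ≤ breg m f + bdry m f + cL * ((∫ t in (0:ℝ)..1, us t ^ m) * relG m f)

theorem Hardy0.mono (hm : 3 ≤ m) {c c' : ℝ} (h : c ≤ c') (H : Hardy0 m c) : Hardy0 m c' := by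
  intro f P h0 hN
  refine (H f P h0 hN).trans (add_le_add_right ?_ _)
  refine mul_le_mul_of_nonneg_right h (mul_nonneg (Z_pos halfProf_us).le ?_)
  rw [show relG m f = GaugeBall.linGain m f from rfl]
  exact GaugeBall.linGain_nonneg P (by omega) hN

/-- **`LemmaMix` from `Hardy0` under one numerical condition.** -/
theorem lemmaMix_of_hardy0_excess (hm : 3 ≤ m) {cL : ℝ} (hc : 0 ≤ cL)
    (hcμ : cL < muD m - muD m ^ 2) (H : Hardy0 m cL)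
    (hcond : cL + (1 + cL) * dTop m +
      piD m * (1 + muD m ^ 2 / (muD m - muD m ^ 2 - cL)) < 1) : LemmaMix m := by
  refine lemmaMix_of_excess (θ := cL) (η := 0) (c := cL) (d := dTop m) hm hc le_rfl hc hcμ
    (dTop_le hm).2.le (fun f _ _ _ => dTop_bound hm _) (fun f P h0 hN => ?_) (by linarith)
  have hZ0 := Z_pos halfProf_us (m := m)
  have he : excD m f ≤ cL * relG m f := by
    rw [excD, div_le_iff₀ hZ0]
    linarith [H f P h0 hN]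
  have hq : 0 ≤ quad m * (qhR m f / ∫ t in (0:ℝ)..1, us t ^ m) :=
    mul_nonneg (quad_pos m).le (div_nonneg (qhR_nonneg P h0) hZ0.le)
  refine ⟨he.trans ?_, he.trans (by linarith)⟩
  exact mul_le_mul_of_nonneg_left (by linarith) hc

/-- `μ` between two rational functions with relative gap `O(1/m²)`. -/
theorem muD_sharp (hm : m ≠ 0) :
    (12 * (m:ℝ) + 21) / (8 * (m:ℝ) ^ 2 + 24 * m + 21) ≤ muD m ∧
      muD m ≤ (12 * (m:ℝ) + 15) / (8 * (m:ℝ) ^ 2 + 20 * m + 15) := by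
  obtain ⟨-, hp⟩ := lamC_sub_one hm
  have hm0 : (0:ℝ) ≤ m := Nat.cast_nonneg m
  rw [muD_eq hm]
  constructor
  · rw [div_le_div_iff₀ (by positivity) hp]
    have h := le_quadHi m
    rw [quadHi, le_div_iff₀ (by positivity)] at h
    linarith [mul_le_mul_of_nonneg_left h hm0]
  · rw [div_le_div_iff₀ hp (by positivity)]
    have h := quadLo_le m
    rw [quadLo, div_le_iff₀ (by positivity)] at h
    linarith [mul_le_mul_of_nonneg_left h hm0]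

/-- `piD` as a sum of two decreasing functions. -/
theorem piD_eq_sum (hm : 3 ≤ m) :
    piD m = ((m:ℝ) + 2) / (m - 2) * (((m:ℝ) + 1) / (m - 1)) * muD m ^ 2 / 2 +
      27 / (((m:ℝ) - 2) * (m - 1)) * (((m:ℝ) + 6) / (m + 2)) := by
  have h3 : (3:ℝ) ≤ m := by exact_mod_cast hm
  have h2 : (m:ℝ) - 2 ≠ 0 := by linarith
  have h1 : (m:ℝ) - 1 ≠ 0 := by linarith
  rw [piD, psiTwo]
  field_simp
  ring

/-- `l ≤ (m+1) μ ≤ 3/2` and `μ ≤ h` for `m ≥ M`. -/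
theorem muD_uniform {M : ℕ} (hmM : M ≤ m) (hm : m ≠ 0) {l h : ℝ}
    (hl : l * (8 * (M:ℝ) ^ 2 + 24 * M + 21) ≤ (12 * M + 21) * (M + 1))
    (hl' : l * (16 * (M:ℝ) + 24) ≤ 24 * M + 33) (hl1 : l ≤ 3 / 2)
    (hh : 12 * (M:ℝ) + 15 ≤ h * (8 * (M:ℝ) ^ 2 + 20 * M + 15)) :
    l ≤ ((m:ℝ) + 1) * muD m ∧ ((m:ℝ) + 1) * muD m ≤ 3 / 2 ∧ muD m ≤ h := by
  have hmM' : (M:ℝ) ≤ m := by exact_mod_cast hmM
  obtain ⟨hlo, hhi⟩ := muD_sharp hm
  refine ⟨?_, ?_, ?_⟩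
  · refine le_trans ?_ (mul_le_mul_of_nonneg_left hlo (by positivity))
    rw [← mul_div_assoc, le_div_iff₀ (by positivity)]
    linarith [mul_nonneg (sub_nonneg.2 hmM') (sub_nonneg.2 hl'),
      mul_nonneg (mul_nonneg (sub_nonneg.2 hmM') (sub_nonneg.2 hmM')) (sub_nonneg.2 hl1)]
  · refine le_trans (mul_le_mul_of_nonneg_left hhi (by positivity)) ?_
    rw [← mul_div_assoc, div_le_iff₀ (by positivity)]
    linarith [(Nat.cast_nonneg m : (0:ℝ) ≤ m)]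
  · refine hhi.trans (le_trans ?_ (b := (12 * (M:ℝ) + 15) / (8 * (M:ℝ) ^ 2 + 20 * M + 15)) ?_)
    · rw [div_le_div_iff₀ (by positivity) (by positivity)]
      have : 0 ≤ ((m:ℝ) - M) * (96 * ((m:ℝ) * M) + 120 * ((m:ℝ) + M) + 120) :=
        mul_nonneg (sub_nonneg.2 hmM') (by positivity)
      linarith
    · rwa [div_le_iff₀ (by positivity)]

/-- The value of `piD_eq_sum` at `M` and `h`. -/
noncomputable def piTop (M : ℕ) (h : ℝ) : ℝ :=
  ((M:ℝ) + 2) / (M - 2) * (((M:ℝ) + 1) / (M - 1)) * h ^ 2 / 2 +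
    27 / (((M:ℝ) - 2) * (M - 1)) * (((M:ℝ) + 6) / (M + 2))

/-- `piD m ≤ piTop M h` for `m ≥ M`. -/
theorem piD_uniform {M : ℕ} (hM : 3 ≤ M) (hmM : M ≤ m) {h : ℝ} (hμh : muD m ≤ h) :
    piD m ≤ piTop M h := by
  have hm : 3 ≤ m := hM.trans hmM
  have hM3 : (3:ℝ) ≤ M := by exact_mod_cast hM
  have hmM' : (M:ℝ) ≤ m := by exact_mod_cast hmM
  have hμ0 := (muD_mem (show m ≠ 0 by omega)).1
  have p2 : (0:ℝ) < M - 2 := by linarith
  have p1 : (0:ℝ) < M - 1 := by linarith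
  have q2 : (0:ℝ) < m - 2 := by linarith
  have q1 : (0:ℝ) < m - 1 := by linarith
  have i2 : ((m:ℝ) + 2) / (m - 2) ≤ ((M:ℝ) + 2) / (M - 2) := by
    rw [div_le_div_iff₀ q2 p2]; linarith
  have i1 : ((m:ℝ) + 1) / (m - 1) ≤ ((M:ℝ) + 1) / (M - 1) := by
    rw [div_le_div_iff₀ q1 p1]; linarith
  have i6 : ((m:ℝ) + 6) / (m + 2) ≤ ((M:ℝ) + 6) / (M + 2) := by
    rw [div_le_div_iff₀ (by positivity) (by positivity)]; linarith
  have i0 : 27 / (((m:ℝ) - 2) * (m - 1)) ≤ 27 / (((M:ℝ) - 2) * (M - 1)) :=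
    div_le_div_of_nonneg_left (by norm_num) (mul_pos p2 p1)
      (mul_le_mul (by linarith) (by linarith) p1.le q2.le)
  rw [piD_eq_sum hm, piTop]
  gcongr

/-- The numerical condition, uniformly in `m ≥ M`. -/
theorem hardy0_cond {M : ℕ} (hM : 3 ≤ M) (hmM : M ≤ m) {cL a l h : ℝ} (hc : 0 ≤ cL)
    (hca : cL * ((m:ℝ) + 1) ≤ a)
    (hml : l ≤ ((m:ℝ) + 1) * muD m) (hmu32 : ((m:ℝ) + 1) * muD m ≤ 3 / 2) (hμh : muD m ≤ h)
    (hpos : 0 < l - 3 / 2 * h - a)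
    (hnum : a / ((M:ℝ) + 1) + (1 + a / ((M:ℝ) + 1)) * ((6 - l) / ((M:ℝ) - 1)) +
      piTop M h * (1 + 3 / 2 * h / (l - 3 / 2 * h - a)) < 1) :
    cL < muD m - muD m ^ 2 ∧
      cL + (1 + cL) * dTop m + piD m * (1 + muD m ^ 2 / (muD m - muD m ^ 2 - cL)) < 1 := by
  have hm : 3 ≤ m := hM.trans hmM
  have hM3 : (3:ℝ) ≤ M := by exact_mod_cast hM
  have hmM' : (M:ℝ) ≤ m := by exact_mod_cast hmM
  obtain ⟨hμ0, hμ1⟩ := muD_mem (show m ≠ 0 by omega)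
  have hsq : ((m:ℝ) + 1) * muD m ^ 2 ≤ 3 / 2 * h := by
    rw [sq, ← mul_assoc]
    exact mul_le_mul hmu32 hμh hμ0.le (by norm_num)
  have hgap : l - 3 / 2 * h - a ≤ ((m:ℝ) + 1) * (muD m - muD m ^ 2 - cL) := by linarith
  have hm1 : (0:ℝ) < (m:ℝ) + 1 := by positivity
  have hgap0 : 0 < muD m - muD m ^ 2 - cL :=
    pos_of_mul_pos_right (hpos.trans_le hgap) hm1.le
  refine ⟨by linarith, lt_of_le_of_lt ?_ hnum⟩
  have hM1 : (0:ℝ) < (M:ℝ) + 1 := by positivity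
  have hcL : cL ≤ a / ((M:ℝ) + 1) := by
    rw [le_div_iff₀ hM1]
    exact le_trans (mul_le_mul_of_nonneg_left (by linarith) hc) hca
  have hd : dTop m ≤ (6 - l) / ((M:ℝ) - 1) := by
    rw [dTop]
    exact div_le_div₀ (by linarith) (by linarith) (by linarith) (by linarith)
  have hpi := piD_uniform hM hmM hμh
  have hpi0 : 0 ≤ piD m := mul_nonneg hm1.le (psiTwo_pos hm _).le
  have hrat : muD m ^ 2 / (muD m - muD m ^ 2 - cL) ≤ 3 / 2 * h / (l - 3 / 2 * h - a) := by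
    rw [div_le_div_iff₀ hgap0 hpos]
    calc muD m ^ 2 * (l - 3 / 2 * h - a)
        ≤ muD m ^ 2 * (((m:ℝ) + 1) * (muD m - muD m ^ 2 - cL)) :=
          mul_le_mul_of_nonneg_left hgap (sq_nonneg _)
      _ = ((m:ℝ) + 1) * muD m ^ 2 * (muD m - muD m ^ 2 - cL) := by ring
      _ ≤ _ := mul_le_mul_of_nonneg_right hsq hgap0.le
  have hr0 : 0 ≤ muD m ^ 2 / (muD m - muD m ^ 2 - cL) := div_nonneg (sq_nonneg _) hgap0.le
  have h1 := mul_le_mul hpi (add_le_add_left hrat 1) (by linarith) (hpi0.trans hpi)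
  have h2 := mul_le_mul (add_le_add_left hcL 1) hd (dTop_le hm).2.le
    (by linarith)
  linarith

/-- `hardy0_cond` with the rational bounds of `μ`. -/
theorem lemmaMix_of_hardy0_from {M : ℕ} (hM : 3 ≤ M) (hmM : M ≤ m) {cL a : ℝ} (l h : ℝ)
    (hc : 0 ≤ cL) (hca : cL * ((m:ℝ) + 1) ≤ a) (H : Hardy0 m cL)
    (hl : l * (8 * (M:ℝ) ^ 2 + 24 * M + 21) ≤ (12 * M + 21) * (M + 1))
    (hl' : l * (16 * (M:ℝ) + 24) ≤ 24 * M + 33) (hl1 : l ≤ 3 / 2)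
    (hh : 12 * (M:ℝ) + 15 ≤ h * (8 * (M:ℝ) ^ 2 + 20 * M + 15))
    (hpos : 0 < l - 3 / 2 * h - a)
    (hnum : a / ((M:ℝ) + 1) + (1 + a / ((M:ℝ) + 1)) * ((6 - l) / ((M:ℝ) - 1)) +
      piTop M h * (1 + 3 / 2 * h / (l - 3 / 2 * h - a)) < 1) : LemmaMix m := by
  obtain ⟨a1, a2, a3⟩ := muD_uniform hmM (by omega) hl hl' hl1 hh
  obtain ⟨h1, h2⟩ := hardy0_cond hM hmM hc hca a1 a2 a3 hpos hnum
  exact lemmaMix_of_hardy0_excess (by omega) hc h1 H h2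

/-- **`LemmaMix` for `m ≥ 11` from `Hardy0` with `cL (m+1) ≤ 9/25`.** -/
theorem lemmaMix_of_hardy0_eleven (hm : 11 ≤ m) {cL : ℝ} (hc : 0 ≤ cL)
    (hca : cL * ((m:ℝ) + 1) ≤ 9 / 25) (H : Hardy0 m cL) : LemmaMix m := by
  refine lemmaMix_of_hardy0_from (M := 11) (by norm_num) hm (1465 / 1000) (1222 / 10000) hc hca H
    ?_ ?_ ?_ ?_ ?_ ?_ <;> norm_num [piTop]

/-- **`LemmaMix` for `m ≥ 13` from `Hardy0` with `cL (m+1) ≤ 1`.** -/
theorem lemmaMix_of_hardy0_thirteen (hm : 13 ≤ m) {cL : ℝ} (hc : 0 ≤ cL)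
    (hca : cL * ((m:ℝ) + 1) ≤ 1) (H : Hardy0 m cL) : LemmaMix m := by
  refine lemmaMix_of_hardy0_from (M := 13) (by norm_num) hm (147 / 100) (1052 / 10000) hc hca H
    ?_ ?_ ?_ ?_ ?_ ?_ <;> norm_num [piTop]

end Vale.Agent.P237.AllN
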