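import Vale.Agent.P237.AllN.InvAssembly

/-!
# P237, all dimensions: a linear cap on the profile from `G ≥ 0`

With `k(r) = m r^(m-2) (c - r)` and `T = dist01 f`, `G ≥ 0` says `∫₀¹ k T ≤ Z₀/(m-1)`.
Since `T` is monotone and concave in the level, this bounds `t` whenever `f t ≥ r₁`, `r₁ < c`:
`t * min (∫₀¹ k) (∫₀^{r₁} k + ∫_{r₁}^c k (c-r)/(c-r₁)) ≤ Z₀/(m-1)`.
-/

open MeasureTheory Set Real Filter Topology

namespace Vale.Agent.P237.AllN

variable {m : ℕ} {f : ℝ → ℝ}

/-- The kernel of `G`. -/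
noncomputable def capK (m : ℕ) (r : ℝ) : ℝ := (m:ℝ) * r ^ (m - 2) * (cst m - r)

/-- The primitive of `capK`. -/
noncomputable def capQ (m : ℕ) (r : ℝ) : ℝ :=
  (m:ℝ) * (cst m * r ^ (m - 1) / ((m:ℝ) - 1) - r ^ m / m)

/-- The primitive of `capK * (c - r)`. -/
noncomputable def capP (m : ℕ) (r : ℝ) : ℝ :=
  (m:ℝ) * (cst m ^ 2 * r ^ (m - 1) / ((m:ℝ) - 1) - 2 * cst m * r ^ m / m +
    r ^ (m + 1) / ((m:ℝ) + 1))

/-- The lower weight of the cap. -/
noncomputable def capM (m : ℕ) (r₁ : ℝ) : ℝ :=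
  min (capQ m 1) (capQ m r₁ + (capP m (cst m) - capP m r₁) / (cst m - r₁))

theorem continuous_capK : Continuous (capK m) := by unfold capK; fun_prop

theorem hasDerivAt_capQ (hm : 2 ≤ m) (r : ℝ) : HasDerivAt (capQ m) (capK m r) r := by
  obtain ⟨j, rfl⟩ : ∃ j, m = j + 2 := ⟨m - 2, by omega⟩
  refine ((((hasDerivAt_pow (j + 2 - 1) r).const_mul (cst (j + 2))).div_const _).sub
    ((hasDerivAt_pow (j + 2) r).div_const _)).const_mul _ |>.congr_deriv ?_
  simp only [capK, show j + 2 - 2 = j by omega, show j + 2 - 1 = j + 1 by omega,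
    show j + 1 - 1 = j by omega, pow_succ _ j]
  push_cast
  have e : (j:ℝ) + 2 - 1 = (j:ℝ) + 1 := by ring
  rw [e]
  field_simp

theorem hasDerivAt_capP (hm : 2 ≤ m) (r : ℝ) :
    HasDerivAt (capP m) (capK m r * (cst m - r)) r := by
  obtain ⟨j, rfl⟩ : ∃ j, m = j + 2 := ⟨m - 2, by omega⟩
  refine (((((hasDerivAt_pow (j + 2 - 1) r).const_mul (cst (j + 2) ^ 2)).div_const _).sub
    (((hasDerivAt_pow (j + 2) r).const_mul (2 * cst (j + 2))).div_const _)).add
    ((hasDerivAt_pow (j + 2 + 1) r).div_const _)).const_mul _ |>.congr_deriv ?_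
  simp only [capK, show j + 2 - 2 = j by omega, show j + 2 - 1 = j + 1 by omega,
    show j + 1 - 1 = j by omega, show j + 2 + 1 - 1 = j + 2 by omega, pow_succ _ j,
    show r ^ (j + 2) = r ^ j * r * r by ring]
  push_cast
  have e : (j:ℝ) + 2 - 1 = (j:ℝ) + 1 := by ring
  rw [e]
  field_simp
  ring

theorem capQ_zero (hm : 2 ≤ m) : capQ m 0 = 0 := by
  simp [capQ, show m - 1 ≠ 0 by omega, show m ≠ 0 by omega]

theorem integral_capK (hm : 2 ≤ m) (a b : ℝ) :
    ∫ r in a..b, capK m r = capQ m b - capQ m a :=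
  intervalIntegral.integral_eq_sub_of_hasDerivAt (fun r _ => hasDerivAt_capQ hm r)
    (continuous_capK.intervalIntegrable a b)

/-- `G ≥ 0` in the distribution function. -/
theorem int_capK_dist (P : HalfProf f) (h0 : f 0 = 1) (hm : 3 ≤ m) (hG : 0 ≤ relG m f) :
    IntervalIntegrable (fun r => capK m r * dist01 f r) volume 0 1 ∧
      ∫ r in (0:ℝ)..1, capK m r * dist01 f r ≤ (∫ t in (0:ℝ)..1, us t ^ m) / ((m:ℝ) - 1) := by
  obtain ⟨i, e⟩ := layer P h0 (a := fun _ => 1) intervalIntegrable_const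
    (continuous_capK (m := m))
  simp only [one_mul, intervalIntegral.integral_const, sub_zero, smul_eq_mul, mul_one] at i e
  refine ⟨i, ?_⟩
  rw [← e]
  have e1 : ∀ t, (∫ r in (0:ℝ)..f t, capK m r) =
      (m:ℝ) * cst m / ((m:ℝ) - 1) * f t ^ (m - 1) - f t ^ m := fun t => by
    rw [integral_capK (by omega), capQ_zero (by omega), sub_zero, capQ]
    have h1 : (m:ℝ) - 1 ≠ 0 := sub_ne_zero.2 (by exact_mod_cast (show m ≠ 1 by omega))
    have h2 : (m:ℝ) ≠ 0 := Nat.cast_ne_zero.2 (by omega)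
    field_simp
  simp only [e1]
  rw [intervalIntegral.integral_sub ((P.intPow _).const_mul _) (P.intPow _),
    intervalIntegral.integral_const_mul]
  have hZ0 := Z_pos halfProf_us (m := m)
  have hP0 := Z_pos halfProf_us (m := m - 1)
  have hm1 : (0:ℝ) < (m:ℝ) - 1 := by
    have : (3:ℝ) ≤ m := by exact_mod_cast hm
    linarith
  rw [relG, relX, ← cst_eq (show m ≠ 0 by omega)] at hG
  rw [← cst_eq (show m ≠ 0 by omega)]
  have hc := cst_pos m
  set Z := ∫ t in (0:ℝ)..1, f t ^ m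
  set Pf := ∫ t in (0:ℝ)..1, f t ^ (m - 1)
  set P0 := ∫ t in (0:ℝ)..1, us t ^ (m - 1)
  have h := mul_nonneg hG (mul_nonneg (mul_pos hc hP0).le hm1.le)
  have eh : (Z / (cst m * P0) - 1 - (m:ℝ) / ((m:ℝ) - 1) * (Pf / P0 - 1)) *
      (cst m * P0 * ((m:ℝ) - 1)) =
      ((m:ℝ) - 1) * Z - (m:ℝ) * cst m * Pf + cst m * P0 := by
    field_simp
    ring
  rw [eh] at h
  rw [le_div_iff₀ hm1]
  have e2 : ((m:ℝ) * cst m / ((m:ℝ) - 1) * Pf - Z) * ((m:ℝ) - 1) =
      (m:ℝ) * cst m * Pf - ((m:ℝ) - 1) * Z := by field_simp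
  rw [e2]
  linarith

/-- **The cap.** -/
theorem level_cap (P : HalfProf f) (h0 : f 0 = 1) (hm : 3 ≤ m) (hG : 0 ≤ relG m f) {r₁ t : ℝ}
    (hr : r₁ ∈ Ico 0 (cst m)) (ht : t ∈ Ioo (0:ℝ) 1) (hf : r₁ ≤ f t) :
    t * capM m r₁ ≤ (∫ s in (0:ℝ)..1, us s ^ m) / ((m:ℝ) - 1) := by
  obtain ⟨i, hle⟩ := int_capK_dist P h0 hm hG
  refine le_trans ?_ hle
  have hc1 := cst_lt_one m
  have hc0 : 0 < cst m := cst_pos m
  set c := cst m with hc
  set a := dist01 f c with ha
  have ha0 : 0 ≤ a := (dist01_mem f c).1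
  have hsub : ∀ x ∈ Icc (0:ℝ) 1, ∀ y ∈ Icc (0:ℝ) 1, uIcc x y ⊆ uIcc (0:ℝ) 1 := fun x hx y hy => by
    rw [uIcc_of_le zero_le_one]; exact uIcc_subset_Icc hx hy
  have hcI : c ∈ Icc (0:ℝ) 1 := ⟨hc0.le, hc1.le⟩
  have hrI : r₁ ∈ Icc (0:ℝ) 1 := ⟨hr.1, hr.2.le.trans hc1.le⟩
  have i1 := i.mono_set (hsub 0 (left_mem_Icc.2 zero_le_one) r₁ hrI)
  have i2 := i.mono_set (hsub r₁ hrI c hcI)
  have i3 := i.mono_set (hsub c hcI 1 (right_mem_Icc.2 zero_le_one))
  rw [← intervalIntegral.integral_add_adjacent_intervals (i1.trans i2) i3,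
    ← intervalIntegral.integral_add_adjacent_intervals i1 i2]
  have hKpos : ∀ r ∈ Icc 0 c, 0 ≤ capK m r := fun r hr' =>
    mul_nonneg (mul_nonneg (Nat.cast_nonneg m) (pow_nonneg hr'.1 _)) (sub_nonneg.2 hr'.2)
  have hKc : ∀ {x y : ℝ} (z : ℝ), IntervalIntegrable (fun r => capK m r * z) volume x y :=
    fun z => (continuous_capK.mul continuous_const).intervalIntegrable _ _
  have hint : ∀ (x y z : ℝ), (∫ r in x..y, capK m r * z) = (capQ m y - capQ m x) * z :=
    fun x y z => by rw [intervalIntegral.integral_mul_const, integral_capK (by omega)]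
  -- above `c`
  have h3 : (capQ m 1 - capQ m c) * a ≤ ∫ r in c..1, capK m r * dist01 f r := by
    rw [← hint]
    refine intervalIntegral.integral_mono_on hc1.le (hKc _) i3 fun r hr' => ?_
    refine mul_le_mul_of_nonpos_left (dist01_antitone f hr'.1) ?_
    exact mul_nonpos_of_nonneg_of_nonpos (mul_nonneg (Nat.cast_nonneg m)
      (pow_nonneg (hc0.le.trans hr'.1) _)) (sub_nonpos.2 hr'.1)
  rcases le_total t a with hta | hta
  · have h1 : (capQ m r₁ - capQ m 0) * a ≤ ∫ r in (0:ℝ)..r₁, capK m r * dist01 f r := by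
      rw [← hint]
      refine intervalIntegral.integral_mono_on hr.1 (hKc _) i1 fun r hr' => ?_
      exact mul_le_mul_of_nonneg_left (dist01_antitone f (hr'.2.trans hr.2.le))
        (hKpos r ⟨hr'.1, hr'.2.trans hr.2.le⟩)
    have h2 : (capQ m c - capQ m r₁) * a ≤ ∫ r in r₁..c, capK m r * dist01 f r := by
      rw [← hint]
      refine intervalIntegral.integral_mono_on hr.2.le (hKc _) i2 fun r hr' => ?_
      exact mul_le_mul_of_nonneg_left (dist01_antitone f hr'.2)
        (hKpos r ⟨hr.1.trans hr'.1, hr'.2⟩)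
    rw [capQ_zero (by omega)] at h1
    rcases le_or_gt 0 (capQ m 1) with hq | hq
    · calc t * capM m r₁ ≤ t * capQ m 1 := mul_le_mul_of_nonneg_left (min_le_left _ _) ht.1.le
        _ ≤ a * capQ m 1 := mul_le_mul_of_nonneg_right hta hq
        _ ≤ _ := by linarith
    · exfalso
      have e : capQ m 1 = (m:ℝ) * c / ((m:ℝ) - 1) - 1 := by
        rw [capQ, one_pow, one_pow]
        have : (m:ℝ) ≠ 0 := Nat.cast_ne_zero.2 (by omega)
        field_simp
        ring
      have hb := le_cst m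
      have h3m : (3:ℝ) ≤ m := by exact_mod_cast hm
      rw [e, sub_neg, div_lt_iff₀ (by linarith)] at hq
      rw [div_le_iff₀ (by positivity)] at hb
      nlinarith
  · have h1 : (capQ m r₁ - capQ m 0) * t ≤ ∫ r in (0:ℝ)..r₁, capK m r * dist01 f r := by
      rw [← hint]
      refine intervalIntegral.integral_mono_on_of_le_Ioo hr.1 (hKc _) i1 fun r hr' => ?_
      exact mul_le_mul_of_nonneg_left ((lt_iff_lt_dist01 P ht).2 (hr'.2.trans_le hf))
        (hKpos r ⟨hr'.1.le, hr'.2.le.trans hr.2.le⟩)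
    have hline : ∀ r ∈ Ioo r₁ c, a + (t - a) * ((c - r) / (c - r₁)) ≤ dist01 f r := by
      intro r hr'
      set l := (c - r) / (c - r₁) with hl
      have hd : 0 < c - r₁ := sub_pos.2 hr.2
      have hl0 : 0 < l := div_pos (sub_pos.2 hr'.2) hd
      have hl1 : l < 1 := by rw [hl, div_lt_one hd]; linarith [hr'.1]
      have er : l * r₁ + (1 - l) * c = r := by rw [hl]; field_simp; ring
      have key : ∀ s ∈ Icc (0:ℝ) t, c < f s → l * t + (1 - l) * s ≤ dist01 f r := by
        intro s hs hfs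
        have hs1 : s ∈ Icc (0:ℝ) 1 := ⟨hs.1, hs.2.trans ht.2.le⟩
        refine (lt_iff_lt_dist01 P ⟨?_, ?_⟩).2 ?_
        · nlinarith [ht.1, hs.1, mul_pos hl0 ht.1]
        · nlinarith [ht.2, hs.2, mul_le_mul_of_nonneg_left hs.2 (sub_pos.2 hl1).le]
        · refine lt_of_lt_of_le ?_ (P.conc.2 (Ioo_subset_Icc_self ht) hs1 hl0.le
            (sub_pos.2 hl1).le (by ring))
          simp only [smul_eq_mul]
          rw [← er]
          nlinarith [mul_le_mul_of_nonneg_left hf hl0.le, mul_lt_mul_of_pos_left hfs (sub_pos.2 hl1)]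
      rcases ha0.eq_or_lt with h | h
      · have := key 0 ⟨le_rfl, ht.1.le⟩ (by rw [h0]; exact hc1)
        rw [← h]
        linarith
      · rw [show a + (t - a) * l = l * t + (1 - l) * a by ring]
        refine le_of_forall_lt_imp_le_of_dense fun z hz => ?_
        rcases le_or_gt z (l * t) with hz' | hz'
        · have := key 0 ⟨le_rfl, ht.1.le⟩ (by rw [h0]; exact hc1)
          linarith
        · set s := (z - l * t) / (1 - l) with hsd
          have hs0 : 0 < s := div_pos (sub_pos.2 hz') (sub_pos.2 hl1)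
          have hsa : s < a := by rw [hsd, div_lt_iff₀ (sub_pos.2 hl1)]; linarith
          have := key s ⟨hs0.le, hsa.le.trans hta⟩ ((lt_iff_lt_dist01 P
            ⟨hs0, hsa.trans_le (hta.trans ht.2.le)⟩).1 hsa)
          have e : l * t + (1 - l) * s = z := by
            rw [hsd, mul_div_cancel₀ _ (sub_pos.2 hl1).ne']; ring
          linarith
    have h2 : (capQ m c - capQ m r₁) * a + (t - a) * ((capP m c - capP m r₁) / (c - r₁)) ≤
        ∫ r in r₁..c, capK m r * dist01 f r := by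
      have hcP : Continuous fun r => capK m r * (c - r) :=
        continuous_capK.mul (continuous_const.sub continuous_id)
      rw [← hint, ← intervalIntegral.integral_eq_sub_of_hasDerivAt
        (fun r _ => hasDerivAt_capP (by omega) r) (hcP.intervalIntegrable r₁ c),
        ← intervalIntegral.integral_div, ← intervalIntegral.integral_const_mul,
        ← intervalIntegral.integral_add (hKc _) (((hcP.intervalIntegrable _ _).div_const _).const_mul _)]
      refine intervalIntegral.integral_mono_on_of_le_Ioo hr.2.le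
        ((hKc _).add (((hcP.intervalIntegrable _ _).div_const _).const_mul _)) i2 fun r hr' => ?_
      refine le_trans (le_of_eq ?_)
        (mul_le_mul_of_nonneg_left (hline r hr') (hKpos r ⟨hr.1.trans hr'.1.le, hr'.2.le⟩))
      ring
    rw [capQ_zero (by omega)] at h1
    have h4 : a * capM m r₁ + (t - a) * capM m r₁ ≤
        a * capQ m 1 + (t - a) * (capQ m r₁ + (capP m c - capP m r₁) / (c - r₁)) :=
      add_le_add (mul_le_mul_of_nonneg_left (min_le_left _ _) ha0)
        (mul_le_mul_of_nonneg_left (min_le_right _ _) (sub_nonneg.2 hta))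
    linarith

/-- The cap on the jump. -/
theorem level_cap_jump (P : HalfProf f) (h0 : f 0 = 1) (hm : 3 ≤ m) (hG : 0 ≤ relG m f) {r₁ : ℝ}
    (hr : r₁ ∈ Ico 0 (cst m)) (he : r₁ ≤ fend f) :
    capM m r₁ ≤ (∫ s in (0:ℝ)..1, us s ^ m) / ((m:ℝ) - 1) := by
  have hev : ∀ᶠ t in 𝓝[<] (1:ℝ),
      t * capM m r₁ ≤ (∫ s in (0:ℝ)..1, us s ^ m) / ((m:ℝ) - 1) := by
    filter_upwards [Ioo_mem_nhdsLT one_pos] with t ht
    refine level_cap P h0 hm hG hr ht (he.trans ?_)
    exact csInf_le ⟨0, forall_mem_image.2 fun s hs => P.nonneg s (Ioo_subset_Icc_self hs)⟩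
      (mem_image_of_mem f ht)
  have hlim : Tendsto (fun t : ℝ => t * capM m r₁) (𝓝[<] 1) (𝓝 (capM m r₁)) := by
    have hc : Continuous fun t : ℝ => t * capM m r₁ := continuous_id.mul continuous_const
    simpa using (hc.tendsto (1:ℝ)).mono_left
      (nhdsWithin_le_nhds (a := (1:ℝ)) (s := Iio 1))
  exact le_of_tendsto hlim hev

end Vale.Agent.P237.AllN
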