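import Vale.Agent.P237.AllN.InvBounds

/-!
# P237, all dimensions: linear functionals of the gauge deviation against the gain

For continuous `h` with `P = √(1-r²) h`, put `pairH h f = ∫ h(f)(-f') - q τ h(f)`, jump included
(`q = f - t f'`, `τ = √(1-f²)`); with `h = m r^(m-1) ω` this is the pairing of `p - τ` with `ω`.
If `(s P + ∫₀ˢ P)' = g` it equals `-∫ g (dist - √(1-r²))`.

The conjugate of the closed gain is elementary: with `a = τ/r - w` and `r |w| ≤ a`,
`(τ-p) w ≤ (1-pτ)/r - √(1-p²) + p (a - √(a² - r² w²))`. Since `q p = -f'`, the last term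
integrates to a constant. So a linear functional is at most `η chiGain` plus a constant.
-/

open MeasureTheory Set Real Filter Topology

namespace Vale.Agent.P237.AllN

variable {m : ℕ} {f : ℝ → ℝ}

/-- The pointwise conjugate of the closed gain. -/
theorem pair_chi_conj {r p w : ℝ} (hr : r ∈ Ioc (0:ℝ) 1) (hp : p ∈ Icc (0:ℝ) 1)
    (ha : |r * w| ≤ us r / r - w) (hA : us r * w ≤ 1 / r) :
    (us r - p) * w ≤ (1 - p * us r) / r - √(1 - p ^ 2) +
      p * ((us r / r - w) - √((us r / r - w) ^ 2 - (r * w) ^ 2)) := by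
  have hu := us_sq (Ioc_subset_Icc_self hr)
  set a := us r / r - w with ha'
  set s := √(a ^ 2 - (r * w) ^ 2) with hs
  have hsn : 0 ≤ s := sqrt_nonneg _
  have hs2 : s ^ 2 = a ^ 2 - (r * w) ^ 2 := by
    refine sq_sqrt (sub_nonneg.2 ?_)
    rw [← sq_abs (r * w)]
    exact pow_le_pow_left₀ (abs_nonneg _) ha 2
  set e := √(1 - p ^ 2) with he
  have hen : 0 ≤ e := sqrt_nonneg _
  have he2 : e ^ 2 = 1 - p ^ 2 := sq_sqrt (by nlinarith [hp.1, hp.2])
  have hA2 : (1 / r - us r * w) ^ 2 = 1 + s ^ 2 := by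
    rw [hs2, ha']
    have := hr.1.ne'
    field_simp
    linear_combination (r ^ 2 * w ^ 2 - 1) * hu
  have key : e + p * s ≤ 1 / r - us r * w := by
    refine le_of_sq_le_sq ?_ (by linarith)
    rw [hA2]
    nlinarith [sq_nonneg (p - e * s), sq_nonneg (e - p * s)]
  have e1 : (1 - p * us r) / r = 1 / r - p * (us r / r) := by ring
  rw [e1]
  have e2 : (us r - p) * w - (1 / r - p * (us r / r) - e + p * (a - s)) =
      e + p * s - (1 / r - us r * w) := by rw [ha']; ring
  linarith

/-- The conjugate is quadratic: `a - √(a² - b²) ≤ b²/a`. -/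
theorem sub_sqrt_le {a b : ℝ} (ha : 0 < a) (hb : b ^ 2 ≤ a ^ 2) :
    a - √(a ^ 2 - b ^ 2) ≤ b ^ 2 / a := by
  set s := √(a ^ 2 - b ^ 2) with hs
  have hsn : 0 ≤ s := sqrt_nonneg _
  have hs2 : s ^ 2 = a ^ 2 - b ^ 2 := sq_sqrt (sub_nonneg.2 hb)
  rw [le_div_iff₀ ha]
  have hsa : s ≤ a := le_of_sq_le_sq (by rw [hs2]; nlinarith [sq_nonneg b]) ha.le
  nlinarith [mul_nonneg hsn (sub_nonneg.2 hsa)]

/-- `∫ h(f) (-f') - q τ h(f)`, jump included. -/
noncomputable def pairH (h : ℝ → ℝ) (f : ℝ → ℝ) : ℝ :=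
  (∫ t in (0:ℝ)..1,
      (-(h (f t) * deriv f t) - (f t - t * deriv f t) * (us (f t) * h (f t)))) +
    ∫ r in (0:ℝ)..fend f, (1 - us r) * h r

section

variable (P : HalfProf f) (h0 : f 0 = 1) {h K : ℝ → ℝ}
include P h0

omit h0 in
theorem intDerivComp (hh : Continuous h) :
    IntervalIntegrable (fun t => h (f t) * deriv f t) volume 0 1 := by
  simpa using (ibp_comp P (a := fun _ => 1) (a' := fun _ => 0) continuousOn_const
    (fun t _ => hasDerivAt_const t 1) continuousOn_const intervalIntegrable_const hh).1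

/-- `∫₀¹ C(f) (-f') + ∫₀^fend C = ∫₀¹ C`. -/
theorem integral_pushforward (hh : Continuous h) :
    (∫ t in (0:ℝ)..1, -(h (f t) * deriv f t)) + (∫ r in (0:ℝ)..fend f, h r) =
      ∫ r in (0:ℝ)..1, h r := by
  have e := (ibp_comp P (a := fun _ => 1) (a' := fun _ => 0) continuousOn_const
    (fun t _ => hasDerivAt_const t 1) continuousOn_const intervalIntegrable_const hh).2
  simp only [h0, one_mul, zero_mul, intervalIntegral.integral_zero, zero_add] at e
  rw [intervalIntegral.integral_neg, e]
  ring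

theorem intPairH (hh : Continuous h) :
    IntervalIntegrable
      (fun t => -(h (f t) * deriv f t) - (f t - t * deriv f t) * (us (f t) * h (f t)))
      volume 0 1 := by
  have hc : Continuous fun s => us s * h s := continuous_us.mul hh
  have i1 := (ibp_comp P (a := fun t => t) (a' := fun _ => 1) continuousOn_id
    (fun t _ => hasDerivAt_id' t) continuousOn_const intervalIntegrable_const hc).1
  have i2 := intDerivComp P hh
  have i3 := bounded_comp P h0 (h := fun s => s * (us s * h s)) (continuous_id.mul hc)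
  refine (i2.neg.sub (i3.sub i1)).congr fun t _ => ?_
  simp only [Pi.neg_apply]
  ring

/-- **The pairing is linear in the distribution function.** -/
theorem pairH_eq (hh : Continuous h) (hK : Continuous K)
    (hKh : ∀ r ∈ Icc (0:ℝ) 1, K r = us r * h r) :
    pairH h f = (∫ r in (0:ℝ)..1, h r) -
      ∫ t in (0:ℝ)..1, (f t * K (f t) + ∫ r in (0:ℝ)..f t, K r) := by
  obtain ⟨i1, e1⟩ := ibp_comp P (a := fun t => t) (a' := fun _ => 1) continuousOn_id
    (fun t _ => hasDerivAt_id' t) continuousOn_const intervalIntegrable_const hK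
  simp only [h0, one_mul, zero_mul, sub_zero] at e1
  have i2 := intDerivComp P hh
  have i3 := bounded_comp P h0 (h := fun s => s * K s) (continuous_id.mul hK)
  have i4 := bounded_comp P h0 (h := fun s => ∫ r in (0:ℝ)..s, K r)
    (intervalIntegral.continuous_primitive (fun a b => hK.intervalIntegrable a b) 0)
  have eM : (∫ t in (0:ℝ)..1,
      (-(h (f t) * deriv f t) - (f t - t * deriv f t) * (us (f t) * h (f t)))) =
      (∫ t in (0:ℝ)..1, -(h (f t) * deriv f t)) - ((∫ t in (0:ℝ)..1, f t * K (f t)) -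
          ∫ t in (0:ℝ)..1, t * (K (f t) * deriv f t)) := by
    have i2' : IntervalIntegrable (fun t => -(h (f t) * deriv f t)) volume 0 1 := i2.neg
    rw [← intervalIntegral.integral_sub i3 i1, ← intervalIntegral.integral_sub i2' (i3.sub i1)]
    refine integral_congr_Ioo fun t ht => ?_
    rw [hKh _ (P.mem01 h0 (Ioo_subset_Icc_self ht))]
    ring
  have he := fend_mem P h0
  have eB : (∫ r in (0:ℝ)..fend f, (1 - us r) * h r) =
      (∫ r in (0:ℝ)..fend f, h r) - ∫ r in (0:ℝ)..fend f, K r := by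
    rw [← intervalIntegral.integral_sub (hh.intervalIntegrable _ _) (hK.intervalIntegrable _ _)]
    refine intervalIntegral.integral_congr fun r hr => ?_
    rw [uIcc_of_le he.1] at hr
    rw [hKh r ⟨hr.1, hr.2.trans he.2⟩]
    ring
  have epf := integral_pushforward P h0 hh
  rw [pairH, eM, eB, intervalIntegral.integral_add i3 i4]
  linarith

/-- **The pairing as an integral against `dist - √(1-r²)`.** -/
theorem pairH_eq_dist (hh : Continuous h) (hK : Continuous K)
    (hKh : ∀ r ∈ Icc (0:ℝ) 1, K r = us r * h r) {g : ℝ → ℝ} (hg : Continuous g)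
    (hL : ∀ s ∈ Icc (0:ℝ) 1, s * K s + (∫ r in (0:ℝ)..s, K r) = ∫ r in (0:ℝ)..s, g r) :
    pairH h f = -∫ r in (0:ℝ)..1, g r * (dist01 f r - us r) := by
  have main : ∀ φ : ℝ → ℝ, HalfProf φ → φ 0 = 1 →
      IntervalIntegrable (fun r => g r * dist01 φ r) volume 0 1 ∧
        pairH h φ = (∫ r in (0:ℝ)..1, h r) - ∫ r in (0:ℝ)..1, g r * dist01 φ r := by
    intro φ Q q0
    obtain ⟨i, e⟩ := layer Q q0 (a := fun _ => (1:ℝ)) intervalIntegrable_const hg
    simp only [one_mul, intervalIntegral.integral_const, sub_zero, smul_eq_mul, mul_one] at i e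
    refine ⟨i, ?_⟩
    rw [pairH_eq Q q0 hh hK hKh, ← e]
    congr 1
    refine integral_congr_Ioo fun t ht => ?_
    exact hL _ (Q.mem01 q0 (Ioo_subset_Icc_self ht))
  obtain ⟨i, e⟩ := main f P h0
  obtain ⟨iu, eu⟩ := main us halfProf_us us_zero
  have hz : pairH h us = 0 := by
    rw [pairH, fend_us, intervalIntegral.integral_same, add_zero,
      integral_congr_Ioo (g' := fun _ => 0) fun t ht => by
        rw [(hasDerivAt_us ht).deriv, us_us (Ioo_subset_Icc_self ht)]
        have h1 : us t ≠ 0 := (sqrt_pos.2 (by nlinarith [ht.1, ht.2])).ne'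
        have h2 := us_sq (Ioo_subset_Icc_self ht)
        field_simp
        linear_combination -(t * h (us t)) * h2,
      intervalIntegral.integral_zero]
  have eus : (∫ r in (0:ℝ)..1, g r * us r) = ∫ r in (0:ℝ)..1, g r * dist01 us r :=
    (integral_congr_Ioo fun r hr => by rw [dist01_us hr]).symm
  have ig : IntervalIntegrable (fun r => g r * us r) volume 0 1 :=
    (hg.mul continuous_us).intervalIntegrable _ _
  calc pairH h f = -((∫ r in (0:ℝ)..1, g r * dist01 f r) - ∫ r in (0:ℝ)..1, g r * us r) := by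
        rw [e, eus]; linarith
    _ = _ := by
        rw [← intervalIntegral.integral_sub i ig]
        simp only [mul_sub]

/-- **Young's inequality against the closed gain.** If pointwise
`(τ-p) h ≤ η m r^(m-1) ((1-pτ)/r - √(1-p²)) + p C`, then `-pairH ≤ η chiGain + ∫ C`. -/
theorem neg_pairH_le (hm : 4 ≤ m) (hh : Continuous h) {C : ℝ → ℝ} (hC : Continuous C) {η : ℝ}
    (hpt : ∀ r ∈ Ioc (0:ℝ) 1, ∀ p ∈ Icc (0:ℝ) 1, (us r - p) * h r ≤
      η * ((m:ℝ) * r ^ (m - 1) * ((1 - p * us r) / r - us p)) + p * C r) :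
    -pairH h f ≤ η * chiGain m f + ∫ r in (0:ℝ)..1, C r := by
  have iP := intPairH P h0 hh
  have iC : IntervalIntegrable (fun t => -(C (f t) * deriv f t)) volume 0 1 :=
    (intDerivComp P hC).neg
  have iG := intChiMain P h0 hm
  have he := fend_mem P h0
  have h1 : (∫ t in (0:ℝ)..1,
        -(-(h (f t) * deriv f t) - (f t - t * deriv f t) * (us (f t) * h (f t)))) ≤
      ∫ t in (0:ℝ)..1, (η * (wq m f t * ((1 - pProf f t * us (f t)) / f t - us (pProf f t))) +
        -(C (f t) * deriv f t)) := by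
    refine intervalIntegral.integral_mono_on_of_le_Ioo zero_le_one iP.neg
      ((iG.const_mul _).add iC) fun t ht => ?_
    have hf := P.mem01' h0 ht
    obtain ⟨hq, hpI⟩ := P.bounds ht
    have hd : deriv f t ≤ 0 := by
      rw [← derivWithin_of_isOpen (s := Ioo (0:ℝ) 1) isOpen_Ioo ht]
      exact (P.anti.mono Ioo_subset_Icc_self).derivWithin_nonpos
    have hp0 : 0 ≤ pProf f t := by
      rw [pProf]; exact div_nonneg (neg_nonneg.2 hd) hq.le
    have hqp : (f t - t * deriv f t) * pProf f t = -deriv f t := by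
      rw [pProf, mul_div_cancel₀ _ hq.ne']
    have := mul_le_mul_of_nonneg_left (hpt _ hf _ ⟨hp0, hpI.2⟩) hq.le
    have e1 : -(-(h (f t) * deriv f t) - (f t - t * deriv f t) * (us (f t) * h (f t))) =
        (f t - t * deriv f t) * ((us (f t) - pProf f t) * h (f t)) := by
      linear_combination (h (f t)) * hqp
    have e2 : η * (wq m f t * ((1 - pProf f t * us (f t)) / f t - us (pProf f t))) +
          -(C (f t) * deriv f t) =
        (f t - t * deriv f t) * (η * ((m:ℝ) * f t ^ (m - 1) *
          ((1 - pProf f t * us (f t)) / f t - us (pProf f t))) + pProf f t * C (f t)) := by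
      rw [wq]; linear_combination -(C (f t)) * hqp
    simp only [e1, e2]
    exact this
  have jA : IntervalIntegrable (fun r => (1 - us r) * h r) volume 0 (fend f) :=
    ((continuous_const.sub continuous_us).mul hh).intervalIntegrable _ _
  have jG : IntervalIntegrable (fun r => (m:ℝ) * r ^ (m - 2) * (1 - us r)) volume 0 (fend f) :=
    Continuous.intervalIntegrable (by fun_prop) _ _
  have h2 : (∫ r in (0:ℝ)..fend f, -((1 - us r) * h r)) ≤
      ∫ r in (0:ℝ)..fend f, (η * ((m:ℝ) * r ^ (m - 2) * (1 - us r)) + C r) := by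
    refine intervalIntegral.integral_mono_on_of_le_Ioo he.1 jA.neg
      ((jG.const_mul _).add (hC.intervalIntegrable _ _)) fun r hr => ?_
    have hr1 : r ∈ Ioc (0:ℝ) 1 := ⟨hr.1, hr.2.le.trans he.2⟩
    have := hpt r hr1 1 ⟨zero_le_one, le_rfl⟩
    rw [us_one, sub_zero, one_mul, one_mul] at this
    have hr0 := hr.1.ne'
    have e : (m:ℝ) * r ^ (m - 1) * ((1 - us r) / r) = (m:ℝ) * r ^ (m - 2) * (1 - us r) := by
      rw [show m - 1 = m - 2 + 1 by omega, pow_succ]; field_simp
    rw [e] at this
    linarith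
  rw [intervalIntegral.integral_neg, intervalIntegral.integral_add (iG.const_mul _) iC,
    intervalIntegral.integral_const_mul] at h1
  rw [intervalIntegral.integral_neg,
    intervalIntegral.integral_add (jG.const_mul _) (hC.intervalIntegrable _ _),
    intervalIntegral.integral_const_mul] at h2
  have epf := integral_pushforward P h0 hC
  rw [pairH, chiGain, mul_add]
  linarith
where
  intChiMain {f : ℝ → ℝ} (P : HalfProf f) (h0 : f 0 = 1) {m : ℕ} (hm : 4 ≤ m) :
      IntervalIntegrable
        (fun t => wq m f t * ((1 - pProf f t * us (f t)) / f t - us (pProf f t))) volume 0 1 := by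
    have hfm : AEStronglyMeasurable f (volume.restrict (Ioo (0:ℝ) 1)) :=
      (P.continuousOn.mono Ioo_subset_Ico_self).aestronglyMeasurable measurableSet_Ioo
    have hτm := continuous_us.comp_aestronglyMeasurable hfm
    have hτ : ∀ t ∈ Ioo (0:ℝ) 1, us (f t) ∈ Icc (0:ℝ) 1 := fun t ht =>
      us_mem (Ioc_subset_Icc_self (P.mem01' h0 ht))
    have hk0 : (((m - 1 : ℕ):ℝ)) ≠ 0 := Nat.cast_ne_zero.2 (by omega)
    have i1 := P.intWgt_mul (show m - 1 ≠ 0 by omega)
      (F := fun t => 1 - pProf f t * us (f t))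
      (aestronglyMeasurable_const.sub (P.measurable_pProf.mul hτm)) (C := 2) fun s hs => by
        have h1 := (P.bounds hs).2
        have h2 := hτ s hs
        rw [abs_le]; constructor <;> nlinarith [h1.1, h1.2, h2.1, h2.2]
    have i2 := P.intWgt_mul (show m ≠ 0 by omega) (F := fun t => us (pProf f t))
      (continuous_us.comp_aestronglyMeasurable P.measurable_pProf) (C := 1) fun s _ => by
        rw [us, abs_of_nonneg (sqrt_nonneg _)]
        exact sqrt_le_one.2 (by nlinarith [sq_nonneg (pProf f s)])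
    refine ((i1.const_mul ((m:ℝ) / ((m - 1 : ℕ):ℝ))).sub i2).congr_ae ?_
    rw [EventuallyEq, ae_restrict_iff' measurableSet_uIoc]
    filter_upwards [Measure.ae_ne volume (1:ℝ)] with t hne hmem
    rw [uIoc_of_le zero_le_one] at hmem
    have hf := (P.mem01' h0 ⟨hmem.1, lt_of_le_of_ne hmem.2 hne⟩).1.ne'
    simp only [wq]
    rw [show m - 1 - 1 = m - 2 by omega, show f t ^ (m - 1) = f t ^ (m - 2) * f t by
      rw [← pow_succ, show m - 2 + 1 = m - 1 by omega]]
    field_simp

end

end Vale.Agent.P237.AllN
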