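import Mathlib

/-!
# P237, all dimensions: the pointwise step of a quadratic Hardy calibration

At height `r`, with `τ = √(1-r²)` and slope `p`, the gain is `(1-pτ)/r - √(1-p²)`, the Bregman
distance of `-√(1-x²)`. It is at least `(p-τ)²/(2r³)` for `p ≥ τ` and `(p-τ)²/(2r(r²+τ(τ-p)))` for
`p ≤ τ`. So adding the derivative `2S(τ-p) + pZ` of a calibration `C σ²` leaves a nonnegative
density as soon as `Z` dominates the Riccati term.
-/

open Real

namespace Vale.Agent.P237.AllN.HardyPoint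

variable {r τ p a S Z : ℝ}

/-- The gain density. -/
noncomputable def chiD (r τ p : ℝ) : ℝ := (1 - p * τ) / r - √(1 - p ^ 2)

theorem chiD_ge_of_den (hr : 0 < r) (hrτ : r ^ 2 + τ ^ 2 = 1) (hp1 : p ^ 2 ≤ 1) (hpτ : p * τ < 1)
    {D : ℝ} (hD : 1 - p * τ + r * √(1 - p ^ 2) ≤ D) :
    (p - τ) ^ 2 / (r * D) ≤ chiD r τ p := by
  set s := √(1 - p ^ 2) with hs
  have hs2 : s ^ 2 = 1 - p ^ 2 := sq_sqrt (by linarith)
  have hs0 : 0 ≤ s := sqrt_nonneg _
  have hpos : 0 < 1 - p * τ + r * s := by positivity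
  have e : chiD r τ p = (p - τ) ^ 2 / (r * (1 - p * τ + r * s)) := by
    rw [chiD, ← hs, div_sub' hr.ne', div_eq_div_iff hr.ne' (by positivity)]
    linear_combination (-r ^ 3) * hs2 - r * (1 - p ^ 2) * hrτ
  rw [e]
  exact div_le_div_of_nonneg_left (sq_nonneg _) (by positivity)
    (mul_le_mul_of_nonneg_left hD hr.le)

theorem mul_lt_one (hr : 0 < r) (hrτ : r ^ 2 + τ ^ 2 = 1) (hp1 : p ^ 2 ≤ 1) : p * τ < 1 := by
  nlinarith [sq_nonneg (p - τ)]

/-- The gain for `p ≥ τ`. -/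
theorem chiD_ge_above (hr : 0 < r) (hτ : 0 ≤ τ) (hrτ : r ^ 2 + τ ^ 2 = 1) (hp : τ ≤ p)
    (hp1 : p ^ 2 ≤ 1) : (p - τ) ^ 2 / (2 * r ^ 3) ≤ chiD r τ p := by
  have h : √(1 - p ^ 2) ≤ r := (sqrt_le_left hr.le).2 (by nlinarith)
  refine le_trans (le_of_eq ?_) (chiD_ge_of_den hr hrτ hp1 (mul_lt_one hr hrτ hp1)
    (D := 2 * r ^ 2) ?_)
  · ring
  · nlinarith [mul_le_mul_of_nonneg_left h hr.le]

/-- The gain for `p ≤ τ`. -/
theorem chiD_ge_below (hr : 0 < r) (hτ : 0 ≤ τ) (hrτ : r ^ 2 + τ ^ 2 = 1) (hp0 : 0 ≤ p)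
    (hp : p ≤ τ) : (p - τ) ^ 2 / (2 * r * (r ^ 2 + τ * (τ - p))) ≤ chiD r τ p := by
  have hp1 : p ^ 2 ≤ 1 := by nlinarith
  have h2 := sq_sqrt (show (0:ℝ) ≤ 1 - p ^ 2 by linarith)
  refine le_trans (le_of_eq ?_) (chiD_ge_of_den hr hrτ hp1 (mul_lt_one hr hrτ hp1)
    (D := 2 * (r ^ 2 + τ * (τ - p))) ?_)
  · ring
  · nlinarith [sq_nonneg (r - √(1 - p ^ 2)), sq_nonneg (τ - p)]

theorem chiD_nonneg (hr : 0 < r) (hτ : 0 ≤ τ) (hrτ : r ^ 2 + τ ^ 2 = 1) (hp0 : 0 ≤ p)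
    (hp1 : p ≤ 1) : 0 ≤ chiD r τ p := by
  rcases le_total τ p with h | h
  · exact le_trans (by positivity) (chiD_ge_above hr hτ hrτ h (by nlinarith))
  · refine le_trans (div_nonneg (sq_nonneg _) ?_) (chiD_ge_below hr hτ hrτ hp0 h)
    have := mul_nonneg hτ (sub_nonneg.2 h)
    positivity

/-- **Pointwise calibration, `S ≥ 0`:** slopes below `τ` cost nothing, those above have the full
quadratic gain. -/
theorem point_nonneg (hr : 0 < r) (hτ : 0 < τ) (hrτ : r ^ 2 + τ ^ 2 = 1) (hp0 : 0 ≤ p)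
    (hp1 : p ≤ 1) (ha : 0 < a) (hS : 0 ≤ S) (hZ : 0 ≤ Z)
    (hR : 2 * r ^ 3 * S ^ 2 ≤ a * τ * Z) :
    0 ≤ a * chiD r τ p + 2 * S * (τ - p) + p * Z := by
  rcases le_total p τ with h | h
  · have := mul_nonneg ha.le (chiD_nonneg hr hτ.le hrτ hp0 hp1)
    have := mul_nonneg hp0 hZ
    have := mul_nonneg hS (sub_nonneg.2 h)
    linarith
  · have hg := mul_le_mul_of_nonneg_left (chiD_ge_above hr hτ.le hrτ h (by nlinarith)) ha.le
    have hZ' := mul_le_mul_of_nonneg_right h hZ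
    have hc : 0 < 2 * r ^ 3 := by positivity
    have key : 0 ≤ a * ((p - τ) ^ 2 / (2 * r ^ 3)) + 2 * S * (τ - p) + τ * Z := by
      have e : a * ((p - τ) ^ 2 / (2 * r ^ 3)) + 2 * S * (τ - p) + τ * Z =
          ((a * (p - τ) - 2 * r ^ 3 * S) ^ 2 + 2 * r ^ 3 * (a * τ * Z - 2 * r ^ 3 * S ^ 2)) /
            (2 * r ^ 3 * a) := by field_simp; ring
      rw [e]
      exact div_nonneg (add_nonneg (sq_nonneg _) (mul_nonneg hc.le (sub_nonneg.2 hR))) (by positivity)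
    linarith

/-- **Pointwise calibration, `S ≤ 0`:** slopes above `τ` cost nothing; below, the gain is linear for
large slope ratios, which needs `-4rS ≤ aτ`. -/
theorem point_nonpos (hr : 0 < r) (hτ : 0 < τ) (hrτ : r ^ 2 + τ ^ 2 = 1) (hp0 : 0 ≤ p)
    (hp1 : p ≤ 1) (ha : 0 < a) (hS : S ≤ 0) (hZ : 0 ≤ Z) (hlim : -(4 * r * S) ≤ a * τ)
    (hR : 2 * r ^ 3 * S ^ 2 ≤ (a * τ + 4 * r * S) * Z) :
    0 ≤ a * chiD r τ p + 2 * S * (τ - p) + p * Z := by
  rcases le_total τ p with h | h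
  · have := mul_nonneg ha.le (chiD_nonneg hr hτ.le hrτ hp0 hp1)
    have := mul_nonneg hp0 hZ
    have := mul_nonneg (neg_nonneg.2 hS) (sub_nonneg.2 h)
    linarith
  · set d := τ - p with hd
    have hd0 : 0 ≤ d := sub_nonneg.2 h
    set q := r ^ 2 + τ * d with hq
    have hq0 : 0 < q := by positivity
    have hg := mul_le_mul_of_nonneg_left (chiD_ge_below hr hτ.le hrτ hp0 h) ha.le
    have e2 : (p - τ) ^ 2 = d ^ 2 := by rw [hd]; ring
    rw [e2, ← hd, ← hq] at hg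
    have hA : 0 ≤ a * τ + 4 * r * S := by linarith
    -- a quadratic form in `(d, p)`
    have hquad : 0 ≤ (a * τ + 4 * r * S) * d ^ 2 + 4 * r ^ 3 * S * p * d + 2 * r ^ 3 * p ^ 2 * Z := by
      rcases hA.eq_or_lt with h0 | h0
      · have h3 : 2 * r ^ 3 * S ^ 2 ≤ 0 := hR.trans_eq (mul_eq_zero.2 (Or.inl h0.symm))
        have hr3 : 0 < 2 * r ^ 3 := by positivity
        have hS0 : S = 0 :=
          pow_eq_zero_iff two_ne_zero |>.1 (le_antisymm (nonpos_of_mul_nonpos_right h3 hr3) (sq_nonneg S))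
        rw [← h0, hS0]
        have : 0 ≤ 2 * r ^ 3 * p ^ 2 * Z := by positivity
        linarith
      · refine (mul_nonneg_iff_of_pos_left h0).1 ?_
        have e : (a * τ + 4 * r * S) * ((a * τ + 4 * r * S) * d ^ 2 + 4 * r ^ 3 * S * p * d +
            2 * r ^ 3 * p ^ 2 * Z) = ((a * τ + 4 * r * S) * d + 2 * r ^ 3 * S * p) ^ 2 +
            2 * r ^ 3 * p ^ 2 * ((a * τ + 4 * r * S) * Z - 2 * r ^ 3 * S ^ 2) := by ring
        rw [e]
        exact add_nonneg (sq_nonneg _) (mul_nonneg (by positivity) (sub_nonneg.2 hR))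
    have hqτ : τ * q = r ^ 2 * p + d := by
      rw [hq, hd]; linear_combination (τ - p) * hrτ
    have key : 0 ≤ a * (d ^ 2 / (2 * r * q)) + 2 * S * d + p * Z := by
      have e : a * (d ^ 2 / (2 * r * q)) + 2 * S * d + p * Z =
          ((a * τ + 4 * r * S) * d ^ 2 + 4 * r ^ 3 * S * p * d + 2 * r ^ 3 * p ^ 2 * Z +
            2 * r * p * d * Z) / (2 * r * τ * q) := by
        field_simp
        linear_combination (2 * r * (2 * S * d + p * Z)) * hqτ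
      rw [e]
      exact div_nonneg (add_nonneg hquad (by positivity)) (by positivity)
    linarith

end Vale.Agent.P237.AllN.HardyPoint
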