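import Vale.Agent.P237.AllN.InvNegT
import Vale.Agent.P237.AllN.HardyPoint

/-!
# P237, all dimensions: the lower half of the Hardy bound by a pivot calibration

On the set where `T < u` (`t < √(1-f²)`) the density of `negR` is at most the gain plus the
derivative of `C(f) σ₋²`, `σ = (t - √(1-f²))/f`, as soon as the linear Riccati inequality holds
between `C`, its derivative in `√(1-r²)/r` and the coefficient `A τ⁴/(2r)` of the density
(`HardyPoint`). This is integrated over an interval of `t`.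
-/

open MeasureTheory Set Real Filter Topology
open Vale.Agent.P237.Univ.OneD (Lp)

namespace Vale.Agent.P237.AllN.Pivot

variable {m : ℕ} {f : ℝ → ℝ}

/-- `min(z,0)²`. -/
noncomputable def negSq (z : ℝ) : ℝ := min z 0 ^ 2

theorem hasDerivAt_negSq (z : ℝ) : HasDerivAt negSq (2 * min z 0) z := by
  have hb : ∀ h : ℝ, |negSq (z + h) - negSq z - h * (2 * min z 0)| ≤ h ^ 2 := by
    intro h
    have := sq_nonneg h
    rw [negSq, negSq, abs_le]
    rcases le_total z 0 with h1 | h1 <;> rcases le_total (z + h) 0 with h2 | h2 <;>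
      simp only [min_eq_left, min_eq_right, h1, h2] <;> constructor <;> nlinarith
  rw [hasDerivAt_iff_isLittleO_nhds_zero]
  refine ((Asymptotics.IsBigO.of_bound 1 ?_).trans_isLittleO
    (Asymptotics.isLittleO_pow_id one_lt_two))
  refine .of_forall fun h => ?_
  simp only [Real.norm_eq_abs, smul_eq_mul, one_mul, abs_pow, sq_abs]
  exact hb h

theorem negSq_nonneg (z : ℝ) : 0 ≤ negSq z := sq_nonneg _

theorem negSq_of_nonneg {z : ℝ} (h : 0 ≤ z) : negSq z = 0 := by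
  rw [negSq, min_eq_right h]; ring

theorem pProf_mem (P : HalfProf f) {t : ℝ} (ht : t ∈ Ioo (0:ℝ) 1) :
    deriv f t ≤ 0 ∧ pProf f t ∈ Icc (0:ℝ) 1 := by
  have hd : deriv f t ≤ 0 := by
    rw [← derivWithin_of_isOpen (s := Ioo (0:ℝ) 1) isOpen_Ioo ht]
    exact (P.anti.mono Ioo_subset_Icc_self).derivWithin_nonpos
  exact ⟨hd, div_nonneg (neg_nonneg.2 hd) (P.bounds ht).1.le, (P.bounds ht).2.2⟩

/-- The density of `negR` where `T < u`. -/
noncomputable def negLow (m : ℕ) (f : ℝ → ℝ) : ℝ → ℝ :=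
  {t | t < us (f t)}.indicator fun t =>
    (m:ℝ) * f t ^ (m - 1) * (-deriv f t) * gamD m t (us (f t))

/-- The gain where `T < u`. -/
noncomputable def gainLow (m : ℕ) (f : ℝ → ℝ) : ℝ → ℝ :=
  {t | t < us (f t)}.indicator fun t =>
    wq m f t * ((1 - pProf f t * us (f t)) / f t - us (pProf f t))

/-- The calibration `C(f) σ₋²`. -/
noncomputable def calib (C : ℝ → ℝ) (f : ℝ → ℝ) (t : ℝ) : ℝ :=
  C (f t) / f t ^ 2 * negSq (t - us (f t))

theorem nullMeasurableSet_low (P : HalfProf f) :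
    NullMeasurableSet {t | t < us (f t)} (volume.restrict (Ioo (0:ℝ) 1)) :=
  nullMeasurableSet_lt aemeasurable_id (continuous_us.measurable.comp_aemeasurable
    ((P.continuousOn.mono Ioo_subset_Ico_self).aemeasurable measurableSet_Ioo))

theorem intervalIntegrable_low (P : HalfProf f) {g : ℝ → ℝ}
    (h : IntervalIntegrable g volume 0 1) :
    IntervalIntegrable ({t | t < us (f t)}.indicator g) volume 0 1 := by
  rw [intervalIntegrable_iff_integrableOn_Ioo_of_le zero_le_one] at h ⊢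
  exact Integrable.indicator₀ h (nullMeasurableSet_low P)

theorem intNegLow (P : HalfProf f) (h0 : f 0 = 1) (hm : 3 ≤ m) :
    IntervalIntegrable (negLow m f) volume 0 1 :=
  intervalIntegrable_low P (negR_eq_t P h0 hm).1

theorem intChi (P : HalfProf f) (h0 : f 0 = 1) (hm : 3 ≤ m) :
    IntervalIntegrable
      (fun t => wq m f t * ((1 - pProf f t * us (f t)) / f t - us (pProf f t))) volume 0 1 := by
  have hfm : AEStronglyMeasurable f (volume.restrict (Ioo (0:ℝ) 1)) :=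
    (P.continuousOn.mono Ioo_subset_Ico_self).aestronglyMeasurable measurableSet_Ioo
  have hτm := continuous_us.comp_aestronglyMeasurable hfm
  have i1 := P.intWgt_mul (show m - 1 ≠ 0 by omega)
    (F := fun t => (m:ℝ) / ((m - 1 : ℕ):ℝ) * (1 - pProf f t * us (f t)))
    ((aestronglyMeasurable_const.sub (P.measurable_pProf.mul hτm)).const_mul _)
    (C := (m:ℝ) / ((m - 1 : ℕ):ℝ) * 2) fun s hs => by
      have h1 := (P.bounds hs).2
      have h2 := us_mem (Ioc_subset_Icc_self (P.mem01' h0 hs))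
      have h3 : |1 - pProf f s * us (f s)| ≤ 2 := by
        rw [abs_le]; constructor <;> nlinarith [h1.1, h1.2, h2.1, h2.2]
      rw [abs_mul, abs_of_nonneg (div_nonneg (Nat.cast_nonneg m) (Nat.cast_nonneg _))]
      exact mul_le_mul_of_nonneg_left h3 (div_nonneg (Nat.cast_nonneg m) (Nat.cast_nonneg _))
  have i2 := P.intWgt_mul (show m ≠ 0 by omega) (F := fun t => us (pProf f t))
    (continuous_us.comp_aestronglyMeasurable P.measurable_pProf) (C := 1) fun s _ => by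
      rw [us, abs_of_nonneg (sqrt_nonneg _)]
      exact sqrt_le_one.2 (by nlinarith [sq_nonneg (pProf f s)])
  refine (i1.sub i2).congr_ae ?_
  rw [EventuallyEq, ae_restrict_iff' measurableSet_uIoc]
  filter_upwards [Measure.ae_ne volume (1:ℝ)] with t hne hmem
  rw [uIoc_of_le zero_le_one] at hmem
  have hf := (P.mem01' h0 ⟨hmem.1, lt_of_le_of_ne hmem.2 hne⟩).1.ne'
  have hk : (((m - 1 : ℕ):ℝ)) ≠ 0 := Nat.cast_ne_zero.2 (by omega)
  simp only [wq]
  rw [show m - 1 - 1 = m - 2 by omega, show f t ^ (m - 1) = f t ^ (m - 2) * f t by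
    rw [← pow_succ, show m - 2 + 1 = m - 1 by omega]]
  field_simp

theorem intGainLow (P : HalfProf f) (h0 : f 0 = 1) (hm : 3 ≤ m) :
    IntervalIntegrable (gainLow m f) volume 0 1 :=
  intervalIntegrable_low P (intChi P h0 hm)

/-- The hypotheses on the calibration at level `r`: `E` is the excess of the derivative of `C` in
`√(1-r²)/r` over the density. -/
def Riccati (m : ℕ) (κ A : ℝ) (C C' : ℝ → ℝ) (r : ℝ) : Prop :=
  let τ := us r
  let E := -(C' r) * r ^ 2 * τ - A * (m:ℝ) * r ^ m * τ ^ 4 / 2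
  let a := κ * m * r ^ (m + 1) * τ
  0 ≤ E ∧ ((C r ≤ 0 ∧ 2 * r ^ 3 * C r ^ 2 ≤ a * τ * E) ∨
    (0 ≤ C r ∧ 4 * C r ≤ a ∧ 2 * r ^ 3 * C r ^ 2 ≤ τ * (a - 4 * C r) * E))

theorem point_alg {r τ p q t s C C' A κ M ρ : ℝ} (hr : r ≠ 0) (hτ : τ ≠ 0)
    (hrτ : r ^ 2 + τ ^ 2 = 1) (hqr : q * (1 - t * p) = r) :
    q / (r ^ 2 * τ) * (κ * M * (ρ * r ^ 2) * τ * ((1 - p * τ) / r - s) +
        2 * (C * ((t - τ) / r)) * (τ - p) +
        p * (((t - τ) / r) ^ 2 * (-C' * r ^ 2 * τ - A * M * (ρ * r) * τ ^ 4 / 2))) =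
      κ * (M * ρ * q * ((1 - p * τ) / r - s)) +
          ((C' * -(p * q) * r ^ 2 - C * (2 * r * -(p * q))) / (r ^ 2) ^ 2 * (t - τ) ^ 2 +
            C / r ^ 2 * (2 * (t - τ) * (1 + r / τ * -(p * q)))) -
        M * ρ * (p * q) * (A * τ ^ 3 * (t - τ) ^ 2 / (2 * r ^ 3)) := by
  refine sub_eq_zero.1 ?_
  have h : q / (r ^ 2 * τ) * (κ * M * (ρ * r ^ 2) * τ * ((1 - p * τ) / r - s) +
        2 * (C * ((t - τ) / r)) * (τ - p) +
        p * (((t - τ) / r) ^ 2 * (-C' * r ^ 2 * τ - A * M * (ρ * r) * τ ^ 4 / 2))) -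
      (κ * (M * ρ * q * ((1 - p * τ) / r - s)) +
          ((C' * -(p * q) * r ^ 2 - C * (2 * r * -(p * q))) / (r ^ 2) ^ 2 * (t - τ) ^ 2 +
            C / r ^ 2 * (2 * (t - τ) * (1 + r / τ * -(p * q)))) -
        M * ρ * (p * q) * (A * τ ^ 3 * (t - τ) ^ 2 / (2 * r ^ 3))) =
      2 * C * (t - τ) / (r ^ 3 * τ) *
        (τ * (q * (1 - t * p) - r) + p * q * (r ^ 2 + τ ^ 2 - 1)) := by
    field_simp
    ring
  rw [h, sub_eq_zero.2 hqr, sub_eq_zero.2 hrτ]
  ring

/-- **Pointwise:** `negLow ≤ κ gainLow + calib'` at a point of differentiability. -/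
theorem point {C C' : ℝ → ℝ} {κ A t : ℝ} (P : HalfProf f) (hκ : 0 < κ) (hm : 1 ≤ m)
    (hA : ∀ r ∈ Ioo (0:ℝ) 1, ∀ T ∈ Icc 0 (us r),
      gamD m T (us r) ≤ A * us r ^ 3 * (T - us r) ^ 2 / (2 * r ^ 3))
    (ht : t ∈ Ioo (0:ℝ) 1) (hd : DifferentiableAt ℝ f t) (hf : f t ∈ Ioo (0:ℝ) 1)
    (hC : HasDerivAt C (C' (f t)) (f t)) (hR : Riccati m κ A C C' (f t)) :
    negLow m f t ≤ κ * gainLow m f t + deriv (calib C f) t := by
  set r := f t with hr
  set τ := us r with hτ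
  set p := pProf f t with hp
  have hrI : r ∈ Icc (0:ℝ) 1 := Ioo_subset_Icc_self hf
  have hτ0 : 0 < τ := sqrt_pos.2 (by nlinarith [hf.1, hf.2])
  have hrτ : r ^ 2 + τ ^ 2 = 1 := by rw [hτ, us_sq hrI]; ring
  obtain ⟨hq0, -⟩ := P.bounds ht
  obtain ⟨-, hp0, hp1⟩ := pProf_mem P ht
  set q := r - t * deriv f t with hq
  have hdf : deriv f t = -(p * q) := by
    rw [hp, pProf, ← hr, ← hq, div_mul_cancel₀ _ hq0.ne', neg_neg]
  have hqr : q * (1 - t * p) = r := by
    linear_combination (-1:ℝ) * t * hdf + (1:ℝ) * hq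
  have husd : HasDerivAt (fun s => s - us (f s)) (1 + r / τ * deriv f t) t := by
    refine ((hasDerivAt_id' t).sub ((hasDerivAt_us hf).comp t hd.hasDerivAt)).congr_deriv ?_
    rw [← hτ]; ring
  have hder : HasDerivAt (calib C f)
      ((C' r * deriv f t * r ^ 2 - C r * (2 * r * deriv f t)) / (r ^ 2) ^ 2 * negSq (t - τ) +
        C r / r ^ 2 * (2 * min (t - τ) 0 * (1 + r / τ * deriv f t))) t :=
    (((hC.comp t hd.hasDerivAt).div ((hd.hasDerivAt.fun_pow 2).congr_deriv (by rw [← hr]; ring))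
      (pow_ne_zero 2 hf.1.ne')).mul ((hasDerivAt_negSq _).comp t husd))
  rw [hder.deriv]
  by_cases hlow : t < τ
  swap
  · have hmem : t ∉ {t | t < us (f t)} := hlow
    rw [negLow, gainLow, indicator_of_notMem hmem, indicator_of_notMem hmem,
      min_eq_right (sub_nonneg.2 (not_lt.1 hlow)), negSq_of_nonneg (sub_nonneg.2 (not_lt.1 hlow))]
    simp
  · have hmem : t ∈ {t | t < us (f t)} := hlow
    rw [negLow, gainLow, indicator_of_mem hmem, indicator_of_mem hmem, negSq,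
      min_eq_left (sub_nonpos.2 hlow.le)]
    simp only [wq, ← hr, ← hτ, ← hp, ← hq]
    set σ := (t - τ) / r with hσ
    set E := -(C' r) * r ^ 2 * τ - A * (m:ℝ) * r ^ m * τ ^ 4 / 2 with hE
    set a := κ * m * r ^ (m + 1) * τ with ha
    obtain ⟨hE0, hR⟩ : 0 ≤ E ∧ ((C r ≤ 0 ∧ 2 * r ^ 3 * C r ^ 2 ≤ a * τ * E) ∨
        (0 ≤ C r ∧ 4 * C r ≤ a ∧ 2 * r ^ 3 * C r ^ 2 ≤ τ * (a - 4 * C r) * E)) := hR
    have hm0 : (0:ℝ) < m := by exact_mod_cast hm
    have ha0 : 0 < a := mul_pos (mul_pos (mul_pos hκ hm0) (pow_pos hf.1 _)) hτ0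
    have hσ0 : σ ≤ 0 := div_nonpos_of_nonpos_of_nonneg (by linarith) hf.1.le
    have hσb : -σ * r ≤ τ := by rw [hσ, neg_mul, div_mul_cancel₀ _ hf.1.ne']; linarith [ht.1]
    have hZ : 0 ≤ σ ^ 2 * E := mul_nonneg (sq_nonneg _) hE0
    have key : 0 ≤ a * HardyPoint.chiD r τ p + 2 * (C r * σ) * (τ - p) + p * (σ ^ 2 * E) := by
      rcases hR with ⟨hC0, hc⟩ | ⟨hC0, hl, hc⟩
      · exact HardyPoint.point_nonneg hf.1 hτ0 hrτ hp0 hp1 ha0 (mul_nonneg_of_nonpos_of_nonpos hC0 hσ0)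
          hZ (by nlinarith [mul_le_mul_of_nonneg_left hc (sq_nonneg σ)])
      · have h4 : -(4 * r * (C r * σ)) ≤ 4 * C r * τ := by
          nlinarith [mul_le_mul_of_nonneg_left hσb hC0]
        have h5 : τ * (a - 4 * C r) ≤ a * τ + 4 * r * (C r * σ) := by linarith
        refine HardyPoint.point_nonpos hf.1 hτ0 hrτ hp0 hp1 ha0
          (mul_nonpos_of_nonneg_of_nonpos hC0 hσ0) hZ ?_ ?_
        · nlinarith [mul_le_mul_of_nonneg_right hl hτ0.le]
        · nlinarith [mul_le_mul_of_nonneg_left hc (sq_nonneg σ),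
            mul_le_mul_of_nonneg_right h5 hZ]
    have hN := mul_le_mul_of_nonneg_left (hA r hf t ⟨ht.1.le, hlow.le⟩)
      (mul_nonneg (mul_nonneg hm0.le (pow_nonneg hf.1.le (m - 1))) (mul_nonneg hp0 hq0.le))
    rw [← hτ] at hN
    rw [show -deriv f t = p * q by rw [hdf, neg_neg]]
    refine hN.trans ?_
    rw [hdf, ← sub_nonneg]
    have e : 0 ≤ q / (r ^ 2 * τ) *
        (a * HardyPoint.chiD r τ p + 2 * (C r * σ) * (τ - p) + p * (σ ^ 2 * E)) :=
      mul_nonneg (by positivity) key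
    refine e.trans_eq ?_
    have hrm : r ^ (m + 1) = r ^ (m - 1) * r ^ 2 := by rw [← pow_add]; congr 1; omega
    have hrm' : r ^ m = r ^ (m - 1) * r := by rw [← pow_succ]; congr 1; omega
    rw [ha, hE, hσ, HardyPoint.chiD, hrm, hrm', show us p = √(1 - p ^ 2) from rfl]
    exact point_alg hf.1.ne' hτ0.ne' hrτ hqr

theorem lp_min (P : HalfProf f) {b c : ℝ} (hb : b < 1) : Lp b fun t => min (f t) c :=
  let ⟨L, hL⟩ := P.lp hb
  ⟨1 * L, ((LipschitzWith.id.min (LipschitzWith.const c)).weaken (by simp)).comp_lipschitzOnWith hL⟩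

/-- **One interval:** `∫ₐᵇ negLow ≤ κ ∫ₐᵇ gainLow + H b - H a`. -/
theorem interval {C C' : ℝ → ℝ} {κ A a b : ℝ} (P : HalfProf f) (h0 : f 0 = 1) (hm : 3 ≤ m)
    (hκ : 0 < κ)
    (hA : ∀ r ∈ Ioo (0:ℝ) 1, ∀ T ∈ Icc 0 (us r),
      gamD m T (us r) ≤ A * us r ^ 3 * (T - us r) ^ 2 / (2 * r ^ 3))
    (ha : 0 ≤ a) (hab : a ≤ b) (hb : b < 1) (hfa : f a < 1)
    (hC : ∀ r ∈ Icc (f b) (f a), HasDerivAt C (C' r) r)
    (hC' : ContinuousOn C' (Icc (f b) (f a)))
    (hR : ∀ r ∈ Icc (f b) (f a), Riccati m κ A C C' r) :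
    ∫ t in a..b, negLow m f t ≤
      κ * (∫ t in a..b, gainLow m f t) + (calib C f b - calib C f a) := by
  have hfb : 0 < f b := P.pos b ⟨ha.trans hab, hb⟩
  have hb0 : 0 ≤ b := ha.trans hab
  have hanti : ∀ x y : ℝ, 0 ≤ x → x ≤ y → y ≤ b → f y ≤ f x := fun x y hx hxy hy =>
    P.anti ⟨hx, by linarith⟩ ⟨hx.trans hxy, by linarith⟩ hxy
  have hmap : MapsTo (fun t => min (f t) (f a)) (Icc 0 b) (Icc (f b) (f a)) := fun t ht =>
    ⟨le_min (hanti t b ht.1 ht.2 le_rfl) (hanti a b ha hab le_rfl), min_le_right _ _⟩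
  have hsub : Icc (f b) (f a) ⊆ Ioo 0 1 := fun r hr =>
    ⟨hfb.trans_le hr.1, hr.2.trans_lt hfa⟩
  have lg := lp_min P (c := f a) hb
  have hCc : ContinuousOn C (Icc (f b) (f a)) :=
    fun r hr => (hC r hr).continuousAt.continuousWithinAt
  have l1 : Lp b fun t => C (min (f t) (f a)) / min (f t) (f a) ^ 2 :=
    Lp.comp lg (φ := fun r => C r / r ^ 2)
      (φ' := fun r => (C' r * r ^ 2 - C r * ((2:ℕ) * r ^ 1)) / (r ^ 2) ^ 2)
      (fun r hr => (hC r hr).div (hasDerivAt_pow 2 r) (pow_ne_zero 2 (hsub hr).1.ne'))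
      (((hC'.mul (by fun_prop)).sub (hCc.mul (by fun_prop))).div (by fun_prop) fun r hr =>
          pow_ne_zero 2 (pow_ne_zero 2 (hsub hr).1.ne'))
      hmap
  have l2 : Lp b fun t => t - us (min (f t) (f a)) :=
    Lp.ident.sub (Lp.comp lg (φ' := fun r => -r / us r) (fun r hr => hasDerivAt_us (hsub hr))
      (continuousOn_id.neg.div continuous_us.continuousOn fun r hr => (sqrt_pos.2 (by
        nlinarith [(hsub hr).1, (hsub hr).2])).ne') hmap)
  have hz : MapsTo (fun t => t - us (min (f t) (f a))) (Icc 0 b) (Icc (-2) 2) := fun t ht => by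
    have := us_mem (Ioo_subset_Icc_self (hsub (hmap ht)))
    constructor <;> linarith [ht.1, ht.2, this.1, this.2]
  have lH : Lp b fun t => C (min (f t) (f a)) / min (f t) (f a) ^ 2 *
      negSq (t - us (min (f t) (f a))) :=
    l1.mul (Lp.comp l2 (fun z _ => hasDerivAt_negSq z) (by fun_prop) hz)
  set G : ℝ → ℝ := fun t => C (min (f t) (f a)) / min (f t) (f a) ^ 2 *
    negSq (t - us (min (f t) (f a))) with hG
  have hGe : ∀ t ∈ Icc a b, G t = calib C f t := fun t ht => by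
    simp only [hG, calib, min_eq_left (hanti a t ha ht.1 ht.2)]
  have i0 : ∀ {g : ℝ → ℝ}, IntervalIntegrable g volume 0 1 → IntervalIntegrable g volume a b :=
    fun hg => hg.mono_set (by
      rw [uIcc_of_le hab, uIcc_of_le zero_le_one]; exact Icc_subset_Icc ha hb.le)
  have iD : IntervalIntegrable (deriv G) volume a b := (lH.intDeriv hb0).mono_set (by
    rw [uIcc_of_le hab, uIcc_of_le hb0]; exact Icc_subset_Icc ha le_rfl)
  have eD : ∫ t in a..b, deriv G t = calib C f b - calib C f a := by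
    obtain ⟨L, hL⟩ := lH
    rw [(LipschitzOnWith.absolutelyContinuousOnInterval (K := L)
      (hL.mono (by rw [uIcc_of_le hab]; exact Icc_subset_Icc ha le_rfl))).integral_deriv_eq_sub,
      hGe b ⟨hab, le_rfl⟩, hGe a ⟨le_rfl, hab⟩]
  rw [← eD, ← intervalIntegral.integral_const_mul,
    ← intervalIntegral.integral_add ((i0 (intGainLow P h0 hm)).const_mul κ) iD]
  refine intervalIntegral.integral_mono_ae_restrict hab (i0 (intNegLow P h0 hm))
    (((i0 (intGainLow P h0 hm)).const_mul κ).add iD) ?_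
  rw [EventuallyLE, ae_restrict_iff' measurableSet_Icc]
  filter_upwards [P.ae_diff, Measure.ae_ne volume a, Measure.ae_ne volume b] with t hd h1 h2 hm'
  have ht' : t ∈ Ioo a b := ⟨lt_of_le_of_ne hm'.1 (Ne.symm h1), lt_of_le_of_ne hm'.2 h2⟩
  have ht : t ∈ Ioo (0:ℝ) 1 := ⟨ha.trans_lt ht'.1, ht'.2.trans hb⟩
  have hr : f t ∈ Icc (f b) (f a) := ⟨hanti t b ht.1.le hm'.2 le_rfl, hanti a t ha hm'.1 hm'.2⟩
  have heq : G =ᶠ[𝓝 t] calib C f := by
    filter_upwards [Ioo_mem_nhds ht'.1 ht'.2] with s hs using hGe s (Ioo_subset_Icc_self hs)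
  rw [heq.deriv_eq]
  exact point P hκ (by omega) hA ht (hd ht) (hsub hr) (hC _ hr) (hR _ hr)

end Vale.Agent.P237.AllN.Pivot
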