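import Vale.Agent.P237.AllN.InvCS

/-!
# P237, all dimensions: assembly of the scalar inequality

With `s = 1/J`, `d = s - 1`, `M = 1 + X`, `S = X - U = l - G/k` the slack is, exactly,
`slack = j (G (1 + 2 d b/k) + gain₀ + (1 + 2 d) b qh + b M d²/s - 2 d b l - ν)`, where `gain₀` is
`(breg + bdry)/Z₀`. So a Hardy bound `ν ≤ θ (gain₀ + b qh) + cL G` and the Cauchy–Schwarz bound
`l² ≤ K M qh` close the range `J (1+θ) < 2 - K`.
-/

open MeasureTheory Set Real Filter Topology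

namespace Vale.Agent.P237.AllN

variable {m : ℕ} {f : ℝ → ℝ}

theorem quad_le_lamC_sub_one (hm : m ≠ 0) : quad m ≤ lamC m - 1 := by
  have h := quad_le m
  have hm0 : (0:ℝ) < m := by exact_mod_cast Nat.pos_of_ne_zero hm
  rw [le_div_iff₀ (by positivity)] at h
  rw [lamC, div_sub_one hm0.ne', le_div_iff₀ hm0, show cst m = 1 - quad m by rw [quad]; ring]
  nlinarith [quad_pos m]

/-- The scalar core: with `d = s - 1` the bracket is positive unless `G = qh = 0`. -/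
theorem assembly_scalar {b k M s G g qh l ν θ cL K : ℝ} (hb : 0 < b) (hbk : b ≤ k) (hM : 0 < M)
    (hG : 0 ≤ G) (hg : 0 ≤ g) (hqh : 0 ≤ qh) (hθ1 : θ ≤ 1) (hcL : cL ≤ θ)
    (hK : 0 ≤ K) (hK1 : K ≤ 1) (hs : 1 + θ < (2 - K) * s) (hθ0 : 0 ≤ θ) (hl : l ^ 2 ≤ K * M * qh)
    (hν : ν ≤ θ * (g + b * qh) + cL * G)
    (hle : G * (1 + 2 * (s - 1) * b / k) + g + (1 + 2 * (s - 1)) * b * qh +
      b * M * (s - 1) ^ 2 / s - 2 * (s - 1) * b * l - ν ≤ 0) : G = 0 ∧ qh = 0 := by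
  have hs0 : 0 < s := by
    rcases le_or_gt s 0 with h | h
    · nlinarith
    · exact h
  have hs2 : 1 + θ + K * s < 2 * s := by linarith
  have hk : 0 < k := hb.trans_le hbk
  have hr : b / k ≤ 1 := (div_le_one hk).2 hbk
  have hr0 : 0 ≤ b / k := (div_pos hb hk).le
  -- the coefficient of `G`
  have hG1 : cL < 1 + 2 * (s - 1) * b / k := by
    rw [mul_div_assoc]
    rcases le_total 0 (s - 1) with h | h
    · rcases hθ1.lt_or_eq with h' | h'
      · have : 0 ≤ 2 * (s - 1) * (b / k) := by positivity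
        linarith
      · subst h'
        have hs1 : 0 < s - 1 := by nlinarith [mul_nonneg hK hs0.le]
        have : 0 < 2 * (s - 1) * (b / k) := mul_pos (mul_pos two_pos hs1) (div_pos hb hk)
        linarith
    · nlinarith [mul_nonneg (sub_nonneg.2 hr) (neg_nonneg.2 h), mul_nonneg hK hs0.le]
  -- the quadratic form in `(√qh, d)`
  set A := 2 * s - 1 - θ with hA
  have hA0 : K * s < A := by linarith
  set B := M * (s - 1) ^ 2 / s with hB
  set x := 2 * (s - 1) * l with hx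
  have hB0 : 0 ≤ B := by rw [hB]; positivity
  have hA1 : 0 < A := lt_of_le_of_lt (mul_nonneg hK hs0.le) hA0
  have hx2 : x ^ 2 ≤ 4 * (K * s) * qh * B := by
    have e : 4 * (K * s) * qh * B = 4 * (s - 1) ^ 2 * (K * M * qh) := by
      rw [hB]; field_simp
    rw [e, hx, mul_pow, mul_pow]
    have := mul_le_mul_of_nonneg_left hl (show 0 ≤ 4 * (s - 1) ^ 2 by positivity)
    linarith
  have hx3 : 4 * (K * s) * qh * B ≤ 4 * A * qh * B :=
    mul_le_mul_of_nonneg_right (mul_le_mul_of_nonneg_right (by linarith) hqh) hB0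
  have hp : 0 ≤ A * qh := mul_nonneg hA1.le hqh
  have hsum : x ≤ A * qh + B := by
    refine (le_abs_self _).trans (abs_le_of_sq_le_sq ?_ (by linarith))
    nlinarith only [hx2, hx3, sq_nonneg (A * qh - B)]
  have hstr : A * qh + B - x ≤ 0 → qh = 0 := by
    intro h
    by_contra hne
    have hq0 : 0 < qh := lt_of_le_of_ne hqh (Ne.symm hne)
    have hap : 0 < A * qh := mul_pos hA1 hq0
    rcases hB0.eq_or_lt with hB1 | hB1
    · rw [← hB1] at hx2 h
      simp only [mul_zero] at hx2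
      have : x = 0 := sq_nonpos_iff x |>.1 hx2
      linarith
    · have hlt : 4 * (K * s) * qh * B < 4 * A * qh * B :=
        mul_lt_mul_of_pos_right (mul_lt_mul_of_pos_right (by linarith) hq0) hB1
      have he : (A * qh + B) ^ 2 ≤ x ^ 2 := pow_le_pow_left₀ (by linarith) (by linarith) 2
      nlinarith only [hlt, he, hx2, sq_nonneg (A * qh - B)]
  have hdl : 0 ≤ A * qh + B - x ∧ (A * qh + B - x ≤ 0 → qh = 0) := ⟨by linarith, hstr⟩
  have hgθ : 0 ≤ (1 - θ) * g := mul_nonneg (by linarith) hg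
  have hmain : G * (1 + 2 * (s - 1) * b / k - cL) +
      b * (A * qh + B - x) + (1 - θ) * g ≤ 0 := by
    rw [hA, hB, hx]
    linear_combination hle + hν
  have h1 : 0 ≤ G * (1 + 2 * (s - 1) * b / k - cL) := mul_nonneg hG (by linarith)
  have h2 : 0 ≤ b * (A * qh + B - x) := mul_nonneg hb.le hdl.1
  refine ⟨?_, hdl.2 (nonpos_of_mul_nonpos_right (by linarith) hb)⟩
  rcases mul_eq_zero.1 (le_antisymm (by linarith) h1) with h | h
  · exact h
  · linarith

/-- The slack in the variable `s = 1/J`. -/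
theorem slack_eq_s (P : HalfProf f) (h0 : f 0 = 1) (hm : 3 ≤ m) :
    slack m f = relJ m f *
      (relG m f * (1 + 2 * ((jay m f)⁻¹ - 1) * quad m / (lamC m - 1)) +
        (breg m f + bdry m f) / (∫ t in (0:ℝ)..1, us t ^ m) +
        (1 + 2 * ((jay m f)⁻¹ - 1)) * quad m * (qhR m f / ∫ t in (0:ℝ)..1, us t ^ m) +
        quad m * (1 + relX m f) * ((jay m f)⁻¹ - 1) ^ 2 / (jay m f)⁻¹ -
        2 * ((jay m f)⁻¹ - 1) * quad m *
          (relX m f - relU m f + relG m f / (lamC m - 1)) -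
        negR m f / ∫ t in (0:ℝ)..1, us t ^ m) := by
  obtain ⟨ej, hj⟩ := relJ_eq P h0 hm
  have hJ := jay_pos P (show m ≠ 0 by omega)
  have hk : lamC m - 1 ≠ 0 := by linarith [one_lt_lamC (show m ≠ 0 by omega)]
  have hM : 1 + relX m f ≠ 0 := by
    intro h; rw [h, mul_zero] at ej; linarith
  have hs : (jay m f)⁻¹ = (1 + relX m f) / relJ m f := by
    rw [ej]; field_simp
  have hne := hj.ne'
  rw [hs, slack]
  set q := qhR m f / ∫ t in (0:ℝ)..1, us t ^ m with hq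
  have hjdef : relJ m f = 1 + relU m f + q := rfl
  rw [div_div_eq_mul_div, sub_div]
  field_simp
  rw [hjdef]
  ring

/-- **Positive slack from a Hardy bound, below a threshold for `J`.** -/
theorem slack_pos_near (P : HalfProf f) (h0 : f 0 = 1) (hm : 3 ≤ m) {θ cL K : ℝ}
    (hθ0 : 0 ≤ θ) (hθ1 : θ ≤ 1) (hcL : cL ≤ θ) (hK : 0 ≤ K) (hK1 : K ≤ 1)
    (hG : 0 ≤ relG m f)
    (hcs : csNorm m (lamC m / (((m:ℝ) + 1) * (lamC m - 1))) f ≤ K * ∫ t in (0:ℝ)..1, f t ^ m)
    (hH : negR m f ≤ θ * (breg m f + bdry m f + quad m * qhR m f) +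
      cL * ((∫ t in (0:ℝ)..1, us t ^ m) * relG m f))
    (hJ : jay m f * (1 + θ) < 2 - K) (hle : slack m f ≤ 0) :
    relG m f = 0 ∧ qhR m f = 0 := by
  obtain ⟨ej, hj⟩ := relJ_eq P h0 hm
  have hJ0 := jay_pos P (show m ≠ 0 by omega)
  have hZ0 := Z_pos halfProf_us (m := m)
  have hZ := Z_pos P (m := m)
  have hM : 1 + relX m f = (∫ t in (0:ℝ)..1, f t ^ m) / ∫ t in (0:ℝ)..1, us t ^ m := by
    rw [relX]; ring
  have hM0 : 0 < 1 + relX m f := by rw [hM]; exact div_pos hZ hZ0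
  set Z0 := ∫ t in (0:ℝ)..1, us t ^ m
  have hl : (relX m f - relU m f + relG m f / (lamC m - 1)) ^ 2 ≤
      K * (1 + relX m f) * (qhR m f / Z0) := by
    have h := (csInner_sq_le P h0 hm (lamC m / (((m:ℝ) + 1) * (lamC m - 1)))).trans
      (mul_le_mul_of_nonneg_left hcs (qhR_nonneg P h0))
    rw [csInner_scalar P h0 hm, mul_pow] at h
    rw [hM, show K * ((∫ t in (0:ℝ)..1, f t ^ m) / Z0) * (qhR m f / Z0) =
      K * (∫ t in (0:ℝ)..1, f t ^ m) * qhR m f / Z0 ^ 2 by ring, le_div_iff₀ (pow_pos hZ0 2)]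
    linarith
  have hν : negR m f / Z0 ≤
      θ * ((breg m f + bdry m f) / Z0 + quad m * (qhR m f / Z0)) + cL * relG m f := by
    rw [div_le_iff₀ hZ0]
    refine hH.trans_eq ?_
    field_simp
  rw [slack_eq_s P h0 hm] at hle
  have hle' := nonpos_of_mul_nonpos_right hle hj
  have hs : 1 + θ < (2 - K) * (jay m f)⁻¹ := by
    rw [← div_eq_mul_inv, lt_div_iff₀ hJ0]
    linarith
  obtain ⟨e1, e2⟩ := assembly_scalar (quad_pos m)
    (quad_le_lamC_sub_one (show m ≠ 0 by omega)) hM0 hG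
    (div_nonneg (add_nonneg (breg_nonneg P h0) (bdry_nonneg P h0 (by omega))) hZ0.le)
    (div_nonneg (qhR_nonneg P h0) hZ0.le) hθ1 hcL hK hK1 hs hθ0 hl hν hle'
  exact ⟨e1, (div_eq_zero_iff.1 e2).resolve_right hZ0.ne'⟩

theorem relG_eq_linGain : relG m f = GaugeBall.linGain m f := rfl

/-- Nonpositive criterion gives nonpositive slack. -/
theorem slack_nonpos (P : HalfProf f) (h0 : f 0 = 1) (hm : 3 ≤ m) (h : lamMix m f ≤ 0) :
    slack m f ≤ 0 := by
  obtain ⟨-, hj⟩ := relJ_eq P h0 hm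
  rw [← lamMix_slack P h0 hm]
  refine mul_nonpos_of_nonpos_of_nonneg h (mul_nonneg (mul_nonneg (quad_pos m).le hj.le) ?_)
  have := div_pos (Z_pos P (m := m)) (Z_pos halfProf_us (m := m))
  rw [relX]; linarith

/-- **`LemmaMix` from a near and a far bound.** -/
theorem lemmaMix_of_near_far (hm : 3 ≤ m) {θ cL K : ℝ}
    (hθ0 : 0 ≤ θ) (hθ1 : θ ≤ 1) (hcL : cL ≤ θ) (hK : 0 ≤ K) (hK1 : K ≤ 1)
    (hcs : ∀ f : ℝ → ℝ, HalfProf f → f 0 = 1 →
      csNorm m (lamC m / (((m:ℝ) + 1) * (lamC m - 1))) f ≤ K * ∫ t in (0:ℝ)..1, f t ^ m)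
    (hH : ∀ f : ℝ → ℝ, HalfProf f → f 0 = 1 →
      GaugeBall.secRatio m f ^ m ≤ GaugeBall.volRatio m f ^ (m - 1) →
      jay m f * (1 + θ) < 2 - K →
      negR m f ≤ θ * (breg m f + bdry m f + quad m * qhR m f) +
        cL * ((∫ t in (0:ℝ)..1, us t ^ m) * relG m f))
    (hfar : ∀ f : ℝ → ℝ, HalfProf f → f 0 = 1 →
      GaugeBall.secRatio m f ^ m ≤ GaugeBall.volRatio m f ^ (m - 1) →
      2 - K ≤ jay m f * (1 + θ) → 0 < slack m f) : LemmaMix m := by
  have key : ∀ f : ℝ → ℝ, HalfProf f → f 0 = 1 →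
      GaugeBall.secRatio m f ^ m ≤ GaugeBall.volRatio m f ^ (m - 1) → lamMix m f ≤ 0 →
      GaugeBall.linGain m f = 0 ∧ qhR m f = 0 := by
    intro f P h0 hN hle
    have hs := slack_nonpos P h0 hm hle
    rcases lt_or_ge (jay m f * (1 + θ)) (2 - K) with h | h
    · exact slack_pos_near P h0 hm hθ0 hθ1 hcL hK hK1
        (GaugeBall.linGain_nonneg P (by omega) hN) (hcs f P h0) (hH f P h0 hN h) h hs
    · exact absurd hs (not_le.2 (hfar f P h0 hN h))
  refine GaugeBall.lemmaMix_of_normalised (by omega) fun f P h0 hle => ?_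
  have hball : GaugeBall.secRatio m f ^ m ≤ GaugeBall.volRatio m f ^ (m - 1) →
      GaugeBall.volRatio m f ^ (m - 1) = GaugeBall.secRatio m f ^ m ∧
        ∀ t ∈ Ioo (0:ℝ) 1, f t = √(1 - t ^ 2) := by
    intro hN
    obtain ⟨hL, hq⟩ := key f P h0 hN hle
    obtain ⟨e1, e2⟩ := GaugeBall.linGain_eq_zero P (by omega) hN hL
    exact ⟨by rw [e1, e2, one_pow, one_pow],
      GaugeBall.rigid P (by omega) h0 (slopes_of_qhR P h0 (by omega) hq) e1⟩
  refine ⟨GaugeBall.ineq_iff.2 ?_, fun heq => (hball (GaugeBall.eq_iff.1 heq).ge).2⟩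
  rcases le_total (GaugeBall.volRatio m f ^ (m - 1)) (GaugeBall.secRatio m f ^ m) with h | h
  · exact h
  · exact (hball h).1.le

end Vale.Agent.P237.AllN
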