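import Vale.Agent.P237.AllN.InvAssembly
import Vale.Agent.P237.AllN.GaugeRange

/-!
# P237, all dimensions: assembly from a split Hardy bound

Write `s = 1/J`, `d = s - 1` and let `ℓ = ν (X + G/k) - U` be the pairing of `p - τ` with `csG` of
parameter `ν β₀`. Exactly,
`slack = j (G (1 + (s²-1) ν b/k) + b d (ν (1+s) - 2) X + b d² + g + s² b qh - (s²-1) b ℓ - N)`.
By concavity `(f - t f')(1 - f) ≤ -f'`, so the norm of `csG` is at most the profile-free number
`∫₀¹ csQ/(1-r)`. Hence a bound `N ≤ θr g + θb b qh + cL G`, with `θr` as large as `1`, makes the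
slack positive for `s ≥ s₀` under an explicit numerical condition on `(θb, cL, s₀)`.
-/

open MeasureTheory Set Real Filter Topology

namespace Vale.Agent.P237.AllN

variable {m : ℕ} {f : ℝ → ℝ}

/-- `csQ/(1-r)`, continued to the line. -/
noncomputable def csK (m : ℕ) (β r : ℝ) : ℝ :=
  (m:ℝ) * (1 + cl r) * cl r ^ (m - 3) * (-cl r + β / (1 + cl r)) ^ 2

theorem continuous_csK (β : ℝ) : Continuous (csK m β) := by
  have h : ∀ s, (1:ℝ) + cl s ≠ 0 := fun s => by linarith [(cl_mem s).1]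
  have hc := continuous_cl
  unfold csK
  fun_prop (disch := exact h)

theorem csK_nonneg (β r : ℝ) : 0 ≤ csK m β r := by
  have := (cl_mem r).1
  unfold csK
  positivity

theorem csQ_eq_csK (β : ℝ) {r : ℝ} (hr : r ∈ Icc (0:ℝ) 1) :
    csQ m β r = (1 - r) * csK m β r := by
  rw [csQ, csK, cl_eq hr, us_sq hr]
  ring

/-- **The norm of `csG` is at most `∫ csQ/(1-r)`**, whatever the profile. -/
theorem csNorm_le_csK (P : HalfProf f) (h0 : f 0 = 1) (hm : 3 ≤ m) (β : ℝ) :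
    csNorm m β f ≤ ∫ r in (0:ℝ)..1, csK m β r := by
  obtain ⟨-, iN⟩ := intCSParts P h0 hm β
  have hK := continuous_csK (m := m) β
  obtain ⟨i2, e2⟩ := ibp_comp P (a := fun _ => 1) (a' := fun _ => 0) continuousOn_const
    (fun t _ => hasDerivAt_const t 1) continuousOn_const intervalIntegrable_const hK
  simp only [h0, one_mul, zero_mul, intervalIntegral.integral_zero, zero_add] at e2 i2
  have hle : (∫ t in (0:ℝ)..1, wq m f t * csG β (f t) ^ 2) ≤
      ∫ t in (0:ℝ)..1, -(csK m β (f t) * deriv f t) := by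
    refine intervalIntegral.integral_mono_ae_restrict zero_le_one iN i2.neg ?_
    rw [EventuallyLE, ae_restrict_iff' measurableSet_Icc]
    filter_upwards [P.ae_diff, Measure.ae_ne volume (0:ℝ), Measure.ae_ne volume (1:ℝ)]
      with t htd n0 n1 hI
    have ht : t ∈ Ioo (0:ℝ) 1 := ⟨lt_of_le_of_ne hI.1 (Ne.symm n0), lt_of_le_of_ne hI.2 n1⟩
    have hf := P.mem01' h0 ht
    have hw := (P.weight_bounds h0 ht (htd ht)).2
    have key : wq m f t * csG β (f t) ^ 2 =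
        csK m β (f t) * ((f t - t * deriv f t) * (1 - f t)) := by
      have h := csQ_eq_csK (m := m) β (Ioc_subset_Icc_self hf)
      rw [csQ_eq hm β hf] at h
      rw [wq]
      linear_combination (f t - t * deriv f t) * h
    rw [key, ← mul_neg]
    exact mul_le_mul_of_nonneg_left hw (csK_nonneg β (f t))
  rw [intervalIntegral.integral_neg, e2] at hle
  have he := fend_mem P h0
  have hjump : (∫ r in (0:ℝ)..fend f, csQ m β r) ≤ ∫ r in (0:ℝ)..fend f, csK m β r :=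
    intervalIntegral.integral_mono_on he.1 ((continuous_csQ β).intervalIntegrable _ _)
      (hK.intervalIntegrable _ _) fun r hr => by
        rw [csQ_eq_csK β ⟨hr.1, hr.2.trans he.2⟩]
        exact mul_le_of_le_one_left (csK_nonneg β r) (by linarith [hr.1])
  rw [csNorm]
  linarith

/-- `csInner` at the parameter `ν β₀`. -/
theorem csInner_scaled (P : HalfProf f) (h0 : f 0 = 1) (hm : 3 ≤ m) (ν : ℝ) :
    csInner m (ν * (lamC m / (((m:ℝ) + 1) * (lamC m - 1)))) f =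
      (∫ t in (0:ℝ)..1, us t ^ m) *
        (ν * (relX m f + relG m f / (lamC m - 1)) - relU m f) := by
  set β₀ := lamC m / (((m:ℝ) + 1) * (lamC m - 1))
  have hb := csInner_scalar P h0 hm
  have hz : csInner m 0 f = -((∫ t in (0:ℝ)..1, us t ^ m) * relU m f) := by
    have hZ0 := (Z_pos halfProf_us (m := m)).ne'
    have hne : (m:ℝ) + 2 ≠ 0 := by positivity
    rw [csInner_moments P h0 hm, integral_csL halfProf_us, integral_csL P, relU, relX]
    field_simp
    ring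
  have haff : csInner m (ν * β₀) f = (1 - ν) * csInner m 0 f + ν * csInner m β₀ f := by
    simp only [csInner_moments P h0 hm, integral_csL halfProf_us, integral_csL P]
    ring
  rw [haff, hz, hb]
  ring

/-- The slack in the variable `s = 1/J` with a free parameter `ν`. -/
theorem slack_eq_split (P : HalfProf f) (h0 : f 0 = 1) (hm : 3 ≤ m) (ν : ℝ) :
    slack m f = relJ m f *
      (relG m f * (1 + ((jay m f)⁻¹ ^ 2 - 1) * ν * quad m / (lamC m - 1)) +
        quad m * ((jay m f)⁻¹ - 1) * (ν * (1 + (jay m f)⁻¹) - 2) * relX m f +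
        quad m * ((jay m f)⁻¹ - 1) ^ 2 +
        (breg m f + bdry m f) / (∫ t in (0:ℝ)..1, us t ^ m) +
        (jay m f)⁻¹ ^ 2 * quad m * (qhR m f / ∫ t in (0:ℝ)..1, us t ^ m) -
        ((jay m f)⁻¹ ^ 2 - 1) * quad m *
          (ν * (relX m f + relG m f / (lamC m - 1)) - relU m f) -
        negR m f / ∫ t in (0:ℝ)..1, us t ^ m) := by
  obtain ⟨ej, hj⟩ := relJ_eq P h0 hm
  have hJ := jay_pos P (show m ≠ 0 by omega)
  have hk : lamC m - 1 ≠ 0 := by linarith [one_lt_lamC (show m ≠ 0 by omega)]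
  have hM : 1 + relX m f ≠ 0 := by
    intro h; rw [h, mul_zero] at ej; linarith
  have hs : (jay m f)⁻¹ = (1 + relX m f) / relJ m f := by
    rw [ej]; field_simp
  have hne := hj.ne'
  rw [hs, slack]
  set q := qhR m f / ∫ t in (0:ℝ)..1, us t ^ m with hq
  have hjdef : relJ m f = 1 + relU m f + q := rfl
  rw [sub_div]
  field_simp
  rw [hjdef]
  ring

/-- Tangent of the gap of a power. -/
theorem linear_le_gap {m X a G Γ : ℝ} (hm : 0 < m) (hX : -1 < X) (hΓ : 1 ≤ Γ)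
    (ha : 2 * m * a * Γ ≤ Γ - 1) (hG : X ^ 2 / (2 * m * max 1 (1 + X)) ≤ G) :
    a * X - Γ * m * a ^ 2 / 2 ≤ G := by
  have hΓ0 : 0 < Γ := by linarith
  refine le_trans ?_ hG
  rcases le_total X 0 with h | h
  · rw [max_eq_left (by linarith), mul_one, le_div_iff₀ (by positivity)]
    nlinarith [sq_nonneg (X - m * a), mul_nonneg (sub_nonneg.2 hΓ) (sq_nonneg (m * a))]
  · rw [max_eq_right (by linarith)]
    set M := 1 + X with hM
    have hM0 : 0 < M := by linarith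
    rcases le_or_gt (a * X) (X ^ 2 / (2 * m * M)) with h1 | h1
    · have : 0 ≤ Γ * m * a ^ 2 / 2 := by positivity
      linarith
    · have hX0 : 0 < X := by
        rcases h.eq_or_lt with h' | h'
        · subst h'; simp at h1
        · exact h'
      rw [div_lt_iff₀ (by positivity)] at h1
      have h2 : X < 2 * m * a * M := by
        refine lt_of_mul_lt_mul_left ?_ hX0.le
        linarith
      have h3 : M ≤ Γ := by
        have h4 : X * Γ < 2 * m * a * Γ * M := by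
          have := mul_lt_mul_of_pos_right h2 hΓ0
          linarith
        have h5 : 2 * m * a * Γ * M ≤ (Γ - 1) * M := mul_le_mul_of_nonneg_right ha hM0.le
        rw [hM] at h4 h5 ⊢
        nlinarith
      have h6 : X ^ 2 / (2 * m * Γ) ≤ X ^ 2 / (2 * m * M) :=
        div_le_div_of_nonneg_left (sq_nonneg X) (by positivity) (by nlinarith)
      refine le_trans ?_ h6
      rw [le_div_iff₀ (by positivity)]
      nlinarith [sq_nonneg (X - m * Γ * a)]

/-- `G ≥ X² / (2 m max 1 (1+X))` under a reversed profile inequality. -/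
theorem relG_ge_sq (P : HalfProf f) (hm : 2 ≤ m)
    (hN : GaugeBall.secRatio m f ^ m ≤ GaugeBall.volRatio m f ^ (m - 1)) :
    relX m f ^ 2 / (2 * (m:ℝ) * max 1 (1 + relX m f)) ≤ relG m f := by
  have hm1 : (1:ℝ) < m := by exact_mod_cast (show 1 < m by omega)
  have hv : GaugeBall.volRatio m f = 1 + relX m f := by
    rw [GaugeBall.volRatio, relX, ballInt_us]; ring
  have hpos := GaugeBall.volRatio_pos P (m := m)
  have hg := GaugeBall.linGain_ge P hm hN
  rw [hv] at hg hpos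
  have hp := power_gap (e := 1 / (m:ℝ)) (X := relX m f) (by positivity)
    ((div_lt_one (by linarith)).2 hm1) (by linarith)
  have hm0 : (m:ℝ) ≠ 0 := by linarith
  rw [show (1:ℝ) - 1 / (m:ℝ) = ((m:ℝ) - 1) / m by field_simp, div_div_eq_mul_div,
    show 1 / (m:ℝ) * relX m f ^ 2 / (2 * max 1 (1 + relX m f)) =
      relX m f ^ 2 / (2 * (m:ℝ) * max 1 (1 + relX m f)) by field_simp] at hp
  rw [relG_eq_linGain]
  refine hp.trans (le_trans (le_of_eq ?_) hg)
  ring

/-- Young's inequality for `ℓ² ≤ K q`. -/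
theorem young_le {A K q ℓ c : ℝ} (hA : 0 < A) (hK : 0 ≤ K) (hq0 : 0 ≤ q) (hl : ℓ ^ 2 ≤ K * q) :
    c * ℓ ≤ A * q + c ^ 2 * K / (4 * A) := by
  rcases hK.eq_or_lt with hK0 | hK0
  · subst hK0
    have h0 : ℓ = 0 := by
      rw [zero_mul] at hl
      exact sq_nonpos_iff ℓ |>.1 hl
    subst h0
    simp only [mul_zero, zero_div, add_zero]
    positivity
  · have hq : ℓ ^ 2 / K ≤ q := by rw [div_le_iff₀ hK0]; linarith
    have h1 : c * ℓ ≤ A * (ℓ ^ 2 / K) + c ^ 2 * K / (4 * A) := by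
      rw [← sub_nonneg, show A * (ℓ ^ 2 / K) + c ^ 2 * K / (4 * A) - c * ℓ =
        (2 * A * ℓ - c * K) ^ 2 / (4 * A * K) by field_simp; ring]
      positivity
    linarith [mul_le_mul_of_nonneg_left hq hA.le]

/-- The scalar core of the split assembly. -/
theorem split_scalar {m b k s ν θb cL Γ K X G g q ℓ N : ℝ} (hm : 0 < m) (hb : 0 < b)
    (hcL : 0 < 1 - cL + (s ^ 2 - 1) * ν * (b / k)) (hθb : θb < s ^ 2) (hK : 0 ≤ K) (hΓ : 1 ≤ Γ)
    (hX : -1 < X) (hq : 0 ≤ q) (hG0 : 0 ≤ G)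
    (hG : X ^ 2 / (2 * m * max 1 (1 + X)) ≤ G) (hl : ℓ ^ 2 ≤ K * q)
    (ha : -2 * m * b * (s - 1) * (ν * (1 + s) - 2) * Γ ≤
      (Γ - 1) * (1 - cL + (s ^ 2 - 1) * ν * (b / k)))
    (hside : Γ * m * b * (ν * (1 + s) - 2) ^ 2 / (2 * (1 - cL + (s ^ 2 - 1) * ν * (b / k))) +
      (1 + s) ^ 2 * K / (4 * (s ^ 2 - θb)) < 1)
    (hN : N ≤ g + θb * b * q + cL * G)
    (hle : G * (1 + (s ^ 2 - 1) * ν * b / k) + b * (s - 1) * (ν * (1 + s) - 2) * X +
      b * (s - 1) ^ 2 + g + s ^ 2 * b * q - (s ^ 2 - 1) * b * ℓ - N ≤ 0) : G = 0 ∧ q = 0 := by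
  have hA : 0 < s ^ 2 - θb := by linarith
  set π' := 1 - cL + (s ^ 2 - 1) * ν * (b / k) with hπ
  set e := ν * (1 + s) - 2 with he
  -- the linear part in `X`
  have hlin := linear_le_gap (a := -(b * (s - 1) * e) / π') hm hX hΓ (by
    rw [mul_div_assoc', div_mul_eq_mul_div, div_le_iff₀ hcL]
    linarith) hG
  have h1 : -(b * (s - 1) * e) * X - Γ * m * (b * (s - 1) * e) ^ 2 / (2 * π') ≤ π' * G := by
    refine le_trans (le_of_eq ?_) (mul_le_mul_of_nonneg_left hlin hcL.le)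
    field_simp
  -- the square part
  have h2 : (s ^ 2 - 1) * b * ℓ ≤
      (s ^ 2 - θb) * b * q + b * ((s ^ 2 - 1) ^ 2 * K / (4 * (s ^ 2 - θb))) := by
    have := mul_le_mul_of_nonneg_left (young_le (c := s ^ 2 - 1) hA hK hq hl) hb.le
    linarith
  have hmain : b * (s - 1) ^ 2 *
      (1 - (Γ * m * b * e ^ 2 / (2 * π') + (1 + s) ^ 2 * K / (4 * (s ^ 2 - θb)))) ≤ 0 := by
    have e1 : b * (s - 1) ^ 2 * (Γ * m * b * e ^ 2 / (2 * π')) =
        Γ * m * (b * (s - 1) * e) ^ 2 / (2 * π') := by ring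
    have e2 : b * (s - 1) ^ 2 * ((1 + s) ^ 2 * K / (4 * (s ^ 2 - θb))) =
        b * ((s ^ 2 - 1) ^ 2 * K / (4 * (s ^ 2 - θb))) := by ring
    have e3 : G * (1 + (s ^ 2 - 1) * ν * b / k) = π' * G + cL * G := by rw [hπ]; ring
    rw [mul_sub, mul_one, mul_add, e1, e2]
    linarith
  have hs1 : s = 1 := by
    by_contra hne
    have : 0 < b * (s - 1) ^ 2 := mul_pos hb (sq_pos_of_ne_zero (sub_ne_zero.2 hne))
    exact absurd hmain (not_le.2 (mul_pos this (by linarith)))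
  subst hs1
  simp only [one_pow, sub_self, zero_mul, add_zero, mul_zero, zero_div, one_mul, sub_zero, zero_pow (two_ne_zero)] at *
  have hπ1 : 0 < 1 - cL := by linarith
  have hA1 : 0 ≤ (1 - θb) * (b * q) := mul_nonneg hA.le (mul_nonneg hb.le hq)
  have hG1 : 0 ≤ (1 - cL) * G := mul_nonneg hπ1.le hG0
  constructor
  · have : (1 - cL) * G = 0 := le_antisymm (by linarith) hG1
    exact (mul_eq_zero.1 this).resolve_left hπ1.ne'
  · have : (1 - θb) * (b * q) = 0 := le_antisymm (by linarith) hA1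
    exact (mul_eq_zero.1 ((mul_eq_zero.1 this).resolve_left hA.ne')).resolve_left hb.ne'

/-- The side condition for all `s ≥ s₀` from four inequalities at `s₀`. -/
theorem side_of_numeric {m b k s s₀ ν θb cL Γ K : ℝ} (hm : 0 ≤ m) (hb : 0 < b) (hbk : b ≤ k)
    (hs₀ : 0 < s₀) (hs : s₀ ≤ s) (hν0 : 0 < ν) (hν1 : ν ≤ 1) (hθb0 : 0 ≤ θb)
    (hθb : θb < s₀ ^ 2) (hΓ : 1 ≤ Γ) (hK : 0 ≤ K)
    (hπ : 0 < 1 - cL + (s₀ ^ 2 - 1) * ν * (b / k))
    (hP : 0 ≤ ν * (1 - cL) / (b / k) - ν ^ 2 - (2 - ν) ^ 2 + 2 * ν * (2 - ν) * s₀)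
    (hG : 2 * m * b * Γ * (1 - ν) ^ 2 ≤ (Γ - 1) * ν * (1 - cL))
    (hnum : Γ * m * k * ν / 2 + (1 + s₀) ^ 2 * K / (4 * (s₀ ^ 2 - θb)) < 1) :
    0 < 1 - cL + (s ^ 2 - 1) * ν * (b / k) ∧ θb < s ^ 2 ∧
    -2 * m * b * (s - 1) * (ν * (1 + s) - 2) * Γ ≤
      (Γ - 1) * (1 - cL + (s ^ 2 - 1) * ν * (b / k)) ∧
    Γ * m * b * (ν * (1 + s) - 2) ^ 2 / (2 * (1 - cL + (s ^ 2 - 1) * ν * (b / k))) +
      (1 + s) ^ 2 * K / (4 * (s ^ 2 - θb)) < 1 := by
  have hk : 0 < k := hb.trans_le hbk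
  have hss : s₀ ^ 2 ≤ s ^ 2 := pow_le_pow_left₀ hs₀.le hs 2
  have hρ : 0 < b / k := div_pos hb hk
  set ρ := b / k with hρd
  set π' := 1 - cL + (s ^ 2 - 1) * ν * ρ with hπd
  have hπ' : 0 < π' := by
    have := mul_le_mul_of_nonneg_right (sub_le_sub_right hss 1) (mul_pos hν0 hρ).le
    rw [hπd]; linarith
  refine ⟨hπ', by linarith, ?_, ?_⟩
  · set e := ν * (1 + s) - 2 with he
    rcases le_or_gt 0 ((s - 1) * e) with h | h
    · have h1 : 0 ≤ m * b * Γ * ((s - 1) * e) :=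
        mul_nonneg (mul_nonneg (mul_nonneg hm hb.le) (by linarith)) h
      have h2 : 0 ≤ (Γ - 1) * π' := mul_nonneg (by linarith) hπ'.le
      linarith
    · have hs1 : 1 < s := by
        by_contra hs1
        rw [not_lt] at hs1
        exact absurd h (not_lt.2 (mul_nonneg_of_nonpos_of_nonpos (by linarith)
          (by rw [he]; nlinarith)))
      have h1 : -((s - 1) * e) * ν ≤ (1 - ν) ^ 2 := by
        rw [he]; nlinarith [sq_nonneg (ν * (s - 1) - (1 - ν))]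
      have h2 : 1 - cL ≤ π' := by
        rw [hπd]
        have : 0 ≤ (s ^ 2 - 1) * ν * ρ :=
          mul_nonneg (mul_nonneg (by nlinarith) hν0.le) hρ.le
        linarith
      refine le_of_mul_le_mul_right ?_ hν0
      calc -2 * m * b * (s - 1) * e * Γ * ν
          = 2 * m * b * Γ * (-((s - 1) * e) * ν) := by ring
        _ ≤ 2 * m * b * Γ * (1 - ν) ^ 2 :=
            mul_le_mul_of_nonneg_left h1 (by positivity)
        _ ≤ (Γ - 1) * ν * (1 - cL) := hG
        _ ≤ (Γ - 1) * ν * π' := mul_le_mul_of_nonneg_left h2 (mul_nonneg (by linarith) hν0.le)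
        _ = _ := by ring
  · have hq : (ν * (1 + s) - 2) ^ 2 ≤ ν / ρ * π' := by
      have e1 : ν / ρ * π' = ν * (1 - cL) / ρ + (s ^ 2 - 1) * ν ^ 2 := by
        rw [hπd]; field_simp
      rw [e1]
      nlinarith [mul_nonneg (mul_nonneg hν0.le (show 0 ≤ 2 - ν by linarith)) (sub_nonneg.2 hs)]
    have ht1 : Γ * m * b * (ν * (1 + s) - 2) ^ 2 / (2 * π') ≤ Γ * m * k * ν / 2 := by
      rw [div_le_iff₀ (by positivity)]
      refine (mul_le_mul_of_nonneg_left hq (by positivity)).trans (le_of_eq ?_)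
      rw [hρd]
      field_simp
    have hA : 0 < s₀ ^ 2 - θb := by linarith
    have hA' : 0 < s ^ 2 - θb := by linarith
    have ht2 : (1 + s) ^ 2 * K / (4 * (s ^ 2 - θb)) ≤
        (1 + s₀) ^ 2 * K / (4 * (s₀ ^ 2 - θb)) := by
      have h3 : (1 + s) ^ 2 * (s₀ ^ 2 - θb) ≤ (1 + s₀) ^ 2 * (s ^ 2 - θb) := by
        have hsp : 0 ≤ s := (hs₀.trans_le hs).le
        have h4 : 0 ≤ (s - s₀) * (s + s₀ + 2 * (s * s₀)) :=
          mul_nonneg (sub_nonneg.2 hs) (by positivity)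
        have h5 : 0 ≤ θb * ((s - s₀) * (2 + s + s₀)) :=
          mul_nonneg hθb0 (mul_nonneg (sub_nonneg.2 hs) (by positivity))
        linarith
      rw [div_le_div_iff₀ (by positivity) (by positivity)]
      linarith [mul_le_mul_of_nonneg_left h3 hK]
    linarith

/-- `LemmaMix` from the vanishing of `G` and `qh` at nonpositive slack. -/
theorem lemmaMix_of_slack_zero (hm : 3 ≤ m)
    (key : ∀ f : ℝ → ℝ, HalfProf f → f 0 = 1 →
      GaugeBall.secRatio m f ^ m ≤ GaugeBall.volRatio m f ^ (m - 1) → slack m f ≤ 0 →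
      relG m f = 0 ∧ qhR m f = 0) : LemmaMix m := by
  refine GaugeBall.lemmaMix_of_normalised (by omega) fun f P h0 hle => ?_
  have hball : GaugeBall.secRatio m f ^ m ≤ GaugeBall.volRatio m f ^ (m - 1) →
      GaugeBall.volRatio m f ^ (m - 1) = GaugeBall.secRatio m f ^ m ∧
        ∀ t ∈ Ioo (0:ℝ) 1, f t = √(1 - t ^ 2) := by
    intro hN
    obtain ⟨hL, hq⟩ := key f P h0 hN (slack_nonpos P h0 hm hle)
    obtain ⟨e1, e2⟩ := GaugeBall.linGain_eq_zero P (by omega) hN (relG_eq_linGain ▸ hL)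
    exact ⟨by rw [e1, e2, one_pow, one_pow],
      GaugeBall.rigid P (by omega) h0 (slopes_of_qhR P h0 (by omega) hq) e1⟩
  refine ⟨GaugeBall.ineq_iff.2 ?_, fun heq => (hball (GaugeBall.eq_iff.1 heq).ge).2⟩
  rcases le_total (GaugeBall.volRatio m f ^ (m - 1)) (GaugeBall.secRatio m f ^ m) with h | h
  · exact h
  · exact (hball h).1.le

/-- **`LemmaMix` from a split Hardy bound and a far bound**, side condition for every `s ≥ s₀`. -/
theorem lemmaMix_of_hardy_far_side (hm : 3 ≤ m) {θr θb cL s₀ ν Γ K : ℝ} (hθr : θr ≤ 1)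
    (hΓ : 1 ≤ Γ)
    (hK : (∫ r in (0:ℝ)..1, csK m (ν * (lamC m / (((m:ℝ) + 1) * (lamC m - 1)))) r) ≤
      K * ∫ t in (0:ℝ)..1, us t ^ m)
    (hside : ∀ s, s₀ ≤ s →
      0 < 1 - cL + (s ^ 2 - 1) * ν * (quad m / (lamC m - 1)) ∧ θb < s ^ 2 ∧
      -2 * (m:ℝ) * quad m * (s - 1) * (ν * (1 + s) - 2) * Γ ≤
        (Γ - 1) * (1 - cL + (s ^ 2 - 1) * ν * (quad m / (lamC m - 1))) ∧
      Γ * (m:ℝ) * quad m * (ν * (1 + s) - 2) ^ 2 /
        (2 * (1 - cL + (s ^ 2 - 1) * ν * (quad m / (lamC m - 1)))) +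
        (1 + s) ^ 2 * K / (4 * (s ^ 2 - θb)) < 1)
    (hH : ∀ f : ℝ → ℝ, HalfProf f → f 0 = 1 →
      GaugeBall.secRatio m f ^ m ≤ GaugeBall.volRatio m f ^ (m - 1) →
      jay m f * s₀ < 1 →
      negR m f ≤ θr * (breg m f + bdry m f) + θb * quad m * qhR m f +
        cL * ((∫ t in (0:ℝ)..1, us t ^ m) * relG m f))
    (hfar : ∀ f : ℝ → ℝ, HalfProf f → f 0 = 1 →
      GaugeBall.secRatio m f ^ m ≤ GaugeBall.volRatio m f ^ (m - 1) →
      1 ≤ jay m f * s₀ → 0 < slack m f) : LemmaMix m := by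
  refine lemmaMix_of_slack_zero hm fun f P h0 hN hle => ?_
  rcases le_or_gt 1 (jay m f * s₀) with hJ | hJ
  · exact absurd hle (not_le.2 (hfar f P h0 hN hJ))
  have hm0 : m ≠ 0 := by omega
  obtain ⟨ej, hj⟩ := relJ_eq P h0 hm
  have hJ0 := jay_pos P hm0
  have hs : s₀ ≤ (jay m f)⁻¹ := by
    rw [← one_div, le_div_iff₀ hJ0]; linarith
  have hZ0 := Z_pos halfProf_us (m := m)
  set Z0 := ∫ t in (0:ℝ)..1, us t ^ m with hZ0d
  have hK0 : 0 ≤ K := by
    have h1 : 0 ≤ K * Z0 := le_trans (intervalIntegral.integral_nonneg zero_le_one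
      fun r _ => csK_nonneg _ r) hK
    exact nonneg_of_mul_nonneg_left h1 hZ0
  have hl : (ν * (relX m f + relG m f / (lamC m - 1)) - relU m f) ^ 2 ≤
      K * (qhR m f / Z0) := by
    have h := (csInner_sq_le P h0 hm (ν * (lamC m / (((m:ℝ) + 1) * (lamC m - 1))))).trans
      (mul_le_mul_of_nonneg_left ((csNorm_le_csK P h0 hm _).trans hK) (qhR_nonneg P h0))
    rw [csInner_scaled P h0 hm, mul_pow] at h
    rw [mul_div_assoc', le_div_iff₀ hZ0]
    refine le_of_mul_le_mul_left ?_ hZ0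
    linarith
  have hν : negR m f / Z0 ≤ (breg m f + bdry m f) / Z0 + θb * quad m * (qhR m f / Z0) +
      cL * relG m f := by
    have hg0 := add_nonneg (breg_nonneg P h0 (m := m)) (bdry_nonneg P h0 (show 2 ≤ m by omega))
    rw [div_le_iff₀ hZ0]
    refine (hH f P h0 hN hJ).trans ?_
    rw [show ((breg m f + bdry m f) / Z0 + θb * quad m * (qhR m f / Z0) + cL * relG m f) * Z0 =
      (breg m f + bdry m f) + θb * quad m * qhR m f + cL * (Z0 * relG m f) by field_simp]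
    linarith [mul_le_mul_of_nonneg_right hθr hg0]
  obtain ⟨hπ', hθ', ha, hside'⟩ := hside _ hs
  rw [slack_eq_split P h0 hm ν] at hle
  have hle' := nonpos_of_mul_nonpos_right hle hj
  have hX : -1 < relX m f := by
    have := div_pos (Z_pos P (m := m)) hZ0
    rw [relX]; linarith
  obtain ⟨e1, e2⟩ := split_scalar (by exact_mod_cast Nat.pos_of_ne_zero hm0) (quad_pos m) hπ' hθ'
    hK0 hΓ hX
    (div_nonneg (qhR_nonneg P h0) hZ0.le) (GaugeBall.linGain_nonneg P (by omega) hN)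
    (relG_ge_sq P (by omega) hN) hl ha hside' hν hle'
  exact ⟨e1, (div_eq_zero_iff.1 e2).resolve_right hZ0.ne'⟩

/-- **`LemmaMix` from a split Hardy bound and a far bound.** -/
theorem lemmaMix_of_hardy_far (hm : 3 ≤ m) {θr θb cL s₀ ν Γ K : ℝ} (hθr : θr ≤ 1)
    (hs₀ : 0 < s₀) (hν0 : 0 < ν) (hν1 : ν ≤ 1) (hθb0 : 0 ≤ θb) (hθb : θb < s₀ ^ 2)
    (hΓ : 1 ≤ Γ)
    (hK : (∫ r in (0:ℝ)..1, csK m (ν * (lamC m / (((m:ℝ) + 1) * (lamC m - 1)))) r) ≤
      K * ∫ t in (0:ℝ)..1, us t ^ m)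
    (hπ : 0 < 1 - cL + (s₀ ^ 2 - 1) * ν * (quad m / (lamC m - 1)))
    (hP : 0 ≤ ν * (1 - cL) / (quad m / (lamC m - 1)) - ν ^ 2 - (2 - ν) ^ 2 +
      2 * ν * (2 - ν) * s₀)
    (hΓc : 2 * (m:ℝ) * quad m * Γ * (1 - ν) ^ 2 ≤ (Γ - 1) * ν * (1 - cL))
    (hnum : Γ * (m:ℝ) * (lamC m - 1) * ν / 2 +
      (1 + s₀) ^ 2 * K / (4 * (s₀ ^ 2 - θb)) < 1)
    (hH : ∀ f : ℝ → ℝ, HalfProf f → f 0 = 1 →
      GaugeBall.secRatio m f ^ m ≤ GaugeBall.volRatio m f ^ (m - 1) →
      jay m f * s₀ < 1 →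
      negR m f ≤ θr * (breg m f + bdry m f) + θb * quad m * qhR m f +
        cL * ((∫ t in (0:ℝ)..1, us t ^ m) * relG m f))
    (hfar : ∀ f : ℝ → ℝ, HalfProf f → f 0 = 1 →
      GaugeBall.secRatio m f ^ m ≤ GaugeBall.volRatio m f ^ (m - 1) →
      1 ≤ jay m f * s₀ → 0 < slack m f) : LemmaMix m := by
  refine lemmaMix_of_hardy_far_side hm hθr hΓ hK (fun s hs => ?_) hH hfar
  have hZ0 := Z_pos halfProf_us (m := m)
  exact side_of_numeric (Nat.cast_nonneg m) (quad_pos m) (quad_le_lamC_sub_one (by omega)) hs₀ hs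
    hν0 hν1 hθb0 hθb hΓ (nonneg_of_mul_nonneg_left (le_trans (intervalIntegral.integral_nonneg
      zero_le_one fun r _ => csK_nonneg _ r) hK) hZ0) hπ hP hΓc hnum

end Vale.Agent.P237.AllN
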