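import Vale.Agent.P237.AllN.PhiR

/-!
# P237, all dimensions: the curvature of `phi + quad t² / 2`

For every `m ≥ 4` one has `(psi' + quad) √(1 - t²)³ ≥ kappaLow m = (43/50) cst m / (m + 1)`.
Thus `phi + quad t²/2 - kappaLow m (1 - √(1-t²))` is convex on `[-1, 1]`, uniformly in the
dimension; `1 - √(1-t²)` has closed-form Bregman distances.
-/

open MeasureTheory Set Real intervalIntegral Filter Topology

namespace Vale.Agent.P237.AllN

variable {m : ℕ}

/-- The uniform curvature constant. -/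
noncomputable def kappaLow (m : ℕ) : ℝ := 43 / 50 * cst m / (m + 1)

theorem cosI_add_two (j : ℕ) : cosI (j + 2) = (j + 1) / (j + 2) * cosI j := by
  rw [cosI, integral_cos_pow, cosI]
  simp [cos_pi_div_two]

/-- `c² ≤ (m+1)/(m+2)`. -/
theorem cst_sq_le (m : ℕ) : cst m ^ 2 ≤ (m + 1) / (m + 2) := by
  have h0 : 0 ≤ ∫ x in (-(π / 2))..(π / 2), cos x ^ m * (cst m - cos x) ^ 2 := by
    refine integral_nonneg (by linarith [pi_pos]) fun x hx => ?_
    exact mul_nonneg (pow_nonneg (cos_nonneg_of_mem_Icc hx) m) (sq_nonneg _)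
  have h : ∀ x, cos x ^ m * (cst m - cos x) ^ 2
      = cst m ^ 2 * cos x ^ m - (2 * cst m * cos x ^ (m + 1) - cos x ^ (m + 2)) := fun x => by ring
  simp only [h] at h0
  rw [integral_sub ((intervalIntegrable_cos_pow m _ _).const_mul _)
      (((intervalIntegrable_cos_pow _ _ _).const_mul _).sub (intervalIntegrable_cos_pow _ _ _)),
    integral_sub ((intervalIntegrable_cos_pow _ _ _).const_mul _) (intervalIntegrable_cos_pow _ _ _),
    intervalIntegral.integral_const_mul, intervalIntegral.integral_const_mul,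
    ← cosI, ← cosI, ← cosI, cosI_add_two] at h0
  have hc : cosI (m + 1) = cst m * cosI m := by rw [cst, div_mul_cancel₀ _ (cosI_pos m).ne']
  rw [hc] at h0
  nlinarith [cosI_pos m]

theorem cst_le_lin (m : ℕ) : cst m ≤ (2 * m + 3) / (2 * m + 4) := by
  refine (pow_le_pow_iff_left₀ (cst_pos m).le (by positivity) two_ne_zero).1 ?_
  refine (cst_sq_le m).trans ?_
  rw [div_pow, div_le_div_iff₀ (by positivity) (by positivity)]
  nlinarith

theorem kappa_limit_poly {u : ℝ} (h0 : 0 ≤ u) (h1 : u ≤ 1) :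
    0 ≤ 7 / 50 - 57 / 50 * u ^ 2 + 3 / 2 * u ^ 3 - u ^ 5 / 2 := by
  have hg : u ^ 2 * (1 - u) * (1 + u / 2) ≤ 7 / 50 * (1 + u) := by
    nlinarith [sq_nonneg (u - 18 / 25), mul_nonneg h0 (sub_nonneg.2 h1),
      mul_nonneg h0 (sq_nonneg (u - 18 / 25)), mul_nonneg (sq_nonneg u) (sub_nonneg.2 h1)]
  nlinarith [mul_nonneg (sub_nonneg.2 h1) (sub_nonneg.2 hg)]

/-- The polynomial behind the curvature bound. -/
theorem kappa_poly {M u c : ℝ} (hM : 4 ≤ M) (h0 : 0 ≤ u) (h1 : u ≤ 1) (hc0 : 0 ≤ c)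
    (hc : c ≤ (2 * M + 3) / (2 * M + 4)) :
    0 ≤ c * ((1 - 2 * u ^ 2) - 43 / 50 / (M + 1) * ((M + 1) - M * u ^ 2))
      + u ^ 3 + (1 - c) * (2 * u ^ 3 - u ^ 5 + (M + 2) * (1 - u ^ 2) * u ^ 3) := by
  have hu2 : u ^ 2 ≤ 1 := pow_le_one₀ h0 h1
  have hzero : 0 ≤ u ^ 3 + (2 * u ^ 3 - u ^ 5 + (M + 2) * (1 - u ^ 2) * u ^ 3) := by
    have : 0 ≤ (M + 2) * (1 - u ^ 2) * u ^ 3 := by
      have := sub_nonneg.2 hu2
      positivity
    nlinarith [pow_nonneg h0 3, mul_nonneg (pow_nonneg h0 3) (sub_nonneg.2 hu2)]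
  set s := (2 * M + 3) / (2 * M + 4) with hs
  have hs0 : 0 < s := by positivity
  have hend : 0 ≤ s * ((1 - 2 * u ^ 2) - 43 / 50 / (M + 1) * ((M + 1) - M * u ^ 2))
      + u ^ 3 + (1 - s) * (2 * u ^ 3 - u ^ 5 + (M + 2) * (1 - u ^ 2) * u ^ 3) := by
    have key : 0 ≤ (2 * M + 3) * ((M + 1) * (1 - 2 * u ^ 2) - 43 / 50 * ((M + 1) - M * u ^ 2))
        + 2 * (M + 2) * (M + 1) * u ^ 3
        + (M + 1) * (2 * u ^ 3 - u ^ 5 + (M + 2) * (1 - u ^ 2) * u ^ 3) := by
      have hk := kappa_limit_poly h0 h1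
      obtain ⟨k, hk0, rfl⟩ : ∃ k, 0 ≤ k ∧ M = 4 + k := ⟨M - 4, by linarith, by ring⟩
      have e2 := mul_nonneg (mul_nonneg hk0 hk0) hk
      have e1 : 0 ≤ k * (147 / 50 - 1283 / 50 * u ^ 2 + 35 * u ^ 3 - 12 * u ^ 5) := by
        refine mul_nonneg hk0 ?_
        nlinarith [sq_nonneg (u - 18 / 25), mul_nonneg h0 (sub_nonneg.2 h1),
          mul_nonneg h0 (sq_nonneg (u - 18 / 25)), mul_nonneg (sq_nonneg u) (sub_nonneg.2 h1), hk]
      have e0 : 0 ≤ 77 / 10 - 1804 / 25 * u ^ 2 + 100 * u ^ 3 - 35 * u ^ 5 := by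
        nlinarith [sq_nonneg (u - 18 / 25), mul_nonneg h0 (sub_nonneg.2 h1),
          mul_nonneg h0 (sq_nonneg (u - 18 / 25)), mul_nonneg (sq_nonneg u) (sub_nonneg.2 h1), hk]
      nlinarith [e2, e1, e0]
    rw [hs]
    field_simp
    nlinarith [key]
  rcases le_or_gt ((1 - 2 * u ^ 2) - 43 / 50 / (M + 1) * ((M + 1) - M * u ^ 2)
      - (2 * u ^ 3 - u ^ 5 + (M + 2) * (1 - u ^ 2) * u ^ 3)) 0 with h | h
  · nlinarith [mul_nonneg (sub_nonneg.2 hc) (neg_nonneg.2 h)]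
  · nlinarith [mul_pos h hs0, mul_nonneg hc0 h.le]

/-- `(psi' + quad) √(1-t²)³ ≥ kappaLow m`, for `t ≥ 0`. -/
theorem kappaLow_le_aux (hm : 4 ≤ m) {t : ℝ} (h0 : 0 ≤ t) (h1 : t < 1) :
    kappaLow m ≤ √(1 - t ^ 2) - cst m + (m + 2) * t * psi m t * √(1 - t ^ 2)
      + quad m * √(1 - t ^ 2) ^ 3 := by
  set c := cst m with hc
  set κ := kappaLow m with hκ
  have hκe : κ = 43 / 50 * c / (m + 1) := rfl
  have hM : (4 : ℝ) ≤ m := by exact_mod_cast hm
  have hpoly : ∀ u : ℝ, 0 ≤ u → u ≤ 1 →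
      0 ≤ c * ((1 - 2 * u ^ 2) - 43 / 50 / ((m : ℝ) + 1) * (((m : ℝ) + 1) - m * u ^ 2))
        + u ^ 3 + (1 - c) * (2 * u ^ 3 - u ^ 5 + ((m : ℝ) + 2) * (1 - u ^ 2) * u ^ 3) :=
    fun u hu0 hu1 => kappa_poly hM hu0 hu1 (cst_pos m).le (cst_le_lin m)
  rcases h0.eq_or_lt with rfl | ht0
  · have h := hpoly 1 zero_le_one le_rfl
    simp only [ne_eq, OfNat.ofNat_ne_zero, not_false_eq_true, zero_pow, sub_zero, sqrt_one, one_pow,
      mul_zero, add_zero, mul_one, sub_self, quad, psi_zero] at h ⊢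
    rw [hκe]
    have : 43 / 50 * c / ((m : ℝ) + 1) = 43 / 50 / ((m : ℝ) + 1) * c := by ring
    linarith
  obtain ⟨l, rfl⟩ : ∃ l, m = l + 1 := ⟨m - 1, by omega⟩
  set F : ℝ → ℝ := fun x => ((κ + c) * √(1 - x ^ 2) ^ (l + 2) - √(1 - x ^ 2) ^ (l + 3)
      - quad (l + 1) * √(1 - x ^ 2) ^ (l + 5)) with hF
  set E : ℝ → ℝ := fun x => tailI (l + 1) (arcsin x) - F x / (((l : ℝ) + 3) * x) with hE
  have hcont : ContinuousOn E (Icc t 1) := by
    refine ContinuousOn.sub (by fun_prop) (ContinuousOn.div (by fun_prop) (by fun_prop) ?_)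
    intro x hx
    have : 0 < x := ht0.trans_le hx.1
    positivity
  have hder : ∀ x ∈ Ioo t 1, ∃ d, HasDerivAt E d x ∧ d ≤ 0 := by
    intro x hx
    have hx0 : 0 < x := ht0.trans hx.1
    have hxi : x ∈ Ioo (-1 : ℝ) 1 := ⟨by linarith, hx.2⟩
    have hpos : (0 : ℝ) < 1 - x ^ 2 := by nlinarith [hx.2]
    have hu : (0 : ℝ) < √(1 - x ^ 2) := sqrt_pos.2 hpos
    have hd1 := (hasDerivAt_tailI (l + 1) (arcsin x)).comp x (hasDerivAt_arcsin hxi.1.ne' hxi.2.ne)
    have hdF := ((((hasDerivAt_sqrt_pow hxi l).const_mul (κ + c)).sub (hasDerivAt_sqrt_pow hxi (l + 1))).sub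
      ((hasDerivAt_sqrt_pow hxi (l + 3)).const_mul (quad (l + 1))))
    have hd := hd1.sub (hdF.div ((hasDerivAt_id x).const_mul ((l : ℝ) + 3)) (by simp only [id]; positivity))
    refine ⟨_, hd, ?_⟩
    have hP := hpoly _ hu.le (sqrt_le_one.2 (by nlinarith))
    have hsq : √(1 - x ^ 2) ^ 2 = 1 - x ^ 2 := sq_sqrt hpos.le
    simp only [gI, cos_arcsin, id, quad, ← hc, Pi.sub_apply]
    push_cast at hP ⊢
    set u := √(1 - x ^ 2) with hu'
    have hx2 : x ^ 2 = 1 - u ^ 2 := by linarith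
    have e : -((c - u) * u ^ (l + 1)) * (1 / u)
        - (((κ + c) * -(((l : ℝ) + 2) * x * u ^ l) - -((((l : ℝ) + 1) + 2) * x * u ^ (l + 1))
            - (1 - c) * -((((l : ℝ) + 3) + 2) * x * u ^ (l + 3))) * (((l : ℝ) + 3) * x)
          - ((κ + c) * u ^ (l + 2) - u ^ (l + 3) - (1 - c) * u ^ (l + 5)) * (((l : ℝ) + 3) * 1))
          / (((l : ℝ) + 3) * x) ^ 2
        = - u ^ l / (((l : ℝ) + 3) * x ^ 2) * (c * ((1 - 2 * u ^ 2)
              - 43 / 50 / (((l : ℝ) + 1) + 1) * ((((l : ℝ) + 1) + 1) - ((l : ℝ) + 1) * u ^ 2))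
            + u ^ 3 + (1 - c) * (2 * u ^ 3 - u ^ 5 + (((l : ℝ) + 1) + 2) * (1 - u ^ 2) * u ^ 3)) := by
      rw [hκe]
      push_cast
      simp only [pow_succ, pow_zero, one_mul] at hx2 ⊢
      field_simp
      rw [show x ^ 2 = 1 - u ^ 2 by rw [sq, sq]; linarith]
      ring
    rw [e]
    exact mul_nonpos_of_nonpos_of_nonneg (div_nonpos_of_nonpos_of_nonneg
      (neg_nonpos.2 (by positivity)) (by positivity)) hP
  have hanti : AntitoneOn E (Icc t 1) := by
    refine antitoneOn_of_deriv_nonpos (convex_Icc _ _) hcont ?_ ?_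
    · rw [interior_Icc]
      intro x hx
      obtain ⟨d, hd, -⟩ := hder x hx
      exact hd.differentiableAt.differentiableWithinAt
    · rw [interior_Icc]
      intro x hx
      obtain ⟨d, hd, hd0⟩ := hder x hx
      rw [hd.deriv]
      exact hd0
  have hend : E 1 = 0 := by simp [hE, hF, tailI]
  have hmain := hanti ⟨le_rfl, h1.le⟩ ⟨h1.le, le_rfl⟩ h1.le
  rw [hend] at hmain
  simp only [hE, hF, sub_nonneg] at hmain
  have hpos : (0 : ℝ) < 1 - t ^ 2 := by nlinarith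
  have hu : (0 : ℝ) < √(1 - t ^ 2) := sqrt_pos.2 hpos
  have hpsi : tailI (l + 1) (arcsin t) = psi (l + 1) t * √(1 - t ^ 2) ^ (l + 3) := by
    rw [psi, psiA, cos_arcsin, div_mul_cancel₀ _ (by positivity)]
  rw [hpsi, div_le_iff₀ (by positivity)] at hmain
  push_cast
  refine le_of_mul_le_mul_left ?_ (pow_pos hu (l + 2))
  simp only [pow_succ, pow_zero, one_mul] at hmain ⊢
  nlinarith [hmain]

/-- The uniform curvature bound of `phi + quad t²/2`. -/
theorem kappaLow_div_le (hm : 4 ≤ m) {t : ℝ} (ht : t ∈ Ioo (-1 : ℝ) 1) :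
    kappaLow m / √(1 - t ^ 2) ^ 3
      ≤ ((m + 2) * t * psi m t + 1 - cst m / √(1 - t ^ 2)) / (1 - t ^ 2) + quad m := by
  have hpos : (0 : ℝ) < 1 - t ^ 2 := by nlinarith [ht.1, ht.2]
  have hu : (0 : ℝ) < √(1 - t ^ 2) := sqrt_pos.2 hpos
  have h : kappaLow m ≤ √(1 - t ^ 2) - cst m + (m + 2) * t * psi m t * √(1 - t ^ 2)
      + quad m * √(1 - t ^ 2) ^ 3 := by
    rcases le_total 0 t with h0 | h0
    · exact kappaLow_le_aux hm h0 ht.2
    · have h := kappaLow_le_aux hm (t := -t) (by linarith) (by linarith [ht.1])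
      rw [psi_neg, neg_sq] at h
      linarith
  have hsq : √(1 - t ^ 2) ^ 2 = 1 - t ^ 2 := sq_sqrt hpos.le
  rw [div_le_iff₀ (by positivity)]
  refine h.trans_eq ?_
  set u := √(1 - t ^ 2) with hu'
  rw [← hsq]
  field_simp
  ring

/-- `phi + quad t²/2` minus its closed-form part. -/
noncomputable def phiK (m : ℕ) (t : ℝ) : ℝ :=
  phi m t + quad m * t ^ 2 / 2 - kappaLow m * (1 - √(1 - t ^ 2))

/-- The derivative of `phiK`. -/
noncomputable def psiK (m : ℕ) (t : ℝ) : ℝ :=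
  psi m t + quad m * t - kappaLow m * (t / √(1 - t ^ 2))

theorem hasDerivAt_phiK {t : ℝ} (ht : t ∈ Ioo (-1 : ℝ) 1) : HasDerivAt (phiK m) (psiK m t) t := by
  have hpos : (0 : ℝ) < 1 - t ^ 2 := by nlinarith [ht.1, ht.2]
  have h := ((hasDerivAt_phi (m := m) ht).add (((hasDerivAt_pow 2 t).const_mul (quad m)).div_const 2)).sub
    ((((((hasDerivAt_pow 2 t).const_sub 1).sqrt hpos.ne')).const_sub 1).const_mul (kappaLow m))
  refine h.congr_deriv ?_
  rw [psiK]
  push_cast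
  field_simp
  try ring

theorem convexOn_phiK (hm : 4 ≤ m) : ConvexOn ℝ (Icc (-1) 1) (phiK m) := by
  have hder : ∀ t ∈ Ioo (-1 : ℝ) 1, HasDerivAt (psiK m)
      (((m + 2) * t * psi m t + 1 - cst m / √(1 - t ^ 2)) / (1 - t ^ 2) + quad m
        - kappaLow m / √(1 - t ^ 2) ^ 3) t := by
    intro t ht
    have hpos : (0 : ℝ) < 1 - t ^ 2 := by nlinarith [ht.1, ht.2]
    have hsq : √(1 - t ^ 2) ^ 2 = 1 - t ^ 2 := sq_sqrt hpos.le
    have h := ((hasDerivAt_psi (m := m) ht).add ((hasDerivAt_id t).const_mul (quad m))).sub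
      (((hasDerivAt_id t).div (((hasDerivAt_pow 2 t).const_sub 1).sqrt hpos.ne')
        (by positivity)).const_mul (kappaLow m))
    refine h.congr_deriv ?_
    simp only [id, mul_one, one_mul]
    push_cast
    set u := √(1 - t ^ 2) with hu
    have hne : u ≠ 0 := by positivity
    field_simp
    rw [show t ^ 2 = 1 - u ^ 2 by linarith]
    ring
  refine MonotoneOn.convexOn_of_deriv (convex_Icc _ _) ?_ ?_ ?_
  · exact (continuousOn_phi.add (by fun_prop)).sub (by fun_prop)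
  · rw [interior_Icc]
    exact fun t ht => (hasDerivAt_phiK ht).differentiableAt.differentiableWithinAt
  · rw [interior_Icc]
    have hmono : MonotoneOn (psiK m) (Ioo (-1) 1) := by
      refine monotoneOn_of_deriv_nonneg (convex_Ioo _ _)
        (fun x hx => (hder x hx).continuousAt.continuousWithinAt)
        (fun x hx => (hder x (interior_subset hx)).differentiableAt.differentiableWithinAt) ?_
      intro x hx
      rw [interior_Ioo] at hx
      rw [(hder x hx).deriv]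
      exact sub_nonneg.2 (kappaLow_div_le hm hx)
    intro x hx y hy hxy
    rw [(hasDerivAt_phiK hx).deriv, (hasDerivAt_phiK hy).deriv]
    exact hmono hx hy hxy

/-- The Bregman distance of `phi + quad t²/2` dominates the closed form. -/
theorem bregman_gain_ge (hm : 4 ≤ m) {t p : ℝ} (ht : t ∈ Ioo (-1 : ℝ) 1) (hp : p ∈ Icc (-1 : ℝ) 1) :
    kappaLow m * ((1 - p * t) / √(1 - t ^ 2) - √(1 - p ^ 2))
      ≤ (phi m p + quad m * p ^ 2 / 2) - (phi m t + quad m * t ^ 2 / 2)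
        - (psi m t + quad m * t) * (p - t) := by
  have hpos : (0 : ℝ) < 1 - t ^ 2 := by nlinarith [ht.1, ht.2]
  have hsq : √(1 - t ^ 2) ^ 2 = 1 - t ^ 2 := sq_sqrt hpos.le
  have key : phiK m t + psiK m t * (p - t) ≤ phiK m p := by
    have hd := hasDerivAt_phiK (m := m) ht
    have hti : t ∈ Icc (-1 : ℝ) 1 := Ioo_subset_Icc_self ht
    rcases lt_trichotomy p t with h | rfl | h
    · have := (convexOn_phiK hm).slope_le_of_hasDerivAt hp hti h hd
      rw [slope_def_field, div_le_iff₀ (sub_pos.2 h)] at this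
      nlinarith
    · simp
    · have := (convexOn_phiK hm).le_slope_of_hasDerivAt hti hp h hd
      rw [slope_def_field, le_div_iff₀ (sub_pos.2 h)] at this
      nlinarith
  have e : kappaLow m * ((1 - p * t) / √(1 - t ^ 2) - √(1 - p ^ 2))
      = kappaLow m * (1 - √(1 - p ^ 2)) - kappaLow m * (1 - √(1 - t ^ 2))
        - kappaLow m * (t / √(1 - t ^ 2)) * (p - t) := by
    set u := √(1 - t ^ 2) with hu
    have hne : u ≠ 0 := by positivity
    field_simp
    linear_combination (-(kappaLow m)) * hsq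
  rw [phiK, phiK, psiK] at key
  linarith [e]

end Vale.Agent.P237.AllN
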