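import Vale.Agent.P237.AllN.InvLink
import Vale.Agent.P237.AllN.Kappa
import Vale.Agent.P237.AllN.CalcBounds

/-!
# P237, all dimensions: elementary bounds for the exact gain

`breg + bdry + b qh ≥ kappaLow · chiGain`, where `chiGain` is the Bregman gain of `1 - √(1 - p²)`,
and `negR ≤ gamA · negE`, where `negE` is the same second-order term for a primitive twice of
`t³/√(1-t²)³`. With these the scalar inequality no longer contains the calibration.
-/

open MeasureTheory Set Real Filter Topology

namespace Vale.Agent.P237.AllN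

variable {m : ℕ} {f : ℝ → ℝ}

/-- The gain of `1 - √(1 - p²)`. -/
noncomputable def chiGain (m : ℕ) (f : ℝ → ℝ) : ℝ :=
  (∫ t in (0:ℝ)..1, wq m f t * ((1 - pProf f t * us (f t)) / f t - us (pProf f t))) +
    ∫ r in (0:ℝ)..fend f, (m:ℝ) * r ^ (m - 2) * (1 - us r)

/-- Twice a primitive of `t³ / √(1 - t²)³`. -/
noncomputable def eOne (t : ℝ) : ℝ := (t * us t + 3 * arcsin t) / 2 - 2 * t

/-- The elementary second-order term. -/
noncomputable def negE (m : ℕ) (f : ℝ → ℝ) : ℝ :=
  ∫ r in (0:ℝ)..1, ((m:ℝ) * r ^ (m - 1) * (eOne (dist01 f r) - eOne (us r)) -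
    (m:ℝ) * r ^ (m - 2) * (1 - r) ^ 2 * (dist01 f r - us r))

theorem hasDerivAt_eOne {t : ℝ} (ht : t ∈ Ioo (0:ℝ) 1) :
    HasDerivAt eOne (us t + 1 / us t - 2) t := by
  have hp : (0:ℝ) < 1 - t ^ 2 := by nlinarith [ht.1, ht.2]
  have hu : us t ≠ 0 := (sqrt_pos.2 hp).ne'
  have h := ((((hasDerivAt_id' t).mul (hasDerivAt_us ht)).add
    ((hasDerivAt_arcsin (by linarith [ht.1]) ht.2.ne).const_mul 3)).div_const 2).sub
    ((hasDerivAt_id' t).const_mul 2)
  refine h.congr_deriv ?_
  rw [show √(1 - t ^ 2) = us t from rfl]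
  field_simp
  linear_combination -us_sq (Ioo_subset_Icc_self ht)

theorem hasDerivAt_eOne' {t : ℝ} (ht : t ∈ Ioo (0:ℝ) 1) :
    HasDerivAt (fun x => us x + 1 / us x - 2) (t ^ 3 / us t ^ 3) t := by
  have hp : (0:ℝ) < 1 - t ^ 2 := by nlinarith [ht.1, ht.2]
  have hu : us t ≠ 0 := (sqrt_pos.2 hp).ne'
  have h := ((hasDerivAt_us ht).add (((hasDerivAt_us ht).inv hu).const_mul 1)).sub_const 2
  refine (h.congr_of_eventuallyEq (.of_forall fun x => by simp)).congr_deriv ?_
  field_simp
  linear_combination -t * us_sq (Ioo_subset_Icc_self ht)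

theorem continuousOn_gamI : ContinuousOn (gamI m) (Icc 0 1) := by
  have h := intervalIntegral.continuousOn_primitive_interval' (intGam (m := m))
    (left_mem_uIcc (a := (0:ℝ)) (b := 1))
  rwa [uIcc_of_le zero_le_one] at h

theorem hasDerivAt_gamI {t : ℝ} (ht : t ∈ Ioo (0:ℝ) 1) :
    HasDerivAt (gamI m) (gamR m t) t := by
  have hc : ContinuousOn (gamR m) (Ioo (0:ℝ) 1) := fun x hx =>
    (hasDerivAt_gam (m := m) ⟨by linarith [hx.1], hx.2⟩).continuousAt.continuousWithinAt
  exact intervalIntegral.integral_hasDerivAt_right ((intGam (m := m)).mono_set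
    (by rw [uIcc_of_le ht.1.le, uIcc_of_le zero_le_one]; exact Icc_subset_Icc le_rfl ht.2.le))
    (hc.stronglyMeasurableAtFilter isOpen_Ioo t ht) (hc.continuousAt (isOpen_Ioo.mem_nhds ht))

/-- `gamA eOne - gamI` is convex on `[0,1]`. -/
theorem convexOn_eOne_sub : ConvexOn ℝ (Icc (0:ℝ) 1) fun x => gamA m * eOne x - gamI m x := by
  have hd : ∀ t ∈ Ioo (0:ℝ) 1, HasDerivAt (fun x => gamA m * eOne x - gamI m x)
      (gamA m * (us t + 1 / us t - 2) - gamR m t) t := fun t ht =>
    ((hasDerivAt_eOne ht).const_mul _).sub (hasDerivAt_gamI ht)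
  refine MonotoneOn.convexOn_of_deriv (convex_Icc _ _)
    ((continuousOn_const.mul (by unfold eOne; fun_prop)).sub continuousOn_gamI) ?_ ?_
  · rw [interior_Icc]; exact fun t ht => (hd t ht).differentiableAt.differentiableWithinAt
  · rw [interior_Icc]
    have hd2 : ∀ t ∈ Ioo (0:ℝ) 1, HasDerivAt
        (fun x => gamA m * (us x + 1 / us x - 2) - gamR m x)
        (gamA m * (t ^ 3 / us t ^ 3) - (((m:ℝ) + 2) * psiR m t + t * deriv (psiR m) t)) t :=
      fun t ht => ((hasDerivAt_eOne' ht).const_mul _).sub (hasDerivAt_gam ⟨by linarith [ht.1], ht.2⟩)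
    have hmono : MonotoneOn (fun x => gamA m * (us x + 1 / us x - 2) - gamR m x) (Ioo 0 1) := by
      refine monotoneOn_of_deriv_nonneg (convex_Ioo _ _)
        (fun x hx => (hd2 x hx).continuousAt.continuousWithinAt)
        (fun x hx => (hd2 x (interior_subset hx)).differentiableAt.differentiableWithinAt) ?_
      intro x hx
      rw [interior_Ioo] at hx
      have hu : 0 < us x := sqrt_pos.2 (by nlinarith [hx.1, hx.2])
      rw [(hd2 x hx).deriv, sub_nonneg, ← mul_div_assoc, le_div_iff₀ (pow_pos hu 3)]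
      exact gam_le hx.1.le hx.2
    intro x hx y hy hxy
    rw [(hd x hx).deriv, (hd y hy).deriv]
    exact hmono hx hy hxy

/-- The Bregman term of `gamI` is at most `gamA` times that of `eOne`. -/
theorem gamI_breg_le {T r : ℝ} (hT : T ∈ Icc (0:ℝ) 1) (hr : r ∈ Ioo (0:ℝ) 1) :
    gamI m T - gamI m (us r) - gamR m (us r) * (T - us r) ≤
      gamA m * (eOne T - eOne (us r) - (r + 1 / r - 2) * (T - us r)) := by
  have hrI := Ioo_subset_Icc_self hr
  have hu : us r ∈ Ioo (0:ℝ) 1 :=
    ⟨sqrt_pos.2 (by nlinarith [hr.1, hr.2]), us_lt_one ⟨hr.1, hr.2.le⟩⟩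
  set g : ℝ → ℝ := fun x => gamA m * eOne x - gamI m x
  have hd : HasDerivAt g (gamA m * (us (us r) + 1 / us (us r) - 2) - gamR m (us r)) (us r) :=
    ((hasDerivAt_eOne hu).const_mul _).sub (hasDerivAt_gamI hu)
  rw [us_us hrI] at hd
  have hu' : us r ∈ Icc (0:ℝ) 1 := Ioo_subset_Icc_self hu
  have key : g (us r) + (gamA m * (r + 1 / r - 2) - gamR m (us r)) * (T - us r) ≤ g T := by
    rcases lt_trichotomy T (us r) with h | h | h
    · have := (convexOn_eOne_sub (m := m)).slope_le_of_hasDerivAt hT hu' h hd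
      rw [slope_def_field, div_le_iff₀ (sub_pos.2 h)] at this
      linarith
    · simp [h]
    · have := (convexOn_eOne_sub (m := m)).le_slope_of_hasDerivAt hu' hT h hd
      rw [slope_def_field, le_div_iff₀ (sub_pos.2 h)] at this
      linarith
  simp only [g] at key
  linarith

/-- **`negR ≤ gamA · negE`.** -/
theorem negR_le (P : HalfProf f) (h0 : f 0 = 1) (hm : 3 ≤ m) :
    negR m f ≤ gamA m * negE m f := by
  have hcW : Continuous fun r : ℝ => (m:ℝ) * r ^ (m - 1) := by fun_prop
  have hm' : Measurable (dist01 f) := (dist01_antitone f).measurable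
  have heC : Continuous eOne := by unfold eOne; fun_prop
  have iD : IntervalIntegrable (dist01 f) volume 0 1 :=
    (dist01_antitone f).intervalIntegrable
  have iR : IntervalIntegrable (fun r => (m:ℝ) * r ^ (m - 1) *
      (gamI m (dist01 f r) - gamI m (us r) - gamR m (us r) * (dist01 f r - us r))) volume 0 1 := by
    have i1 : IntervalIntegrable (fun r => (m:ℝ) * r ^ (m - 1) * gamI m (dist01 f r)) volume 0 1 :=
      (layer P h0 intGam hcW).1
    have i2 : IntervalIntegrable (fun r => (m:ℝ) * r ^ (m - 1) * gamI m (us r)) volume 0 1 := by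
      refine ContinuousOn.intervalIntegrable_of_Icc zero_le_one (hcW.continuousOn.mul ?_)
      exact continuousOn_gamI.comp continuous_us.continuousOn fun r hr => us_mem hr
    have i3 : IntervalIntegrable (fun r => hG m r * (dist01 f r - us r)) volume 0 1 :=
      (iD.sub (continuous_us.intervalIntegrable 0 1)).continuousOn_mul (continuous_hG hm).continuousOn
    refine ((i1.sub i2).sub i3).congr_ae ?_
    rw [EventuallyEq, ae_restrict_iff' measurableSet_uIoc]
    refine .of_forall fun r hr => ?_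
    rw [uIoc_of_le zero_le_one] at hr
    rw [hG_eq (Ioc_subset_Icc_self hr)]
    ring
  have iE : IntervalIntegrable (fun r => (m:ℝ) * r ^ (m - 1) * (eOne (dist01 f r) - eOne (us r)) -
      (m:ℝ) * r ^ (m - 2) * (1 - r) ^ 2 * (dist01 f r - us r)) volume 0 1 := by
    obtain ⟨B, hB⟩ := isCompact_Icc.exists_bound_of_continuousOn (heC.continuousOn (s := Icc 0 1))
    have i1 : IntervalIntegrable (fun r => eOne (dist01 f r)) volume 0 1 := by
      rw [intervalIntegrable_iff_integrableOn_Ioo_of_le zero_le_one]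
      exact IntegrableOn.of_bound measure_Ioo_lt_top
        (heC.measurable.comp hm').aestronglyMeasurable.restrict B
        (.of_forall fun r => hB _ (dist01_mem f r))
    exact (((i1.sub ((heC.comp continuous_us).intervalIntegrable 0 1)).continuousOn_mul
      hcW.continuousOn)).sub ((iD.sub (continuous_us.intervalIntegrable 0 1)).continuousOn_mul
        (g := fun r : ℝ => (m:ℝ) * r ^ (m - 2) * (1 - r) ^ 2) (by fun_prop))
  rw [negR, negE, ← intervalIntegral.integral_const_mul]
  refine intervalIntegral.integral_mono_on_of_le_Ioo zero_le_one iR (iE.const_mul _) fun r hr => ?_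
  refine (mul_le_mul_of_nonneg_left (gamI_breg_le (dist01_mem f r) hr)
    (mul_nonneg (Nat.cast_nonneg m) (pow_nonneg hr.1.le _))).trans_eq ?_
  have hr0 := hr.1.ne'
  rw [show m - 1 = m - 2 + 1 by omega, pow_succ]
  field_simp
  ring

/-- **`kappaLow · chiGain ≤ breg + bdry + b qh`.** -/
theorem chiGain_le (P : HalfProf f) (h0 : f 0 = 1) (hm : 4 ≤ m) :
    kappaLow m * chiGain m f ≤ breg m f + bdry m f + quad m * qhR m f := by
  have hm0 : m ≠ 0 := by omega
  have hfm : AEStronglyMeasurable f (volume.restrict (Ioo (0:ℝ) 1)) :=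
    (P.continuousOn.mono Ioo_subset_Ico_self).aestronglyMeasurable measurableSet_Ioo
  have hτm := continuous_us.comp_aestronglyMeasurable hfm
  have hbd : ∀ t ∈ Ioo (0:ℝ) 1, f t ∈ Ioc (0:ℝ) 1 ∧ us (f t) ∈ Icc (0:ℝ) 1 := fun t ht =>
    ⟨P.mem01' h0 ht, us_mem (Ioc_subset_Icc_self (P.mem01' h0 ht))⟩
  have iQ : IntervalIntegrable (fun t => wq m f t * (pProf f t - us (f t)) ^ 2) volume 0 1 :=
    P.intWgt_mul hm0 ((P.measurable_pProf.sub hτm).pow 2) (C := 4) fun s hs => by
      have h1 := (P.bounds hs).2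
      have h2 := (hbd s hs).2
      rw [abs_of_nonneg (sq_nonneg _)]
      nlinarith [h1.1, h1.2, h2.1, h2.2]
  -- the chi integrand
  have iC : IntervalIntegrable
      (fun t => wq m f t * ((1 - pProf f t * us (f t)) / f t - us (pProf f t))) volume 0 1 := by
    have i1 := P.intWgt_mul (show m - 1 ≠ 0 by omega)
      (F := fun t => (m:ℝ) / ((m - 1 : ℕ):ℝ) * (1 - pProf f t * us (f t)))
      ((aestronglyMeasurable_const.sub (P.measurable_pProf.mul hτm)).const_mul _)
      (C := (m:ℝ) / ((m - 1 : ℕ):ℝ) * 2) fun s hs => by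
        have h1 := (P.bounds hs).2
        have h2 := (hbd s hs).2
        have h3 : |1 - pProf f s * us (f s)| ≤ 2 := by
          rw [abs_le]; constructor <;> nlinarith [h1.1, h1.2, h2.1, h2.2]
        rw [abs_mul, abs_of_nonneg (div_nonneg (Nat.cast_nonneg m) (Nat.cast_nonneg _))]
        exact mul_le_mul_of_nonneg_left h3 (div_nonneg (Nat.cast_nonneg m) (Nat.cast_nonneg _))
    have i2 := P.intWgt_mul hm0 (F := fun t => us (pProf f t))
      (continuous_us.comp_aestronglyMeasurable P.measurable_pProf) (C := 1) fun s _ => by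
        rw [us, abs_of_nonneg (sqrt_nonneg _)]
        exact sqrt_le_one.2 (by nlinarith [sq_nonneg (pProf f s)])
    refine (i1.sub i2).congr_ae ?_
    rw [EventuallyEq, ae_restrict_iff' measurableSet_uIoc]
    filter_upwards [Measure.ae_ne volume (1:ℝ)] with t hne hmem
    rw [uIoc_of_le zero_le_one] at hmem
    have hf := (hbd t ⟨hmem.1, lt_of_le_of_ne hmem.2 hne⟩).1.1.ne'
    have hk : (((m - 1 : ℕ):ℝ)) ≠ 0 := Nat.cast_ne_zero.2 (by omega)
    simp only [wq]
    rw [show m - 1 - 1 = m - 2 by omega, show f t ^ (m - 1) = f t ^ (m - 2) * f t by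
      rw [← pow_succ, show m - 2 + 1 = m - 1 by omega]]
    field_simp
  -- the Bregman integrand
  have iB : IntervalIntegrable (fun t => wq m f t *
      (phiR m (pProf f t) - phiR m (us (f t)) - psiR m (us (f t)) * (pProf f t - us (f t))))
      volume 0 1 := by
    have i1 := (intWq_comp P hm0 (continuousOn_phiR (m := m))).1
    have i2 := (ibp_comp P (a := fun t => t) (a' := fun _ => 1) continuousOn_id
      (fun t _ => hasDerivAt_id' t) continuousOn_const intervalIntegrable_const
      (continuous_hH (m := m) (by omega))).1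
    have i3 := (ibp_comp P (a := fun _ => 1) (a' := fun _ => 0) continuousOn_const
      (fun t _ => hasDerivAt_const t 1) continuousOn_const intervalIntegrable_const
      (continuous_hM (m := m) (by omega))).1
    have i4 := bounded_comp P h0 (h := fun s => s * hH m s)
      (continuous_id.mul (continuous_hH (m := m) (by omega)))
    refine (i1.sub ((i4.sub i2).sub i3)).congr_ae ?_
    rw [EventuallyEq, ae_restrict_iff' measurableSet_uIoc]
    filter_upwards [Measure.ae_ne volume (1:ℝ)] with t hne hmem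
    rw [uIoc_of_le zero_le_one] at hmem
    have ht : t ∈ Ioo (0:ℝ) 1 := ⟨hmem.1, lt_of_le_of_ne hmem.2 hne⟩
    have hfI := Ioc_subset_Icc_self (hbd t ht).1
    have hp := wq_mul_pProf (m := m) P ht
    simp only [wq, hH_eq hfI, hM_eq hfI] at hp ⊢
    linear_combination psiR m (us (f t)) * hp
  rw [chiGain, breg, bdry, qhR, mul_add]
  have h1 : kappaLow m * (∫ t in (0:ℝ)..1, wq m f t *
      ((1 - pProf f t * us (f t)) / f t - us (pProf f t))) ≤
      (∫ t in (0:ℝ)..1, wq m f t *
        (phiR m (pProf f t) - phiR m (us (f t)) - psiR m (us (f t)) * (pProf f t - us (f t)))) +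
      quad m * ∫ t in (0:ℝ)..1, wq m f t * (pProf f t - us (f t)) ^ 2 := by
    rw [← intervalIntegral.integral_const_mul, ← intervalIntegral.integral_const_mul,
      ← intervalIntegral.integral_add iB (iQ.const_mul _)]
    refine intervalIntegral.integral_mono_on_of_le_Ioo zero_le_one (iC.const_mul _)
      (iB.add (iQ.const_mul _)) fun t ht => ?_
    obtain ⟨hf, hτ⟩ := hbd t ht
    have hk := bregman_gain_ge (m := m) hm (t := us (f t)) (p := pProf f t)
      ⟨by linarith [hτ.1], us_lt_one hf⟩ (P.bounds ht).2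
    rw [show √(1 - us (f t) ^ 2) = f t from us_us (Ioc_subset_Icc_self hf)] at hk
    have hw : 0 ≤ wq m f t := mul_nonneg (mul_nonneg (Nat.cast_nonneg m) (pow_nonneg hf.1.le _))
      (P.bounds ht).1.le
    have := mul_le_mul_of_nonneg_left hk hw
    refine le_trans (le_of_eq ?_) (this.trans_eq ?_)
    · simp only [us]; ring
    · simp only [phiR, psiR]; ring
  have he := fend_mem P h0
  have hcW : Continuous fun r : ℝ => (m:ℝ) * r ^ (m - 1) := by fun_prop
  have jB : IntervalIntegrable (fun r => (m:ℝ) * r ^ (m - 1) * phiR m 1 - hH m r - hM m r)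
      volume 0 (fend f) :=
    (((hcW.mul continuous_const).sub (continuous_hH (by omega))).sub
      (continuous_hM (by omega))).intervalIntegrable _ _
  have jQ : IntervalIntegrable (fun r => (m:ℝ) * r ^ (m - 1) * (1 - us r) ^ 2) volume 0 (fend f) :=
    Continuous.intervalIntegrable (by fun_prop) _ _
  have jC : IntervalIntegrable (fun r => (m:ℝ) * r ^ (m - 2) * (1 - us r)) volume 0 (fend f) :=
    Continuous.intervalIntegrable (by fun_prop) _ _
  have h2 : kappaLow m * (∫ r in (0:ℝ)..fend f, (m:ℝ) * r ^ (m - 2) * (1 - us r)) ≤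
      (∫ r in (0:ℝ)..fend f, ((m:ℝ) * r ^ (m - 1) * phiR m 1 - hH m r - hM m r)) +
      quad m * ∫ r in (0:ℝ)..fend f, (m:ℝ) * r ^ (m - 1) * (1 - us r) ^ 2 := by
    rw [← intervalIntegral.integral_const_mul, ← intervalIntegral.integral_const_mul,
      ← intervalIntegral.integral_add jB (jQ.const_mul _)]
    refine intervalIntegral.integral_mono_on_of_le_Ioo he.1 (jC.const_mul _)
      (jB.add (jQ.const_mul _)) fun r hr => ?_
    have hr1 : r ∈ Ioc (0:ℝ) 1 := ⟨hr.1, hr.2.le.trans he.2⟩
    have hrI := Ioc_subset_Icc_self hr1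
    have hk := bregman_gain_ge (m := m) hm (t := us r) (p := 1)
      ⟨by linarith [(us_mem hrI).1], us_lt_one hr1⟩ ⟨by norm_num, le_rfl⟩
    rw [show √(1 - us r ^ 2) = r from us_us hrI, one_pow, sub_self, sqrt_zero, sub_zero,
      one_mul] at hk
    have := mul_le_mul_of_nonneg_left hk
      (show (0:ℝ) ≤ (m:ℝ) * r ^ (m - 1) from mul_nonneg (Nat.cast_nonneg m) (pow_nonneg hr.1.le _))
    rw [hH_eq hrI, hM_eq hrI]
    refine le_trans (le_of_eq ?_) (this.trans_eq ?_)
    · have := hr.1.ne'
      rw [show m - 1 = m - 2 + 1 by omega, pow_succ]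
      field_simp
    · simp only [phiR, psiR]; ring
  linarith

/-- **`LemmaMix` from an inequality free of the calibration.** -/
theorem lemmaMix_of_elementary (hm : 4 ≤ m)
    (h : ∀ f : ℝ → ℝ, HalfProf f → f 0 = 1 →
      GaugeBall.secRatio m f ^ m ≤ GaugeBall.volRatio m f ^ (m - 1) →
      GaugeBall.linGain m f +
          (kappaLow m * chiGain m f - gamA m * negE m f) / Univ.ballInt m ≤ GaugeBall.corr m f →
        GaugeBall.linGain m f = 0 ∧ qhR m f = 0) : LemmaMix m := by
  refine lemmaMix_of_scalar (by omega) fun f P h0 hN hle => h f P h0 hN (le_trans ?_ hle)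
  refine (add_le_add_iff_left _).2 (div_le_div_of_nonneg_right ?_ (Univ.OneD.ballInt_pos m).le)
  linarith [chiGain_le P h0 hm, negR_le P h0 (show 3 ≤ m by omega)]

end Vale.Agent.P237.AllN
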