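import Vale.Agent.P237.AllN.InvLink
import Vale.Agent.P237.AllN.CalcBounds

/-!
# P237, all dimensions: Cauchy–Schwarz for the linear part of the scalar inequality

With `g s = √(1-s²) (-1 + β / (s (1+s)))` the integral of `g (p - τ)` against the cone measure is
linear in the three moments: it equals `U + β (m+1) ((λ-1) X + G)/λ` up to sign conventions, so for
`β = λ / ((m+1)(λ-1))` it is `X - U + G/(λ-1)`, helper65's identity `G = k (l - S)`. Hence
`(X - U + G/k)² ≤ qh · N` with `N` an explicit norm of `g`.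
-/

open MeasureTheory Set Real Filter Topology

namespace Vale.Agent.P237.AllN

variable {m : ℕ} {f : ℝ → ℝ}

/-- The multiplier `λ = (m+1) c / m`. -/
noncomputable def lamC (m : ℕ) : ℝ := ((m:ℝ) + 1) * cst m / m

theorem one_lt_lamC (hm : m ≠ 0) : 1 < lamC m := by
  have h := le_cst m
  have hm0 : (0:ℝ) < m := by exact_mod_cast Nat.pos_of_ne_zero hm
  rw [div_le_iff₀ (by positivity)] at h
  rw [lamC, one_lt_div hm0]
  nlinarith

/-- The test function `√(1-s²) (-1 + β / (s(1+s)))`. -/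
noncomputable def csG (β s : ℝ) : ℝ := us s * (-1 + β / (s * (1 + s)))

/-- `m s^(m-1) g`, continued to the line. -/
noncomputable def csH (m : ℕ) (β s : ℝ) : ℝ :=
  (m:ℝ) * us (cl s) * cl s ^ (m - 2) * (-cl s + β / (1 + cl s))

/-- `m s^(m-1) τ g`. -/
noncomputable def csP (m : ℕ) (β s : ℝ) : ℝ :=
  (m:ℝ) * ((-(s ^ (m - 1)) + s ^ (m + 1)) + β * (s ^ (m - 2) - s ^ (m - 1)))

/-- `m s^(m-1) g²`, continued to the line. -/
noncomputable def csQ (m : ℕ) (β s : ℝ) : ℝ :=
  (m:ℝ) * us (cl s) ^ 2 * cl s ^ (m - 3) * (-cl s + β / (1 + cl s)) ^ 2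

theorem continuous_csH (β : ℝ) : Continuous (csH m β) := by
  have h : ∀ s, (1:ℝ) + cl s ≠ 0 := fun s => by linarith [(cl_mem s).1]
  unfold csH
  fun_prop (disch := exact h)

theorem continuous_csQ (β : ℝ) : Continuous (csQ m β) := by
  have h : ∀ s, (1:ℝ) + cl s ≠ 0 := fun s => by linarith [(cl_mem s).1]
  unfold csQ
  fun_prop (disch := exact h)

theorem csH_eq (hm : 2 ≤ m) (β : ℝ) {s : ℝ} (hs : s ∈ Ioc (0:ℝ) 1) :
    csH m β s = (m:ℝ) * s ^ (m - 1) * csG β s := by
  have h0 := hs.1.ne'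
  have h1 : (1:ℝ) + s ≠ 0 := by linarith [hs.1]
  rw [csH, csG, cl_eq (Ioc_subset_Icc_self hs), show m - 1 = m - 2 + 1 by omega, pow_succ]
  field_simp

theorem csP_eq (hm : 2 ≤ m) (β : ℝ) {s : ℝ} (hs : s ∈ Icc (0:ℝ) 1) :
    csP m β s = us s * csH m β s := by
  have h1 : (1:ℝ) + s ≠ 0 := by linarith [hs.1]
  obtain ⟨j, rfl⟩ : ∃ j, m = j + 2 := ⟨m - 2, by omega⟩
  rw [csP, csH, cl_eq hs]
  simp only [show j + 2 - 1 = j + 1 by omega, Nat.add_sub_cancel]
  rw [show ((j + 2 : ℕ):ℝ) * us s = us s * ((j + 2 : ℕ):ℝ) by ring]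
  simp only [← mul_assoc, show us s * us s = 1 - s ^ 2 by rw [← sq]; exact us_sq hs]
  field_simp
  ring

theorem csQ_eq (hm : 3 ≤ m) (β : ℝ) {s : ℝ} (hs : s ∈ Ioc (0:ℝ) 1) :
    csQ m β s = (m:ℝ) * s ^ (m - 1) * csG β s ^ 2 := by
  have h0 := hs.1.ne'
  have h1 : (1:ℝ) + s ≠ 0 := by linarith [hs.1]
  rw [csQ, csG, cl_eq (Ioc_subset_Icc_self hs), show m - 1 = m - 3 + 2 by omega, pow_add]
  field_simp

/-- The pairing of `p - τ` with `g`, jump included. -/
noncomputable def csInner (m : ℕ) (β : ℝ) (f : ℝ → ℝ) : ℝ :=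
  (∫ t in (0:ℝ)..1, wq m f t * ((pProf f t - us (f t)) * csG β (f t))) +
    ∫ r in (0:ℝ)..fend f, (m:ℝ) * r ^ (m - 1) * ((1 - us r) * csG β r)

/-- The norm of `g`, jump included. -/
noncomputable def csNorm (m : ℕ) (β : ℝ) (f : ℝ → ℝ) : ℝ :=
  (∫ t in (0:ℝ)..1, wq m f t * csG β (f t) ^ 2) + ∫ r in (0:ℝ)..fend f, csQ m β r

/-- The moment polynomial of `csInner`. -/
noncomputable def csL (m : ℕ) (β s : ℝ) : ℝ :=
  -(((m:ℝ) + 1) * s ^ m) + (m:ℝ) * ((m:ℝ) + 3) / ((m:ℝ) + 2) * s ^ (m + 2) +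
    β * ((m:ℝ) ^ 2 / ((m:ℝ) - 1) * s ^ (m - 1) - ((m:ℝ) + 1) * s ^ m)

theorem csL_eq (hm : 2 ≤ m) (β s : ℝ) :
    s * csP m β s + (∫ r in (0:ℝ)..s, csP m β r) = csL m β s := by
  obtain ⟨j, rfl⟩ : ∃ j, m = j + 2 := ⟨m - 2, by omega⟩
  simp only [csP, csL, show j + 2 - 1 = j + 1 by omega, Nat.add_sub_cancel]
  have i : ∀ k : ℕ, IntervalIntegrable (fun r : ℝ => r ^ k) volume 0 s := fun k =>
    (continuous_pow k).intervalIntegrable _ _
  have ineg : IntervalIntegrable (fun r : ℝ => -r ^ (j + 1)) volume 0 s := (i _).neg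
  rw [intervalIntegral.integral_const_mul,
    intervalIntegral.integral_add (ineg.add (i _)) (((i _).sub (i _)).const_mul _),
    intervalIntegral.integral_add ineg (i _), intervalIntegral.integral_neg,
    intervalIntegral.integral_const_mul, intervalIntegral.integral_sub (i _) (i _),
    integral_pow, integral_pow, integral_pow]
  have h1 : (j:ℝ) + 2 - 1 ≠ 0 := by
    have : (0:ℝ) ≤ j := Nat.cast_nonneg j
    linarith
  simp only [zero_pow (Nat.succ_ne_zero _)]
  push_cast
  field_simp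
  ring

theorem integral_csL (P : HalfProf f) (β : ℝ) :
    ∫ t in (0:ℝ)..1, csL m β (f t) =
      -(((m:ℝ) + 1) * ∫ t in (0:ℝ)..1, f t ^ m) +
        (m:ℝ) * ((m:ℝ) + 3) / ((m:ℝ) + 2) * (∫ t in (0:ℝ)..1, f t ^ (m + 2)) +
        β * ((m:ℝ) ^ 2 / ((m:ℝ) - 1) * (∫ t in (0:ℝ)..1, f t ^ (m - 1)) -
          ((m:ℝ) + 1) * ∫ t in (0:ℝ)..1, f t ^ m) := by
  simp only [csL]
  have i := P.intPow
  have ineg : IntervalIntegrable (fun t => -(((m:ℝ) + 1) * f t ^ m)) volume 0 1 :=
    ((i m).const_mul _).neg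
  rw [intervalIntegral.integral_add (ineg.add ((i _).const_mul _))
      ((((i _).const_mul _).sub ((i m).const_mul _)).const_mul _),
    intervalIntegral.integral_add ineg ((i _).const_mul _),
    intervalIntegral.integral_neg, intervalIntegral.integral_const_mul,
    intervalIntegral.integral_const_mul, intervalIntegral.integral_const_mul,
    intervalIntegral.integral_sub ((i _).const_mul _) ((i m).const_mul _),
    intervalIntegral.integral_const_mul, intervalIntegral.integral_const_mul]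

section

variable (P : HalfProf f) (h0 : f 0 = 1)
include P h0

theorem intCSParts (hm : 3 ≤ m) (β : ℝ) :
    IntervalIntegrable (fun t => wq m f t * ((pProf f t - us (f t)) * csG β (f t))) volume 0 1 ∧
      IntervalIntegrable (fun t => wq m f t * csG β (f t) ^ 2) volume 0 1 := by
  have hcP : Continuous (csP m β) := by unfold csP; fun_prop
  have i1 := (ibp_comp P (a := fun t => t) (a' := fun _ => 1) continuousOn_id
    (fun t _ => hasDerivAt_id' t) continuousOn_const intervalIntegrable_const hcP).1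
  have i2 := (ibp_comp P (a := fun _ => 1) (a' := fun _ => 0) continuousOn_const
    (fun t _ => hasDerivAt_const t 1) continuousOn_const intervalIntegrable_const
    (continuous_csH (m := m) β)).1
  have i3 := bounded_comp P h0 (h := fun s => s * csP m β s) (continuous_id.mul hcP)
  have j1 := (ibp_comp P (a := fun t => t) (a' := fun _ => 1) continuousOn_id
    (fun t _ => hasDerivAt_id' t) continuousOn_const intervalIntegrable_const
    (continuous_csQ (m := m) β)).1
  have j3 := bounded_comp P h0 (h := fun s => s * csQ m β s)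
    (continuous_id.mul (continuous_csQ β))
  constructor
  · refine (i2.neg.sub (i3.sub i1)).congr_ae ?_
    rw [EventuallyEq, ae_restrict_iff' measurableSet_uIoc]
    filter_upwards [Measure.ae_ne volume (1:ℝ)] with t hne hmem
    rw [uIoc_of_le zero_le_one] at hmem
    have ht : t ∈ Ioo (0:ℝ) 1 := ⟨hmem.1, lt_of_le_of_ne hmem.2 hne⟩
    have hf := P.mem01' h0 ht
    have hp := wq_mul_pProf (m := m) P ht
    simp only [Pi.neg_apply, wq, csP_eq (show 2 ≤ m by omega) β (Ioc_subset_Icc_self hf),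
      csH_eq (show 2 ≤ m by omega) β hf] at hp ⊢
    linear_combination -(csG β (f t)) * hp
  · refine (j3.sub j1).congr_ae ?_
    rw [EventuallyEq, ae_restrict_iff' measurableSet_uIoc]
    filter_upwards [Measure.ae_ne volume (1:ℝ)] with t hne hmem
    rw [uIoc_of_le zero_le_one] at hmem
    have ht : t ∈ Ioo (0:ℝ) 1 := ⟨hmem.1, lt_of_le_of_ne hmem.2 hne⟩
    simp only [wq, csQ_eq hm β (P.mem01' h0 ht)]
    ring

/-- `csInner` in terms of the moments, up to a constant. -/
theorem csInner_eq (hm : 3 ≤ m) (β : ℝ) :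
    csInner m β f = (∫ r in (0:ℝ)..1, csH m β r) - ∫ t in (0:ℝ)..1, csL m β (f t) := by
  have hcP : Continuous (csP m β) := by unfold csP; fun_prop
  have hcH := continuous_csH (m := m) β
  obtain ⟨i1, e1⟩ := ibp_comp P (a := fun t => t) (a' := fun _ => 1) continuousOn_id
    (fun t _ => hasDerivAt_id' t) continuousOn_const intervalIntegrable_const hcP
  obtain ⟨i2, e2⟩ := ibp_comp P (a := fun _ => 1) (a' := fun _ => 0) continuousOn_const
    (fun t _ => hasDerivAt_const t 1) continuousOn_const intervalIntegrable_const hcH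
  simp only [h0, one_mul, zero_mul, sub_zero, intervalIntegral.integral_zero, zero_add]
    at e1 e2 i2
  have i3 := bounded_comp P h0 (h := fun s => s * csP m β s) (continuous_id.mul hcP)
  have i4 := bounded_comp P h0 (h := fun s => ∫ r in (0:ℝ)..s, csP m β r)
    (intervalIntegral.continuous_primitive (fun a b => hcP.intervalIntegrable a b) 0)
  have eL : (∫ t in (0:ℝ)..1, csL m β (f t)) = (∫ t in (0:ℝ)..1, f t * csP m β (f t)) +
      ∫ t in (0:ℝ)..1, ∫ r in (0:ℝ)..f t, csP m β r := by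
    rw [← intervalIntegral.integral_add i3 i4]
    exact intervalIntegral.integral_congr fun t _ => (csL_eq (by omega) β (f t)).symm
  have i2' : IntervalIntegrable (fun t => -(csH m β (f t) * deriv f t)) volume 0 1 := i2.neg
  have eM : (∫ t in (0:ℝ)..1, wq m f t * ((pProf f t - us (f t)) * csG β (f t))) =
      -(∫ t in (0:ℝ)..1, csH m β (f t) * deriv f t) -
        ((∫ t in (0:ℝ)..1, f t * csP m β (f t)) -
          ∫ t in (0:ℝ)..1, t * (csP m β (f t) * deriv f t)) := by
    rw [← intervalIntegral.integral_neg, ← intervalIntegral.integral_sub i3 i1,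
      ← intervalIntegral.integral_sub i2' (i3.sub i1)]
    refine integral_congr_Ioo fun t ht => ?_
    have hf := P.mem01' h0 ht
    have hp := wq_mul_pProf (m := m) P ht
    simp only [wq, csP_eq (show 2 ≤ m by omega) β (Ioc_subset_Icc_self hf),
      csH_eq (show 2 ≤ m by omega) β hf] at hp ⊢
    linear_combination (csG β (f t)) * hp
  have he := fend_mem P h0
  have eB : (∫ r in (0:ℝ)..fend f, (m:ℝ) * r ^ (m - 1) * ((1 - us r) * csG β r)) =
      (∫ r in (0:ℝ)..fend f, csH m β r) - ∫ r in (0:ℝ)..fend f, csP m β r := by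
    rw [← intervalIntegral.integral_sub (hcH.intervalIntegrable _ _) (hcP.intervalIntegrable _ _)]
    refine intervalIntegral.integral_congr_ae (.of_forall fun r hr => ?_)
    rw [uIoc_of_le he.1] at hr
    have hr1 : r ∈ Ioc (0:ℝ) 1 := ⟨hr.1, hr.2.trans he.2⟩
    rw [csP_eq (show 2 ≤ m by omega) β (Ioc_subset_Icc_self hr1), csH_eq (show 2 ≤ m by omega) β hr1]
    ring
  rw [csInner, eM, eB, eL]
  linarith

/-- `(∫ (p-τ) g)² ≤ qh · ‖g‖²`. -/
theorem csInner_sq_le (hm : 3 ≤ m) (β : ℝ) :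
    csInner m β f ^ 2 ≤ qhR m f * csNorm m β f := by
  obtain ⟨iI, iN⟩ := intCSParts P h0 hm β
  have he := fend_mem P h0
  have iQ : IntervalIntegrable (fun t => wq m f t * (pProf f t - us (f t)) ^ 2) volume 0 1 :=
    P.intWgt_mul (by omega) ((P.measurable_pProf.sub (continuous_us.comp_aestronglyMeasurable
      ((P.continuousOn.mono Ioo_subset_Ico_self).aestronglyMeasurable measurableSet_Ioo))).pow 2)
      (C := 4) fun s hs => by
        have h1 := (P.bounds hs).2
        have h2 := us_mem (Ioc_subset_Icc_self (P.mem01' h0 hs))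
        rw [abs_of_nonneg (sq_nonneg _)]
        nlinarith [h1.1, h1.2, h2.1, h2.2]
  have jQ : IntervalIntegrable (fun r => (m:ℝ) * r ^ (m - 1) * (1 - us r) ^ 2) volume 0 (fend f) :=
    Continuous.intervalIntegrable (by fun_prop) _ _
  have jN := (continuous_csQ (m := m) β).intervalIntegrable (μ := volume) 0 (fend f)
  have jI : IntervalIntegrable (fun r => (m:ℝ) * r ^ (m - 1) * ((1 - us r) * csG β r))
      volume 0 (fend f) := by
    refine ((by fun_prop : Continuous fun r => (1 - us (cl r))).mul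
      (continuous_csH (m := m) β)).intervalIntegrable (μ := volume) 0 (fend f) |>.congr_ae ?_
    rw [EventuallyEq, ae_restrict_iff' measurableSet_uIoc]
    refine .of_forall fun r hr => ?_
    rw [uIoc_of_le he.1] at hr
    have hr1 : r ∈ Ioc (0:ℝ) 1 := ⟨hr.1, hr.2.trans he.2⟩
    simp only [Pi.mul_apply, cl_eq (Ioc_subset_Icc_self hr1), csH_eq (show 2 ≤ m by omega) β hr1]
    ring
  have key : ∀ x : ℝ,
      0 ≤ csNorm m β f * (x * x) + 2 * csInner m β f * x + qhR m f := by
    intro x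
    have e1 : 0 ≤ ∫ t in (0:ℝ)..1, (wq m f t * csG β (f t) ^ 2 * (x * x) +
        wq m f t * ((pProf f t - us (f t)) * csG β (f t)) * (2 * x) +
        wq m f t * (pProf f t - us (f t)) ^ 2) := by
      rw [intervalIntegral.integral_of_le zero_le_one, integral_Ioc_eq_integral_Ioo]
      refine setIntegral_nonneg measurableSet_Ioo fun t ht => ?_
      have hw : 0 ≤ wq m f t := mul_nonneg (mul_nonneg (Nat.cast_nonneg m)
        (pow_nonneg (P.pos t ⟨ht.1.le, ht.2⟩).le _)) (P.bounds ht).1.le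
      nlinarith [mul_nonneg hw (sq_nonneg (pProf f t - us (f t) + x * csG β (f t)))]
    have e2 : 0 ≤ ∫ r in (0:ℝ)..fend f, (csQ m β r * (x * x) +
        (m:ℝ) * r ^ (m - 1) * ((1 - us r) * csG β r) * (2 * x) +
        (m:ℝ) * r ^ (m - 1) * (1 - us r) ^ 2) := by
      rw [intervalIntegral.integral_of_le he.1]
      refine setIntegral_nonneg measurableSet_Ioc fun r hr => ?_
      have hr1 : r ∈ Ioc (0:ℝ) 1 := ⟨hr.1, hr.2.trans he.2⟩
      rw [csQ_eq hm β hr1]
      have hw : (0:ℝ) ≤ (m:ℝ) * r ^ (m - 1) :=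
        mul_nonneg (Nat.cast_nonneg m) (pow_nonneg hr.1.le _)
      nlinarith [mul_nonneg hw (sq_nonneg (1 - us r + x * csG β r))]
    rw [intervalIntegral.integral_add ((iN.mul_const _).add (iI.mul_const _)) iQ,
      intervalIntegral.integral_add (iN.mul_const _) (iI.mul_const _),
      intervalIntegral.integral_mul_const, intervalIntegral.integral_mul_const] at e1
    rw [intervalIntegral.integral_add ((jN.mul_const _).add (jI.mul_const _)) jQ,
      intervalIntegral.integral_add (jN.mul_const _) (jI.mul_const _),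
      intervalIntegral.integral_mul_const, intervalIntegral.integral_mul_const] at e2
    rw [csNorm, csInner, qhR]
    linarith
  have := discrim_le_zero key
  rw [discrim] at this
  linarith

/-- The norm of `g` is at most an absolute constant: `∫ m s^(m-1) g² + sup (m s^m g²)`. -/
theorem csNorm_le (hm : 3 ≤ m) (β : ℝ) {C : ℝ} (hC : ∀ s ∈ Icc (0:ℝ) 1, s * csQ m β s ≤ C) :
    csNorm m β f ≤ (∫ r in (0:ℝ)..1, csQ m β r) + C := by
  obtain ⟨-, iN⟩ := intCSParts P h0 hm β
  have hcQ := continuous_csQ (m := m) β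
  obtain ⟨i2, e2⟩ := ibp_comp P (a := fun _ => 1) (a' := fun _ => 0) continuousOn_const
    (fun t _ => hasDerivAt_const t 1) continuousOn_const intervalIntegrable_const hcQ
  simp only [h0, one_mul, zero_mul, intervalIntegral.integral_zero, zero_add]
    at e2 i2
  have hle : (∫ t in (0:ℝ)..1, wq m f t * csG β (f t) ^ 2) ≤
      ∫ t in (0:ℝ)..1, (C - csQ m β (f t) * deriv f t) := by
    refine intervalIntegral.integral_mono_on_of_le_Ioo zero_le_one iN
      (intervalIntegrable_const.sub i2) fun t ht => ?_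
    have hf := P.mem01' h0 ht
    have hQ := hC _ (Ioc_subset_Icc_self hf)
    have hnn : 0 ≤ csQ m β (f t) := by
      rw [csQ_eq hm β hf]
      exact mul_nonneg (mul_nonneg (Nat.cast_nonneg m) (pow_nonneg hf.1.le _)) (sq_nonneg _)
    have hd : deriv f t ≤ 0 := by
      rw [← derivWithin_of_isOpen (s := Ioo (0:ℝ) 1) isOpen_Ioo ht]
      exact (P.anti.mono Ioo_subset_Icc_self).derivWithin_nonpos
    have key : wq m f t * csG β (f t) ^ 2 =
        f t * csQ m β (f t) - t * (csQ m β (f t) * deriv f t) := by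
      rw [csQ_eq hm β hf, wq]; ring
    rw [key]
    nlinarith [mul_nonneg (sub_nonneg.2 ht.2.le) (mul_nonneg hnn (neg_nonneg.2 hd))]
  rw [intervalIntegral.integral_sub intervalIntegrable_const i2, intervalIntegral.integral_const,
    sub_zero, one_smul, e2] at hle
  rw [csNorm]
  linarith

end

/-- The value of the constant, from the ball. -/
theorem csInner_moments (P : HalfProf f) (h0 : f 0 = 1) (hm : 3 ≤ m) (β : ℝ) :
    csInner m β f = (∫ t in (0:ℝ)..1, csL m β (us t)) - ∫ t in (0:ℝ)..1, csL m β (f t) := by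
  have hu := csInner_eq halfProf_us (m := m) us_zero hm β
  have hz : csInner m β us = 0 := by
    rw [csInner, fend_us, intervalIntegral.integral_same, add_zero,
      integral_congr_Ioo (g' := fun _ => 0) fun t ht => by
        rw [pProf_us ht, us_us (Ioo_subset_Icc_self ht)]; ring, intervalIntegral.integral_zero]
  rw [csInner_eq P h0 hm β]
  linarith

/-- **`X - U + G/k = l`:** the linear part is the pairing of `p - τ` with `g`. -/
theorem csInner_scalar (P : HalfProf f) (h0 : f 0 = 1) (hm : 3 ≤ m) :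
    csInner m (lamC m / (((m:ℝ) + 1) * (lamC m - 1))) f =
      (∫ t in (0:ℝ)..1, us t ^ m) * (relX m f - relU m f + relG m f / (lamC m - 1)) := by
  have hm0 : m ≠ 0 := by omega
  have hZ0 := (Z_pos halfProf_us (m := m)).ne'
  have hP0 := Z_pos halfProf_us (m := m - 1)
  have hc := cst_eq hm0
  have hcp := cst_pos m
  have hk : lamC m - 1 ≠ 0 := by linarith [one_lt_lamC hm0]
  have hm1 : (0:ℝ) < (m:ℝ) - 1 := by
    have : (3:ℝ) ≤ m := by exact_mod_cast hm
    linarith
  have hmR : (m:ℝ) ≠ 0 := Nat.cast_ne_zero.2 hm0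
  have hne : (m:ℝ) + 2 ≠ 0 := by positivity
  have e1 : (∫ t in (0:ℝ)..1, f t ^ (m - 1)) / (∫ t in (0:ℝ)..1, us t ^ (m - 1)) - 1 =
      cst m * ((∫ t in (0:ℝ)..1, f t ^ (m - 1)) - ∫ t in (0:ℝ)..1, us t ^ (m - 1)) /
        ∫ t in (0:ℝ)..1, us t ^ m := by
    rw [← hc]
    field_simp
  have hn1 : (m:ℝ) + 1 ≠ 0 := by positivity
  rw [csInner_moments P h0 hm, integral_csL halfProf_us, integral_csL P, relG, e1, relU, relX]
  have hk' : ((m:ℝ) + 1) * cst m - m ≠ 0 := by
    intro h; apply hk; rw [lamC, div_sub_one hmR, h, zero_div]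
  rw [lamC, div_sub_one hmR]
  field_simp
  ring

/-- **The Cauchy–Schwarz bound of the linear part.** -/
theorem linear_sq_le (P : HalfProf f) (h0 : f 0 = 1) (hm : 3 ≤ m) {C : ℝ}
    (hC : ∀ s ∈ Icc (0:ℝ) 1, s * csQ m (lamC m / (((m:ℝ) + 1) * (lamC m - 1))) s ≤ C) :
    (relX m f - relU m f + relG m f / (lamC m - 1)) ^ 2 ≤
      qhR m f / (∫ t in (0:ℝ)..1, us t ^ m) *
        (((∫ r in (0:ℝ)..1, csQ m (lamC m / (((m:ℝ) + 1) * (lamC m - 1))) r) + C) /
          ∫ t in (0:ℝ)..1, us t ^ m) := by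
  have hZ0 := Z_pos halfProf_us (m := m)
  have h := (csInner_sq_le P h0 hm (lamC m / (((m:ℝ) + 1) * (lamC m - 1)))).trans
    (mul_le_mul_of_nonneg_left (csNorm_le P h0 hm _ hC) (qhR_nonneg P h0))
  rw [csInner_scalar P h0 hm, mul_pow] at h
  rw [div_mul_div_comm, le_div_iff₀ (mul_pos hZ0 hZ0)]
  linarith

end Vale.Agent.P237.AllN
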