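import Vale.Agent.P237.AllN.InvCS
import Vale.Agent.P237.AllN.CalcBounds

/-!
# P237, all dimensions: the correction term of the scalar inequality

With `S = L + b qh`, `B = b (1 + X)` and `D = -L - b (X - U)` the correction of `GaugeBall` is
`(S + D)² / (B + S + D)`. We split `D = -μ L + R` exactly, with `μ = 1 - b/(λ - 1)` and `R` the
pairing of `p - τ` against `csG`, and bound `R ≤ d B`, `R² ≤ π B b qh` by a single-crossing
moment inequality for concave profiles, which needs no bound on slopes. The scalar statement of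
`InvLink` then follows from two bounds on the second-order term alone.
-/

open MeasureTheory Set Real Filter Topology

namespace Vale.Agent.P237.AllN

variable {m : ℕ} {f : ℝ → ℝ}

/-! ### A single-crossing moment inequality -/

/-- If `g` is nonnegative on `[0, r₀]`, nonpositive on `[r₀, 1]` and has integral `≤ 0`, then its
integral against the cone measure of the levels is `≤ 0`. -/
theorem cross_le (P : HalfProf f) (h0 : f 0 = 1) {g : ℝ → ℝ} (hg : Continuous g) {r₀ : ℝ}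
    (hr : r₀ ∈ Ico (0:ℝ) 1) (hpos : ∀ r ∈ Icc 0 r₀, 0 ≤ g r) (hneg : ∀ r ∈ Icc r₀ 1, g r ≤ 0)
    (h1 : ∫ r in (0:ℝ)..1, g r ≤ 0) :
    IntervalIntegrable (fun t => g (f t) * (f t - t * deriv f t)) volume 0 1 ∧
      (∫ t in (0:ℝ)..1, g (f t) * (f t - t * deriv f t)) + ∫ r in (0:ℝ)..fend f, g r ≤ 0 := by
  obtain ⟨iA, -⟩ := ibp_comp P (a := fun t => t) (a' := fun _ => 1) continuousOn_id
    (fun t _ => hasDerivAt_id' t) continuousOn_const intervalIntegrable_const hg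
  obtain ⟨iB, eB⟩ := ibp_comp P (a := fun _ => 1) (a' := fun _ => 0) continuousOn_const
    (fun t _ => hasDerivAt_const t 1) continuousOn_const intervalIntegrable_const hg
  simp only [h0, one_mul, zero_mul, intervalIntegral.integral_zero, zero_add] at iB eB
  have iF : IntervalIntegrable (fun t => f t * g (f t)) volume 0 1 :=
    bounded_comp P h0 (h := fun s => s * g s) (continuous_id.mul hg)
  have iW : IntervalIntegrable (fun t => g (f t) * (f t - t * deriv f t)) volume 0 1 :=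
    (iF.sub iA).congr fun t _ => by ring
  refine ⟨iW, ?_⟩
  have he := fend_mem P h0
  -- it is enough to find `k` making the integrand at most `-k g(f) f'`
  suffices h : ∃ k : ℝ, 1 ≤ k ∧
      (k - 1) * (∫ r in (0:ℝ)..fend f, g r) ≥ 0 ∧
      ∀ᵐ t : ℝ, t ∈ Ioo (0:ℝ) 1 →
        g (f t) * (f t - t * deriv f t) ≤ -k * (g (f t) * deriv f t) by
    obtain ⟨k, hk, hG, hae⟩ := h
    have hle : (∫ t in (0:ℝ)..1, g (f t) * (f t - t * deriv f t)) ≤
        ∫ t in (0:ℝ)..1, -k * (g (f t) * deriv f t) := by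
      refine intervalIntegral.integral_mono_ae_restrict zero_le_one iW (iB.const_mul _) ?_
      rw [EventuallyLE, ae_restrict_iff' measurableSet_Icc]
      filter_upwards [hae, Measure.ae_ne volume (0:ℝ), Measure.ae_ne volume (1:ℝ)] with t ht n0 n1 hm
      exact ht ⟨lt_of_le_of_ne hm.1 (Ne.symm n0), lt_of_le_of_ne hm.2 n1⟩
    rw [intervalIntegral.integral_const_mul, eB] at hle
    nlinarith [mul_nonneg (sub_nonneg.2 hk) (neg_nonneg.2 h1)]
  have hslope : ∀ t ∈ Ioo (0:ℝ) 1, DifferentiableAt ℝ f t → ∀ s ∈ Icc (0:ℝ) 1,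
      f s ≤ f t + deriv f t * (s - t) := by
    intro t ht htd s hs
    have hd : HasDerivAt (fun x => -f x) (-deriv f t) t := htd.hasDerivAt.fun_neg
    have hc : ConvexOn ℝ (Icc (0:ℝ) 1) fun x => -f x := P.conc.neg
    have htI := Ioo_subset_Icc_self ht
    rcases lt_trichotomy s t with h | h | h
    · have := hc.slope_le_of_hasDerivAt hs htI h hd
      rw [slope_def_field, div_le_iff₀ (sub_pos.2 h)] at this
      linarith
    · simp [h]
    · have := hc.le_slope_of_hasDerivAt htI hs h hd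
      rw [slope_def_field, le_div_iff₀ (sub_pos.2 h)] at this
      linarith
  by_cases hcase : r₀ ≤ fend f
  · refine ⟨1, le_rfl, by simp, ?_⟩
    filter_upwards [P.ae_diff] with t htd ht
    have hft : fend f ≤ f t := csInf_le
      ⟨0, fun _ ⟨x, hx, e⟩ => e ▸ P.nonneg x (Ioo_subset_Icc_self hx)⟩ (mem_image_of_mem f ht)
    have hg0 := hneg _ ⟨hcase.trans hft, (P.mem01' h0 ht).2⟩
    have h1' := hslope t ht (htd ht) 1 (right_mem_Icc.2 zero_le_one)
    have := P.nonneg 1 (right_mem_Icc.2 zero_le_one)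
    nlinarith [mul_nonneg (neg_nonneg.2 hg0)
      (show 0 ≤ f t + (1 - t) * deriv f t by nlinarith)]
  -- a point at level `r₀`
  rw [not_le] at hcase
  obtain ⟨t1, ht1, hft1⟩ : ∃ t1 ∈ Ioo (0:ℝ) 1, f t1 < r₀ := by
    obtain ⟨_, ⟨x, hx, rfl⟩, hlt⟩ := exists_lt_of_csInf_lt ((nonempty_Ioo.2 zero_lt_one).image f) hcase
    exact ⟨x, hx, hlt⟩
  obtain ⟨t0, ht0, hft0⟩ : ∃ t0 ∈ Icc (0:ℝ) t1, f t0 = r₀ :=
    intermediate_value_Icc' ht1.1.le
      (P.continuousOn.mono fun x hx => ⟨hx.1, hx.2.trans_lt ht1.2⟩) ⟨hft1.le, by rw [h0]; exact hr.2.le⟩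
  have ht00 : 0 < t0 := by
    refine lt_of_le_of_ne ht0.1 fun h => ?_
    rw [← h, h0] at hft0
    exact hr.2.ne hft0.symm
  have ht01 : t0 < 1 := ht0.2.trans_lt ht1.2
  have ht0I : t0 ∈ Icc (0:ℝ) 1 := ⟨ht00.le, ht01.le⟩
  -- the supporting slope
  set V : Set ℝ := (fun s => (f s - r₀) / (t0 - s)) '' Ico 0 t0 with hV
  have hthree : ∀ s ∈ Ico 0 t0, ∀ t ∈ Ioc t0 1,
      (f s - r₀) / (t0 - s) ≤ (r₀ - f t) / (t - t0) := by
    intro s hs t ht
    have hc : ConvexOn ℝ (Icc (0:ℝ) 1) fun x => -f x := P.conc.neg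
    have h : (-f t0 - -f s) / (t0 - s) ≤ (-f t - -f t0) / (t - t0) :=
      hc.slope_mono_adjacent ⟨hs.1, hs.2.le.trans ht01.le⟩ ⟨ht00.le.trans ht.1.le, ht.2⟩ hs.2 ht.1
    rw [hft0] at h
    convert h using 2 <;> ring
  have hVne : V.Nonempty := (nonempty_Ico.2 ht00).image _
  have hVb : ∀ t ∈ Ioc t0 1, sSup V ≤ (r₀ - f t) / (t - t0) := fun t ht =>
    csSup_le hVne fun _ ⟨s, hs, e⟩ => e ▸ hthree s hs t ht
  have hVbd : BddAbove V :=
    ⟨(r₀ - f 1) / (1 - t0), fun _ ⟨s, hs, e⟩ => e ▸ hthree s hs 1 ⟨ht01, le_rfl⟩⟩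
  have hVl : ∀ s ∈ Ico 0 t0, (f s - r₀) / (t0 - s) ≤ sSup V := fun s hs =>
    le_csSup hVbd (mem_image_of_mem _ hs)
  set d0 := sSup V
  have hd0 : 0 < d0 := by
    refine lt_of_lt_of_le ?_ (hVl 0 ⟨le_rfl, ht00⟩)
    rw [h0]
    exact div_pos (sub_pos.2 hr.2) (by linarith)
  have hk1 : 1 ≤ r₀ / d0 + t0 := by
    have h := hVb 1 ⟨ht01, le_rfl⟩
    rw [le_div_iff₀ (sub_pos.2 ht01)] at h
    have := P.nonneg 1 (right_mem_Icc.2 zero_le_one)
    rw [← sub_le_iff_le_add, le_div_iff₀ hd0]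
    linarith
  refine ⟨r₀ / d0 + t0, hk1, mul_nonneg (sub_nonneg.2 hk1)
    (intervalIntegral.integral_nonneg he.1 fun r h => hpos r ⟨h.1, h.2.trans hcase.le⟩), ?_⟩
  filter_upwards [P.ae_diff, Measure.ae_ne volume t0] with t htd hne ht
  have htI := Ioo_subset_Icc_self ht
  have hsl := hslope t ht (htd ht) t0 ht0I
  rw [hft0] at hsl
  have hd : deriv f t ≤ 0 := by
    rw [← derivWithin_of_isOpen (s := Ioo (0:ℝ) 1) isOpen_Ioo ht]
    exact (P.anti.mono Ioo_subset_Icc_self).derivWithin_nonpos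
  set δ := -deriv f t with hδ
  have hδ0 : 0 ≤ δ := by linarith
  have hk : (r₀ / d0 + t0) * d0 = r₀ + t0 * d0 := by field_simp
  rcases lt_or_gt_of_ne hne with hlt | hgt
  · have hs : (f t - r₀) / (t0 - t) ≤ d0 := hVl t ⟨ht.1.le, hlt⟩
    have hg0 := hneg (f t) ⟨hft0 ▸ P.anti htI ht0I hlt.le, (P.mem01' h0 ht).2⟩
    have hδle : δ ≤ d0 := by
      refine le_trans ?_ hs
      rw [le_div_iff₀ (sub_pos.2 hlt)]
      linarith
    have key : 0 ≤ f t - (r₀ / d0 + t0 - t) * δ := by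
      have : δ * (r₀ / d0) ≤ r₀ := by
        rw [← mul_div_assoc, div_le_iff₀ hd0]
        nlinarith [hr.1]
      linarith
    nlinarith [mul_nonneg (neg_nonneg.2 hg0) key]
  · have hs := hVb t ⟨hgt, ht.2.le⟩
    rw [le_div_iff₀ (sub_pos.2 hgt)] at hs
    have hg0 := hpos (f t) ⟨P.nonneg t htI, hft0 ▸ P.anti ht0I htI hgt.le⟩
    have hge : d0 ≤ δ := by
      refine le_of_mul_le_mul_right ?_ (sub_pos.2 hgt)
      linarith
    have key : f t - (r₀ / d0 + t0 - t) * δ ≤ 0 := by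
      have hkt : 0 ≤ r₀ / d0 + t0 - t := by linarith [ht.2]
      nlinarith [mul_le_mul_of_nonneg_left hge hkt]
    nlinarith [mul_nonneg hg0 (neg_nonneg.2 key)]

/-- **The moment inequality:** a decreasing weight integrates against the cone measure to at most
its mean times the mass. -/
theorem moment_le (P : HalfProf f) (h0 : f 0 = 1) (hm : m ≠ 0) {h : ℝ → ℝ} (hh : Continuous h)
    {r₀ Ψ : ℝ} (hr : r₀ ∈ Ico (0:ℝ) 1)
    (hpos : ∀ r ∈ Icc 0 r₀, Ψ * ((m:ℝ) * r ^ (m - 1)) ≤ h r)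
    (hneg : ∀ r ∈ Icc r₀ 1, h r ≤ Ψ * ((m:ℝ) * r ^ (m - 1)))
    (h1 : ∫ r in (0:ℝ)..1, h r ≤ Ψ) :
    IntervalIntegrable (fun t => h (f t) * (f t - t * deriv f t)) volume 0 1 ∧
      (∫ t in (0:ℝ)..1, h (f t) * (f t - t * deriv f t)) + ∫ r in (0:ℝ)..fend f, h r ≤
        ((m:ℝ) + 1) * Ψ * ∫ t in (0:ℝ)..1, f t ^ m := by
  set w : ℝ → ℝ := fun r => (m:ℝ) * r ^ (m - 1) with hw
  have hcw : Continuous w := by fun_prop
  have hsub : ∫ r in (0:ℝ)..1, (h r - Ψ * w r) ≤ 0 := by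
    rw [intervalIntegral.integral_sub (hh.intervalIntegrable _ _)
      ((hcw.const_mul _).intervalIntegrable _ _), intervalIntegral.integral_const_mul,
      primitive_pow hm, one_pow, mul_one]
    linarith
  obtain ⟨iW, hW⟩ := cross_le P h0 (g := fun r => h r - Ψ * w r) (hh.sub (hcw.const_mul Ψ)) hr
    (fun r hr' => sub_nonneg.2 (hpos r hr')) (fun r hr' => sub_nonpos.2 (hneg r hr')) hsub
  obtain ⟨iA, eA⟩ := ibp_comp P (a := fun t => t) (a' := fun _ => 1) continuousOn_id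
    (fun t _ => hasDerivAt_id' t) continuousOn_const intervalIntegrable_const hcw
  simp only [hw, h0, one_mul, zero_mul, sub_zero, primitive_pow hm] at eA
  have iZ : IntervalIntegrable (fun t => w (f t) * (f t - t * deriv f t)) volume 0 1 :=
    (((P.intPow m).const_mul (m:ℝ)).sub iA).congr fun t _ => by
      simp only [hw]
      rw [← pow_sub_one_mul hm (f t)]
      ring
  have eZ : (∫ t in (0:ℝ)..1, w (f t) * (f t - t * deriv f t)) + fend f ^ m =
      ((m:ℝ) + 1) * ∫ t in (0:ℝ)..1, f t ^ m := by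
    have : (∫ t in (0:ℝ)..1, w (f t) * (f t - t * deriv f t)) =
        (∫ t in (0:ℝ)..1, (m:ℝ) * f t ^ m) - ∫ t in (0:ℝ)..1, t * (w (f t) * deriv f t) := by
      rw [← intervalIntegral.integral_sub ((P.intPow m).const_mul _) iA]
      refine intervalIntegral.integral_congr fun t _ => ?_
      simp only [hw]
      rw [← pow_sub_one_mul hm (f t)]
      ring
    rw [this, intervalIntegral.integral_const_mul]
    simp only [hw]
    linarith
  have iH : IntervalIntegrable (fun t => h (f t) * (f t - t * deriv f t)) volume 0 1 :=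
    (iW.add (iZ.const_mul Ψ)).congr fun t _ => by ring
  refine ⟨iH, ?_⟩
  have e1 : (∫ t in (0:ℝ)..1, (h (f t) - Ψ * w (f t)) * (f t - t * deriv f t)) =
      (∫ t in (0:ℝ)..1, h (f t) * (f t - t * deriv f t)) -
        Ψ * ∫ t in (0:ℝ)..1, w (f t) * (f t - t * deriv f t) := by
    rw [← intervalIntegral.integral_const_mul, ← intervalIntegral.integral_sub iH (iZ.const_mul _)]
    exact intervalIntegral.integral_congr fun t _ => by ring
  rw [e1, intervalIntegral.integral_sub (hh.intervalIntegrable _ _)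
    ((hcw.const_mul _).intervalIntegrable _ _), intervalIntegral.integral_const_mul,
    primitive_pow hm] at hW
  linear_combination hW + Ψ * eZ

/-! ### The split of `D` -/

/-- `μ = 1 - b/(λ - 1)`. -/
noncomputable def muD (m : ℕ) : ℝ := 1 - quad m / (lamC m - 1)

/-- The parameter of `csG` in the split. -/
noncomputable def betaD (m : ℕ) : ℝ := lamC m / (((m:ℝ) + 1) * (lamC m - 1))

theorem lamC_sub_one (hm : m ≠ 0) :
    lamC m - 1 = (1 - ((m:ℝ) + 1) * quad m) / m ∧ 0 < 1 - ((m:ℝ) + 1) * quad m := by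
  have hm0 : (m:ℝ) ≠ 0 := Nat.cast_ne_zero.2 hm
  refine ⟨?_, ?_⟩
  · rw [lamC, quad]; field_simp; ring
  · have h := quad_le m
    rw [le_div_iff₀ (by positivity)] at h
    nlinarith

theorem muD_eq (hm : m ≠ 0) :
    muD m = (1 - (2 * (m:ℝ) + 1) * quad m) / (1 - ((m:ℝ) + 1) * quad m) := by
  obtain ⟨e, hp⟩ := lamC_sub_one hm
  rw [muD, e, eq_div_iff hp.ne', sub_mul, one_mul, div_div_eq_mul_div, div_mul_cancel₀ _ hp.ne']
  ring

theorem betaD_eq (hm : m ≠ 0) : betaD m = 2 - muD m := by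
  obtain ⟨e, hp⟩ := lamC_sub_one hm
  have hm0 : (m:ℝ) ≠ 0 := Nat.cast_ne_zero.2 hm
  rw [muD_eq hm, betaD, e, lamC, quad]
  rw [quad] at hp
  have hd := hp.ne'
  field_simp
  ring

theorem muD_bounds (hm : m ≠ 0) :
    3 * (2 * (m:ℝ) + 3) / ((4 * m + 5) * (m + 2)) ≤ muD m ∧
      muD m ≤ 2 * (4 * (m:ℝ) + 5) / (2 * m + 3) ^ 2 := by
  obtain ⟨-, hp⟩ := lamC_sub_one hm
  have h1 := quad_le m
  have h2 := le_quad m
  rw [le_div_iff₀ (by positivity)] at h1
  rw [div_le_iff₀ (by positivity)] at h2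
  rw [muD_eq hm]
  have hg : 3 / (4 * (m:ℝ) + 5) ≤ 1 - (2 * (m:ℝ) + 1) * quad m := by
    rw [div_le_iff₀ (by positivity)]; nlinarith
  have hg' : 1 - (2 * (m:ℝ) + 1) * quad m ≤ 2 / (2 * (m:ℝ) + 3) := by
    rw [le_div_iff₀ (by positivity)]; nlinarith
  have hh : 1 - ((m:ℝ) + 1) * quad m ≤ ((m:ℝ) + 2) / (2 * m + 3) := by
    rw [le_div_iff₀ (by positivity)]; nlinarith
  have hh' : (2 * (m:ℝ) + 3) / (4 * m + 5) ≤ 1 - ((m:ℝ) + 1) * quad m := by
    rw [div_le_iff₀ (by positivity)]; nlinarith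
  constructor
  · calc 3 * (2 * (m:ℝ) + 3) / ((4 * m + 5) * (m + 2))
        = 3 / (4 * (m:ℝ) + 5) / (((m:ℝ) + 2) / (2 * m + 3)) := by field_simp
      _ ≤ _ := div_le_div₀ (le_trans (by positivity) hg) hg hp hh
  · calc (1 - (2 * (m:ℝ) + 1) * quad m) / (1 - ((m:ℝ) + 1) * quad m)
        ≤ 2 / (2 * (m:ℝ) + 3) / ((2 * (m:ℝ) + 3) / (4 * m + 5)) :=
          div_le_div₀ (by positivity) hg' (by positivity) hh'
      _ = _ := by field_simp

theorem muD_mem (hm : m ≠ 0) : muD m ∈ Ioo (0:ℝ) 1 := by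
  have h := muD_bounds hm
  refine ⟨lt_of_lt_of_le (by positivity) h.1, h.2.trans_lt ?_⟩
  rw [div_lt_one (by positivity)]
  have : (1:ℝ) ≤ m := by exact_mod_cast Nat.pos_of_ne_zero hm
  nlinarith

/-- `D = -L - b (X - U)`. -/
noncomputable def dLin (m : ℕ) (f : ℝ → ℝ) : ℝ :=
  -relG m f - quad m * (relX m f - relU m f)

/-- The remainder `R` of the split. -/
noncomputable def remD (m : ℕ) (f : ℝ → ℝ) : ℝ :=
  -(quad m * csInner m (betaD m) f / ∫ t in (0:ℝ)..1, us t ^ m)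

/-- **The exact split.** -/
theorem dLin_eq (P : HalfProf f) (h0 : f 0 = 1) (hm : 3 ≤ m) :
    dLin m f = -(muD m * relG m f) + remD m f := by
  have hZ0 := (Z_pos halfProf_us (m := m)).ne'
  rw [remD, betaD, csInner_scalar P h0 hm, dLin, muD, mul_left_comm (quad m),
    mul_div_cancel_left₀ _ hZ0]
  ring

/-! ### Bounds on `R` -/

/-- The majorant of `csP`. -/
noncomputable def majP (m : ℕ) (μ r : ℝ) : ℝ :=
  (m:ℝ) * r ^ (m - 2) * ((1 - r) * (3 * (1 - r) - μ))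

/-- The majorant of `csQ`. -/
noncomputable def majQ (m : ℕ) (μ r : ℝ) : ℝ :=
  (m:ℝ) / 2 * r ^ (m - 3) * ((1 - r) * (2 - r) * (μ ^ 2 + 9 * (1 - r) ^ 2))

theorem integral_majP (hm : 3 ≤ m) (μ : ℝ) :
    ∫ r in (0:ℝ)..1, majP m μ r = (6 / ((m:ℝ) + 1) - μ) / ((m:ℝ) - 1) := by
  obtain ⟨j, rfl⟩ : ∃ j, m = j + 2 := ⟨m - 2, by omega⟩
  have e : ∀ r : ℝ, majP (j + 2) μ r = ((j:ℝ) + 2) * (3 - μ) * r ^ j -
      ((j:ℝ) + 2) * (6 - μ) * r ^ (j + 1) + ((j:ℝ) + 2) * 3 * r ^ (j + 2) := fun r => by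
    rw [majP, Nat.add_sub_cancel, pow_succ, pow_add]; push_cast; ring
  have i : ∀ (k : ℕ) (a : ℝ), IntervalIntegrable (fun r : ℝ => a * r ^ k) volume 0 1 := fun k a =>
    ((continuous_pow k).const_mul a).intervalIntegrable _ _
  rw [intervalIntegral.integral_congr fun r _ => e r,
    intervalIntegral.integral_add ((i _ _).sub (i _ _)) (i _ _),
    intervalIntegral.integral_sub (i _ _) (i _ _)]
  simp only [intervalIntegral.integral_const_mul, integral_pow, one_pow, ne_eq, Nat.succ_ne_zero,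
    not_false_eq_true, zero_pow, sub_zero]
  have : (j:ℝ) + 2 - 1 ≠ 0 := by
    have : (0:ℝ) ≤ j := Nat.cast_nonneg j
    linarith
  push_cast
  field_simp
  ring

/-- The value of `∫ majQ`. -/
noncomputable def psiTwo (m : ℕ) (μ : ℝ) : ℝ :=
  (m:ℝ) / 2 * (μ ^ 2 * (1 / (((m:ℝ) - 2) * (m - 1)) + 2 / (((m:ℝ) - 2) * (m - 1) * m)) +
    9 * (6 / (((m:ℝ) - 2) * (m - 1) * m * (m + 1)) +
      24 / (((m:ℝ) - 2) * (m - 1) * m * (m + 1) * (m + 2))))

theorem integral_majQ (hm : 3 ≤ m) (μ : ℝ) :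
    ∫ r in (0:ℝ)..1, majQ m μ r = psiTwo m μ := by
  obtain ⟨j, rfl⟩ : ∃ j, m = j + 3 := ⟨m - 3, by omega⟩
  have e : ∀ r : ℝ, majQ (j + 3) μ r = ((j:ℝ) + 3) / 2 * (2 * μ ^ 2 + 18) * r ^ j -
      ((j:ℝ) + 3) / 2 * (3 * μ ^ 2 + 63) * r ^ (j + 1) +
      ((j:ℝ) + 3) / 2 * (μ ^ 2 + 81) * r ^ (j + 2) -
      ((j:ℝ) + 3) / 2 * 45 * r ^ (j + 3) + ((j:ℝ) + 3) / 2 * 9 * r ^ (j + 4) := fun r => by
    rw [majQ, Nat.add_sub_cancel]; simp only [pow_add, pow_one]; push_cast; ring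
  have i : ∀ (k : ℕ) (a : ℝ), IntervalIntegrable (fun r : ℝ => a * r ^ k) volume 0 1 := fun k a =>
    ((continuous_pow k).const_mul a).intervalIntegrable _ _
  rw [intervalIntegral.integral_congr fun r _ => e r,
    intervalIntegral.integral_add (((((i _ _).sub (i _ _)).add (i _ _)).sub (i _ _))) (i _ _),
    intervalIntegral.integral_sub (((i _ _).sub (i _ _)).add (i _ _)) (i _ _),
    intervalIntegral.integral_add ((i _ _).sub (i _ _)) (i _ _),
    intervalIntegral.integral_sub (i _ _) (i _ _)]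
  simp only [intervalIntegral.integral_const_mul, integral_pow, one_pow, ne_eq, Nat.succ_ne_zero,
    not_false_eq_true, zero_pow, sub_zero, psiTwo]
  have h1 : (j:ℝ) + 3 - 2 ≠ 0 := by linarith [(Nat.cast_nonneg j : (0:ℝ) ≤ j)]
  have h2 : (j:ℝ) + 3 - 1 ≠ 0 := by linarith [(Nat.cast_nonneg j : (0:ℝ) ≤ j)]
  push_cast
  field_simp
  ring

theorem psiTwo_pos (hm : 3 ≤ m) (μ : ℝ) : 0 < psiTwo m μ := by
  have h : (3:ℝ) ≤ m := by exact_mod_cast hm
  have : 0 < (m:ℝ) - 2 := by linarith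
  have : 0 < (m:ℝ) - 1 := by linarith
  unfold psiTwo
  positivity

theorem csP_le_majP (hm : 3 ≤ m) {μ r : ℝ} (hr : r ∈ Icc (0:ℝ) 1) :
    csP m (2 - μ) r ≤ majP m μ r := by
  have e : csP m (2 - μ) r = (m:ℝ) * r ^ (m - 2) * ((1 - r) * ((1 - r) * (2 + r) - μ)) := by
    obtain ⟨j, rfl⟩ : ∃ j, m = j + 2 := ⟨m - 2, by omega⟩
    rw [csP]
    simp only [show j + 2 - 1 = j + 1 by omega, Nat.add_sub_cancel, pow_succ]
    push_cast
    ring
  rw [e, majP]
  refine mul_le_mul_of_nonneg_left ?_ (mul_nonneg (Nat.cast_nonneg m) (pow_nonneg hr.1 _))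
  nlinarith [hr.1, hr.2, mul_nonneg (sub_nonneg.2 hr.2) (sub_nonneg.2 hr.2)]

theorem csQ_le_majQ (hm : 3 ≤ m) {μ r : ℝ} (hμ : 0 ≤ μ) (hr : r ∈ Icc (0:ℝ) 1) :
    csQ m (2 - μ) r ≤ majQ m μ r := by
  have h1 : (0:ℝ) < 1 + r := by linarith [hr.1]
  have e : csQ m (2 - μ) r =
      (m:ℝ) * r ^ (m - 3) * ((1 - r) * ((1 - r) * (2 + r) - μ) ^ 2 / (1 + r)) := by
    rw [csQ, cl_eq hr, us_sq hr]
    field_simp
    ring
  rw [e, majQ, show (m:ℝ) / 2 * r ^ (m - 3) * ((1 - r) * (2 - r) * (μ ^ 2 + 9 * (1 - r) ^ 2)) =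
    (m:ℝ) * r ^ (m - 3) * ((1 - r) * (2 - r) / 2 * (μ ^ 2 + 9 * (1 - r) ^ 2)) by ring]
  refine mul_le_mul_of_nonneg_left ?_ (mul_nonneg (Nat.cast_nonneg m) (pow_nonneg hr.1 _))
  have ha : 0 ≤ 1 - r := sub_nonneg.2 hr.2
  have hsq : ((1 - r) * (2 + r) - μ) ^ 2 ≤ μ ^ 2 + 9 * (1 - r) ^ 2 := by
    nlinarith [mul_nonneg (mul_nonneg ha (show (0:ℝ) ≤ 2 + r by linarith [hr.1])) hμ,
      mul_nonneg (sq_nonneg (1 - r)) (show (0:ℝ) ≤ (1 - r) * (5 + r) by nlinarith [hr.1])]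
  rw [div_le_iff₀ h1]
  calc (1 - r) * ((1 - r) * (2 + r) - μ) ^ 2 ≤ (1 - r) * (μ ^ 2 + 9 * (1 - r) ^ 2) :=
        mul_le_mul_of_nonneg_left hsq ha
    _ ≤ _ := by
        have : 1 ≤ (2 - r) / 2 * (1 + r) := by nlinarith [hr.1, hr.2]
        nlinarith [mul_le_mul_of_nonneg_left this
          (mul_nonneg ha (add_nonneg (sq_nonneg μ) (mul_nonneg (by norm_num : (0:ℝ) ≤ 9) (sq_nonneg (1 - r)))))]

/-- The constant `d₁ = (6 - (m+1) μ)/(m-1)`. -/
noncomputable def dTop (m : ℕ) : ℝ := (6 - ((m:ℝ) + 1) * muD m) / ((m:ℝ) - 1)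

/-- The constant `π = (m+1) ∫ majQ`. -/
noncomputable def piD (m : ℕ) : ℝ := ((m:ℝ) + 1) * psiTwo m (muD m)

/-- The constant of the ball in the upper bound. -/
noncomputable def dBall (m : ℕ) : ℝ :=
  -1 + ((m:ℝ) ^ 2 / ((m:ℝ) - 1) - ((m:ℝ) + 1) * cst m) / (1 - ((m:ℝ) + 1) * quad m)

theorem dBall_nonneg (hm : 3 ≤ m) : 0 ≤ dBall m := by
  obtain ⟨-, hp⟩ := lamC_sub_one (show m ≠ 0 by omega)
  have h3 : (3:ℝ) ≤ m := by exact_mod_cast hm
  have hb := le_quad m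
  rw [div_le_iff₀ (by positivity)] at hb
  rw [dBall, quad] at *
  rw [le_neg_add_iff_add_le, add_zero, one_le_div hp, le_sub_iff_add_le, le_div_iff₀ (by linarith)]
  nlinarith

theorem cs_moments (hm : 3 ≤ m) :
    (∫ t in (0:ℝ)..1, csL m (betaD m) (us t)) = dBall m * ∫ t in (0:ℝ)..1, us t ^ m := by
  have hm0 : m ≠ 0 := by omega
  obtain ⟨-, hp⟩ := lamC_sub_one hm0
  have hr : ((m:ℝ) + 3) * (∫ t in (0:ℝ)..1, us t ^ (m + 2)) =
      ((m:ℝ) + 2) * ∫ t in (0:ℝ)..1, us t ^ m := Univ.OneD.ballInt_rec m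
  have hc := cst_eq hm0
  have hcp := cst_pos m
  have hmR : (m:ℝ) ≠ 0 := Nat.cast_ne_zero.2 hm0
  have h1 : (m:ℝ) - 1 ≠ 0 := by
    have : (3:ℝ) ≤ m := by exact_mod_cast hm
    linarith
  rw [integral_csL halfProf_us, dBall, betaD, lamC, quad] at *
  have hk : ((m:ℝ) + 1) * cst m - m ≠ 0 := by linarith
  have h3 : (m:ℝ) + 3 ≠ 0 := by positivity
  have e1 : (∫ t in (0:ℝ)..1, us t ^ (m + 2)) =
      ((m:ℝ) + 2) / ((m:ℝ) + 3) * ∫ t in (0:ℝ)..1, us t ^ m := by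
    field_simp; linarith
  have e2 : (∫ t in (0:ℝ)..1, us t ^ (m - 1)) = (∫ t in (0:ℝ)..1, us t ^ m) / cst m := by
    rw [eq_div_iff hcp.ne', mul_comm, hc]
  have h2 : (m:ℝ) + 2 ≠ 0 := by positivity
  have hn : (m:ℝ) + 1 ≠ 0 := by positivity
  rw [e1, e2, div_sub_one hmR, show (1:ℝ) - ((m:ℝ) + 1) * (1 - cst m) = ((m:ℝ) + 1) * cst m - m by ring]
  field_simp
  ring

section

variable (P : HalfProf f) (h0 : f 0 = 1)
include P h0

/-- `csNorm ≤ π Z`. -/
theorem csNorm_le_Z (hm : 3 ≤ m) :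
    csNorm m (betaD m) f ≤ piD m * ∫ t in (0:ℝ)..1, f t ^ m := by
  have hm0 : m ≠ 0 := by omega
  set μ := muD m
  have hμ := muD_mem hm0
  set Ψ := psiTwo m μ
  have hΨ : 0 < Ψ := psiTwo_pos hm μ
  have hh : Continuous (majQ m μ) := by unfold majQ; fun_prop
  set φ : ℝ → ℝ := fun r => (1 - r) * (2 - r) * (μ ^ 2 + 9 * (1 - r) ^ 2) - 2 * Ψ * r ^ 2 with hφ
  have eφ : ∀ r : ℝ,
      majQ m μ r - Ψ * ((m:ℝ) * r ^ (m - 1)) = (m:ℝ) / 2 * r ^ (m - 3) * φ r := fun r => by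
    rw [majQ, show m - 1 = m - 3 + 2 by omega, pow_add]; simp only [hφ]; ring
  have hanti : AntitoneOn φ (Icc (0:ℝ) 1) := fun x hx y hy hxy => by
    simp only [hφ]
    have a0 : 0 ≤ 1 - y := sub_nonneg.2 hy.2
    have b0 : 0 ≤ 2 - y := by linarith
    have c1 : (1 - y) * (2 - y) * (μ ^ 2 + 9 * (1 - y) ^ 2) ≤
        (1 - x) * (2 - x) * (μ ^ 2 + 9 * (1 - x) ^ 2) := by
      have : (1 - y) ^ 2 ≤ (1 - x) ^ 2 := pow_le_pow_left₀ a0 (by linarith) 2
      gcongr <;> first | linarith | positivity | exact mul_nonneg (by linarith [hx.2]) (by linarith [hx.2])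
    have : x ^ 2 ≤ y ^ 2 := pow_le_pow_left₀ hx.1 hxy 2
    nlinarith
  obtain ⟨r₀, hr₀, hφ0⟩ : ∃ r₀ ∈ Icc (0:ℝ) 1, φ r₀ = 0 :=
    intermediate_value_Icc' zero_le_one (by simp only [hφ]; fun_prop)
      ⟨by simp only [hφ]; linarith, by simp only [hφ]; nlinarith [sq_nonneg μ]⟩
  have hr1 : r₀ < 1 := lt_of_le_of_ne hr₀.2 fun h => by
    rw [h] at hφ0; simp only [hφ] at hφ0; linarith
  obtain ⟨iW, hW⟩ := moment_le P h0 hm0 hh (Ψ := Ψ) ⟨hr₀.1, hr1⟩
    (fun r hr => by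
      have := hanti ⟨hr.1, hr.2.trans hr₀.2⟩ hr₀ hr.2
      rw [← sub_nonneg, eφ]
      exact mul_nonneg (mul_nonneg (by positivity) (pow_nonneg hr.1 _)) (hφ0 ▸ this))
    (fun r hr => by
      have := hanti hr₀ ⟨hr₀.1.trans hr.1, hr.2⟩ hr.1
      rw [← sub_nonpos, eφ]
      exact mul_nonpos_of_nonneg_of_nonpos
        (mul_nonneg (by positivity) (pow_nonneg (hr₀.1.trans hr.1) _)) (hφ0 ▸ this))
    (integral_majQ hm μ).le
  obtain ⟨-, iN⟩ := intCSParts P h0 hm (betaD m)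
  have he := fend_mem P h0
  have l1 : (∫ t in (0:ℝ)..1, wq m f t * csG (betaD m) (f t) ^ 2) ≤
      ∫ t in (0:ℝ)..1, majQ m μ (f t) * (f t - t * deriv f t) := by
    refine intervalIntegral.integral_mono_on_of_le_Ioo zero_le_one iN iW fun t ht => ?_
    have hf := P.mem01' h0 ht
    rw [show wq m f t * csG (betaD m) (f t) ^ 2 = csQ m (betaD m) (f t) * (f t - t * deriv f t) by
      rw [csQ_eq hm _ hf, wq]; ring, betaD_eq hm0]
    exact mul_le_mul_of_nonneg_right (csQ_le_majQ hm hμ.1.le (Ioc_subset_Icc_self hf)) (P.bounds ht).1.le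
  have l2 : (∫ r in (0:ℝ)..fend f, csQ m (betaD m) r) ≤ ∫ r in (0:ℝ)..fend f, majQ m μ r := by
    refine intervalIntegral.integral_mono_on he.1 ((continuous_csQ _).intervalIntegrable _ _)
      (hh.intervalIntegrable _ _) fun r hr => ?_
    rw [betaD_eq hm0]
    exact csQ_le_majQ hm hμ.1.le ⟨hr.1, hr.2.trans he.2⟩
  rw [csNorm, piD]
  linarith

/-- `-csInner ≤ d₁ Z - d₀ Z₀`. -/
theorem csInner_ge (hm : 3 ≤ m) :
    -csInner m (betaD m) f ≤ dTop m * (∫ t in (0:ℝ)..1, f t ^ m) -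
      dBall m * ∫ t in (0:ℝ)..1, us t ^ m := by
  have hm0 : m ≠ 0 := by omega
  set μ := muD m
  have hμ := muD_mem hm0
  have h3 : (3:ℝ) ≤ m := by exact_mod_cast hm
  set Ψ := (6 / ((m:ℝ) + 1) - μ) / ((m:ℝ) - 1) with hΨd
  have hΨ : 0 < Ψ := by
    refine div_pos (sub_pos.2 ?_) (by linarith)
    refine (muD_bounds hm0).2.trans_lt ?_
    rw [div_lt_div_iff₀ (by positivity) (by positivity)]
    nlinarith
  have hh : Continuous (majP m μ) := by unfold majP; fun_prop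
  set φ : ℝ → ℝ := fun r => (1 - r) * (3 * (1 - r) - μ) - Ψ * r with hφ
  have eφ : ∀ r : ℝ,
      majP m μ r - Ψ * ((m:ℝ) * r ^ (m - 1)) = (m:ℝ) * r ^ (m - 2) * φ r := fun r => by
    rw [majP, show m - 1 = m - 2 + 1 by omega, pow_succ]; simp only [hφ]; ring
  obtain ⟨r₀, hr₀, hφ0⟩ : ∃ r₀ ∈ Icc (0:ℝ) 1, φ r₀ = 0 :=
    intermediate_value_Icc' zero_le_one (by simp only [hφ]; fun_prop)
      ⟨by simp only [hφ]; linarith, by simp only [hφ]; linarith [hμ.2]⟩
  have hr1 : r₀ < 1 := lt_of_le_of_ne hr₀.2 fun h => by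
    rw [h] at hφ0; simp only [hφ] at hφ0; linarith
  have hpos : ∀ r ∈ Icc 0 r₀, 0 ≤ φ r := by
    intro r hr
    rcases hr.2.eq_or_lt with h | h
    · rw [h, hφ0]
    by_contra hn
    rw [not_le] at hn
    have e : (1 - r) * φ r₀ = (1 - r₀) * φ r + (r₀ - r) * φ 1 - 3 * (r₀ - r) * (1 - r₀) * (1 - r) := by
      simp only [hφ]; ring
    rw [hφ0, show φ 1 = -Ψ by simp [hφ]] at e
    nlinarith [mul_pos (sub_pos.2 hr1) (neg_pos.2 hn), mul_pos (sub_pos.2 h) hΨ,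
      mul_nonneg (mul_nonneg (sub_pos.2 h).le (sub_pos.2 hr1).le) (show (0:ℝ) ≤ 1 - r by linarith)]
  have hnegφ : ∀ r ∈ Icc r₀ 1, φ r ≤ 0 := by
    intro r hr
    have e : (1 - r₀) * φ r = (1 - r) * φ r₀ + (r - r₀) * φ 1 - 3 * (r - r₀) * (1 - r) * (1 - r₀) := by
      simp only [hφ]; ring
    rw [hφ0, show φ 1 = -Ψ by simp [hφ]] at e
    by_contra hn
    rw [not_le] at hn
    nlinarith [mul_pos (sub_pos.2 hr1) hn, mul_nonneg (sub_nonneg.2 hr.1) hΨ.le,
      mul_nonneg (mul_nonneg (sub_nonneg.2 hr.1) (sub_nonneg.2 hr.2)) (sub_pos.2 hr1).le]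
  obtain ⟨iW, hW⟩ := moment_le P h0 hm0 hh (Ψ := Ψ) ⟨hr₀.1, hr1⟩
    (fun r hr => by
      rw [← sub_nonneg, eφ]
      exact mul_nonneg (mul_nonneg (Nat.cast_nonneg m) (pow_nonneg hr.1 _)) (hpos r hr))
    (fun r hr => by
      rw [← sub_nonpos, eφ]
      exact mul_nonpos_of_nonneg_of_nonpos
        (mul_nonneg (Nat.cast_nonneg m) (pow_nonneg (hr₀.1.trans hr.1) _)) (hnegφ r hr))
    (integral_majP hm μ).le
  have hcP : Continuous (csP m (betaD m)) := by unfold csP; fun_prop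
  have hcPp : Continuous fun s => ∫ r in (0:ℝ)..s, csP m (betaD m) r :=
    intervalIntegral.continuous_primitive (fun a b => hcP.intervalIntegrable a b) 0
  obtain ⟨i1, e1⟩ := ibp_comp P (a := fun t => t) (a' := fun _ => 1) continuousOn_id
    (fun t _ => hasDerivAt_id' t) continuousOn_const intervalIntegrable_const hcP
  simp only [h0, one_mul, zero_mul, sub_zero] at e1
  have i3 := bounded_comp P h0 (h := fun s => s * csP m (betaD m) s) (continuous_id.mul hcP)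
  have i4 := bounded_comp P h0 hcPp
  have eL : (∫ t in (0:ℝ)..1, csL m (betaD m) (f t)) =
      (∫ t in (0:ℝ)..1, (f t * csP m (betaD m) (f t) - t * (csP m (betaD m) (f t) * deriv f t))) +
        ∫ r in (0:ℝ)..fend f, csP m (betaD m) r := by
    rw [intervalIntegral.integral_sub i3 i1,
      intervalIntegral.integral_congr fun t _ => (csL_eq (by omega) (betaD m) (f t)).symm,
      intervalIntegral.integral_add i3 i4]
    linarith
  have he := fend_mem P h0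
  have l1 : (∫ t in (0:ℝ)..1, (f t * csP m (betaD m) (f t) - t * (csP m (betaD m) (f t) * deriv f t))) ≤
      ∫ t in (0:ℝ)..1, majP m μ (f t) * (f t - t * deriv f t) := by
    refine intervalIntegral.integral_mono_on_of_le_Ioo zero_le_one (i3.sub i1) iW fun t ht => ?_
    rw [show f t * csP m (betaD m) (f t) - t * (csP m (betaD m) (f t) * deriv f t) =
      csP m (betaD m) (f t) * (f t - t * deriv f t) by ring, betaD_eq hm0]
    exact mul_le_mul_of_nonneg_right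
      (csP_le_majP hm (Ioc_subset_Icc_self (P.mem01' h0 ht))) (P.bounds ht).1.le
  have l2 : (∫ r in (0:ℝ)..fend f, csP m (betaD m) r) ≤ ∫ r in (0:ℝ)..fend f, majP m μ r := by
    refine intervalIntegral.integral_mono_on he.1 (hcP.intervalIntegrable _ _)
      (hh.intervalIntegrable _ _) fun r hr => ?_
    rw [betaD_eq hm0]
    exact csP_le_majP hm ⟨hr.1, hr.2.trans he.2⟩
  rw [csInner_moments P h0 hm, cs_moments hm, show dTop m = ((m:ℝ) + 1) * Ψ by
    rw [dTop, hΨd]; field_simp; ring]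
  linarith

/-- **`R ≤ b (d₁ v - d₀)`, `v = 1 + X`.** -/
theorem remD_le (hm : 3 ≤ m) :
    remD m f ≤ quad m * (dTop m * (1 + relX m f) - dBall m) := by
  have hZ0 := Z_pos halfProf_us (m := m)
  rw [remD, relX, add_sub_cancel, ← neg_div, ← mul_neg, div_le_iff₀ hZ0]
  refine (mul_le_mul_of_nonneg_left (csInner_ge P h0 hm) (quad_pos m).le).trans_eq ?_
  field_simp

/-- **`R² ≤ π B (b qh)`.** -/
theorem remD_sq_le (hm : 3 ≤ m) :
    remD m f ^ 2 ≤ piD m * (quad m * (1 + relX m f)) *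
      (quad m * (qhR m f / ∫ t in (0:ℝ)..1, us t ^ m)) := by
  have hZ0 := Z_pos halfProf_us (m := m)
  have h := (csInner_sq_le P h0 hm (betaD m)).trans
    (mul_le_mul_of_nonneg_left (csNorm_le_Z P h0 hm) (qhR_nonneg P h0))
  rw [remD, neg_sq, relX, add_sub_cancel, div_pow, mul_pow, div_le_iff₀ (by positivity)]
  refine (mul_le_mul_of_nonneg_left h (sq_nonneg _)).trans_eq ?_
  field_simp

end

/-! ### The assembly -/

/-- The assembly as an inequality of real numbers. -/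
theorem scalar_core {S L Q B D R M μ θ η c d π' : ℝ} (hS : S = L + Q) (hD : D = -(μ * L) + R)
    (hL : 0 ≤ L) (hQ : 0 ≤ Q) (hB : 0 < B) (hj : 0 < B + S + D)
    (hsel : (S - M) * (B + S + D) ≤ (S + D) ^ 2) (hθ : 0 ≤ θ) (hη : 0 ≤ η) (hc : 0 ≤ c)
    (hμ : 0 ≤ μ) (hcμ : c < μ - μ ^ 2) (hd : 0 ≤ d) (hR : R ≤ d * B) (hπ : 0 ≤ π')
    (hR2 : R ^ 2 ≤ π' * B * Q) (hM1 : M ≤ θ * S) (hM2 : M ≤ η * B + c * L)
    (hcond : θ + η + (1 + θ) * d + π' * (1 + μ ^ 2 / (μ - μ ^ 2 - c)) < 1) :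
    L = 0 ∧ Q = 0 := by
  subst hS
  have hν : 0 < μ - μ ^ 2 - c := sub_pos.2 hcμ
  have hDle : D ≤ d * B := by nlinarith [mul_nonneg hμ hL]
  set T := M * (B + (L + Q) + D)
  have hT : T ≤ θ * (L + Q) * (B * (1 + d)) + η * B * (L + Q) + c * L * (L + Q) := by
    have hpos : 0 ≤ θ * (L + Q) * (B * (1 + d)) + η * B * (L + Q) + c * L * (L + Q) := by positivity
    rcases le_total M 0 with hM | hM
    · exact (mul_nonpos_of_nonpos_of_nonneg hM hj.le).trans hpos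
    · have h2 : M * (L + Q) ≤ (η * B + c * L) * (L + Q) :=
        mul_le_mul_of_nonneg_right hM2 (by positivity)
      rcases le_total (B + D) 0 with hBD | hBD
      · have : M * (B + D) ≤ 0 := mul_nonpos_of_nonneg_of_nonpos hM hBD
        nlinarith [mul_nonneg (mul_nonneg hθ (add_nonneg hL hQ)) (mul_nonneg hB.le (add_nonneg zero_le_one hd))]
      · have : M * (B + D) ≤ θ * (L + Q) * (B * (1 + d)) :=
          mul_le_mul hM1 (by linarith) hBD (by positivity)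
        nlinarith
  have hquad : (L + Q) * D + D ^ 2 + c * L * (L + Q) ≤
      d * B * (L + Q) + π' * (1 + μ ^ 2 / (μ - μ ^ 2 - c)) * B * (L + Q) := by
    have hK : 0 ≤ 1 + μ ^ 2 / (μ - μ ^ 2 - c) := by positivity
    have h1 : (L + Q) * D + D ^ 2 + c * L * (L + Q) ≤
        (L + Q) * R + R ^ 2 + (2 * μ * L * |R| - (μ - μ ^ 2 - c) * L ^ 2) := by
      have := neg_abs_le R
      subst hD
      nlinarith [mul_nonneg (mul_nonneg hν.le hL) hQ, mul_nonneg (mul_nonneg (sq_nonneg μ) hL) hQ,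
        mul_nonneg (mul_nonneg hμ hL) (show 0 ≤ |R| + R by linarith)]
    have h2 : 2 * μ * L * |R| - (μ - μ ^ 2 - c) * L ^ 2 ≤ μ ^ 2 / (μ - μ ^ 2 - c) * R ^ 2 := by
      rw [div_mul_eq_mul_div, le_div_iff₀ hν]
      nlinarith [sq_nonneg ((μ - μ ^ 2 - c) * L - μ * |R|), sq_abs R]
    have h3 : R ^ 2 ≤ π' * B * (L + Q) :=
      hR2.trans (mul_le_mul_of_nonneg_left (le_add_of_nonneg_left hL) (by positivity))
    have h4 := mul_le_mul_of_nonneg_left h3 hK
    have h5 := mul_le_mul_of_nonneg_left hR (add_nonneg hL hQ)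
    linarith
  have hfin : (L + Q) * B * (1 - (θ + η + (1 + θ) * d + π' * (1 + μ ^ 2 / (μ - μ ^ 2 - c)))) ≤ 0 := by
    linarith
  have hS0 : L + Q ≤ 0 := nonpos_of_mul_nonpos_left
    (nonpos_of_mul_nonpos_left hfin (by linarith)) hB
  exact ⟨by linarith, by linarith⟩

/-- The excess of the second-order term over the gain beyond `b qh`. -/
noncomputable def excD (m : ℕ) (f : ℝ → ℝ) : ℝ :=
  (negR m f - breg m f - bdry m f) / ∫ t in (0:ℝ)..1, us t ^ m

/-- **The scalar statement from two bounds on the second-order term.** With `S = L + b qh`,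
`B = b (1+X)`: if `exc ≤ θ S` and `exc ≤ η B + c L` on normalised profiles violating the profile
inequality, and the constants satisfy the displayed inequality, then `LemmaMix` holds. -/
theorem lemmaMix_of_excess (hm : 3 ≤ m) {θ η c d : ℝ} (hθ : 0 ≤ θ) (hη : 0 ≤ η) (hc : 0 ≤ c)
    (hcμ : c < muD m - muD m ^ 2) (hd : 0 ≤ d)
    (hdR : ∀ f : ℝ → ℝ, HalfProf f → f 0 = 1 →
      GaugeBall.secRatio m f ^ m ≤ GaugeBall.volRatio m f ^ (m - 1) →
      dTop m * (1 + relX m f) - dBall m ≤ d * (1 + relX m f))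
    (hexc : ∀ f : ℝ → ℝ, HalfProf f → f 0 = 1 →
      GaugeBall.secRatio m f ^ m ≤ GaugeBall.volRatio m f ^ (m - 1) →
      excD m f ≤ θ * (relG m f + quad m * (qhR m f / ∫ t in (0:ℝ)..1, us t ^ m)) ∧
        excD m f ≤ η * (quad m * (1 + relX m f)) + c * relG m f)
    (hcond : θ + η + (1 + θ) * d +
      piD m * (1 + muD m ^ 2 / (muD m - muD m ^ 2 - c)) < 1) : LemmaMix m := by
  refine lemmaMix_of_scalar hm fun f P h0 hN hle => ?_
  obtain ⟨ej, hj⟩ := relJ_eq P h0 hm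
  have hm0 : m ≠ 0 := by omega
  have hb := quad_pos m
  have hZ0 := Z_pos halfProf_us (m := m)
  have hv := GaugeBall.volRatio_pos P (m := m)
  have eG : GaugeBall.linGain m f = relG m f := by
    rw [GaugeBall.linGain, GaugeBall.volRatio, GaugeBall.secRatio, relG, relX, ballInt_us, ballInt_us]
  have eX : GaugeBall.volRatio m f = 1 + relX m f := by
    rw [relX, GaugeBall.volRatio, ballInt_us, add_sub_cancel]
  set qh := qhR m f / ∫ t in (0:ℝ)..1, us t ^ m with hqh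
  have hq0 : 0 ≤ qh := div_nonneg (qhR_nonneg P h0) hZ0.le
  have eI : invGain m f = quad m * qh - excD m f := by
    rw [invGain, excD, ballInt_us, hqh]; ring
  have hjsum : quad m * (1 + relX m f) + (relG m f + quad m * qh) + dLin m f =
      quad m * relJ m f := by
    rw [relJ, dLin, hqh]; ring
  have hsum : relG m f + quad m * qh + dLin m f = quad m * (relJ m f - (1 + relX m f)) := by
    linarith
  have hsel : (relG m f + quad m * qh - excD m f) *
      (quad m * (1 + relX m f) + (relG m f + quad m * qh) + dLin m f) ≤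
      (relG m f + quad m * qh + dLin m f) ^ 2 := by
    have hcorr : GaugeBall.corr m f =
        quad m * (relJ m f - (1 + relX m f)) ^ 2 / relJ m f := by
      rw [GaugeBall.corr, eX, ej]; ring
    rw [eG, eI, hcorr, le_div_iff₀ hj] at hle
    rw [hjsum, hsum]
    nlinarith [mul_le_mul_of_nonneg_left hle hb.le]
  have hB : 0 < quad m * (1 + relX m f) := mul_pos hb (eX ▸ hv)
  have hπ : 0 ≤ piD m := mul_nonneg (by positivity) (psiTwo_pos hm _).le
  have hR : remD m f ≤ d * (quad m * (1 + relX m f)) :=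
    (remD_le P h0 hm).trans ((mul_le_mul_of_nonneg_left (hdR f P h0 hN) hb.le).trans_eq (by ring))
  obtain ⟨hL, hQ⟩ := scalar_core (M := excD m f) rfl (dLin_eq P h0 hm)
    (eG ▸ GaugeBall.linGain_nonneg P (by omega) hN) (mul_nonneg hb.le hq0) hB
    (by rw [hjsum]; exact mul_pos hb hj) hsel hθ hη hc (muD_mem hm0).1.le hcμ hd hR hπ
    (remD_sq_le P h0 hm) (hexc f P h0 hN).1 (hexc f P h0 hN).2 hcond
  refine ⟨eG.trans hL, ?_⟩
  rw [hqh, mul_eq_zero, div_eq_zero_iff] at hQ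
  rcases hQ with h | h | h
  · exact absurd h hb.ne'
  · exact h
  · exact absurd h hZ0.ne'

/-- The crude choice `d = d₁`. -/
theorem dTop_bound (hm : 3 ≤ m) (v : ℝ) : dTop m * v - dBall m ≤ dTop m * v :=
  sub_le_self _ (dBall_nonneg hm)

/-! ### Rational bounds on the constants -/

/-- An upper bound for `muD`. -/
noncomputable def muHi (m : ℕ) : ℝ := 2 * (4 * (m:ℝ) + 5) / (2 * m + 3) ^ 2

/-- A lower bound for `muD`. -/
noncomputable def muLo (m : ℕ) : ℝ := 3 * (2 * (m:ℝ) + 3) / ((4 * m + 5) * (m + 2))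

theorem dTop_le (hm : 3 ≤ m) :
    dTop m ≤ (6 - ((m:ℝ) + 1) * muLo m) / ((m:ℝ) - 1) ∧ 0 < dTop m := by
  have h3 : (3:ℝ) ≤ m := by exact_mod_cast hm
  have h := muD_bounds (show m ≠ 0 by omega)
  refine ⟨div_le_div_of_nonneg_right (sub_le_sub_left
    (mul_le_mul_of_nonneg_left h.1 (by positivity)) _) (by linarith), div_pos ?_ (by linarith)⟩
  have h2 : ((m:ℝ) + 1) * (2 * (4 * (m:ℝ) + 5) / (2 * m + 3) ^ 2) < 6 := by
    rw [← mul_div_assoc, div_lt_iff₀ (by positivity)]; nlinarith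
  linarith [mul_le_mul_of_nonneg_left h.2 (show (0:ℝ) ≤ (m:ℝ) + 1 by positivity)]

theorem piD_le (hm : 3 ≤ m) : piD m ≤ ((m:ℝ) + 1) * psiTwo m (muHi m) := by
  have h3 : (3:ℝ) ≤ m := by exact_mod_cast hm
  have h := muD_bounds (show m ≠ 0 by omega)
  have hsq : muD m ^ 2 ≤ muHi m ^ 2 :=
    pow_le_pow_left₀ (muD_mem (show m ≠ 0 by omega)).1.le h.2 2
  have : 0 < (m:ℝ) - 2 := by linarith
  have : 0 < (m:ℝ) - 1 := by linarith
  unfold piD psiTwo
  gcongr

theorem muD_slack_le (hm : 3 ≤ m) :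
    muLo m * (1 - muHi m) ≤ muD m - muD m ^ 2 := by
  have hm0 : m ≠ 0 := by omega
  have h := muD_bounds hm0
  obtain ⟨h0, h1⟩ := muD_mem hm0
  rw [show muD m - muD m ^ 2 = muD m * (1 - muD m) by ring]
  rcases le_total (1 - muHi m) 0 with hs | hs
  · exact (mul_nonpos_of_nonneg_of_nonpos (by unfold muLo; positivity) hs).trans
      (mul_nonneg h0.le (by linarith))
  · exact mul_le_mul h.1 (sub_le_sub_left h.2 1) hs h0.le

end Vale.Agent.P237.AllN
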