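import Vale.Agent.P237.AllN.Mix
import Vale.Agent.P237.AllN.Transport

/-!
# P237, all dimensions: exact identities for the mixed criterion in inverse-gauge form

Let `f` be a profile with `f 0 = 1`, `τ = √(1 - f²)` and `u r = √(1 - r²)`. The penalty and `J` of
`lamMix` equal expressions linear in `∫ f^i` up to three remainders: the perspective gain
`breg + bdry ≥ 0`, the square `qhR ≥ 0`, and `negR`, a pointwise second-order term in the
distribution function of `f` against that of the ball.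
-/

open MeasureTheory Set Real Filter Topology
open Vale.Agent.P237.Univ.OneD (Lp)

namespace Vale.Agent.P237.AllN

variable {m : ℕ}

/-- `√(1 - r²)`. -/
noncomputable def us (r : ℝ) : ℝ := √(1 - r ^ 2)

/-- The projection to `[0,1]`. -/
noncomputable def cl (r : ℝ) : ℝ := max 0 (min 1 r)

theorem cl_mem (r : ℝ) : cl r ∈ Icc (0:ℝ) 1 :=
  ⟨le_max_left _ _, max_le zero_le_one (min_le_left _ _)⟩

theorem cl_eq {r : ℝ} (h : r ∈ Icc (0:ℝ) 1) : cl r = r := by
  rw [cl, min_eq_right h.2, max_eq_right h.1]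

@[fun_prop]
theorem continuous_cl : Continuous cl := by unfold cl; fun_prop

@[fun_prop]
theorem continuous_us : Continuous us := by unfold us; fun_prop

theorem us_mem {r : ℝ} (_h : r ∈ Icc (0:ℝ) 1) : us r ∈ Icc (0:ℝ) 1 :=
  ⟨sqrt_nonneg _, sqrt_le_one.2 (by nlinarith [sq_nonneg r])⟩

theorem us_lt_one {r : ℝ} (h : r ∈ Ioc (0:ℝ) 1) : us r < 1 := by
  rw [us, sqrt_lt' one_pos]; nlinarith [h.1]

theorem us_sq {r : ℝ} (h : r ∈ Icc (0:ℝ) 1) : us r ^ 2 = 1 - r ^ 2 :=
  sq_sqrt (by nlinarith [h.1, h.2])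

theorem us_us {r : ℝ} (h : r ∈ Icc (0:ℝ) 1) : us (us r) = r := by
  rw [us, us_sq h, sub_sub_cancel, sqrt_sq h.1]

theorem us_zero : us 0 = 1 := by simp [us]

theorem us_one : us 1 = 0 := by simp [us]

theorem hasDerivAt_us {r : ℝ} (h : r ∈ Ioo (0:ℝ) 1) : HasDerivAt us (-r / us r) r := by
  have hp : (0:ℝ) < 1 - r ^ 2 := by nlinarith [h.1, h.2]
  refine (((hasDerivAt_pow 2 r).const_sub 1).sqrt hp.ne').congr_deriv ?_
  have : √(1 - r ^ 2) ≠ 0 := (sqrt_pos.2 hp).ne'
  simp only [us]; field_simp; ring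

/-! ### Bounds on the calibration at `τ = √(1 - r²)` -/

/-- `r |ψ_R (√(1-r²))| ≤ π + 1`. -/
theorem psiR_us_bound {r : ℝ} (h : r ∈ Icc (0:ℝ) 1) : r * |psiR m (us r)| ≤ π + 1 := by
  rcases h.1.eq_or_lt with h0 | h0
  · rw [← h0, zero_mul]; positivity
  have hu := us_mem h
  have ha : |arcsin (us r)| < π / 2 := by
    rw [abs_of_nonneg (arcsin_nonneg.2 hu.1)]
    exact arcsin_lt_pi_div_two.2 (us_lt_one ⟨h0, h.2⟩)
  have hc : cos (arcsin (us r)) = r := by rw [cos_arcsin]; exact us_us h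
  have e : r * psi m (us r) = phiD m (arcsin (us r)) := by
    rw [psi, psiA, phiD, hc, pow_succ r (m + 1)]
    field_simp
  have h1 := abs_phiD_le m _ ha
  rw [← e, abs_mul, abs_of_pos h0] at h1
  have hq : |psiR m (us r)| ≤ |psi m (us r)| + 1 := by
    refine (abs_sub _ _).trans (add_le_add le_rfl ?_)
    rw [abs_of_nonneg (mul_nonneg (quad_pos m).le hu.1)]
    exact mul_le_one₀ (quad_lt_one m).le hu.1 hu.2
  nlinarith [mul_le_mul_of_nonneg_left hq h0.le, h.2]

/-- `m r^(m-1) ψ_R(√(1-r²))`, continued to the line. -/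
noncomputable def hM (m : ℕ) (r : ℝ) : ℝ := m * cl r ^ (m - 1) * psiR m (us (cl r))

/-- `m r^(m-1) φ_R(√(1-r²))`, continued to the line. -/
noncomputable def hP (m : ℕ) (r : ℝ) : ℝ := m * cl r ^ (m - 1) * phiR m (us (cl r))

/-- `m r^(m-1) (φ_R - τ ψ_R)(√(1-r²))`. -/
noncomputable def hH (m : ℕ) (r : ℝ) : ℝ := hP m r - us (cl r) * hM m r

/-- `m r^(m-1) Γ(√(1-r²))` with `Γ = (m+1) φ_R + t ψ_R`. -/
noncomputable def hG (m : ℕ) (r : ℝ) : ℝ := ((m:ℝ) + 1) * hP m r + us (cl r) * hM m r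

theorem continuous_hM (hm : 3 ≤ m) : Continuous (hM m) := by
  have h : ContinuousOn (fun r => (m:ℝ) * r ^ (m - 1) * psiR m (us r)) (Icc 0 1) := by
    intro r hr
    rcases hr.1.eq_or_lt with h0 | h0
    · subst h0
      rw [ContinuousWithinAt, zero_pow (show m - 1 ≠ 0 by omega), mul_zero, zero_mul]
      refine squeeze_zero_norm' (a := fun r : ℝ => (m:ℝ) * r ^ (m - 2) * (π + 1)) ?_ ?_
      · filter_upwards [self_mem_nhdsWithin] with x hx
        rw [Real.norm_eq_abs, abs_mul, abs_of_nonneg (mul_nonneg (Nat.cast_nonneg m) (pow_nonneg hx.1 _)),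
          show m - 1 = m - 2 + 1 by omega, pow_succ, ← mul_assoc, mul_assoc _ x]
        exact mul_le_mul_of_nonneg_left (psiR_us_bound hx) (mul_nonneg (Nat.cast_nonneg m) (pow_nonneg hx.1 _))
      · have hc : Continuous fun r : ℝ => (m:ℝ) * r ^ (m - 2) * (π + 1) := by fun_prop
        simpa [zero_pow (show m - 2 ≠ 0 by omega)] using (hc.tendsto 0).mono_left nhdsWithin_le_nhds
    · refine ContinuousAt.continuousWithinAt ?_
      have hu := us_lt_one ⟨h0, hr.2⟩
      have hps : ContinuousAt (psiR m) (us r) :=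
        (hasDerivAt_psiR ⟨by linarith [(us_mem hr).1], hu⟩).continuousAt
      exact (ContinuousAt.mul continuousAt_const (continuousAt_id.pow _)).mul
        (hps.comp continuous_us.continuousAt)
  exact h.comp_continuous continuous_cl cl_mem

theorem continuous_hP : Continuous (hP m) := by
  refine (by fun_prop : Continuous fun r => (m:ℝ) * cl r ^ (m - 1)).mul ?_
  exact continuousOn_phiR.comp_continuous (by fun_prop) fun r =>
    ⟨by linarith [(us_mem (cl_mem r)).1], (us_mem (cl_mem r)).2⟩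

theorem continuous_hH (hm : 3 ≤ m) : Continuous (hH m) :=
  continuous_hP.sub ((continuous_us.comp continuous_cl).mul (continuous_hM hm))

theorem continuous_hG (hm : 3 ≤ m) : Continuous (hG m) :=
  (continuous_hP.const_mul _).add ((continuous_us.comp continuous_cl).mul (continuous_hM hm))

/-- The explicit part of the calibration. -/
noncomputable def expl (m : ℕ) (s : ℝ) : ℝ :=
  (cst m + ((m:ℝ) + 3) * quad m) * s ^ m - cst m * ((m:ℝ) / ((m:ℝ) - 1)) * s ^ (m - 1) -
    quad m * ((m:ℝ) * ((m:ℝ) + 3) / ((m:ℝ) + 2)) * s ^ (m + 2)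

/-- **The ODE identity:** `s hH + ∫ hH = ∫ hG + expl` on `[0,1]`. -/
theorem ode_identity (hm : 3 ≤ m) {s : ℝ} (hs : s ∈ Icc (0:ℝ) 1) :
    s * hH m s + (∫ r in (0:ℝ)..s, hH m r) = (∫ r in (0:ℝ)..s, hG m r) + expl m s := by
  set D : ℝ → ℝ := fun s => s * hH m s + (∫ r in (0:ℝ)..s, hH m r) -
    ((∫ r in (0:ℝ)..s, hG m r) + expl m s) with hD
  have hHc := continuous_hH hm
  have hGc := continuous_hG hm
  have hc : Continuous D := by
    have e1 := intervalIntegral.continuous_primitive (fun a b => hHc.intervalIntegrable (μ := volume) a b) 0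
    have e2 := intervalIntegral.continuous_primitive (fun a b => hGc.intervalIntegrable (μ := volume) a b) 0
    exact ((continuous_id.mul hHc).add e1).sub (e2.add (by unfold expl; fun_prop))
  have hd : ∀ x ∈ Ioo (0:ℝ) 1, HasDerivAt D 0 x := by
    intro x hx
    have hxI : x ∈ Icc (0:ℝ) 1 := Ioo_subset_Icc_self hx
    have hu : us x ∈ Ioo (-1:ℝ) 1 :=
      ⟨by linarith [(us_mem hxI).1], us_lt_one ⟨hx.1, hx.2.le⟩⟩
    have hup : 0 < us x := sqrt_pos.2 (by nlinarith [hx.1, hx.2])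
    have d1 := (hasDerivAt_phiR (m := m) hu).comp x (hasDerivAt_us hx)
    have d2 := (hasDerivAt_psiR (m := m) hu).comp x (hasDerivAt_us hx)
    have d3 := ((hasDerivAt_pow m x).const_mul (m:ℝ)).mul (d1.sub ((hasDerivAt_us hx).mul d2))
    have hev : (fun y => (m:ℝ) * y ^ m * (phiR m (us y) - us y * psiR m (us y))) =ᶠ[𝓝 x]
        fun y => y * hH m y := by
      filter_upwards [Ioo_mem_nhds hx.1 hx.2] with y hy
      rw [hH, hP, hM, cl_eq (Ioo_subset_Icc_self hy), ← pow_sub_one_mul (show m ≠ 0 by omega) y]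
      ring
    have d4 : HasDerivAt (fun y => y * hH m y) _ x :=
      d3.congr_of_eventuallyEq (hev.symm)
    have d5 := intervalIntegral.integral_hasDerivAt_right (hHc.intervalIntegrable 0 x)
      hHc.aestronglyMeasurable.stronglyMeasurableAtFilter hHc.continuousAt
    have d6 := intervalIntegral.integral_hasDerivAt_right (hGc.intervalIntegrable 0 x)
      hGc.aestronglyMeasurable.stronglyMeasurableAtFilter hGc.continuousAt
    have d7 : HasDerivAt (expl m) _ x :=
      (((hasDerivAt_pow m x).const_mul (cst m + ((m:ℝ) + 3) * quad m)).sub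
        ((hasDerivAt_pow (m - 1) x).const_mul (cst m * ((m:ℝ) / ((m:ℝ) - 1))))).sub
        ((hasDerivAt_pow (m + 2) x).const_mul (quad m * ((m:ℝ) * ((m:ℝ) + 3) / ((m:ℝ) + 2))))
    refine ((d4.add d5).sub (d6.add d7)).congr_deriv ?_
    simp only [hH, hG, hP, hM, cl_eq hxI, rhsR, Function.comp_apply, Pi.mul_apply, Pi.sub_apply]
    obtain ⟨j, rfl⟩ : ∃ j, m = j + 2 := ⟨m - 2, by omega⟩
    simp only [show j + 2 - 1 = j + 1 by omega, show j + 1 - 1 = j by omega,
      show j + 2 + 2 - 1 = j + 3 by omega]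
    rw [show (√(1 - us x ^ 2)) = x from us_us hxI, us_sq hxI, sub_sub_cancel]
    have hj : (j:ℝ) + 2 - 1 ≠ 0 := by
      have : (0:ℝ) ≤ j := Nat.cast_nonneg j
      linarith
    have hx0 : x ≠ 0 := hx.1.ne'
    have hu0 : us x ≠ 0 := hup.ne'
    push_cast
    field_simp
    ring
  have h0 : D 0 = 0 := by
    simp [hD, expl, show m ≠ 0 by omega, show m - 1 ≠ 0 by omega]
  have hconst : ∀ x ∈ Icc (0:ℝ) 1, D x = D 0 :=
    constant_of_has_deriv_right_zero' hc.continuousOn hd
  have := hconst s hs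
  rw [h0, hD, sub_eq_zero] at this
  exact this
where
  constant_of_has_deriv_right_zero' {D : ℝ → ℝ} (hc : ContinuousOn D (Icc 0 1))
      (hd : ∀ x ∈ Ioo (0:ℝ) 1, HasDerivAt D 0 x) : ∀ x ∈ Icc (0:ℝ) 1, D x = D 0 := fun x hx => by
    have h := intervalIntegral.integral_eq_sub_of_hasDerivAt_of_le (f' := fun _ => (0:ℝ)) hx.1
      (hc.mono (Icc_subset_Icc le_rfl hx.2)) (fun y hy => hd y ⟨hy.1, hy.2.trans_le hx.2⟩)
      intervalIntegrable_const
    rw [intervalIntegral.integral_zero] at h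
    linarith

/-! ### Integration by parts along the profile -/

/-- The left limit at `1`. -/
noncomputable def fend (f : ℝ → ℝ) : ℝ := sInf (f '' Ioo 0 1)

variable {f : ℝ → ℝ}

theorem HalfProf.mem01 (P : HalfProf f) (h0 : f 0 = 1) {t : ℝ} (ht : t ∈ Icc (0:ℝ) 1) :
    f t ∈ Icc (0:ℝ) 1 :=
  ⟨P.nonneg t ht, h0 ▸ P.anti (left_mem_Icc.2 zero_le_one) ht ht.1⟩

theorem HalfProf.mem01' (P : HalfProf f) (h0 : f 0 = 1) {t : ℝ} (ht : t ∈ Ioo (0:ℝ) 1) :
    f t ∈ Ioc (0:ℝ) 1 :=
  ⟨P.pos t ⟨ht.1.le, ht.2⟩, (P.mem01 h0 (Ioo_subset_Icc_self ht)).2⟩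

theorem tendsto_fend (P : HalfProf f) : Tendsto f (𝓝[<] (1:ℝ)) (𝓝 (fend f)) := by
  exact AntitoneOn.tendsto_nhdsWithin_Ioo_left (nonempty_Ioo.2 zero_lt_one)
    (P.anti.mono Ioo_subset_Icc_self) ⟨0, fun _ ⟨x, hx, e⟩ => e ▸ P.nonneg x (Ioo_subset_Icc_self hx)⟩

theorem fend_mem (P : HalfProf f) (h0 : f 0 = 1) : fend f ∈ Icc (0:ℝ) 1 :=
  isClosed_Icc.mem_of_tendsto (tendsto_fend P) <| by
    filter_upwards [Ioo_mem_nhdsLT zero_lt_one] with t ht using P.mem01 h0 (Ioo_subset_Icc_self ht)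

theorem primitive_pow {k : ℕ} (hk : k ≠ 0) (s : ℝ) :
    (∫ r in (0:ℝ)..s, (k:ℝ) * r ^ (k - 1)) = s ^ k := by
  rw [intervalIntegral.integral_const_mul, integral_pow, Nat.sub_add_cancel (Nat.one_le_iff_ne_zero.2 hk),
    zero_pow hk, sub_zero]
  have : ((k - 1 : ℕ):ℝ) + 1 = k := by
    rw [Nat.cast_sub (Nat.one_le_iff_ne_zero.2 hk)]; simp
  rw [this]
  field_simp

/-- `∫ (a' H(f) + a h(f) f') = a 1 H(f 1-) - a 0 H(f 0)` for `H = ∫ h`. -/
theorem ibp_comp (P : HalfProf f) {a a' h : ℝ → ℝ} (ha : ContinuousOn a (Icc 0 1))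
    (had : ∀ t ∈ Ico (0:ℝ) 1, HasDerivAt a (a' t) t) (hac : ContinuousOn a' (Ico 0 1))
    (hai : IntervalIntegrable a' volume 0 1) (hh : Continuous h) :
    IntervalIntegrable (fun t => a t * (h (f t) * deriv f t)) volume 0 1 ∧
      (∫ t in (0:ℝ)..1, a' t * ∫ r in (0:ℝ)..f t, h r) +
          (∫ t in (0:ℝ)..1, a t * (h (f t) * deriv f t)) =
        a 1 * (∫ r in (0:ℝ)..fend f, h r) - a 0 * ∫ r in (0:ℝ)..f 0, h r := by
  set H : ℝ → ℝ := fun s => ∫ r in (0:ℝ)..s, h r with hH
  have hHd : ∀ s, HasDerivAt H (h s) s := fun s =>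
    intervalIntegral.integral_hasDerivAt_right (hh.intervalIntegrable 0 s)
      hh.aestronglyMeasurable.stronglyMeasurableAtFilter hh.continuousAt
  have hHc : Continuous H := continuous_iff_continuousAt.2 fun s => (hHd s).continuousAt
  have hfb : ∀ t ∈ Ioo (0:ℝ) 1, f t ∈ Icc 0 (f 0) := fun t ht =>
    ⟨P.nonneg t (Ioo_subset_Icc_self ht),
      P.anti (left_mem_Icc.2 zero_le_one) (Ioo_subset_Icc_self ht) ht.1.le⟩
  have hfm : AEStronglyMeasurable f (volume.restrict (Ioo (0:ℝ) 1)) :=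
    (P.continuousOn.mono Ioo_subset_Ico_self).aestronglyMeasurable measurableSet_Ioo
  have hdi : IntegrableOn (deriv f) (Ioo (0:ℝ) 1) := by
    refine ((intervalIntegrable_iff_integrableOn_Ioo_of_le zero_le_one).1
      (P.intDeriv (m := 1) one_ne_zero)).congr_fun (fun s _ => ?_) measurableSet_Ioo
    simp
  obtain ⟨A, hA⟩ := isCompact_Icc.exists_bound_of_continuousOn ha
  obtain ⟨B, hB⟩ := isCompact_Icc.exists_bound_of_continuousOn (hh.continuousOn (s := Icc 0 (f 0)))
  obtain ⟨C, hC⟩ := isCompact_Icc.exists_bound_of_continuousOn (hHc.continuousOn (s := Icc 0 (f 0)))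
  have hi2 : IntervalIntegrable (fun t => a t * (h (f t) * deriv f t)) volume 0 1 := by
    rw [intervalIntegrable_iff_integrableOn_Ioo_of_le zero_le_one]
    refine Integrable.bdd_mul (c := A) ?_ ((ha.mono Ioo_subset_Icc_self).aestronglyMeasurable measurableSet_Ioo)
      ((ae_restrict_iff' measurableSet_Ioo).2 (.of_forall fun t ht => hA t (Ioo_subset_Icc_self ht)))
    exact Integrable.bdd_mul (c := B) hdi (hh.comp_aestronglyMeasurable hfm)
      ((ae_restrict_iff' measurableSet_Ioo).2 (.of_forall fun t ht => hB _ (hfb t ht)))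
  have hi1 : IntervalIntegrable (fun t => a' t * H (f t)) volume 0 1 := by
    rw [intervalIntegrable_iff_integrableOn_Ioo_of_le zero_le_one] at hai ⊢
    exact Integrable.mul_bdd (c := C) hai (hHc.comp_aestronglyMeasurable hfm)
      ((ae_restrict_iff' measurableSet_Ioo).2 (.of_forall fun t ht => hC _ (hfb t ht)))
  refine ⟨hi2, ?_⟩
  rw [← intervalIntegral.integral_add hi1 hi2]
  set F : ℝ → ℝ := fun t => a t * H (f t) with hF
  have hK := hi1.add hi2
  have hr : ∀ r ∈ Ioo (0:ℝ) 1,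
      ∫ t in (0:ℝ)..r, (a' t * H (f t) + a t * (h (f t) * deriv f t)) = F r - F 0 := by
    intro r hr
    have hIr : Icc (0:ℝ) r ⊆ Ico 0 1 := fun x hx => ⟨hx.1, hx.2.trans_lt hr.2⟩
    have hla : Lp r a := Lp.comp Lp.ident (fun x hx => had x (hIr hx)) (hac.mono hIr) fun _ hx => hx
    have hlH : Lp r fun t => H (f t) :=
      Lp.comp (P.lp hr.2) (fun x _ => hHd x) (hh.continuousOn (s := Icc 0 (f 0))) fun x hx =>
        ⟨P.nonneg x (Ico_subset_Icc_self (hIr hx)),
          P.anti (left_mem_Icc.2 zero_le_one) (Ico_subset_Icc_self (hIr hx)) hx.1⟩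
    rw [← (hla.mul hlH).ftc hr.1.le]
    refine intervalIntegral.integral_congr_ae ?_
    filter_upwards [P.ae_diff] with t htd htm
    rw [uIoc_of_le hr.1.le] at htm
    have ht : t ∈ Ioo (0:ℝ) 1 := ⟨htm.1, htm.2.trans_lt hr.2⟩
    exact ((had t ⟨ht.1.le, ht.2⟩).mul ((hHd (f t)).comp t (htd ht).hasDerivAt)).deriv.symm
  have hc := intervalIntegral.continuousOn_primitive_interval' hK (left_mem_uIcc (a := (0:ℝ)) (b := 1))
  rw [uIcc_of_le zero_le_one] at hc
  have t1 : Tendsto (fun r => ∫ t in (0:ℝ)..r, (a' t * H (f t) + a t * (h (f t) * deriv f t)))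
      (𝓝[<] 1) (𝓝 (∫ t in (0:ℝ)..1, (a' t * H (f t) + a t * (h (f t) * deriv f t)))) := by
    refine ((hc 1 (right_mem_Icc.2 zero_le_one)).tendsto).mono_left ?_
    rw [nhdsWithin_le_iff]
    exact mem_of_superset (Ioo_mem_nhdsLT one_pos) Ioo_subset_Icc_self
  have t2 : Tendsto (fun r => F r - F 0) (𝓝[<] 1) (𝓝 (a 1 * H (fend f) - F 0)) := by
    refine (Tendsto.mul ?_ ((hHc.tendsto _).comp (tendsto_fend P))).sub_const _
    refine ((ha 1 (right_mem_Icc.2 zero_le_one)).tendsto).mono_left ?_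
    rw [nhdsWithin_le_iff]
    exact mem_of_superset (Ioo_mem_nhdsLT one_pos) Ioo_subset_Icc_self
  refine tendsto_nhds_unique (t1.congr' ?_) t2
  filter_upwards [Ioo_mem_nhdsLT one_pos] with r hr' using hr r hr'

/-! ### The layer cake -/

/-- The distribution function of the profile. -/
noncomputable def dist01 (f : ℝ → ℝ) (r : ℝ) : ℝ := volume.real (Ioo (0:ℝ) 1 ∩ {t | r < f t})

theorem dist01_mem (f : ℝ → ℝ) (r : ℝ) : dist01 f r ∈ Icc (0:ℝ) 1 := by
  refine ⟨measureReal_nonneg, ?_⟩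
  refine (measureReal_mono inter_subset_left measure_Ioo_lt_top.ne).trans_eq ?_
  simp [Real.volume_real_Ioo]

theorem dist01_antitone (f : ℝ → ℝ) : Antitone (dist01 f) := fun _ _ h =>
  measureReal_mono (fun _ ht => ⟨ht.1, h.trans_lt ht.2⟩)
    (measure_lt_top_of_subset inter_subset_left measure_Ioo_lt_top.ne).ne

theorem lt_iff_lt_dist01 (P : HalfProf f) {r t : ℝ} (ht : t ∈ Ioo (0:ℝ) 1) :
    (t < dist01 f r → r < f t) ∧ (r < f t → t ≤ dist01 f r) := by
  have hfin : volume (Ioo (0:ℝ) 1 ∩ {s | r < f s}) ≠ ⊤ :=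
    (measure_lt_top_of_subset inter_subset_left measure_Ioo_lt_top.ne).ne
  constructor
  · intro h
    by_contra hn
    have hsub : Ioo (0:ℝ) 1 ∩ {s | r < f s} ⊆ Ioo 0 t := fun s hs =>
      ⟨hs.1.1, lt_of_not_ge fun hts => hn (lt_of_lt_of_le hs.2
        (P.anti (Ioo_subset_Icc_self ht) (Ioo_subset_Icc_self hs.1) hts))⟩
    have := measureReal_mono (μ := volume) hsub measure_Ioo_lt_top.ne
    simp [Real.volume_real_Ioo, ht.1.le] at this
    exact not_lt.2 this h
  · intro h
    have hsub : Ioo 0 t ⊆ Ioo (0:ℝ) 1 ∩ {s | r < f s} := fun s hs =>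
      ⟨⟨hs.1, hs.2.trans ht.2⟩, lt_of_lt_of_le h
        (P.anti ⟨hs.1.le, hs.2.le.trans ht.2.le⟩ (Ioo_subset_Icc_self ht) hs.2.le)⟩
    have := measureReal_mono (μ := volume) hsub hfin
    simpa [Real.volume_real_Ioo, ht.1.le, dist01] using this

/-- **Layer cake with a weight:** `∫ a H(f) = ∫ h(r) A(dist r)`. -/
theorem layer (P : HalfProf f) (h0 : f 0 = 1) {a h : ℝ → ℝ}
    (ha : IntervalIntegrable a volume 0 1) (hh : Continuous h) :
    IntervalIntegrable (fun r => h r * ∫ t in (0:ℝ)..dist01 f r, a t) volume 0 1 ∧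
      ∫ t in (0:ℝ)..1, a t * ∫ r in (0:ℝ)..f t, h r =
        ∫ r in (0:ℝ)..1, h r * ∫ t in (0:ℝ)..dist01 f r, a t := by
  set μ : Measure ℝ := volume.restrict (Ioo (0:ℝ) 1) with hμ
  rw [intervalIntegrable_iff_integrableOn_Ioo_of_le zero_le_one] at ha ⊢
  set F : ℝ × ℝ → ℝ := fun p => {q : ℝ × ℝ | q.2 < f q.1}.indicator (fun q => a q.1 * h q.2) p
    with hF
  have hfm : AEMeasurable f μ :=
    (P.continuousOn.mono Ioo_subset_Ico_self).aemeasurable measurableSet_Ioo
  have hprod : Integrable (fun q : ℝ × ℝ => a q.1 * h q.2) (μ.prod μ) :=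
    Integrable.mul_prod ha ((hh.continuousOn.integrableOn_Icc).mono_set Ioo_subset_Icc_self)
  have hFi : Integrable F (μ.prod μ) :=
    hprod.indicator₀ (nullMeasurableSet_lt measurable_snd.aemeasurable hfm.comp_fst)
  have hin1 : ∀ t ∈ Ioo (0:ℝ) 1, ∫ r, F (t, r) ∂μ = a t * ∫ r in (0:ℝ)..f t, h r := by
    intro t ht
    have hm := P.mem01 h0 (Ioo_subset_Icc_self ht)
    rw [intervalIntegral.integral_of_le hm.1, integral_Ioc_eq_integral_Ioo, ← integral_const_mul,
      hμ, ← integral_indicator measurableSet_Ioo, ← integral_indicator measurableSet_Ioo]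
    refine integral_congr_ae (.of_forall fun r => ?_)
    simp only [hF, indicator, mem_ofPred_eq, mem_Ioo]
    split_ifs <;> first | rfl | (exfalso; obtain ⟨_, _⟩ := hm; grind)
  have hin2 : ∀ r : ℝ, ∫ t, F (t, r) ∂μ = h r * ∫ t in (0:ℝ)..dist01 f r, a t := by
    intro r
    have hd := dist01_mem f r
    rw [intervalIntegral.integral_of_le hd.1, integral_Ioc_eq_integral_Ioo, ← integral_const_mul,
      hμ, ← integral_indicator measurableSet_Ioo, ← integral_indicator measurableSet_Ioo]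
    refine integral_congr_ae ?_
    filter_upwards [Measure.ae_ne volume (dist01 f r)] with t hne
    simp only [hF, indicator, mem_ofPred_eq]
    by_cases c : t ∈ Ioo (0:ℝ) 1
    · rw [if_pos c]
      by_cases c' : r < f t
      · rw [if_pos c', if_pos ⟨c.1, lt_of_le_of_ne ((lt_iff_lt_dist01 P c).2 c') hne⟩]; ring
      · rw [if_neg c', if_neg fun hh' => c' ((lt_iff_lt_dist01 P c).1 hh'.2)]
    · rw [if_neg c, if_neg fun hh' => c ⟨hh'.1, hh'.2.trans_le hd.2⟩]
  constructor
  · refine (hFi.integral_prod_right).congr (.of_forall fun r => ?_)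
    exact hin2 r
  · rw [intervalIntegral.integral_of_le zero_le_one, intervalIntegral.integral_of_le zero_le_one,
      integral_Ioc_eq_integral_Ioo, integral_Ioc_eq_integral_Ioo, ← hμ]
    calc ∫ t, (a t * ∫ r in (0:ℝ)..f t, h r) ∂μ = ∫ t, ∫ r, F (t, r) ∂μ ∂μ :=
          integral_congr_ae ((ae_restrict_iff' measurableSet_Ioo).2
            (.of_forall fun t ht => (hin1 t ht).symm))
      _ = ∫ r, ∫ t, F (t, r) ∂μ ∂μ :=
          integral_integral_swap (f := fun t r => F (t, r)) hFi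
      _ = _ := integral_congr_ae (.of_forall hin2)

/-! ### The identities -/

/-- The cone-measure density. -/
noncomputable def wq (m : ℕ) (f : ℝ → ℝ) (t : ℝ) : ℝ :=
  (m:ℝ) * f t ^ (m - 1) * (f t - t * deriv f t)

/-- `Γ = (m+1) φ_R + t ψ_R`. -/
noncomputable def gamR (m : ℕ) (t : ℝ) : ℝ := ((m:ℝ) + 1) * phiR m t + t * psiR m t

/-- The primitive of `Γ`. -/
noncomputable def gamI (m : ℕ) (x : ℝ) : ℝ := ∫ t in (0:ℝ)..x, gamR m t

/-- The perspective gain. -/
noncomputable def breg (m : ℕ) (f : ℝ → ℝ) : ℝ :=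
  ∫ t in (0:ℝ)..1, wq m f t *
    (phiR m (pProf f t) - phiR m (us (f t)) - psiR m (us (f t)) * (pProf f t - us (f t)))

/-- The perspective gain at the jump. -/
noncomputable def bdry (m : ℕ) (f : ℝ → ℝ) : ℝ :=
  ∫ r in (0:ℝ)..fend f, ((m:ℝ) * r ^ (m - 1) * phiR m 1 - hH m r - hM m r)

/-- The second-order term in the distribution function. -/
noncomputable def negR (m : ℕ) (f : ℝ → ℝ) : ℝ :=
  ∫ r in (0:ℝ)..1, (m:ℝ) * r ^ (m - 1) *
    (gamI m (dist01 f r) - gamI m (us r) - gamR m (us r) * (dist01 f r - us r))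

/-- The square part of `J`. -/
noncomputable def qhR (m : ℕ) (f : ℝ → ℝ) : ℝ :=
  (∫ t in (0:ℝ)..1, wq m f t * (pProf f t - us (f t)) ^ 2) +
    ∫ r in (0:ℝ)..fend f, (m:ℝ) * r ^ (m - 1) * (1 - us r) ^ 2

theorem intGam : IntervalIntegrable (gamR m) volume 0 1 := by
  have hc : ContinuousOn (phiR m) (Icc 0 1) :=
    continuousOn_phiR.mono (Icc_subset_Icc (by norm_num) le_rfl)
  have hd : IntervalIntegrable (fun t => phiR m t + t * psiR m t) volume 0 1 := by
    rw [intervalIntegrable_iff_integrableOn_Ioc_of_le zero_le_one]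
    refine intervalIntegral.integrableOn_deriv_of_nonneg (g := fun t => t * phiR m t)
      (continuousOn_id.mul hc) (fun x hx => ?_) fun x hx => ?_
    · refine ((hasDerivAt_id' x).mul (hasDerivAt_phiR ⟨by linarith [hx.1], hx.2⟩)).congr_deriv ?_
      ring
    · exact add_nonneg (phiR_nonneg ⟨by linarith [hx.1], hx.2.le⟩)
        (mul_nonneg hx.1.le (psiR_nonneg hx.1.le hx.2))
  refine (hd.add ((hc.intervalIntegrable_of_Icc zero_le_one).const_mul (m:ℝ))).congr fun t _ => ?_
  simp only [gamR]; ring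

theorem bounded_comp (P : HalfProf f) (h0 : f 0 = 1) {h : ℝ → ℝ} (hh : Continuous h) :
    IntervalIntegrable (fun t => h (f t)) volume 0 1 := by
  obtain ⟨B, hB⟩ := isCompact_Icc.exists_bound_of_continuousOn (hh.continuousOn (s := Icc 0 1))
  rw [intervalIntegrable_iff_integrableOn_Ioo_of_le zero_le_one]
  exact IntegrableOn.of_bound measure_Ioo_lt_top
    (hh.comp_aestronglyMeasurable ((P.continuousOn.mono Ioo_subset_Ico_self).aestronglyMeasurable
      measurableSet_Ioo)) B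
    ((ae_restrict_iff' measurableSet_Ioo).2 (.of_forall fun t ht =>
      hB _ (P.mem01 h0 (Ioo_subset_Icc_self ht))))

theorem intWq_comp (P : HalfProf f) (hm : m ≠ 0) {φ : ℝ → ℝ} (hφ : ContinuousOn φ (Icc (-1) 1)) :
    IntervalIntegrable (fun t => wq m f t * φ (pProf f t)) volume 0 1 ∧
      IntervalIntegrable (fun t => wq m f t * φ t) volume 0 1 := by
  obtain ⟨B, hB⟩ := isCompact_Icc.exists_bound_of_continuousOn hφ
  have hc : Continuous fun a : ℝ => φ (max (-1) (min 1 a)) :=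
    hφ.comp_continuous (by fun_prop) fun a => ⟨le_max_left _ _, max_le (by norm_num) (min_le_left _ _)⟩
  constructor
  · refine P.intWgt_mul hm ((hc.comp_aestronglyMeasurable P.measurable_pProf).congr ?_) (C := B)
      fun s hs => hB _ (P.bounds hs).2
    filter_upwards [ae_restrict_mem measurableSet_Ioo] with s hs
    rw [min_eq_right (P.bounds hs).2.2, max_eq_right (P.bounds hs).2.1]
  · exact P.intWgt_mul hm ((hφ.mono fun s hs => ⟨by linarith [hs.1], hs.2.le⟩).aestronglyMeasurable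
      measurableSet_Ioo) (C := B) fun s hs => hB s ⟨by linarith [hs.1], hs.2.le⟩

theorem wq_mul_pProf (P : HalfProf f) {t : ℝ} (ht : t ∈ Ioo (0:ℝ) 1) :
    wq m f t * pProf f t = -((m:ℝ) * f t ^ (m - 1) * deriv f t) := by
  have := (P.bounds ht).1.ne'
  rw [wq, pProf]; field_simp

theorem hH_eq {r : ℝ} (h : r ∈ Icc (0:ℝ) 1) :
    hH m r = (m:ℝ) * r ^ (m - 1) * (phiR m (us r) - us r * psiR m (us r)) := by
  rw [hH, hP, hM, cl_eq h]; ring

theorem hM_eq {r : ℝ} (h : r ∈ Icc (0:ℝ) 1) :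
    hM m r = (m:ℝ) * r ^ (m - 1) * psiR m (us r) := by
  rw [hM, cl_eq h]

theorem hG_eq {r : ℝ} (h : r ∈ Icc (0:ℝ) 1) :
    hG m r = (m:ℝ) * r ^ (m - 1) * gamR m (us r) := by
  rw [hG, hP, hM, cl_eq h, gamR]; ring

theorem breg_nonneg (P : HalfProf f) (h0 : f 0 = 1) : 0 ≤ breg m f := by
  rw [breg, intervalIntegral.integral_of_le zero_le_one, integral_Ioc_eq_integral_Ioo]
  refine setIntegral_nonneg measurableSet_Ioo fun t ht => mul_nonneg ?_ ?_
  · exact mul_nonneg (mul_nonneg (Nat.cast_nonneg m) (pow_nonneg (P.pos t ⟨ht.1.le, ht.2⟩).le _))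
      (P.bounds ht).1.le
  · have hf := P.mem01' h0 ht
    have := phiR_tangent (m := m) (t := us (f t)) (p := pProf f t)
      ⟨by linarith [(us_mem (Ioc_subset_Icc_self hf)).1], us_lt_one hf⟩ (P.bounds ht).2
    linarith

theorem bdry_nonneg (P : HalfProf f) (h0 : f 0 = 1) (hm : 2 ≤ m) : 0 ≤ bdry m f := by
  have he := fend_mem P h0
  refine intervalIntegral.integral_nonneg he.1 fun r hr => ?_
  have hr1 : r ∈ Icc (0:ℝ) 1 := ⟨hr.1, hr.2.trans he.2⟩
  rw [hH_eq hr1, hM_eq hr1]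
  rcases hr.1.eq_or_lt with h | h
  · simp [← h, show m - 1 ≠ 0 by omega]
  · have := phiR_tangent (m := m) (t := us r) (p := 1)
      ⟨by linarith [(us_mem hr1).1], us_lt_one ⟨h, hr1.2⟩⟩ ⟨by norm_num, le_rfl⟩
    have := mul_le_mul_of_nonneg_left this (show (0:ℝ) ≤ (m:ℝ) * r ^ (m - 1) by positivity)
    linarith

theorem qhR_nonneg (P : HalfProf f) (h0 : f 0 = 1) : 0 ≤ qhR m f := by
  refine add_nonneg ?_ (intervalIntegral.integral_nonneg (fend_mem P h0).1 fun r hr => by
    have := hr.1; positivity)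
  rw [intervalIntegral.integral_of_le zero_le_one, integral_Ioc_eq_integral_Ioo]
  exact setIntegral_nonneg measurableSet_Ioo fun t ht => mul_nonneg
    (mul_nonneg (mul_nonneg (Nat.cast_nonneg m) (pow_nonneg (P.pos t ⟨ht.1.le, ht.2⟩).le _))
      (P.bounds ht).1.le) (sq_nonneg _)

/-- `∫ expl f` in terms of the moments. -/
theorem integral_expl (P : HalfProf f) :
    ∫ t in (0:ℝ)..1, expl m (f t) =
      (cst m + ((m:ℝ) + 3) * quad m) * (∫ t in (0:ℝ)..1, f t ^ m) -
        cst m * ((m:ℝ) / ((m:ℝ) - 1)) * (∫ t in (0:ℝ)..1, f t ^ (m - 1)) -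
        quad m * ((m:ℝ) * ((m:ℝ) + 3) / ((m:ℝ) + 2)) * ∫ t in (0:ℝ)..1, f t ^ (m + 2) := by
  simp only [expl]
  rw [intervalIntegral.integral_sub (((P.intPow m).const_mul _).sub ((P.intPow _).const_mul _))
      ((P.intPow _).const_mul _),
    intervalIntegral.integral_sub ((P.intPow m).const_mul _) ((P.intPow _).const_mul _),
    intervalIntegral.integral_const_mul, intervalIntegral.integral_const_mul,
    intervalIntegral.integral_const_mul]

/-- The penalty before comparison with the ball. -/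
theorem pen_identity (P : HalfProf f) (h0 : f 0 = 1) (hm : 3 ≤ m) :
    (∫ t in (0:ℝ)..1, wq m f t * (phiR m (pProf f t) - phiR m t)) =
      breg m f + bdry m f + (∫ r in (0:ℝ)..1, hM m r) + (∫ t in (0:ℝ)..1, expl m (f t)) +
        ∫ r in (0:ℝ)..1, (hG m r * dist01 f r - (m:ℝ) * r ^ (m - 1) * gamI m (dist01 f r)) := by
  have hm0 : m ≠ 0 := by omega
  have hcH := continuous_hH hm
  have hcM := continuous_hM hm
  have hcG := continuous_hG hm
  have hcW : Continuous fun r : ℝ => (m:ℝ) * r ^ (m - 1) := by fun_prop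
  have hcR : ContinuousOn (phiR m) (Icc (-1) 1) := continuousOn_phiR
  have hc01 : ContinuousOn (phiR m) (Icc 0 1) := hcR.mono (Icc_subset_Icc (by norm_num) le_rfl)
  obtain ⟨iA, eA⟩ := ibp_comp P (a := fun t => t) (a' := fun _ => 1) continuousOn_id
    (fun t _ => hasDerivAt_id' t) continuousOn_const intervalIntegrable_const hcH
  obtain ⟨iB, eB⟩ := ibp_comp P (a := fun _ => 1) (a' := fun _ => 0) continuousOn_const
    (fun t _ => hasDerivAt_const t 1) continuousOn_const intervalIntegrable_const hcM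
  have hgd : IntervalIntegrable (fun t => phiR m t + t * psiR m t) volume 0 1 :=
    (intGam.sub ((hc01.intervalIntegrable_of_Icc zero_le_one).const_mul (m:ℝ))).congr
      fun t _ => by simp only [gamR]; ring
  have hIco : ∀ t ∈ Ico (0:ℝ) 1, t ∈ Ioo (-1:ℝ) 1 := fun t ht => ⟨by linarith [ht.1], ht.2⟩
  obtain ⟨iC, eC⟩ := ibp_comp P (a := fun t => t * phiR m t) (a' := fun t => phiR m t + t * psiR m t)
    (continuousOn_id.mul hc01)
    (fun t ht => ((hasDerivAt_id' t).mul (hasDerivAt_phiR (hIco t ht))).congr_deriv (by ring))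
    (fun t ht => (((hasDerivAt_phiR (hIco t ht)).continuousAt).add
      (continuousAt_id.mul (hasDerivAt_psiR (hIco t ht)).continuousAt)).continuousWithinAt) hgd hcW
  simp only [h0, one_mul, zero_mul, sub_zero, intervalIntegral.integral_zero, zero_add,
    primitive_pow hm0, one_pow] at eA eB eC
  -- integrability of the pieces
  have iP := (intWq_comp P hm0 hcR).1
  have iT := (intWq_comp P hm0 hcR).2
  have iF : IntervalIntegrable (fun t => f t * hH m (f t)) volume 0 1 :=
    bounded_comp P h0 (h := fun s => s * hH m s) (continuous_id.mul hcH)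
  set X : ℝ → ℝ := fun t => f t * hH m (f t) - t * (hH m (f t) * deriv f t) -
    1 * (hM m (f t) * deriv f t) with hX
  have iX : IntervalIntegrable X volume 0 1 := (iF.sub iA).sub iB
  have eBreg : breg m f = (∫ t in (0:ℝ)..1, wq m f t * phiR m (pProf f t)) -
      ∫ t in (0:ℝ)..1, X t := by
    rw [← intervalIntegral.integral_sub iP iX, breg]
    refine integral_congr_Ioo fun t ht => ?_
    have hf := Ioc_subset_Icc_self (P.mem01' h0 ht)
    have hp := wq_mul_pProf (m := m) P ht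
    simp only [hX, hH_eq hf, hM_eq hf, wq] at hp ⊢
    linear_combination -psiR m (us (f t)) * hp
  have eT : (∫ t in (0:ℝ)..1, wq m f t * phiR m t) =
      (∫ t in (0:ℝ)..1, (m:ℝ) * phiR m t * f t ^ m) -
        ∫ t in (0:ℝ)..1, t * phiR m t * ((m:ℝ) * f t ^ (m - 1) * deriv f t) := by
    have i1 : IntervalIntegrable (fun t => (m:ℝ) * phiR m t * f t ^ m) volume 0 1 :=
      (P.intPow m).continuousOn_mul (g := fun t => (m:ℝ) * phiR m t)
        (by rw [uIcc_of_le zero_le_one]; exact continuousOn_const.mul hc01)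
    rw [← intervalIntegral.integral_sub i1 iC]
    refine intervalIntegral.integral_congr fun t _ => ?_
    simp only [wq, ← pow_sub_one_mul hm0 (f t)]
    ring
  have eX : (∫ t in (0:ℝ)..1, X t) = (∫ t in (0:ℝ)..1, (f t * hH m (f t) + ∫ r in (0:ℝ)..f t, hH m r)) -
      (∫ r in (0:ℝ)..fend f, hH m r) - (∫ r in (0:ℝ)..fend f, hM m r) + ∫ r in (0:ℝ)..1, hM m r := by
    have hHp : Continuous fun s => ∫ r in (0:ℝ)..s, hH m r :=
      intervalIntegral.continuous_primitive (fun a b => hcH.intervalIntegrable a b) 0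
    rw [hX, intervalIntegral.integral_sub (iF.sub iA) iB, intervalIntegral.integral_sub iF iA,
      intervalIntegral.integral_add iF (bounded_comp P h0 hHp)]
    simp only [one_mul]
    linarith
  have eL : (∫ t in (0:ℝ)..1, (f t * hH m (f t) + ∫ r in (0:ℝ)..f t, hH m r)) =
      (∫ t in (0:ℝ)..1, ∫ r in (0:ℝ)..f t, hG m r) + ∫ t in (0:ℝ)..1, expl m (f t) := by
    have hGp : Continuous fun s => ∫ r in (0:ℝ)..s, hG m r :=
      intervalIntegral.continuous_primitive (fun a b => hcG.intervalIntegrable a b) 0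
    rw [← intervalIntegral.integral_add (bounded_comp P h0 hGp)
      (bounded_comp P h0 (h := expl m) (by unfold expl; fun_prop))]
    exact integral_congr_Ioo fun t ht => ode_identity hm (P.mem01 h0 (Ioo_subset_Icc_self ht))
  obtain ⟨l1, e1⟩ := layer P h0 (a := fun _ => 1) intervalIntegrable_const hcG
  obtain ⟨l2, e2⟩ := layer P h0 intGam hcW
  simp only [one_mul, intervalIntegral.integral_const, sub_zero, smul_eq_mul, mul_one] at l1 e1
  simp only [primitive_pow hm0] at e2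
  have e2' : ∫ t in (0:ℝ)..1, gamR m t * f t ^ m =
      ∫ r in (0:ℝ)..1, (m:ℝ) * r ^ (m - 1) * gamI m (dist01 f r) := e2
  have l2' : IntervalIntegrable
      (fun r => (m:ℝ) * r ^ (m - 1) * gamI m (dist01 f r)) volume 0 1 := l2
  have eG : (∫ t in (0:ℝ)..1, gamR m t * f t ^ m) =
      (∫ t in (0:ℝ)..1, (m:ℝ) * phiR m t * f t ^ m) +
        ∫ t in (0:ℝ)..1, (phiR m t + t * psiR m t) * f t ^ m := by
    have hbd : ∀ a : ℝ → ℝ, IntervalIntegrable a volume 0 1 →
        IntervalIntegrable (fun t => a t * f t ^ m) volume 0 1 := by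
      intro a ha
      rw [intervalIntegrable_iff_integrableOn_Ioo_of_le zero_le_one] at ha ⊢
      refine Integrable.mul_bdd (c := 1) ha
        (((P.continuousOn.mono Ioo_subset_Ico_self).pow m).aestronglyMeasurable measurableSet_Ioo)
        ((ae_restrict_iff' measurableSet_Ioo).2 (.of_forall fun t ht => ?_))
      rw [Real.norm_eq_abs, abs_of_nonneg (pow_nonneg (P.mem01' h0 ht).1.le m)]
      exact pow_le_one₀ (P.mem01' h0 ht).1.le (P.mem01' h0 ht).2
    rw [← intervalIntegral.integral_add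
      (hbd _ ((hc01.intervalIntegrable_of_Icc zero_le_one).const_mul (m:ℝ))) (hbd _ hgd)]
    exact intervalIntegral.integral_congr fun t _ => by simp only [gamR]; ring
  have eBd : bdry m f = phiR m 1 * fend f ^ m - (∫ r in (0:ℝ)..fend f, hH m r) -
      ∫ r in (0:ℝ)..fend f, hM m r := by
    rw [bdry, intervalIntegral.integral_sub, intervalIntegral.integral_sub,
      intervalIntegral.integral_mul_const, primitive_pow hm0, mul_comm]
    · exact (hcW.mul continuous_const).intervalIntegrable _ _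
    · exact hcH.intervalIntegrable _ _
    · exact ((hcW.mul continuous_const).sub hcH).intervalIntegrable _ _
    · exact hcM.intervalIntegrable _ _
  have split : (∫ t in (0:ℝ)..1, wq m f t * (phiR m (pProf f t) - phiR m t)) =
      (∫ t in (0:ℝ)..1, wq m f t * phiR m (pProf f t)) - ∫ t in (0:ℝ)..1, wq m f t * phiR m t := by
    rw [← intervalIntegral.integral_sub iP iT]
    simp only [mul_sub]
  rw [split, intervalIntegral.integral_sub l1 l2']
  linarith

/-! ### The ball -/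

theorem halfProf_us : HalfProf us := by
  refine ⟨⟨convex_Icc _ _, fun x hx y hy p q hp hq hpq => ?_⟩, fun x hx y hy hxy => ?_,
    fun t _ => sqrt_nonneg _, fun t ht => sqrt_pos.2 (by nlinarith [ht.1, ht.2])⟩
  · simp only [smul_eq_mul, us]
    have hx' : (0:ℝ) ≤ 1 - x ^ 2 := by nlinarith [hx.1, hx.2]
    have hy' : (0:ℝ) ≤ 1 - y ^ 2 := by nlinarith [hy.1, hy.2]
    refine Real.le_sqrt_of_sq_le ?_
    have hq' : q = 1 - p := by linarith
    subst hq'
    nlinarith [sq_sqrt hx', sq_sqrt hy', mul_nonneg (mul_nonneg hp hq)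
      (add_nonneg (sq_nonneg (√(1 - x ^ 2) - √(1 - y ^ 2))) (sq_nonneg (x - y)))]
  · exact sqrt_le_sqrt (by nlinarith [hx.1])

theorem fend_us : fend us = 0 :=
  tendsto_nhds_unique (tendsto_fend halfProf_us)
    (us_one ▸ (continuous_us.tendsto 1).mono_left nhdsWithin_le_nhds)

theorem dist01_us {r : ℝ} (hr : r ∈ Ioo (0:ℝ) 1) : dist01 us r = us r := by
  have hu := us_mem (Ioo_subset_Icc_self hr)
  have e : Ioo (0:ℝ) 1 ∩ {t | r < us t} = Ioo 0 (us r) := by
    ext t
    simp only [us, mem_inter_iff, mem_Ioo, mem_ofPred_eq]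
    constructor
    · rintro ⟨⟨h1, -⟩, h⟩
      exact ⟨h1, (lt_sqrt h1.le).2 (by nlinarith [(lt_sqrt hr.1.le).1 h])⟩
    · rintro ⟨h1, h⟩
      have := (lt_sqrt h1.le).1 h
      exact ⟨⟨h1, by nlinarith [hr.1]⟩, (lt_sqrt hr.1.le).2 (by linarith)⟩
  rw [dist01, e]
  simp [Real.volume_real_Ioo, hu.1]

theorem pProf_us {t : ℝ} (ht : t ∈ Ioo (0:ℝ) 1) : pProf us t = t :=
  (ell_point (s := 1) (fun x _ => by simp [us]) ht).2 one_ne_zero

theorem breg_us : breg m us = 0 := by
  rw [breg, integral_congr_Ioo (g' := fun _ => 0) fun t ht => by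
    rw [pProf_us ht, us_us (Ioo_subset_Icc_self ht)]; ring, intervalIntegral.integral_zero]

theorem bdry_us : bdry m us = 0 := by rw [bdry, fend_us, intervalIntegral.integral_same]

/-- **The penalty identity.** -/
theorem pen_inv (P : HalfProf f) (h0 : f 0 = 1) (hm : 3 ≤ m) :
    ((m:ℝ) + 1) * (∫ t in (0:ℝ)..1, f t ^ m) * penMean m (phiR m) f =
      (cst m + ((m:ℝ) + 3) * quad m) *
          ((∫ t in (0:ℝ)..1, f t ^ m) - ∫ t in (0:ℝ)..1, us t ^ m) -
        cst m * ((m:ℝ) / ((m:ℝ) - 1)) *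
          ((∫ t in (0:ℝ)..1, f t ^ (m - 1)) - ∫ t in (0:ℝ)..1, us t ^ (m - 1)) -
        quad m * ((m:ℝ) * ((m:ℝ) + 3) / ((m:ℝ) + 2)) *
          ((∫ t in (0:ℝ)..1, f t ^ (m + 2)) - ∫ t in (0:ℝ)..1, us t ^ (m + 2)) -
        negR m f + breg m f + bdry m f := by
  have hm0 : m ≠ 0 := by omega
  have hZ := Z_pos P (m := m)
  have e : ((m:ℝ) + 1) * (∫ t in (0:ℝ)..1, f t ^ m) * penMean m (phiR m) f =
      ∫ t in (0:ℝ)..1, wq m f t * (phiR m (pProf f t) - phiR m t) := by
    rw [penMean]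
    simp only [wq, mul_assoc, intervalIntegral.integral_const_mul]
    field_simp
  have hu := pen_identity halfProf_us (m := m) (by simp [us]) hm
  rw [integral_congr_Ioo (g' := fun _ => 0) (fun t ht => by rw [pProf_us ht, sub_self, mul_zero]),
    intervalIntegral.integral_zero, breg_us, bdry_us,
    integral_expl halfProf_us,
    integral_congr_Ioo (g := fun r => hG m r * dist01 us r - (m:ℝ) * r ^ (m - 1) * gamI m (dist01 us r))
      (g' := fun r => hG m r * us r - (m:ℝ) * r ^ (m - 1) * gamI m (us r))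
      fun r hr => by rw [dist01_us hr]] at hu
  rw [e, pen_identity P h0 hm, integral_expl P]
  have hcW : Continuous fun r : ℝ => (m:ℝ) * r ^ (m - 1) := by fun_prop
  have iG : ∀ g : ℝ → ℝ, HalfProf g → g 0 = 1 → IntervalIntegrable
      (fun r => hG m r * dist01 g r - (m:ℝ) * r ^ (m - 1) * gamI m (dist01 g r)) volume 0 1 := by
    intro g hg hg0
    have l1 := (layer hg hg0 (a := fun _ => 1) intervalIntegrable_const (continuous_hG hm)).1
    simp only [intervalIntegral.integral_const, sub_zero, smul_eq_mul, mul_one] at l1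
    exact l1.sub (layer hg hg0 intGam hcW).1
  have iu : IntervalIntegrable (fun r => hG m r * us r - (m:ℝ) * r ^ (m - 1) * gamI m (us r))
      volume 0 1 := by
    refine (iG us halfProf_us (by simp [us])).congr_ae ?_
    rw [EventuallyEq, ae_restrict_iff' measurableSet_uIoc]
    filter_upwards [Measure.ae_ne volume (1:ℝ)] with r hne hr
    rw [uIoc_of_le zero_le_one] at hr
    rw [dist01_us ⟨hr.1, lt_of_le_of_ne hr.2 hne⟩]
  have eN : negR m f =
      (∫ r in (0:ℝ)..1, (hG m r * us r - (m:ℝ) * r ^ (m - 1) * gamI m (us r))) -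
        ∫ r in (0:ℝ)..1, (hG m r * dist01 f r - (m:ℝ) * r ^ (m - 1) * gamI m (dist01 f r)) := by
    rw [negR, ← intervalIntegral.integral_sub iu (iG f P h0)]
    refine integral_congr_Ioo fun r hr => ?_
    rw [hG_eq (Ioo_subset_Icc_self hr)]
    ring
  linarith

/-- **The identity for `J`.** -/
theorem jay_inv (P : HalfProf f) (h0 : f 0 = 1) (hm : 3 ≤ m) :
    jay m f * (∫ t in (0:ℝ)..1, f t ^ m) =
      (∫ t in (0:ℝ)..1, us t ^ m) -
        ((m:ℝ) + 1) * ((∫ t in (0:ℝ)..1, f t ^ m) - ∫ t in (0:ℝ)..1, us t ^ m) +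
        (m:ℝ) * ((m:ℝ) + 3) / ((m:ℝ) + 2) *
          ((∫ t in (0:ℝ)..1, f t ^ (m + 2)) - ∫ t in (0:ℝ)..1, us t ^ (m + 2)) + qhR m f := by
  have key : ∀ g : ℝ → ℝ, HalfProf g → g 0 = 1 →
      jay m g * (∫ t in (0:ℝ)..1, g t ^ m) = -((m:ℝ) + 1) * (∫ t in (0:ℝ)..1, g t ^ m) +
        (m:ℝ) * ((m:ℝ) + 3) / ((m:ℝ) + 2) * (∫ t in (0:ℝ)..1, g t ^ (m + 2)) + qhR m g +
        2 * ∫ r in (0:ℝ)..1, (m:ℝ) * r ^ (m - 1) * us r := by
    intro g Q hg0
    have hm0 : m ≠ 0 := by omega
    have hcT : Continuous fun r : ℝ => (m:ℝ) * r ^ (m - 1) * us r := by fun_prop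
    have hcW : Continuous fun r : ℝ => (m:ℝ) * r ^ (m - 1) := by fun_prop
    have hcW2 : Continuous fun r : ℝ => ((m + 2 : ℕ):ℝ) * r ^ (m + 2 - 1) := by fun_prop
    obtain ⟨iT, eT⟩ := ibp_comp Q (a := fun _ => 1) (a' := fun _ => 0) continuousOn_const
      (fun t _ => hasDerivAt_const t 1) continuousOn_const intervalIntegrable_const hcT
    obtain ⟨iW, eW⟩ := ibp_comp Q (a := fun t => t) (a' := fun _ => 1) continuousOn_id
      (fun t _ => hasDerivAt_id' t) continuousOn_const intervalIntegrable_const hcW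
    obtain ⟨iV, eV⟩ := ibp_comp Q (a := fun t => t) (a' := fun _ => 1) continuousOn_id
      (fun t _ => hasDerivAt_id' t) continuousOn_const intervalIntegrable_const hcW2
    simp only [hg0, one_mul, zero_mul, sub_zero, intervalIntegral.integral_zero, zero_add,
      primitive_pow hm0, primitive_pow (show m + 2 ≠ 0 by omega), one_pow] at eT eW eV
    have iT' : IntervalIntegrable
        (fun t => (m:ℝ) * g t ^ (m - 1) * us (g t) * deriv g t) volume 0 1 := by simpa using iT
    have hfm : AEStronglyMeasurable g (volume.restrict (Ioo (0:ℝ) 1)) :=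
      (Q.continuousOn.mono Ioo_subset_Ico_self).aestronglyMeasurable measurableSet_Ioo
    have iQ : IntervalIntegrable (fun t => wq m g t * (pProf g t - us (g t)) ^ 2) volume 0 1 :=
      Q.intWgt_mul hm0 ((Q.measurable_pProf.sub (continuous_us.comp_aestronglyMeasurable hfm)).pow 2)
        (C := 4) fun s hs => by
          have h1 := (Q.bounds hs).2
          have h2 := us_mem (Ioc_subset_Icc_self (Q.mem01' hg0 hs))
          rw [abs_of_nonneg (sq_nonneg _)]
          nlinarith [h1.1, h1.2, h2.1, h2.2]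
    have iS : IntervalIntegrable (fun t => wq m g t * (1 - pProf g t ^ 2)) volume 0 1 :=
      (intWq_comp Q hm0 (φ := fun a => 1 - a ^ 2) (by fun_prop)).1
    set L : ℝ → ℝ := fun t => 2 * (m:ℝ) * g t ^ m -
      2 * (t * ((m:ℝ) * g t ^ (m - 1) * deriv g t)) - (m:ℝ) * g t ^ (m + 2) +
      (m:ℝ) / ((m:ℝ) + 2) * (t * (((m + 2 : ℕ):ℝ) * g t ^ (m + 2 - 1) * deriv g t)) +
      2 * ((m:ℝ) * g t ^ (m - 1) * us (g t) * deriv g t) with hL
    have jA := (Q.intPow m).const_mul (2 * (m:ℝ))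
    have jB := iW.const_mul 2
    have jC := (Q.intPow (m + 2)).const_mul (m:ℝ)
    have jD := iV.const_mul ((m:ℝ) / ((m:ℝ) + 2))
    have jE := iT'.const_mul 2
    have eS : (∫ t in (0:ℝ)..1, wq m g t * (1 - pProf g t ^ 2)) +
        (∫ t in (0:ℝ)..1, wq m g t * (pProf g t - us (g t)) ^ 2) = ∫ t in (0:ℝ)..1, L t := by
      rw [← intervalIntegral.integral_add iS iQ]
      refine integral_congr_Ioo fun t ht => ?_
      have hp := wq_mul_pProf (m := m) Q ht
      have hsq := us_sq (Ioc_subset_Icc_self (Q.mem01' hg0 ht))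
      simp only [hL, wq] at hp ⊢
      rw [← pow_sub_one_mul hm0 (g t), show m + 2 - 1 = m - 1 + 2 by omega,
        show m + 2 = m - 1 + 3 by omega, pow_add (g t) (m - 1) 2, pow_add (g t) (m - 1) 3]
      have hne : (m:ℝ) + 2 ≠ 0 := by positivity
      push_cast [show m - 1 + 3 = m + 2 by omega]
      field_simp
      have hp' : g t ^ (m - 1) * (g t - t * deriv g t) * pProf g t =
          -(g t ^ (m - 1) * deriv g t) := by
        refine mul_left_cancel₀ (Nat.cast_ne_zero.2 hm0 : (m:ℝ) ≠ 0) ?_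
        linear_combination hp
      linear_combination g t ^ (m - 1) * (g t - t * deriv g t) * hsq - 2 * us (g t) * hp'
    rw [hL, intervalIntegral.integral_add (((jA.sub jB).sub jC).add jD) jE,
      intervalIntegral.integral_add ((jA.sub jB).sub jC) jD,
      intervalIntegral.integral_sub (jA.sub jB) jC, intervalIntegral.integral_sub jA jB,
      intervalIntegral.integral_const_mul, intervalIntegral.integral_const_mul,
      intervalIntegral.integral_const_mul, intervalIntegral.integral_const_mul,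
      intervalIntegral.integral_const_mul] at eS
    have eJ : jay m g * (∫ t in (0:ℝ)..1, g t ^ m) = ((m:ℝ) + 1) * (∫ t in (0:ℝ)..1, g t ^ m) -
        ∫ t in (0:ℝ)..1, wq m g t * (1 - pProf g t ^ 2) := by
      rw [jay, sub_mul, div_mul_cancel₀ _ (Z_pos Q).ne']; rfl
    have he := fend_mem Q hg0
    have eb : (∫ r in (0:ℝ)..fend g, (m:ℝ) * r ^ (m - 1) * (1 - us r) ^ 2) =
        2 * fend g ^ m - (m:ℝ) / ((m:ℝ) + 2) * fend g ^ (m + 2) -
          2 * ∫ r in (0:ℝ)..fend g, (m:ℝ) * r ^ (m - 1) * us r := by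
      rw [intervalIntegral.integral_congr (g := fun r => 2 * ((m:ℝ) * r ^ (m - 1)) -
        (m:ℝ) / ((m:ℝ) + 2) * (((m + 2 : ℕ):ℝ) * r ^ (m + 2 - 1)) -
        2 * ((m:ℝ) * r ^ (m - 1) * us r)) fun r hr => ?_,
        intervalIntegral.integral_sub, intervalIntegral.integral_sub,
        intervalIntegral.integral_const_mul (2:ℝ), intervalIntegral.integral_const_mul (2:ℝ),
        intervalIntegral.integral_const_mul ((m:ℝ) / ((m:ℝ) + 2)), primitive_pow hm0,
        primitive_pow (show m + 2 ≠ 0 by omega)]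
      · exact (hcW.const_mul _).intervalIntegrable _ _
      · exact (hcW2.const_mul _).intervalIntegrable _ _
      · exact ((hcW.const_mul _).sub (hcW2.const_mul _)).intervalIntegrable _ _
      · exact (hcT.const_mul _).intervalIntegrable _ _
      · rw [uIcc_of_le he.1] at hr
        have hne : (m:ℝ) + 2 ≠ 0 := by positivity
        simp only [show m + 2 - 1 = m - 1 + 2 by omega, pow_add]
        push_cast
        field_simp
        linear_combination r ^ (m - 1) * us_sq (r := r) ⟨hr.1, hr.2.trans he.2⟩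
    have hk : (m:ℝ) * ((m:ℝ) + 3) / ((m:ℝ) + 2) = (m:ℝ) + (m:ℝ) / ((m:ℝ) + 2) := by
      have hne : (m:ℝ) + 2 ≠ 0 := by positivity
      field_simp
      ring
    rw [eJ, qhR, eb, hk]
    linear_combination -eS + 2 * eW - (m:ℝ) / ((m:ℝ) + 2) * eV - 2 * eT
  have hu0 : us 0 = 1 := us_zero
  have hu := key us halfProf_us hu0
  have hq : qhR m us = 0 := by
    rw [qhR, fend_us, intervalIntegral.integral_same, add_zero,
      integral_congr_Ioo (g' := fun _ => 0) fun t ht => by
        rw [pProf_us ht, us_us (Ioo_subset_Icc_self ht)]; ring, intervalIntegral.integral_zero]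
  have hj : jay m us = 1 := by
    have hZ := Z_pos halfProf_us (m := m)
    rw [jay, integral_congr_Ioo (g' := fun t => (m:ℝ) * us t ^ m) fun t ht => by
      rw [pProf_us ht, ← us_sq (Ioo_subset_Icc_self ht),
        (ell_point (s := 1) (fun x _ => by simp [us]) ht).1,
        ← pow_sub_one_mul (show m ≠ 0 by omega) (us t)]
      have : us t ≠ 0 := (sqrt_pos.2 (by nlinarith [ht.1, ht.2])).ne'
      field_simp
      simpa [us] using this, intervalIntegral.integral_const_mul, mul_div_assoc, div_self hZ.ne']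
    ring
  rw [hj, hq] at hu
  rw [key f P h0]
  linarith

/-! ### The scalar form -/

theorem half_ball (j : ℕ) : 2 * (∫ t in (0:ℝ)..1, us t ^ j) = cosI (j + 1) := by
  have hc : Continuous fun t => us t ^ j := continuous_us.pow j
  have hneg : (∫ t in (-1:ℝ)..0, us t ^ j) = ∫ t in (0:ℝ)..1, us t ^ j := by
    have h := intervalIntegral.integral_comp_neg (f := fun t => us t ^ j) (a := (0:ℝ)) (b := 1)
    simp only [us, neg_sq, neg_zero] at h
    exact h.symm
  have hsum := intervalIntegral.integral_add_adjacent_intervals (μ := volume)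
    (hc.intervalIntegrable (-1) 0) (hc.intervalIntegrable 0 1)
  rw [hneg] at hsum
  rw [← integral_ball j]
  simp only [us] at hsum ⊢
  linarith

theorem cst_eq (hm : m ≠ 0) :
    cst m * (∫ t in (0:ℝ)..1, us t ^ (m - 1)) = ∫ t in (0:ℝ)..1, us t ^ m := by
  have h1 := half_ball (m - 1)
  rw [Nat.sub_add_cancel (Nat.one_le_iff_ne_zero.2 hm)] at h1
  have h2 := half_ball m
  have := cosI_pos m
  rw [cst, div_mul_eq_mul_div, div_eq_iff this.ne']
  linear_combination (∫ t in (0:ℝ)..1, us t ^ m) * h1 - (∫ t in (0:ℝ)..1, us t ^ (m - 1)) * h2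

theorem jay_pos (P : HalfProf f) (hm : m ≠ 0) : 0 < jay m f := by
  refine pos_of_mul_pos_left ((intervalIntegral.intervalIntegral_pos_of_pos_on (intInvD P (m := m))
    (fun x hx => ?_) one_pos).trans_le (jay_ge P hm)) (Z_pos P).le
  have hx' : x ∈ Ico (0:ℝ) 1 := ⟨hx.1.le, hx.2⟩
  exact mul_pos (pow_pos (P.pos x hx') m)
    (pow_pos (div_pos (bb_pos P hx') (den_pos P hx')) 2)

/-- `X = Z/Z₀ - 1`. -/
noncomputable def relX (m : ℕ) (f : ℝ → ℝ) : ℝ :=
  (∫ t in (0:ℝ)..1, f t ^ m) / (∫ t in (0:ℝ)..1, us t ^ m) - 1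

/-- `U = κ (W - W₀)/Z₀ - (m+1) X`. -/
noncomputable def relU (m : ℕ) (f : ℝ → ℝ) : ℝ :=
  (m:ℝ) * ((m:ℝ) + 3) / ((m:ℝ) + 2) *
      ((∫ t in (0:ℝ)..1, f t ^ (m + 2)) - ∫ t in (0:ℝ)..1, us t ^ (m + 2)) /
      (∫ t in (0:ℝ)..1, us t ^ m) - ((m:ℝ) + 1) * relX m f

/-- `G = X - m/(m-1) (P/P₀ - 1)`. -/
noncomputable def relG (m : ℕ) (f : ℝ → ℝ) : ℝ :=
  relX m f - (m:ℝ) / ((m:ℝ) - 1) *
    ((∫ t in (0:ℝ)..1, f t ^ (m - 1)) / (∫ t in (0:ℝ)..1, us t ^ (m - 1)) - 1)

/-- `j = J Z/Z₀ = 1 + U + qh`. -/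
noncomputable def relJ (m : ℕ) (f : ℝ → ℝ) : ℝ :=
  1 + relU m f + qhR m f / ∫ t in (0:ℝ)..1, us t ^ m

/-- The scalar slack of the criterion. -/
noncomputable def slack (m : ℕ) (f : ℝ → ℝ) : ℝ :=
  -(quad m * (relX m f - relU m f) ^ 2) +
    quad m * (qhR m f / ∫ t in (0:ℝ)..1, us t ^ m) * (1 + 2 * relX m f - relU m f) +
    (relG m f + (breg m f + bdry m f - negR m f) / ∫ t in (0:ℝ)..1, us t ^ m) * relJ m f

/-- `j = J (1 + X) > 0`. -/
theorem relJ_eq (P : HalfProf f) (h0 : f 0 = 1) (hm : 3 ≤ m) :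
    relJ m f = jay m f * (1 + relX m f) ∧ 0 < relJ m f := by
  have hZ0 := Z_pos halfProf_us (m := m)
  have hZ := Z_pos P (m := m)
  have e : relJ m f = jay m f * (1 + relX m f) := by
    have hne : (m:ℝ) + 2 ≠ 0 := by positivity
    rw [relX, add_sub_cancel, ← mul_div_assoc, jay_inv P h0 hm, relJ, relU, relX]
    field_simp
    ring
  refine ⟨e, ?_⟩
  rw [e, relX, add_sub_cancel]
  exact mul_pos (jay_pos P (by omega)) (div_pos hZ hZ0)

/-- **The criterion as a scalar slack.** -/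
theorem lamMix_slack (P : HalfProf f) (h0 : f 0 = 1) (hm : 3 ≤ m) :
    lamMix m f * (quad m * relJ m f * (1 + relX m f)) = slack m f := by
  obtain ⟨ej, hj⟩ := relJ_eq P h0 hm
  have hb := quad_pos m
  have hZ0 := Z_pos halfProf_us (m := m)
  have hZ := Z_pos P (m := m)
  have hJ := jay_pos P (show m ≠ 0 by omega)
  have hP0 := Z_pos halfProf_us (m := m - 1)
  -- `b K (1+X) = b (1+2X-U) + G + (gain - ν)`
  have hK : (quad m + ((m:ℝ) + 1) * penMean m (phiR m) f) * (1 + relX m f) =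
      quad m * (1 + 2 * relX m f - relU m f) + relG m f +
        (breg m f + bdry m f - negR m f) / ∫ t in (0:ℝ)..1, us t ^ m := by
    have hp := pen_inv P h0 hm
    have hc := cst_eq (show m ≠ 0 by omega)
    have hq : cst m = 1 - quad m := by rw [quad]; ring
    have hm1 : (0:ℝ) < (m:ℝ) - 1 := by
      have : (3:ℝ) ≤ m := by exact_mod_cast hm
      linarith
    have hne : (m:ℝ) + 2 ≠ 0 := by positivity
    rw [relX, relU, relX, relG, relX]
    set Z := ∫ t in (0:ℝ)..1, f t ^ m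
    set Z0 := ∫ t in (0:ℝ)..1, us t ^ m
    set Pf := ∫ t in (0:ℝ)..1, f t ^ (m - 1)
    set P0 := ∫ t in (0:ℝ)..1, us t ^ (m - 1)
    have e1 : (Pf / P0 - 1) = cst m * (Pf - P0) / Z0 := by
      rw [← hc]
      have := cst_pos m
      field_simp
    rw [e1]
    calc (quad m + ((m:ℝ) + 1) * penMean m (phiR m) f) * (1 + (Z / Z0 - 1))
        = (quad m * Z + ((m:ℝ) + 1) * Z * penMean m (phiR m) f) / Z0 := by ring
      _ = _ := by
          rw [hp, hq]
          field_simp
          ring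
  have e : lamMix m f * (quad m * relJ m f * (1 + relX m f)) =
      (quad m + ((m:ℝ) + 1) * penMean m (phiR m) f) * (1 + relX m f) * relJ m f -
        quad m * (1 + relX m f) ^ 2 := by
    rw [lamMix, ej]
    field_simp
  rw [e, hK, slack, relJ]
  ring

/-- Positive slack makes the criterion positive. -/
theorem lamMix_pos_of_slack (P : HalfProf f) (h0 : f 0 = 1) (hm : 3 ≤ m) (h : 0 < slack m f) :
    0 < lamMix m f := by
  rw [← lamMix_slack P h0 hm] at h
  refine pos_of_mul_pos_left h ?_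
  obtain ⟨-, hj⟩ := relJ_eq P h0 hm
  have := div_pos (Z_pos P (m := m)) (Z_pos halfProf_us (m := m))
  exact mul_nonneg (mul_nonneg (quad_pos m).le hj.le) (by rw [relX]; linarith)

theorem lamMix_smul {s : ℝ} (hs : 0 < s) (hm : m ≠ 0) (P : HalfProf f) :
    lamMix m (fun t => s * f t) = lamMix m f := by
  have hd : ∀ t, deriv (fun x => s * f x) t = s * deriv f t := fun t =>
    congrFun (deriv_const_mul_field' s) t
  have hp : ∀ t, pProf (fun x => s * f x) t = pProf f t := fun t => by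
    simp only [pProf, hd]
    rw [show s * f t - t * (s * deriv f t) = s * (f t - t * deriv f t) by ring, ← mul_neg,
      mul_div_mul_left _ _ hs.ne']
  have hI : (∫ t in (0:ℝ)..1, (s * f t) ^ m) = s ^ m * ∫ t in (0:ℝ)..1, f t ^ m := by
    simp only [mul_pow, intervalIntegral.integral_const_mul]
  have hw : ∀ (A : ℝ → ℝ) (c : ℝ),
      (∫ t in (0:ℝ)..1, c * (s * f t) ^ (m - 1) * (s * f t - t * deriv (fun x => s * f x) t) * A t) =
        s ^ m * ∫ t in (0:ℝ)..1, c * f t ^ (m - 1) * (f t - t * deriv f t) * A t := by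
    intro A c
    rw [← intervalIntegral.integral_const_mul]
    refine intervalIntegral.integral_congr fun t _ => ?_
    rw [hd, mul_pow, ← pow_sub_one_mul hm s]
    ring
  have hZ := (Z_pos P (m := m)).ne'
  have hsm : s ^ m ≠ 0 := (pow_pos hs m).ne'
  have h1 := hw (fun t => phiR m (pProf f t) - phiR m t) 1
  simp only [one_mul] at h1
  simp only [lamMix, penMean, jay, hp, hI, hw, h1]
  field_simp

/-- **Reduction of `LemmaMix`:** it is enough that the slack be positive at normalised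
non-elliptical profiles violating the profile inequality, or attaining it. -/
theorem lemmaMix_of_slack (hm : 3 ≤ m)
    (h : ∀ f : ℝ → ℝ, HalfProf f → f 0 = 1 →
      (∫ t in (0:ℝ)..1, f t ^ (m - 1)) ^ m * Univ.ballInt m ^ (m - 1) ≤
        Univ.ballInt (m - 1) ^ m * (∫ t in (0:ℝ)..1, f t ^ m) ^ (m - 1) →
      ¬ IsEll f → 0 < slack m f) : LemmaMix m := by
  intro f hc ha hn hZ hle
  have P := halfProf_of (show m ≠ 0 by omega) hc ha hn hZ
  have hf0 := P.pos 0 (left_mem_Ico.2 zero_lt_one)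
  set s := (f 0)⁻¹ with hs
  have hs0 : 0 < s := inv_pos.2 hf0
  set g : ℝ → ℝ := fun t => s * f t
  have Q : HalfProf g := ⟨hc.smul hs0.le, fun x hx y hy hxy => mul_le_mul_of_nonneg_left (ha hx hy hxy) hs0.le,
    fun t ht => mul_nonneg hs0.le (hn t ht), fun t ht => mul_pos hs0 (P.pos t ht)⟩
  have hell : IsEll g → IsEll f := fun ⟨a, ha'⟩ => ⟨f 0 * a, fun t ht => by
    rw [mul_assoc, ← ha' t ht]
    show f t = f 0 * (s * f t)
    rw [hs, ← mul_assoc, mul_inv_cancel₀ hf0.ne', one_mul]⟩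
  have key : (∫ t in (0:ℝ)..1, f t ^ (m - 1)) ^ m * Univ.ballInt m ^ (m - 1) ≤
      Univ.ballInt (m - 1) ^ m * (∫ t in (0:ℝ)..1, f t ^ m) ^ (m - 1) → IsEll f := by
    intro hN
    by_contra hne
    have hg0 : g 0 = 1 := inv_mul_cancel₀ hf0.ne'
    refine not_lt.2 hle ?_
    rw [← lamMix_smul hs0 (show m ≠ 0 by omega) P]
    refine lamMix_pos_of_slack Q hg0 hm (h g Q hg0 ?_ fun he => hne (hell he))
    simp only [g, mul_pow, intervalIntegral.integral_const_mul, ← pow_mul]
    rw [mul_comm (m - 1) m, mul_assoc, mul_left_comm _ (s ^ _)]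
    exact mul_le_mul_of_nonneg_left hN (pow_nonneg hs0.le _)
  refine ⟨?_, fun he => key he.ge⟩
  by_contra hlt
  obtain ⟨a, ha'⟩ := key (not_le.1 hlt).le
  refine hlt (le_of_eq ?_)
  rw [integral_congr_Ioo (g := fun t => f t ^ m) (g' := fun t => a ^ m * us t ^ m)
      (fun t ht => by rw [ha' t ht, mul_pow]; rfl),
    integral_congr_Ioo (g := fun t => f t ^ (m - 1)) (g' := fun t => a ^ (m - 1) * us t ^ (m - 1))
      (fun t ht => by rw [ha' t ht, mul_pow]; rfl),
    intervalIntegral.integral_const_mul, intervalIntegral.integral_const_mul]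
  simp only [Univ.ballInt, us, mul_pow, ← pow_mul]
  rw [mul_comm (m - 1) m]
  ring

end Vale.Agent.P237.AllN
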