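import Vale.Agent.P237.AllN.InvGauge
import Vale.Agent.P237.AllN.GaugeBall

/-!
# P237, all dimensions: the exact gain in the variables of the assembly

`InvGauge` gives the hypothesis `hid` of `GaugeBall.lemmaMix_of_gain` with equality, for the gain
`(breg + bdry + b qh - negR) / Z₀`.
-/

open MeasureTheory Set Real Filter Topology

namespace Vale.Agent.P237.AllN

variable {m : ℕ} {f : ℝ → ℝ}

/-- The exact gain. -/
noncomputable def invGain (m : ℕ) (f : ℝ → ℝ) : ℝ :=
  (breg m f + bdry m f + quad m * qhR m f - negR m f) / Univ.ballInt m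

theorem ballInt_us (j : ℕ) : Univ.ballInt j = ∫ t in (0:ℝ)..1, us t ^ j := rfl

/-- **The exact identity:** `L + G = (1+X) (n E[φ_r p - φ_r t] + b (J - 1))`. -/
theorem invGain_id (P : HalfProf f) (h0 : f 0 = 1) (hm : 3 ≤ m) :
    GaugeBall.linGain m f + invGain m f = GaugeBall.volRatio m f *
      (((m:ℝ) + 1) * penMean m (phiR m) f + quad m * (jay m f - 1)) := by
  have hp := pen_inv P h0 hm
  have hj := jay_inv P h0 hm
  have hc := cst_eq (show m ≠ 0 by omega)
  have hZ0 := Z_pos halfProf_us (m := m)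
  have hP0 := Z_pos halfProf_us (m := m - 1)
  have hcp := cst_pos m
  have hm1 : (0:ℝ) < (m:ℝ) - 1 := by
    have : (3:ℝ) ≤ m := by exact_mod_cast hm
    linarith
  have hne : (m:ℝ) + 2 ≠ 0 := by positivity
  rw [GaugeBall.linGain, GaugeBall.volRatio, GaugeBall.secRatio, invGain, ballInt_us, ballInt_us]
  have e : (∫ t in (0:ℝ)..1, f t ^ (m - 1)) / (∫ t in (0:ℝ)..1, us t ^ (m - 1)) - 1 =
      cst m * ((∫ t in (0:ℝ)..1, f t ^ (m - 1)) - ∫ t in (0:ℝ)..1, us t ^ (m - 1)) /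
        ∫ t in (0:ℝ)..1, us t ^ m := by
    rw [← hc]
    field_simp
  have hq : cst m = 1 - quad m := by rw [quad]; ring
  rw [e]
  symm
  calc (∫ t in (0:ℝ)..1, f t ^ m) / (∫ t in (0:ℝ)..1, us t ^ m) *
        (((m:ℝ) + 1) * penMean m (phiR m) f + quad m * (jay m f - 1))
      = (((m:ℝ) + 1) * (∫ t in (0:ℝ)..1, f t ^ m) * penMean m (phiR m) f +
          quad m * (jay m f * (∫ t in (0:ℝ)..1, f t ^ m) - ∫ t in (0:ℝ)..1, f t ^ m)) /
          ∫ t in (0:ℝ)..1, us t ^ m := by ring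
    _ = _ := by
        rw [hp, hj, hq]
        field_simp
        ring

/-- `qhR = 0` forces the slopes of the ball. -/
theorem slopes_of_qhR (P : HalfProf f) (h0 : f 0 = 1) (hm : m ≠ 0) (hq : qhR m f = 0) :
    ∀ᵐ t : ℝ, t ∈ Ioo (0:ℝ) 1 → pProf f t = √(1 - f t ^ 2) := by
  have hnn : ∀ t ∈ Ioo (0:ℝ) 1, 0 ≤ wq m f t * (pProf f t - us (f t)) ^ 2 := fun t ht =>
    mul_nonneg (mul_nonneg (mul_nonneg (Nat.cast_nonneg m)
      (pow_nonneg (P.pos t ⟨ht.1.le, ht.2⟩).le _)) (P.bounds ht).1.le) (sq_nonneg _)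
  have hi : IntegrableOn (fun t => wq m f t * (pProf f t - us (f t)) ^ 2) (Ioo (0:ℝ) 1) := by
    rw [← intervalIntegrable_iff_integrableOn_Ioo_of_le zero_le_one]
    refine P.intWgt_mul hm ((P.measurable_pProf.sub (continuous_us.comp_aestronglyMeasurable
      ((P.continuousOn.mono Ioo_subset_Ico_self).aestronglyMeasurable measurableSet_Ioo))).pow 2)
      (C := 4) fun s hs => ?_
    have h1 := (P.bounds hs).2
    have h2 := us_mem (Ioc_subset_Icc_self (P.mem01' h0 hs))
    rw [abs_of_nonneg (sq_nonneg _)]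
    nlinarith [h1.1, h1.2, h2.1, h2.2]
  have hb : 0 ≤ ∫ r in (0:ℝ)..fend f, (m:ℝ) * r ^ (m - 1) * (1 - us r) ^ 2 :=
    intervalIntegral.integral_nonneg (fend_mem P h0).1 fun r hr => by have := hr.1; positivity
  rw [qhR, intervalIntegral.integral_of_le zero_le_one, integral_Ioc_eq_integral_Ioo] at hq
  have hz : ∫ t in Ioo (0:ℝ) 1, wq m f t * (pProf f t - us (f t)) ^ 2 = 0 :=
    le_antisymm (by linarith) (setIntegral_nonneg measurableSet_Ioo hnn)
  rw [setIntegral_eq_zero_iff_of_nonneg_ae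
    ((ae_restrict_iff' measurableSet_Ioo).2 (.of_forall hnn)) hi, EventuallyEq,
    ae_restrict_iff' measurableSet_Ioo] at hz
  filter_upwards [hz] with t ht htm
  have hw : 0 < wq m f t := mul_pos (mul_pos (Nat.cast_pos.2 (Nat.pos_of_ne_zero hm))
    (pow_pos (P.pos t ⟨htm.1.le, htm.2⟩) _)) (P.bounds htm).1
  rcases mul_eq_zero.1 (ht htm) with h | h
  · exact absurd h hw.ne'
  · exact sub_eq_zero.1 (pow_eq_zero_iff two_ne_zero |>.1 h)

/-- **`LemmaMix` from one scalar inequality** on normalised profiles violating the profile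
inequality: `L + G ≤ b (j-1-X)²/j` only when `L = 0` and `qh = 0`. -/
theorem lemmaMix_of_scalar (hm : 3 ≤ m)
    (h : ∀ f : ℝ → ℝ, HalfProf f → f 0 = 1 →
      GaugeBall.secRatio m f ^ m ≤ GaugeBall.volRatio m f ^ (m - 1) →
      GaugeBall.linGain m f + invGain m f ≤ GaugeBall.corr m f →
        GaugeBall.linGain m f = 0 ∧ qhR m f = 0) : LemmaMix m :=
  GaugeBall.lemmaMix_of_gain (by omega) (invGain m) (fun _ P h0 => (invGain_id P h0 hm).le)
    fun f P h0 hN hle =>
      ⟨(h f P h0 hN hle).1, slopes_of_qhR P h0 (by omega) (h f P h0 hN hle).2⟩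

end Vale.Agent.P237.AllN
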