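import Vale.Agent.P237.AllN.ChiConj
import Vale.Agent.P237.AllN.GaugeRange

/-!
# P237, all dimensions: the value of `σ` at a pivot

With `σ(r) = (T(r) - √(1-r²))/r`, `G(r) = m/(m+1) r^(m+1) - c r^m` and `M = c - m/(m+1)`,
`M σ(r₀) + Z₀ L` is the linear functional of the profile with kernel `G + M 1_{r₀<r}`. The exact
conjugate of the gain bounds it by `μ chiGain + A/μ`, hence `σ(r₀)²` by the gain and `L`.
-/

open MeasureTheory Set Real Filter Topology
open Vale.Agent.P237.Univ.OneD (Lp)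

namespace Vale.Agent.P237.AllN.InvPivot

variable {m : ℕ} {f : ℝ → ℝ} {r₀ : ℝ}

/-- `σ` at the level `r`. -/
noncomputable def sigR (f : ℝ → ℝ) (r : ℝ) : ℝ := (dist01 f r - us r) / r

/-- The kernel of `L`. -/
noncomputable def pivG (m : ℕ) (r : ℝ) : ℝ :=
  (m:ℝ) / ((m:ℝ) + 1) * r ^ (m + 1) - cst m * r ^ m

/-- Minus the total mass of the kernel. -/
noncomputable def pivM (m : ℕ) : ℝ := cst m - (m:ℝ) / ((m:ℝ) + 1)

/-- `G(r)/r²`. -/
noncomputable def pivH (m : ℕ) (r : ℝ) : ℝ :=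
  (m:ℝ) / ((m:ℝ) + 1) * r ^ (m - 1) - cst m * r ^ (m - 2)

theorem pivM_pos (hm : m ≠ 0) : 0 < pivM m := by
  have h := (cst_sq_range hm).1
  have hm0 : (0:ℝ) < m := Nat.cast_pos.2 (Nat.pos_of_ne_zero hm)
  have hlt : (m:ℝ) / ((m:ℝ) + 1) < 1 := (div_lt_one (by linarith)).2 (by linarith)
  have hq : 0 < (m:ℝ) / ((m:ℝ) + 1) := by positivity
  rw [pivM, sub_pos]
  nlinarith [cst_pos m]

theorem pivG_eq (hm : 2 ≤ m) (r : ℝ) : pivG m r = r ^ 2 * pivH m r := by
  rw [pivG, pivH, show m + 1 = m - 1 + 2 by omega]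
  conv_lhs => rw [show r ^ m = r ^ (m - 2) * r ^ 2 by rw [← pow_add]; congr 1; omega]
  rw [pow_add]; ring

theorem pivG_one (m : ℕ) : pivG m 1 + pivM m = 0 := by simp [pivG, pivM]

theorem continuous_pivH (m : ℕ) : Continuous (pivH m) := by unfold pivH; fun_prop

/-! ### The level of the pivot -/

/-- Where the profile crosses the level `r₀`. -/
theorem dist01_split (P : HalfProf f) (h0 : f 0 = 1) (hr : r₀ ∈ Ioo (0:ℝ) 1) :
    0 < dist01 f r₀ ∧ (dist01 f r₀ < 1 → f (dist01 f r₀) = r₀ ∧ fend f ≤ r₀) ∧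
      (dist01 f r₀ = 1 → r₀ ≤ fend f) := by
  have hT := dist01_mem f r₀
  set T := dist01 f r₀ with hTdef
  have hpos : 0 < T := by
    have hev : ∀ᶠ x in 𝓝[>] (0:ℝ), r₀ < f x := by
      have h := ((P.continuousOn 0 ⟨le_rfl, one_pos⟩).mono_of_mem_nhdsWithin
        (Ico_mem_nhdsGT one_pos)).tendsto
      rw [h0] at h
      exact h.eventually (lt_mem_nhds hr.2)
    obtain ⟨x, hx, hxm⟩ := (hev.and (Ioo_mem_nhdsGT one_pos)).exists
    exact hxm.1.trans_le ((lt_iff_lt_dist01 P hxm).2 hx)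
  refine ⟨hpos, fun hlt => ?_, fun heq => ?_⟩
  · have hTI : T ∈ Ioo (0:ℝ) 1 := ⟨hpos, hlt⟩
    have hc := (P.continuousAt hTI).tendsto
    have h1 : r₀ ≤ f T := by
      refine ge_of_tendsto (hc.mono_left (nhdsWithin_le_nhds (s := Iio T))) ?_
      filter_upwards [Ioo_mem_nhdsLT hpos] with x hx
      exact ((lt_iff_lt_dist01 P ⟨hx.1, hx.2.trans hlt⟩).1 hx.2).le
    have hle : ∀ x ∈ Ioo T 1, f x ≤ r₀ := fun x hx => not_lt.1 fun hn =>
      not_le.2 hx.1 ((lt_iff_lt_dist01 P ⟨hpos.trans hx.1, hx.2⟩).2 hn)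
    have h2 : f T ≤ r₀ := by
      refine le_of_tendsto (hc.mono_left (nhdsWithin_le_nhds (s := Ioi T))) ?_
      filter_upwards [Ioo_mem_nhdsGT hlt] with x hx using hle x hx
    refine ⟨le_antisymm h2 h1, le_of_tendsto (tendsto_fend P) ?_⟩
    filter_upwards [Ioo_mem_nhdsLT hlt] with x hx using hle x hx
  · refine ge_of_tendsto (tendsto_fend P) ?_
    filter_upwards [Ioo_mem_nhdsLT one_pos] with x hx
    exact ((lt_iff_lt_dist01 P hx).1 (hTdef ▸ heq ▸ hx.2)).le

theorem min_fend_le (r₀ : ℝ) (f : ℝ → ℝ) : min (fend f) r₀ ≤ fend f := min_le_left _ _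

/-! ### Change of variables -/

/-- `∫ h(f) f'` on `[0,1]`. -/
theorem int_comp_full (P : HalfProf f) (h0 : f 0 = 1) {h : ℝ → ℝ} (hh : Continuous h) :
    IntervalIntegrable (fun t => h (f t) * deriv f t) volume 0 1 ∧
      ∫ t in (0:ℝ)..1, h (f t) * deriv f t = -∫ r in fend f..1, h r := by
  obtain ⟨i, e⟩ := ibp_comp P (a := fun _ => 1) (a' := fun _ => 0) continuousOn_const
    (fun t _ => hasDerivAt_const t 1) continuousOn_const intervalIntegrable_const hh
  simp only [one_mul, zero_mul, intervalIntegral.integral_zero, zero_add, h0] at i e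
  refine ⟨i, e.trans ?_⟩
  rw [← intervalIntegral.integral_add_adjacent_intervals (hh.intervalIntegrable 0 (fend f))
    (hh.intervalIntegrable (fend f) 1)]
  ring

/-- `∫ h(f) f'` on `[0,T]`, `T < 1`. -/
theorem int_comp_upto (P : HalfProf f) (h0 : f 0 = 1) {h : ℝ → ℝ} (hh : Continuous h) {T : ℝ}
    (hT : T ∈ Ico (0:ℝ) 1) :
    ∫ t in (0:ℝ)..T, h (f t) * deriv f t = -∫ r in f T..1, h r := by
  set H : ℝ → ℝ := fun s => ∫ r in (0:ℝ)..s, h r
  have hHd : ∀ s, HasDerivAt H (h s) s := fun s =>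
    intervalIntegral.integral_hasDerivAt_right (hh.intervalIntegrable 0 s)
      hh.aestronglyMeasurable.stronglyMeasurableAtFilter hh.continuousAt
  have hl : Lp T fun t => H (f t) :=
    Lp.comp (P.lp hT.2) (fun x _ => hHd x) (hh.continuousOn (s := Icc 0 1)) fun x hx =>
      P.mem01 h0 ⟨hx.1, hx.2.trans hT.2.le⟩
  have e : ∫ t in (0:ℝ)..T, h (f t) * deriv f t = H (f T) - H (f 0) := by
    rw [← hl.ftc hT.1]
    refine intervalIntegral.integral_congr_ae ?_
    filter_upwards [P.ae_diff] with t htd htm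
    rw [uIoc_of_le hT.1] at htm
    exact ((hHd (f t)).comp t (htd ⟨htm.1, htm.2.trans_lt hT.2⟩).hasDerivAt).deriv.symm
  rw [e, h0, ← intervalIntegral.integral_add_adjacent_intervals (a := (0:ℝ)) (b := f T) (c := 1)
    (hh.intervalIntegrable _ _) (hh.intervalIntegrable _ _)
    |> fun e' => show H (f T) - H 1 = -∫ r in f T..1, h r by simp only [H]; rw [← e']; ring]

theorem int_h_weight (P : HalfProf f) (h0 : f 0 = 1) {h : ℝ → ℝ} (hh : Continuous h) :
    IntervalIntegrable (fun t => h (f t) * (f t - t * deriv f t)) volume 0 1 := by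
  obtain ⟨B, hB⟩ := isCompact_Icc.exists_bound_of_continuousOn (hh.continuousOn (s := Icc 0 1))
  refine (P.intWgt_mul one_ne_zero (hh.comp_aestronglyMeasurable
    ((P.continuousOn.mono Ioo_subset_Ico_self).aestronglyMeasurable measurableSet_Ioo)) (C := B)
    fun s hs => hB _ (P.mem01 h0 (Ioo_subset_Icc_self hs))).congr fun s _ => ?_
  simp only [Nat.cast_one, Nat.sub_self, pow_zero, mul_one, one_mul]
  ring

/-- The integrand of `chiGain`. -/
theorem intChi (P : HalfProf f) (h0 : f 0 = 1) (hm : 2 ≤ m) :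
    IntervalIntegrable (fun t => wq m f t * chiD (f t) (pProf f t)) volume 0 1 := by
  have hτm := continuous_us.comp_aestronglyMeasurable
    ((P.continuousOn.mono Ioo_subset_Ico_self).aestronglyMeasurable
      (μ := volume) (s := Ioo (0:ℝ) 1) measurableSet_Ioo)
  have i1 := P.intWgt_mul (show m - 1 ≠ 0 by omega)
    (F := fun t => (m:ℝ) / ((m - 1 : ℕ):ℝ) * (1 - pProf f t * us (f t)))
    ((aestronglyMeasurable_const.sub (P.measurable_pProf.mul hτm)).const_mul _)
    (C := (m:ℝ) / ((m - 1 : ℕ):ℝ) * 2) fun s hs => by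
      have h1 := (P.bounds hs).2
      have h2 := us_mem (Ioc_subset_Icc_self (P.mem01' h0 hs))
      have h3 : |1 - pProf f s * us (f s)| ≤ 2 := by
        rw [abs_le]; constructor <;> nlinarith [h1.1, h1.2, h2.1, h2.2]
      rw [abs_mul, abs_of_nonneg (div_nonneg (Nat.cast_nonneg m) (Nat.cast_nonneg _))]
      exact mul_le_mul_of_nonneg_left h3 (div_nonneg (Nat.cast_nonneg m) (Nat.cast_nonneg _))
  have i2 := P.intWgt_mul (show m ≠ 0 by omega) (F := fun t => us (pProf f t))
    (continuous_us.comp_aestronglyMeasurable P.measurable_pProf) (C := 1) fun s _ => by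
      rw [us, abs_of_nonneg (sqrt_nonneg _)]
      exact sqrt_le_one.2 (by nlinarith [sq_nonneg (pProf f s)])
  refine (i1.sub i2).congr_ae ?_
  rw [EventuallyEq, ae_restrict_iff' measurableSet_uIoc]
  filter_upwards [Measure.ae_ne volume (1:ℝ)] with t hne hmem
  rw [uIoc_of_le zero_le_one] at hmem
  have hf := (P.mem01' h0 ⟨hmem.1, lt_of_le_of_ne hmem.2 hne⟩).1.ne'
  have hk : (((m - 1 : ℕ):ℝ)) ≠ 0 := Nat.cast_ne_zero.2 (by omega)
  simp only [wq, chiD]
  rw [show m - 1 - 1 = m - 2 by omega, show f t ^ (m - 1) = f t ^ (m - 2) * f t by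
    rw [← pow_succ, show m - 2 + 1 = m - 1 by omega]]
  field_simp

/-! ### The linear functional of a kernel -/

/-- The functional with kernel `r² k₁` below `r₀` and `r² k₂` above. -/
noncomputable def linK (f : ℝ → ℝ) (r₀ : ℝ) (k₁ k₂ : ℝ → ℝ) : ℝ :=
  ((∫ t in (0:ℝ)..dist01 f r₀, k₂ (f t) * (f t - t * deriv f t)) +
      ∫ t in dist01 f r₀..1, k₁ (f t) * (f t - t * deriv f t)) +
    ((∫ r in (0:ℝ)..min (fend f) r₀, k₁ r) + ∫ r in min (fend f) r₀..fend f, k₂ r)

theorem linK_neg (f : ℝ → ℝ) (r₀ : ℝ) (k₁ k₂ : ℝ → ℝ) :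
    linK f r₀ (fun r => -k₁ r) (fun r => -k₂ r) = -linK f r₀ k₁ k₂ := by
  simp only [linK, neg_mul, intervalIntegral.integral_neg]
  ring

/-- **The functional of the pivot kernel `a G + M 1_{r₀<r}`.** -/
theorem linK_pivotA (a : ℝ) (P : HalfProf f) (h0 : f 0 = 1) (hm : 3 ≤ m) (hr : r₀ ∈ Ioo (0:ℝ) 1) :
    linK f r₀ (fun r => a * pivH m r) (fun r => a * pivH m r + pivM m / max r r₀ ^ 2) =
      a * ((∫ t in (0:ℝ)..1, f t ^ m) -
        cst m * ((m:ℝ) / ((m:ℝ) - 1)) * ∫ t in (0:ℝ)..1, f t ^ (m - 1)) +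
        pivM m * (dist01 f r₀ / r₀) := by
  obtain ⟨hTp, hlt, heq⟩ := dist01_split P h0 hr
  have hT := dist01_mem f r₀
  have he := fend_mem P h0
  set T := dist01 f r₀ with hTdef
  set e := min (fend f) r₀ with hedef
  have hh := continuous_pivH m
  set g : ℝ → ℝ := fun r => 1 / max r r₀ ^ 2 with hg
  have hgc : Continuous g := continuous_const.div (by fun_prop) fun r =>
    pow_ne_zero 2 (hr.1.trans_le (le_max_right r r₀)).ne'
  have iH := int_h_weight P h0 hh
  have iG := int_h_weight P h0 hgc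
  have hu : uIcc 0 T ⊆ uIcc (0:ℝ) 1 := by
    rw [uIcc_of_le hT.1, uIcc_of_le zero_le_one]; exact Icc_subset_Icc le_rfl hT.2
  have hu' : uIcc T 1 ⊆ uIcc (0:ℝ) 1 := by
    rw [uIcc_of_le hT.2, uIcc_of_le zero_le_one]; exact Icc_subset_Icc hT.1 le_rfl
  have eK : linK f r₀ (fun r => a * pivH m r) (fun r => a * pivH m r + pivM m / max r r₀ ^ 2) =
      a * ((∫ t in (0:ℝ)..1, pivH m (f t) * (f t - t * deriv f t)) +
        ∫ r in (0:ℝ)..fend f, pivH m r) +
      pivM m * ((∫ t in (0:ℝ)..T, g (f t) * (f t - t * deriv f t)) + ∫ r in e..fend f, g r) := by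
    have d1 : ∀ t, (a * pivH m (f t) + pivM m / max (f t) r₀ ^ 2) * (f t - t * deriv f t) =
        a * (pivH m (f t) * (f t - t * deriv f t)) + pivM m * (g (f t) * (f t - t * deriv f t)) :=
      fun t => by simp only [hg]; ring
    have d2 : ∀ r, a * pivH m r + pivM m / max r r₀ ^ 2 = a * pivH m r + pivM m * g r :=
      fun r => by simp only [hg]; ring
    rw [linK]
    simp only [d1, ← hTdef, ← hedef]
    simp only [d2]
    simp only [mul_assoc a]
    rw [intervalIntegral.integral_add ((iH.mono_set hu).const_mul _)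
        ((iG.mono_set hu).const_mul _),
      intervalIntegral.integral_add ((hh.intervalIntegrable _ _).const_mul _)
        ((hgc.intervalIntegrable _ _).const_mul _),
      intervalIntegral.integral_const_mul, intervalIntegral.integral_const_mul,
      intervalIntegral.integral_const_mul, intervalIntegral.integral_const_mul,
      intervalIntegral.integral_const_mul, intervalIntegral.integral_const_mul,
      ← intervalIntegral.integral_add_adjacent_intervals (iH.mono_set hu) (iH.mono_set hu'),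
      ← intervalIntegral.integral_add_adjacent_intervals (hh.intervalIntegrable 0 e)
        (hh.intervalIntegrable e (fend f))]
    ring
  -- the polynomial part
  obtain ⟨iB, eB⟩ := ibp_comp P (a := fun t => t) (a' := fun _ => 1) continuousOn_id
    (fun t _ => hasDerivAt_id' t) continuousOn_const intervalIntegrable_const hh
  have hpr : ∀ s : ℝ, (∫ r in (0:ℝ)..s, pivH m r) =
      s ^ m / ((m:ℝ) + 1) - cst m / ((m:ℝ) - 1) * s ^ (m - 1) := by
    intro s
    simp only [pivH]
    rw [intervalIntegral.integral_sub (Continuous.intervalIntegrable (by fun_prop) _ _)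
      (Continuous.intervalIntegrable (by fun_prop) _ _), intervalIntegral.integral_const_mul,
      intervalIntegral.integral_const_mul, integral_pow, integral_pow,
      Nat.sub_add_cancel (show 1 ≤ m by omega), show m - 2 + 1 = m - 1 by omega,
      zero_pow (show m ≠ 0 by omega), zero_pow (show m - 1 ≠ 0 by omega),
      Nat.cast_sub (show 1 ≤ m by omega), Nat.cast_sub (show 2 ≤ m by omega)]
    have : (m:ℝ) - 1 ≠ 0 := sub_ne_zero.2 (by exact_mod_cast (show m ≠ 1 by omega))
    have : (m:ℝ) ≠ 0 := by exact_mod_cast (show m ≠ 0 by omega)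
    push_cast
    rw [show (m:ℝ) - 1 + 1 = m by ring, show (m:ℝ) - 2 + 1 = (m:ℝ) - 1 by ring]
    field_simp
    ring
  simp only [one_mul, zero_mul, sub_zero] at eB
  have i1 : IntervalIntegrable (fun t => pivH m (f t) * f t) volume 0 1 :=
    bounded_comp P h0 (h := fun s => pivH m s * s) (hh.mul continuous_id)
  have ePoly : (∫ t in (0:ℝ)..1, pivH m (f t) * (f t - t * deriv f t)) +
      (∫ r in (0:ℝ)..fend f, pivH m r) = (∫ t in (0:ℝ)..1, f t ^ m) -
        cst m * ((m:ℝ) / ((m:ℝ) - 1)) * ∫ t in (0:ℝ)..1, f t ^ (m - 1) := by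
    have es : ∀ t, pivH m (f t) * f t + (∫ r in (0:ℝ)..f t, pivH m r) =
        f t ^ m - cst m * ((m:ℝ) / ((m:ℝ) - 1)) * f t ^ (m - 1) := by
      intro t
      rw [hpr, pivH, sub_mul, mul_assoc, mul_assoc, ← pow_succ, ← pow_succ,
        Nat.sub_add_cancel (show 1 ≤ m by omega), show m - 2 + 1 = m - 1 by omega]
      have : (m:ℝ) - 1 ≠ 0 := sub_ne_zero.2 (by exact_mod_cast (show m ≠ 1 by omega))
      field_simp
      ring
    have i2 : IntervalIntegrable (fun t => ∫ r in (0:ℝ)..f t, pivH m r) volume 0 1 := by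
      simp only [hpr]
      exact bounded_comp P h0 (h := fun s => s ^ m / ((m:ℝ) + 1) -
        cst m / ((m:ℝ) - 1) * s ^ (m - 1)) (by fun_prop)
    rw [← intervalIntegral.integral_const_mul, ← intervalIntegral.integral_sub (P.intPow m)
      ((P.intPow _).const_mul _), ← intervalIntegral.integral_congr (fun t _ => es t),
      intervalIntegral.integral_add i1 i2, ← eB]
    rw [show (fun t => pivH m (f t) * (f t - t * deriv f t)) = fun t =>
      pivH m (f t) * f t - t * (pivH m (f t) * deriv f t) from funext fun t => by ring,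
      intervalIntegral.integral_sub i1 iB]
    ring
  -- the part above the pivot
  have eAbove : (∫ t in (0:ℝ)..T, g (f t) * (f t - t * deriv f t)) + (∫ r in e..fend f, g r) =
      T / r₀ := by
    rcases hT.2.lt_or_eq with h1 | h1
    · obtain ⟨hfT, hel⟩ := hlt h1
      rw [show e = fend f from min_eq_left hel, intervalIntegral.integral_same, add_zero]
      have hfpos : ∀ t ∈ Icc 0 T, r₀ ≤ f t := fun t ht => hfT ▸
        P.anti ⟨ht.1, ht.2.trans h1.le⟩ ⟨hT.1, h1.le⟩ ht.2
      have hinv : Lp T fun t => (f t)⁻¹ :=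
        Lp.comp (φ := fun x => x⁻¹) (φ' := fun x => -(x ^ 2)⁻¹) (lo := r₀) (hi := 1) (P.lp h1)
          (fun x hx => hasDerivAt_inv (hr.1.trans_le hx.1).ne')
          (ContinuousOn.neg (ContinuousOn.inv₀ (by fun_prop)
            fun x hx => pow_ne_zero 2 (hr.1.trans_le hx.1).ne'))
          fun t ht => ⟨hfpos t ht, (P.mem01 h0 ⟨ht.1, ht.2.trans h1.le⟩).2⟩
      have hl := Lp.ident.mul hinv
      rw [show T / r₀ = T * (f T)⁻¹ - 0 * (f 0)⁻¹ by rw [hfT]; ring, ← hl.ftc hT.1]
      refine intervalIntegral.integral_congr_ae ?_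
      filter_upwards [P.ae_diff] with t htd htm
      rw [uIoc_of_le hT.1] at htm
      have ht : t ∈ Ioo (0:ℝ) 1 := ⟨htm.1, htm.2.trans_lt h1⟩
      have hge := hfpos t ⟨htm.1.le, htm.2⟩
      have hd : HasDerivAt (fun t => t * (f t)⁻¹) _ t :=
        (hasDerivAt_id' t).mul ((htd ht).hasDerivAt.inv (hr.1.trans_le hge).ne')
      rw [hd.deriv]
      simp only [hg, max_eq_left hge]
      have := (hr.1.trans_le hge).ne'
      field_simp
      ring
    · have hel := heq h1
      rw [show e = r₀ from min_eq_right hel, h1]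
      obtain ⟨iC, eC⟩ := ibp_comp P (a := fun t => t) (a' := fun _ => 1) continuousOn_id
        (fun t _ => hasDerivAt_id' t) continuousOn_const intervalIntegrable_const hgc
      simp only [one_mul, zero_mul, sub_zero] at eC
      have hG : ∀ s, r₀ ≤ s → (∫ r in (0:ℝ)..s, g r) = 2 / r₀ - 1 / s := by
        intro s hs
        have a1 : (∫ r in (0:ℝ)..r₀, g r) = 1 / r₀ := by
          rw [intervalIntegral.integral_congr (g := fun _ => 1 / r₀ ^ 2) fun r hr' => ?_,
            intervalIntegral.integral_const, smul_eq_mul, sub_zero]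
          · have := hr.1.ne'; field_simp
          · rw [uIcc_of_le hr.1.le] at hr'
            simp only [hg, max_eq_right hr'.2]
        have a2 : (∫ r in r₀..s, g r) = (-(1 / s)) - (-(1 / r₀)) := by
          refine intervalIntegral.integral_eq_sub_of_hasDerivAt (f := fun x => -(1 / x))
            (fun x hx => ?_) (hgc.intervalIntegrable _ _)
          rw [uIcc_of_le hs] at hx
          have := (hasDerivAt_inv (hr.1.trans_le hx.1).ne').neg
          simp only [one_div, hg, max_eq_left hx.1]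
          rw [neg_neg] at this
          exact this
        rw [← intervalIntegral.integral_add_adjacent_intervals (hgc.intervalIntegrable _ r₀)
          (hgc.intervalIntegrable _ _), a1, a2]
        ring
      have hge : ∀ t ∈ Ioo (0:ℝ) 1, r₀ ≤ f t := fun t ht =>
        ((lt_iff_lt_dist01 P ht).1 (show t < dist01 f r₀ by rw [← hTdef, h1]; exact ht.2)).le
      have hfe : 0 < fend f := hr.1.trans_le hel
      have iS : IntervalIntegrable (fun t => g (f t) * f t) volume 0 1 :=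
        bounded_comp P h0 (h := fun s => g s * s) (hgc.mul continuous_id)
      have iP : IntervalIntegrable (fun t => ∫ r in (0:ℝ)..f t, g r) volume 0 1 :=
        bounded_comp P h0 (h := fun s => ∫ r in (0:ℝ)..s, g r)
          (intervalIntegral.continuous_primitive (fun a b => hgc.intervalIntegrable a b) 0)
      have es : (∫ t in (0:ℝ)..1, g (f t) * f t) + (∫ t in (0:ℝ)..1, ∫ r in (0:ℝ)..f t, g r) =
          2 / r₀ := by
        rw [← intervalIntegral.integral_add iS iP,
          integral_congr_Ioo (g' := fun _ => 2 / r₀) fun t ht => ?_]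
        · simp
        · have := (hr.1.trans_le (hge t ht)).ne'
          rw [hG _ (hge t ht)]
          simp only [hg, max_eq_left (hge t ht)]
          field_simp
          ring
      rw [show (fun t => g (f t) * (f t - t * deriv f t)) =
        fun t => g (f t) * f t - t * (g (f t) * deriv f t) from funext fun t => by ring,
        intervalIntegral.integral_sub iS iC]
      have a3 := intervalIntegral.integral_add_adjacent_intervals (μ := volume)
        (hgc.intervalIntegrable (0:ℝ) r₀) (hgc.intervalIntegrable r₀ (fend f))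
      rw [hG r₀ le_rfl] at a3
      rw [hG _ hel] at a3 eC
      have e1 : (2:ℝ) / r₀ - 1 / r₀ = 1 / r₀ := by ring
      linarith
  rw [eK, ePoly, eAbove]

/-- The case `a = 1`: `Z₀ L + M σ(r₀)` up to the constant of the ball. -/
theorem linK_pivot (P : HalfProf f) (h0 : f 0 = 1) (hm : 3 ≤ m) (hr : r₀ ∈ Ioo (0:ℝ) 1) :
    linK f r₀ (pivH m) (fun r => pivH m r + pivM m / max r r₀ ^ 2) =
      (∫ t in (0:ℝ)..1, f t ^ m) -
        cst m * ((m:ℝ) / ((m:ℝ) - 1)) * (∫ t in (0:ℝ)..1, f t ^ (m - 1)) +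
        pivM m * (dist01 f r₀ / r₀) := by
  simpa only [one_mul] using linK_pivotA 1 P h0 hm hr

/-- The constant of the ball. -/
theorem ball_layer (k : ℕ) (hk : k ≠ 0) :
    ∫ r in (0:ℝ)..1, (k:ℝ) * r ^ (k - 1) * us r = ∫ t in (0:ℝ)..1, us t ^ k := by
  have hu0 : us 0 = 1 := by simp [us]
  obtain ⟨-, e⟩ := layer halfProf_us hu0 (a := fun _ => 1) intervalIntegrable_const
    (show Continuous fun r : ℝ => (k:ℝ) * r ^ (k - 1) by fun_prop)
  simp only [one_mul, primitive_pow hk, intervalIntegral.integral_const, sub_zero, smul_eq_mul,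
    mul_one] at e
  rw [e]
  exact (integral_congr_Ioo fun r hr => by rw [dist01_us hr]).symm

/-! ### The Young bound -/

/-- Pointwise conditions on a kernel and its majorant give the bound of its functional. -/
theorem linK_le (P : HalfProf f) (h0 : f 0 = 1) (hm : 2 ≤ m) (hr : r₀ ∈ Ioo (0:ℝ) 1) {μ : ℝ}
    {k₁ k₂ R₁ R₂ : ℝ → ℝ} (hk1 : Continuous k₁) (hk2 : Continuous k₂) (hR1 : Continuous R₁)
    (hR2 : Continuous R₂)
    (h1 : ∀ r ∈ Ioc 0 r₀, ∀ p ∈ Icc (0:ℝ) 1,
      k₁ r ≤ μ * (m * r ^ (m - 1) * chiD r p) + p * R₁ r)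
    (h2 : ∀ r ∈ Icc r₀ 1, ∀ p ∈ Icc (0:ℝ) 1,
      k₂ r ≤ μ * (m * r ^ (m - 1) * chiD r p) + p * R₂ r) :
    linK f r₀ k₁ k₂ ≤ μ * chiGain m f +
      ((∫ r in (0:ℝ)..r₀, R₁ r) + ∫ r in r₀..1, R₂ r) := by
  obtain ⟨hTp, hlt, heq⟩ := dist01_split P h0 hr
  have hT := dist01_mem f r₀
  have he := fend_mem P h0
  set T := dist01 f r₀ with hTdef
  set e := min (fend f) r₀ with hedef
  have he0 : 0 ≤ e := le_min he.1 hr.1.le
  have hee : e ≤ fend f := min_le_left _ _
  have iC := (intChi P h0 hm).const_mul μ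
  have hu : uIcc 0 T ⊆ uIcc (0:ℝ) 1 := by
    rw [uIcc_of_le hT.1, uIcc_of_le zero_le_one]; exact Icc_subset_Icc le_rfl hT.2
  have hu' : uIcc T 1 ⊆ uIcc (0:ℝ) 1 := by
    rw [uIcc_of_le hT.2, uIcc_of_le zero_le_one]; exact Icc_subset_Icc hT.1 le_rfl
  obtain ⟨iR1, eR1⟩ := int_comp_full P h0 hR1
  obtain ⟨iR2, eR2⟩ := int_comp_full P h0 hR2
  have hkey : ∀ t ∈ Ioo (0:ℝ) 1, ∀ k R : ℝ, k ≤ μ * ((m:ℝ) * f t ^ (m - 1) *
      chiD (f t) (pProf f t)) + pProf f t * R →
      k * (f t - t * deriv f t) ≤ μ * (wq m f t * chiD (f t) (pProf f t)) - R * deriv f t := by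
    intro t ht k R hk
    obtain ⟨hq, -⟩ := P.bounds ht
    have hd : deriv f t = -((f t - t * deriv f t) * pProf f t) := by
      rw [pProf, mul_div_cancel₀ _ hq.ne', neg_neg]
    refine (mul_le_mul_of_nonneg_right hk hq.le).trans (le_of_eq ?_)
    rw [wq]
    linear_combination R * hd
  have hp : ∀ t ∈ Ioo (0:ℝ) 1, pProf f t ∈ Icc (0:ℝ) 1 := by
    intro t ht
    refine ⟨div_nonneg (neg_nonneg.2 ?_) (P.bounds ht).1.le, (P.bounds ht).2.2⟩
    rw [← derivWithin_of_isOpen (s := Ioo (0:ℝ) 1) isOpen_Ioo ht]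
    exact (P.anti.mono Ioo_subset_Icc_self).derivWithin_nonpos
  have A2 : ∫ t in (0:ℝ)..T, k₂ (f t) * (f t - t * deriv f t) ≤
      (∫ t in (0:ℝ)..T, μ * (wq m f t * chiD (f t) (pProf f t))) -
        ∫ t in (0:ℝ)..T, R₂ (f t) * deriv f t := by
    rw [← intervalIntegral.integral_sub (iC.mono_set hu) (iR2.mono_set hu)]
    refine intervalIntegral.integral_mono_on_of_le_Ioo hT.1
      ((int_h_weight P h0 hk2).mono_set hu) ((iC.mono_set hu).sub (iR2.mono_set hu)) fun t ht => ?_
    have ht1 : t ∈ Ioo (0:ℝ) 1 := ⟨ht.1, ht.2.trans_le hT.2⟩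
    exact hkey t ht1 _ _ (h2 _ ⟨((lt_iff_lt_dist01 P ht1).1 ht.2).le, (P.mem01' h0 ht1).2⟩ _
      (hp t ht1))
  have A1 : ∫ t in T..1, k₁ (f t) * (f t - t * deriv f t) ≤
      (∫ t in T..1, μ * (wq m f t * chiD (f t) (pProf f t))) -
        ∫ t in T..1, R₁ (f t) * deriv f t := by
    rw [← intervalIntegral.integral_sub (iC.mono_set hu') (iR1.mono_set hu')]
    refine intervalIntegral.integral_mono_on_of_le_Ioo hT.2
      ((int_h_weight P h0 hk1).mono_set hu') ((iC.mono_set hu').sub (iR1.mono_set hu'))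
      fun t ht => ?_
    have ht1 : t ∈ Ioo (0:ℝ) 1 := ⟨hT.1.trans_lt ht.1, ht.2⟩
    have hle : f t ≤ r₀ := not_lt.1 fun hn => not_le.2 ht.1 ((lt_iff_lt_dist01 P ht1).2 hn)
    exact hkey t ht1 _ _ (h1 _ ⟨(P.mem01' h0 ht1).1, hle⟩ _ (hp t ht1))
  have hcx : Continuous fun r : ℝ => μ * ((m:ℝ) * r ^ (m - 2) * (1 - us r)) := by fun_prop
  have hend : ∀ r : ℝ, 0 < r →
      μ * ((m:ℝ) * r ^ (m - 1) * chiD r 1) = μ * ((m:ℝ) * r ^ (m - 2) * (1 - us r)) := by
    intro r hr'
    have := hr'.ne'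
    rw [chiD, show us 1 = 0 by simp [us], show m - 1 = m - 2 + 1 by omega, pow_succ]
    field_simp
    ring
  have B1 : ∫ r in (0:ℝ)..e, k₁ r ≤
      (∫ r in (0:ℝ)..e, μ * ((m:ℝ) * r ^ (m - 2) * (1 - us r))) + ∫ r in (0:ℝ)..e, R₁ r := by
    rw [← intervalIntegral.integral_add (hcx.intervalIntegrable _ _) (hR1.intervalIntegrable _ _)]
    refine intervalIntegral.integral_mono_on_of_le_Ioo he0 (hk1.intervalIntegrable _ _)
      ((hcx.add hR1).intervalIntegrable _ _) fun r hr' => ?_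
    have := h1 r ⟨hr'.1, hr'.2.le.trans (min_le_right _ _)⟩ 1 ⟨zero_le_one, le_rfl⟩
    rwa [hend r hr'.1, one_mul] at this
  have B2 : ∫ r in e..fend f, k₂ r ≤
      (∫ r in e..fend f, μ * ((m:ℝ) * r ^ (m - 2) * (1 - us r))) + ∫ r in e..fend f, R₂ r := by
    rcases le_total (fend f) r₀ with h | h
    · simp [e, min_eq_left h]
    rw [← intervalIntegral.integral_add (hcx.intervalIntegrable _ _) (hR2.intervalIntegrable _ _)]
    refine intervalIntegral.integral_mono_on_of_le_Ioo hee (hk2.intervalIntegrable _ _)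
      ((hcx.add hR2).intervalIntegrable _ _) fun r hr' => ?_
    have hre : r₀ ≤ r := by
      have := hr'.1.le; rwa [hedef, min_eq_right h] at this
    have := h2 r ⟨hre, hr'.2.le.trans he.2⟩ 1 ⟨zero_le_one, le_rfl⟩
    rwa [hend r (hr.1.trans_le hre), one_mul] at this
  have eC : (∫ t in (0:ℝ)..T, μ * (wq m f t * chiD (f t) (pProf f t))) +
      (∫ t in T..1, μ * (wq m f t * chiD (f t) (pProf f t))) +
      ((∫ r in (0:ℝ)..e, μ * ((m:ℝ) * r ^ (m - 2) * (1 - us r))) +
        ∫ r in e..fend f, μ * ((m:ℝ) * r ^ (m - 2) * (1 - us r))) = μ * chiGain m f := by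
    rw [intervalIntegral.integral_add_adjacent_intervals (iC.mono_set hu) (iC.mono_set hu'),
      intervalIntegral.integral_add_adjacent_intervals (hcx.intervalIntegrable _ _)
        (hcx.intervalIntegrable _ _), intervalIntegral.integral_const_mul,
      intervalIntegral.integral_const_mul, chiGain, mul_add]
    rfl
  have eR : -(∫ t in (0:ℝ)..T, R₂ (f t) * deriv f t) - (∫ t in T..1, R₁ (f t) * deriv f t) +
      ((∫ r in (0:ℝ)..e, R₁ r) + ∫ r in e..fend f, R₂ r) =
      (∫ r in (0:ℝ)..r₀, R₁ r) + ∫ r in r₀..1, R₂ r := by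
    rcases hT.2.lt_or_eq with hT1 | hT1
    · obtain ⟨hfT, hel⟩ := hlt hT1
      have hTI : T ∈ Ico (0:ℝ) 1 := ⟨hT.1, hT1⟩
      have s1 := int_comp_upto P h0 hR1 hTI
      have s2 := int_comp_upto P h0 hR2 hTI
      rw [hfT] at s1 s2
      have a1 := intervalIntegral.integral_add_adjacent_intervals (iR1.mono_set hu)
        (iR1.mono_set hu')
      have a2 := intervalIntegral.integral_add_adjacent_intervals (μ := volume)
        (hR1.intervalIntegrable (fend f) r₀) (hR1.intervalIntegrable r₀ 1)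
      have a3 := intervalIntegral.integral_add_adjacent_intervals (μ := volume)
        (hR1.intervalIntegrable 0 (fend f)) (hR1.intervalIntegrable (fend f) r₀)
      rw [show e = fend f from min_eq_left hel, intervalIntegral.integral_same]
      linarith
    · rw [show e = r₀ from min_eq_right (heq hT1), hT1, intervalIntegral.integral_same, eR2]
      have a2 := intervalIntegral.integral_add_adjacent_intervals (μ := volume)
        (hR2.intervalIntegrable r₀ (fend f)) (hR2.intervalIntegrable (fend f) 1)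
      linarith
  rw [linK]
  linarith

/-! ### The base of the majorant -/

/-- The pointwise condition, from the conjugate. -/
theorem kernel_point {r K μ θ p : ℝ} (hm : m ≠ 0) (hr : r ∈ Ioo (0:ℝ) 1) (hμ : 0 < μ)
    (h0 : 0 ≤ θ) (h1 : θ < 1) (hp : p ∈ Icc (0:ℝ) 1)
    (hK : 2 * |K| ≤ θ * μ * m * r ^ m * us r ^ 2) :
    K / r ^ 2 ≤ μ * (m * r ^ (m - 1) * chiD r p) +
      p * (K / (r ^ 2 * us r) + K ^ 2 / (2 * (1 - θ) * m * r ^ m * us r ^ 3) / μ) := by
  have hu : 0 < us r := sqrt_pos.2 (by nlinarith [hr.1, hr.2])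
  have hm0 : (0:ℝ) < m := Nat.cast_pos.2 (Nat.pos_of_ne_zero hm)
  have hr0 := hr.1
  have hd : 0 < μ * m * r ^ (m + 1) * us r := by positivity
  set h := -K / (μ * m * r ^ (m + 1) * us r) with hh
  have hlow : -(θ * (us r / (2 * r))) ≤ h := by
    rw [hh, le_div_iff₀ hd]
    have e : θ * (us r / (2 * r)) * (μ * m * r ^ (m + 1) * us r) =
        θ * μ * m * r ^ m * us r ^ 2 / 2 := by
      rw [pow_succ]; field_simp
    linarith [le_abs_self K]
  obtain ⟨hA, hC⟩ := chiC_le hr h0 h1 hlow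
  have hW : 0 ≤ μ * (m * r ^ (m - 1)) := by positivity
  have key := mul_nonneg hW (chi_conj (f := r) (h := h) ⟨by linarith [hp.1], hp.2⟩ hA)
  have key2 := mul_le_mul_of_nonneg_left hC (mul_nonneg hW hp.1)
  have e1 : μ * (m * r ^ (m - 1)) * h = -K / (r ^ 2 * us r) := by
    rw [hh, show m + 1 = m - 1 + 2 by omega, pow_add]
    field_simp
  have e2 : μ * (m * r ^ (m - 1)) * (r ^ 3 * h ^ 2 / (2 * (1 - θ) * us r)) =
      K ^ 2 / (2 * (1 - θ) * m * r ^ m * us r ^ 3) / μ := by
    have : (1 - θ) ≠ 0 := by linarith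
    have hrm : r ^ m = r ^ (m - 1) * r := by rw [← pow_succ]; congr 1; omega
    rw [hh, show m + 1 = m - 1 + 2 by omega, pow_add, hrm]
    field_simp
  have e3 : μ * (m * r ^ (m - 1)) * h * (p - us r) = -(p * (K / (r ^ 2 * us r))) + K / r ^ 2 := by
    rw [e1]; field_simp; ring
  have e4 : μ * (m * r ^ (m - 1)) * p * (r ^ 3 * h ^ 2 / (2 * (1 - θ) * us r)) =
      p * (K ^ 2 / (2 * (1 - θ) * m * r ^ m * us r ^ 3) / μ) := by
    rw [← e2]; ring
  linarith [key, key2, e3, e4]

/-- The majorant below the pivot, without the quadratic part. -/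
noncomputable def baseLow (m : ℕ) (r₀ r : ℝ) : ℝ := pivH m r / us (max 0 (min r r₀))

/-- The majorant above the pivot, without the quadratic part. -/
noncomputable def baseUp (m : ℕ) (r₀ r : ℝ) : ℝ :=
  (pivG m (max r₀ (min r 1)) + pivM m) / (max r₀ (min r 1) ^ 2 * us (max r₀ (min r 1)))

theorem continuous_baseLow (hr : r₀ ∈ Ioo (0:ℝ) 1) : Continuous (baseLow m r₀) := by
  refine (continuous_pivH m).div (by fun_prop) fun r => ?_
  have h1 : max 0 (min r r₀) ≤ r₀ := max_le hr.1.le (min_le_right _ _)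
  exact (sqrt_pos.2 (by nlinarith [le_max_left (0:ℝ) (min r r₀), hr.2])).ne'

theorem continuous_baseUp (hr : r₀ ∈ Ioo (0:ℝ) 1) {C : ℝ}
    (hk : ∀ r ∈ Icc r₀ 1, |pivG m r + pivM m| ≤ C * us r ^ 2) :
    Continuous (baseUp m r₀) := by
  have hon : ContinuousOn (fun r => (pivG m r + pivM m) / (r ^ 2 * us r)) (Icc r₀ 1) := by
    intro r hr'
    have hr0 : 0 < r := hr.1.trans_le hr'.1
    rcases hr'.2.lt_or_eq with h | rfl
    · refine ((ContinuousAt.add ?_ continuousAt_const).div (by fun_prop) ?_).continuousWithinAt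
      · unfold pivG; fun_prop
      · exact mul_ne_zero (pow_ne_zero 2 hr0.ne') (sqrt_pos.2 (by nlinarith)).ne'
    · have hu1 : us 1 = 0 := by simp [us]
      rw [ContinuousWithinAt, hu1, mul_zero, div_zero]
      refine squeeze_zero_norm' (a := fun x => |C| * us x / r₀ ^ 2) ?_ ?_
      · filter_upwards [self_mem_nhdsWithin] with x hx
        have hx0 : 0 < x := hr.1.trans_le hx.1
        have hux : 0 ≤ us x := sqrt_nonneg _
        rcases hux.eq_or_lt with h | h
        · rw [← h]; simp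
        have := hr.1
        rw [Real.norm_eq_abs, abs_div, abs_of_pos (show 0 < x ^ 2 * us x by positivity),
          div_le_div_iff₀ (by positivity) (by positivity)]
        calc |pivG m x + pivM m| * r₀ ^ 2 ≤ |C| * us x ^ 2 * x ^ 2 := by
              have := hk x hx
              refine mul_le_mul (this.trans (mul_le_mul_of_nonneg_right (le_abs_self C)
                (sq_nonneg _))) (pow_le_pow_left₀ hr.1.le hx.1 2) (by positivity) (by positivity)
          _ = |C| * us x * (x ^ 2 * us x) := by ring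
      · have : Continuous fun x => |C| * us x / r₀ ^ 2 := by fun_prop
        have h := this.continuousWithinAt (s := Icc r₀ 1) (x := (1:ℝ))
        simpa [ContinuousWithinAt, hu1] using h
  exact hon.comp_continuous (by fun_prop) fun r =>
    ⟨le_max_left _ _, max_le hr.2.le (min_le_right _ _)⟩

theorem baseLow_eq (hm : 2 ≤ m) {r : ℝ} (h : r ∈ Ioc 0 r₀) :
    baseLow m r₀ r = pivG m r / (r ^ 2 * us r) := by
  rw [baseLow, min_eq_left h.2, max_eq_right h.1.le, pivG_eq hm, ← div_div,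
    mul_div_cancel_left₀ _ (pow_ne_zero 2 h.1.ne')]

theorem baseUp_eq {r : ℝ} (h : r ∈ Icc r₀ 1) :
    baseUp m r₀ r = (pivG m r + pivM m) / (r ^ 2 * us r) := by
  rw [baseUp, min_eq_left h.2, max_eq_right h.1]

/-- `-(G + E) √(1-r²)/r` is a primitive of the majorant up to `∫ m r^(m-2)(r-c) √(1-r²)`. -/
theorem hasDerivAt_basePrim (hm : 2 ≤ m) (E : ℝ) {r : ℝ} (hr : r ∈ Ioo (0:ℝ) 1) :
    HasDerivAt (fun x => -((pivG m x + E) * us x / x))
      ((pivG m r + E) / (r ^ 2 * us r) -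
        ((m:ℝ) * r ^ (m - 1) - cst m * (m * r ^ (m - 2))) * us r) r := by
  have hu : us r ≠ 0 := (sqrt_pos.2 (by nlinarith [hr.1, hr.2])).ne'
  have hr0 := hr.1.ne'
  have hG : HasDerivAt (pivG m) ((m:ℝ) * r ^ m - cst m * (m * r ^ (m - 1))) r := by
    have h := ((hasDerivAt_pow (m + 1) r).const_mul ((m:ℝ) / ((m:ℝ) + 1))).sub
      ((hasDerivAt_pow m r).const_mul (cst m))
    refine h.congr_deriv ?_
    simp only [add_tsub_cancel_right, Nat.cast_add, Nat.cast_one]
    have : (m:ℝ) + 1 ≠ 0 := by positivity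
    field_simp
  have h := (((hG.add_const E).mul (hasDerivAt_us hr)).div (hasDerivAt_id' r) hr0).neg
  refine h.congr_deriv ?_
  simp only [Pi.mul_apply]
  have e1 : r ^ m = r ^ (m - 1) * r := by rw [← pow_succ]; congr 1; omega
  have e2 : r ^ (m - 1) = r ^ (m - 2) * r := by rw [← pow_succ]; congr 1; omega
  rw [e1, e2]
  field_simp
  linear_combination (pivG m r + E) * us_sq (Ioo_subset_Icc_self hr)

/-- The base integrates to the constant of the ball. -/
theorem base_integral (hm : 3 ≤ m) (hr : r₀ ∈ Ioo (0:ℝ) 1) (hc : Continuous (baseUp m r₀)) :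
    (∫ r in (0:ℝ)..r₀, baseLow m r₀ r) + ∫ r in r₀..1, baseUp m r₀ r =
      pivM m * (us r₀ / r₀) + (∫ t in (0:ℝ)..1, us t ^ m) -
        cst m * ((m:ℝ) / ((m:ℝ) - 1)) * ∫ t in (0:ℝ)..1, us t ^ (m - 1) := by
  set L : ℝ → ℝ := fun r => ((m:ℝ) * r ^ (m - 1) - cst m * (m * r ^ (m - 2))) * us r with hL
  have hLc : Continuous L := by fun_prop
  have hu1 : us 1 = 0 := by simp [us]
  have eU : ∫ r in r₀..1, (baseUp m r₀ r - L r) = (pivG m r₀ + pivM m) * us r₀ / r₀ := by
    have hcF : ContinuousOn (fun x => -((pivG m x + pivM m) * us x / x)) (Icc r₀ 1) := by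
      unfold pivG
      exact (ContinuousOn.div (by fun_prop) continuousOn_id
        fun x hx => (hr.1.trans_le hx.1).ne').neg
    rw [intervalIntegral.integral_eq_sub_of_hasDerivAt_of_le hr.2.le hcF (fun x hx => ?_)
      ((by fun_prop : Continuous fun r => baseUp m r₀ r - L r).intervalIntegrable _ _)]
    · rw [hu1]; ring
    · rw [baseUp_eq (Ioo_subset_Icc_self hx)]
      exact hasDerivAt_basePrim (by omega) _ ⟨hr.1.trans hx.1, hx.2⟩
  have eD : ∫ r in (0:ℝ)..r₀, (baseLow m r₀ r - L r) = -(pivG m r₀ * us r₀ / r₀) := by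
    have hcF : ContinuousOn (fun x => -((pivG m x + 0) * us x / x)) (Icc 0 r₀) := by
      refine (show Continuous fun x => -(x * pivH m x * us x) by
        unfold pivH; fun_prop).continuousOn.congr fun x _ => ?_
      rw [add_zero, pivG_eq (by omega)]
      rcases eq_or_ne x 0 with rfl | hx
      · simp
      · field_simp
    have hcb : Continuous (baseLow m r₀) := continuous_baseLow hr
    rw [intervalIntegral.integral_eq_sub_of_hasDerivAt_of_le hr.1.le hcF (fun x hx => ?_)
      ((by fun_prop : Continuous fun r => baseLow m r₀ r - L r).intervalIntegrable _ _)]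
    · simp
    · rw [baseLow_eq (by omega) (Ioo_subset_Ioc_self hx)]
      have := hasDerivAt_basePrim (m := m) (by omega) 0 ⟨hx.1, hx.2.trans hr.2⟩
      simpa only [add_zero] using this
  rw [intervalIntegral.integral_sub (hc.intervalIntegrable _ _) (hLc.intervalIntegrable _ _)] at eU
  rw [intervalIntegral.integral_sub ((continuous_baseLow hr).intervalIntegrable _ _)
    (hLc.intervalIntegrable _ _)] at eD
  have eA := intervalIntegral.integral_add_adjacent_intervals (μ := volume) (hLc.intervalIntegrable (0:ℝ) r₀)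
    (hLc.intervalIntegrable r₀ 1)
  have eL : ∫ r in (0:ℝ)..1, L r = (∫ t in (0:ℝ)..1, us t ^ m) -
      cst m * ((m:ℝ) / ((m:ℝ) - 1)) * ∫ t in (0:ℝ)..1, us t ^ (m - 1) := by
    have hm1 : ((m - 1 : ℕ):ℝ) = (m:ℝ) - 1 := by
      rw [Nat.cast_sub (show 1 ≤ m by omega), Nat.cast_one]
    have h1 : (m:ℝ) - 1 ≠ 0 := sub_ne_zero.2 (by exact_mod_cast (show m ≠ 1 by omega))
    rw [← ball_layer m (by omega), ← ball_layer (m - 1) (by omega), hm1,
      show m - 1 - 1 = m - 2 by omega, ← intervalIntegral.integral_const_mul,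
      ← intervalIntegral.integral_sub (Continuous.intervalIntegrable (by fun_prop) _ _)
        (Continuous.intervalIntegrable (by fun_prop) _ _)]
    refine intervalIntegral.integral_congr fun r _ => ?_
    simp only [hL]
    field_simp
  have eR : (pivG m r₀ + pivM m) * us r₀ / r₀ =
      pivG m r₀ * us r₀ / r₀ + pivM m * (us r₀ / r₀) := by ring
  linarith

/-! ### The pivot bound -/

/-- `|M σ + Z₀ L| ≤ μ gain + A/μ`. -/
theorem pivot_young (P : HalfProf f) (h0 : f 0 = 1) (hm : 3 ≤ m) (hr : r₀ ∈ Ioo (0:ℝ) 1)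
    {θ μ₀ μ A : ℝ} {Q₁ Q₂ : ℝ → ℝ} (hθ : 0 ≤ θ) (hθ1 : θ < 1) (hμ0 : 0 < μ₀) (hμ : μ₀ ≤ μ)
    (hQ1c : Continuous Q₁) (hQ2c : Continuous Q₂)
    (hk1 : ∀ r ∈ Ioc 0 r₀, 2 * |pivG m r| ≤ θ * μ₀ * m * r ^ m * us r ^ 2)
    (hk2 : ∀ r ∈ Icc r₀ 1, 2 * |pivG m r + pivM m| ≤ θ * μ₀ * m * r ^ m * us r ^ 2)
    (hQ1 : ∀ r ∈ Ioc 0 r₀, pivG m r ^ 2 / (2 * (1 - θ) * m * r ^ m * us r ^ 3) ≤ Q₁ r)
    (hQ2 : ∀ r ∈ Icc r₀ 1,
      (pivG m r + pivM m) ^ 2 / (2 * (1 - θ) * m * r ^ m * us r ^ 3) ≤ Q₂ r)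
    (hA : (∫ r in (0:ℝ)..r₀, Q₁ r) + (∫ r in r₀..1, Q₂ r) ≤ A) :
    |pivM m * sigR f r₀ + Univ.ballInt m * GaugeBall.linGain m f| ≤ μ * chiGain m f + A / μ := by
  have hμp : 0 < μ := hμ0.trans_le hμ
  have hbU : ∀ r ∈ Icc r₀ 1, |pivG m r + pivM m| ≤ θ * μ₀ * m / 2 * us r ^ 2 := fun r hr' => by
    have hr1 : r ^ m ≤ 1 := pow_le_one₀ (hr.1.le.trans hr'.1) hr'.2
    have := hk2 r hr'
    have h' : θ * μ₀ * m * r ^ m * us r ^ 2 ≤ θ * μ₀ * m * 1 * us r ^ 2 :=
      mul_le_mul_of_nonneg_right (mul_le_mul_of_nonneg_left hr1 (by positivity)) (sq_nonneg _)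
    linarith
  have hcU := continuous_baseUp hr hbU
  have hcL := continuous_baseLow (m := m) hr
  have hH := continuous_pivH m
  have hH2 : Continuous fun r => pivH m r + pivM m / max r r₀ ^ 2 :=
    hH.add (continuous_const.div (by fun_prop) fun r =>
      pow_ne_zero 2 (hr.1.trans_le (le_max_right r r₀)).ne')
  have hle : ∀ r ≥ (0:ℝ), θ * μ₀ * m * r ^ m * us r ^ 2 ≤ θ * μ * m * r ^ m * us r ^ 2 :=
    fun r hr' => by
      refine mul_le_mul_of_nonneg_right (mul_le_mul_of_nonneg_right (mul_le_mul_of_nonneg_right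
        (mul_le_mul_of_nonneg_left hμ hθ) (by positivity)) (pow_nonneg hr' _)) (sq_nonneg _)
  -- both signs
  have main : ∀ s : ℝ, (s = 1 ∨ s = -1) →
      s * linK f r₀ (pivH m) (fun r => pivH m r + pivM m / max r r₀ ^ 2) ≤
        μ * chiGain m f + (s * ((∫ r in (0:ℝ)..r₀, baseLow m r₀ r) + ∫ r in r₀..1, baseUp m r₀ r) +
          A / μ) := by
    intro s hs
    have habs : |s| = 1 := by rcases hs with rfl | rfl <;> simp
    have hsq : s ^ 2 = 1 := by rcases hs with rfl | rfl <;> norm_num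
    have e : s * linK f r₀ (pivH m) (fun r => pivH m r + pivM m / max r r₀ ^ 2) =
        linK f r₀ (fun r => s * pivH m r) (fun r => s * (pivH m r + pivM m / max r r₀ ^ 2)) := by
      rcases hs with rfl | rfl
      · simp only [one_mul]
      · simp only [neg_mul, one_mul, linK_neg]
    rw [e]
    refine (linK_le P h0 (by omega) hr (R₁ := fun r => s * baseLow m r₀ r + Q₁ r / μ)
      (R₂ := fun r => s * baseUp m r₀ r + Q₂ r / μ) (μ := μ) (m := m) (hH.const_mul s) (hH2.const_mul s) (by fun_prop) (by fun_prop)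
      (fun r hr' p hp => ?_) (fun r hr' p hp => ?_)).trans ?_
    · have hr1 : r ∈ Ioo (0:ℝ) 1 := ⟨hr'.1, hr'.2.trans_lt hr.2⟩
      have hK : 2 * |s * pivG m r| ≤ θ * μ * m * r ^ m * us r ^ 2 := by
        rw [abs_mul, habs, one_mul]; exact (hk1 r hr').trans (hle r hr'.1.le)
      refine le_trans (le_of_eq ?_) ((kernel_point (by omega) hr1 hμp hθ hθ1 hp hK).trans ?_)
      · rw [pivG_eq (show 2 ≤ m by omega)]; have := hr'.1.ne'; field_simp
      · rw [mul_pow, hsq, one_mul, baseLow_eq (by omega) hr', mul_div_assoc]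
        gcongr
        · exact hp.1
        · exact hQ1 r hr'
    · rcases hr'.2.lt_or_eq with h | rfl
      · have hr0 : 0 < r := hr.1.trans_le hr'.1
        have hK : 2 * |s * (pivG m r + pivM m)| ≤ θ * μ * m * r ^ m * us r ^ 2 := by
          rw [abs_mul, habs, one_mul]; exact (hk2 r hr').trans (hle r hr0.le)
        refine le_trans (le_of_eq ?_)
          ((kernel_point (by omega) ⟨hr0, h⟩ hμp hθ hθ1 hp hK).trans ?_)
        · rw [max_eq_left hr'.1, pivG_eq (show 2 ≤ m by omega)]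
          have := hr0.ne'
          field_simp
        · rw [mul_pow, hsq, one_mul, baseUp_eq hr', mul_div_assoc]
          gcongr
          · exact hp.1
          · exact hQ2 r hr'
      · have hu1 : us 1 = 0 := by simp [us]
        have hG : pivH m 1 + pivM m = 0 := by
          have := pivG_one m; rwa [pivG_eq (show 2 ≤ m by omega), one_pow, one_mul] at this
        have hq : 0 ≤ Q₂ 1 := by simpa [hu1] using hQ2 1 ⟨hr.2.le, le_rfl⟩
        have hb : baseUp m r₀ 1 = 0 := by rw [baseUp_eq ⟨hr.2.le, le_rfl⟩, hu1, mul_zero, div_zero]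
        have hchi : 0 ≤ chiD 1 p := by
          simp only [chiD, hu1, mul_zero, sub_zero, div_one, sub_nonneg]
          exact sqrt_le_one.2 (by nlinarith [sq_nonneg p])
        rw [max_eq_left hr.2.le, one_pow, div_one, hG, mul_zero, hb, mul_zero, zero_add]
        have := hp.1
        positivity
    · rw [intervalIntegral.integral_add ((hcL.intervalIntegrable _ _).const_mul _)
          ((hQ1c.intervalIntegrable _ _).div_const _),
        intervalIntegral.integral_add ((hcU.intervalIntegrable _ _).const_mul _)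
          ((hQ2c.intervalIntegrable _ _).div_const _),
        intervalIntegral.integral_const_mul, intervalIntegral.integral_const_mul,
        intervalIntegral.integral_div, intervalIntegral.integral_div]
      have hdiv : (∫ r in (0:ℝ)..r₀, Q₁ r) / μ + (∫ r in r₀..1, Q₂ r) / μ ≤ A / μ := by
        rw [← add_div]; exact div_le_div_of_nonneg_right hA hμp.le
      linarith
  have hval : pivM m * sigR f r₀ + Univ.ballInt m * GaugeBall.linGain m f =
      linK f r₀ (pivH m) (fun r => pivH m r + pivM m / max r r₀ ^ 2) -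
        ((∫ r in (0:ℝ)..r₀, baseLow m r₀ r) + ∫ r in r₀..1, baseUp m r₀ r) := by
    rw [linK_pivot P h0 hm hr, base_integral hm hr hcU, sigR, GaugeBall.linGain,
      GaugeBall.volRatio, GaugeBall.secRatio, ballInt_us, ballInt_us,
      ← cst_eq (show m ≠ 0 by omega)]
    have hP0 := (Z_pos halfProf_us (m := m - 1)).ne'
    have hc := (cst_pos m).ne'
    have hm1 : (m:ℝ) - 1 ≠ 0 := sub_ne_zero.2 (by exact_mod_cast (show m ≠ 1 by omega))
    have := hr.1.ne'
    field_simp
    ring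
  rw [hval, abs_le]
  constructor <;> linarith [main 1 (Or.inl rfl), main (-1) (Or.inr rfl)]

/-- From `I ≤ μ G + A/μ` for every `μ ≥ μ₀`. -/
theorem young_opt {I G A μ₀ : ℝ} (hμ : 0 < μ₀) (hI : 0 ≤ I) (hG : 0 ≤ G)
    (h : ∀ μ ≥ μ₀, I ≤ μ * G + A / μ) : I ^ 2 ≤ 4 * A * G ∨ I ≤ 2 * μ₀ * G := by
  rcases le_or_gt A (μ₀ ^ 2 * G) with hA | hA
  · right
    have h1 := h μ₀ le_rfl
    have : A / μ₀ ≤ μ₀ * G := by rw [div_le_iff₀ hμ]; linarith
    linarith
  · left
    have hA0 : 0 < A := lt_of_le_of_lt (by positivity) hA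
    rcases hG.eq_or_lt with hG0 | hG0
    · have hI0 : I ≤ 0 := by
        refine le_of_forall_pos_le_add fun ε hε => ?_
        have h1 := h (max μ₀ (A / ε)) (le_max_left _ _)
        rw [← hG0, mul_zero, zero_add] at h1
        have h2 : A / max μ₀ (A / ε) ≤ A / (A / ε) :=
          div_le_div_of_nonneg_left hA0.le (div_pos hA0 hε) (le_max_right _ _)
        rw [div_div_cancel₀ hA0.ne'] at h2
        linarith
      rw [← hG0, le_antisymm hI0 hI]
      simp
    · set μ := √(A / G)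
      have hμ2 : μ ^ 2 = A / G := sq_sqrt (div_pos hA0 hG0).le
      have hμl : μ₀ ≤ μ := le_sqrt_of_sq_le ((le_div_iff₀ hG0).2 hA.le)
      have hμp : 0 < μ := hμ.trans_le hμl
      have e : A / μ = μ * G := by
        rw [div_eq_iff hμp.ne']
        have : μ ^ 2 * G = A := by rw [hμ2]; field_simp
        linear_combination -this
      have h1 := h μ hμl
      rw [e] at h1
      calc I ^ 2 ≤ (2 * (μ * G)) ^ 2 := pow_le_pow_left₀ hI (by linarith) 2
        _ = 4 * A * G := by rw [mul_pow, mul_pow, hμ2]; field_simp; ring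

/-- **The pivot bound:** `σ(r₀)² ≤ max(4A/M², 2Bμ₀/M) · gain + 2B Z₀/M · L`, without the last
term when `σ(r₀) ≥ 0`. -/
theorem pivot_sq (P : HalfProf f) (h0 : f 0 = 1) (hm : 3 ≤ m) (hr : r₀ ∈ Ioo (0:ℝ) 1)
    {θ μ₀ A B : ℝ} {Q₁ Q₂ : ℝ → ℝ} (hθ : 0 ≤ θ) (hθ1 : θ < 1) (hμ0 : 0 < μ₀)
    (hQ1c : Continuous Q₁) (hQ2c : Continuous Q₂)
    (hk1 : ∀ r ∈ Ioc 0 r₀, 2 * |pivG m r| ≤ θ * μ₀ * m * r ^ m * us r ^ 2)
    (hk2 : ∀ r ∈ Icc r₀ 1, 2 * |pivG m r + pivM m| ≤ θ * μ₀ * m * r ^ m * us r ^ 2)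
    (hQ1 : ∀ r ∈ Ioc 0 r₀, pivG m r ^ 2 / (2 * (1 - θ) * m * r ^ m * us r ^ 3) ≤ Q₁ r)
    (hQ2 : ∀ r ∈ Icc r₀ 1,
      (pivG m r + pivM m) ^ 2 / (2 * (1 - θ) * m * r ^ m * us r ^ 3) ≤ Q₂ r)
    (hA : (∫ r in (0:ℝ)..r₀, Q₁ r) + (∫ r in r₀..1, Q₂ r) ≤ A) (hB : |sigR f r₀| ≤ B)
    (hL : 0 ≤ GaugeBall.linGain m f) (hG : 0 ≤ chiGain m f) :
    (0 ≤ sigR f r₀ → sigR f r₀ ^ 2 ≤
      max (4 * A / pivM m ^ 2) (2 * B * μ₀ / pivM m) * chiGain m f) ∧
    sigR f r₀ ^ 2 ≤ max (4 * A / pivM m ^ 2) (2 * B * μ₀ / pivM m) * chiGain m f +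
      2 * B * Univ.ballInt m / pivM m * GaugeBall.linGain m f := by
  have hM := pivM_pos (show m ≠ 0 by omega)
  set G := chiGain m f
  set s := sigR f r₀
  set L := Univ.ballInt m * GaugeBall.linGain m f with hLdef
  have hL0 : 0 ≤ L := mul_nonneg (Univ.OneD.ballInt_pos m).le hL
  set M := pivM m
  set K := max (4 * A / M ^ 2) (2 * B * μ₀ / M) with hK
  have hopt := young_opt hμ0 (abs_nonneg _) hG fun μ hμ =>
    pivot_young P h0 hm hr hθ hθ1 hμ0 hμ hQ1c hQ2c hk1 hk2 hQ1 hQ2 hA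
  have hB0 : 0 ≤ B := (abs_nonneg _).trans hB
  have hKA : 4 * A * G / M ^ 2 ≤ K * G := by
    rw [mul_div_right_comm]; exact mul_le_mul_of_nonneg_right (le_max_left _ _) hG
  have hKB : 2 * B * μ₀ * G / M ≤ K * G := by
    rw [mul_div_right_comm]; exact mul_le_mul_of_nonneg_right (le_max_right _ _) hG
  have hsL : 2 * B * Univ.ballInt m / M * GaugeBall.linGain m f = 2 * (B * L) / M := by
    rw [hLdef]; ring
  have hpos : 0 ≤ s → s ^ 2 ≤ K * G := by
    intro hs
    have hle : M * s ≤ |M * s + L| := le_trans (by linarith) (le_abs_self _)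
    rcases hopt with h | h
    · refine le_trans ?_ hKA
      rw [le_div_iff₀ (by positivity)]
      exact (le_of_eq (by ring)).trans ((pow_le_pow_left₀ (by positivity) hle 2).trans h)
    · refine le_trans ?_ hKB
      rw [le_div_iff₀ hM]
      have h1 := mul_le_mul_of_nonneg_left (hle.trans h) hs
      have h2 : s * (2 * μ₀ * G) ≤ B * (2 * μ₀ * G) :=
        mul_le_mul_of_nonneg_right ((le_abs_self s).trans hB) (by positivity)
      linarith
  refine ⟨hpos, ?_⟩
  rw [hsL]
  rcases le_total 0 s with hs | hs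
  · exact le_add_of_le_of_nonneg (hpos hs) (by positivity)
  have ha : 0 ≤ -s := by linarith
  have haB : -s ≤ B := (neg_le_abs s).trans hB
  have hle : M * -s ≤ |M * s + L| + L := by linarith [neg_le_abs (M * s + L)]
  have hmul := mul_le_mul_of_nonneg_left hle ha
  have hBL : -s * L ≤ B * L := mul_le_mul_of_nonneg_right haB hL0
  set I := |M * s + L|
  rcases hopt with h | h
  · have h1 : M ^ 2 * s ^ 2 ≤ I ^ 2 + 2 * M * (B * L) := by
      have h2 : M * (-s * (M * -s)) ≤ M * (-s * I + B * L) :=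
        mul_le_mul_of_nonneg_left (hmul.trans (by linarith)) hM.le
      nlinarith [sq_nonneg (M * -s - I)]
    calc s ^ 2 ≤ 4 * A * G / M ^ 2 + 2 * (B * L) / M := by
          rw [div_add_div _ _ (by positivity) hM.ne', le_div_iff₀ (by positivity)]
          nlinarith [mul_le_mul_of_nonneg_left h1 hM.le, mul_le_mul_of_nonneg_left h hM.le]
      _ ≤ _ := by linarith
  · calc s ^ 2 ≤ (2 * B * μ₀ * G + 2 * (B * L)) / M := by
          rw [le_div_iff₀ hM]
          have h2 : -s * I ≤ B * (2 * μ₀ * G) := mul_le_mul haB h (abs_nonneg _) hB0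
          linarith [mul_nonneg hB0 hL0]
      _ = 2 * B * μ₀ * G / M + 2 * (B * L) / M := add_div _ _ _
      _ ≤ _ := by linarith

/-- `chiGain ≥ 0`. -/
theorem chiGain_nonneg (P : HalfProf f) (h0 : f 0 = 1) : 0 ≤ chiGain m f := by
  have he := fend_mem P h0
  refine add_nonneg ?_ (intervalIntegral.integral_nonneg he.1 fun r hr => ?_)
  · rw [intervalIntegral.integral_of_le zero_le_one, integral_Ioc_eq_integral_Ioo]
    refine setIntegral_nonneg measurableSet_Ioo fun t ht => ?_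
    obtain ⟨hq, hp⟩ := P.bounds ht
    have hf := P.mem01' h0 ht
    have hu := us_sq (Ioc_subset_Icc_self hf)
    have hp2 : (0:ℝ) ≤ 1 - pProf f t ^ 2 := by nlinarith [hp.1, hp.2]
    refine mul_nonneg (mul_nonneg (mul_nonneg (Nat.cast_nonneg m) (pow_nonneg hf.1.le _)) hq.le) ?_
    rw [sub_nonneg, le_div_iff₀ hf.1]
    have h2 : us (pProf f t) ^ 2 = 1 - pProf f t ^ 2 := sq_sqrt hp2
    nlinarith [sq_nonneg (us (pProf f t) - f t), sq_nonneg (pProf f t - us (f t))]
  · have := (us_mem ⟨hr.1, hr.2.trans he.2⟩).2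
    exact mul_nonneg (mul_nonneg (Nat.cast_nonneg m) (pow_nonneg hr.1 _)) (by linarith)

end Vale.Agent.P237.AllN.InvPivot
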