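import Vale.Agent.P237.AllN.InvPivot

/-!
# P237, all dimensions: the pivot bound for a general gain

For any density `D(r,p)` the functional `M σ(r₀) + a Z₀ L` is bounded by `μ` times the gain of `D`
plus a constant, from one pointwise inequality on the box `1 - r ≤ p ≤ 1`. The weight `a` lets a
part of `L` be dropped, as the plateau has `σ(0) ≥ 0`. The case
`D = θ_r Breg φ_R + θ_b b (p - u)²` has gain `θ_r (breg + bdry) + θ_b b qh`.
-/

open MeasureTheory Set Real Filter Topology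

namespace Vale.Agent.P237.AllN.InvPivot

variable {m : ℕ} {f : ℝ → ℝ} {r₀ : ℝ}

/-- The gain of a density `D(r,p)`, with its jump term. -/
noncomputable def gainK (m : ℕ) (D : ℝ → ℝ → ℝ) (f : ℝ → ℝ) : ℝ :=
  (∫ t in (0:ℝ)..1, wq m f t * D (f t) (pProf f t)) +
    ∫ r in (0:ℝ)..fend f, (m:ℝ) * r ^ (m - 1) * D r 1

/-- Concavity with `f 0 = 1` and `f ≥ 0` gives `p ≥ 1 - f`. -/
theorem pProf_ge (P : HalfProf f) (h0 : f 0 = 1) {t : ℝ} (ht : t ∈ Ioo (0:ℝ) 1)
    (hd : DifferentiableAt ℝ f t) : 1 - f t ≤ pProf f t := by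
  obtain ⟨hq, -⟩ := P.bounds ht
  have h1 : f t - f 0 ≥ deriv f t * (t - 0) := by
    have := P.conc.deriv_le_slope (left_mem_Icc.2 zero_le_one) (Ioo_subset_Icc_self ht) ht.1 hd
    rw [slope_def_field, le_div_iff₀ (by linarith [ht.1])] at this
    exact this
  have h2 : f 1 - f t ≤ deriv f t * (1 - t) := by
    have := P.conc.slope_le_deriv (Ioo_subset_Icc_self ht) (right_mem_Icc.2 zero_le_one) ht.2 hd
    rw [slope_def_field, div_le_iff₀ (by linarith [ht.2])] at this
    exact this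
  have hf1 := P.nonneg 1 (right_mem_Icc.2 zero_le_one)
  have hf := (P.mem01' h0 ht)
  rw [h0] at h1
  rw [pProf, le_div_iff₀ hq]
  set d := deriv f t
  set g := f t
  -- `-d t ≥ 1 - g` and `-d (1 - t) ≥ -g`
  by_contra hc
  push Not at hc
  have : -d * (1 - t * (1 - g)) < g * (1 - g) := by linarith
  nlinarith [mul_nonneg (sub_nonneg.2 hf.2) (sub_nonneg.2 ht.2.le), ht.1,
    mul_le_mul_of_nonneg_right (show 1 - g ≤ -d * t by linarith)
      (show (0:ℝ) ≤ 1 - t * (1 - g) by nlinarith [ht.1, ht.2, hf.1, hf.2])]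

theorem linK_smul (f : ℝ → ℝ) (r₀ s : ℝ) (k₁ k₂ : ℝ → ℝ) :
    linK f r₀ (fun r => s * k₁ r) (fun r => s * k₂ r) = s * linK f r₀ k₁ k₂ := by
  simp only [linK, mul_assoc, intervalIntegral.integral_const_mul]
  ring

/-- The pointwise conditions give the bound of a functional by a general gain. -/
theorem linK_le_gen (P : HalfProf f) (h0 : f 0 = 1) (hr : r₀ ∈ Ioo (0:ℝ) 1)
    {μ : ℝ} {D : ℝ → ℝ → ℝ}
    (iD : IntervalIntegrable (fun t => wq m f t * D (f t) (pProf f t)) volume 0 1)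
    (iE : IntervalIntegrable (fun r => (m:ℝ) * r ^ (m - 1) * D r 1) volume 0 (fend f))
    {k₁ k₂ R₁ R₂ : ℝ → ℝ} (hk1 : Continuous k₁) (hk2 : Continuous k₂) (hR1 : Continuous R₁)
    (hR2 : Continuous R₂)
    (h1 : ∀ r ∈ Ioc 0 r₀, ∀ p ∈ Icc (1 - r) 1,
      k₁ r ≤ μ * (m * r ^ (m - 1) * D r p) + p * R₁ r)
    (h2 : ∀ r ∈ Icc r₀ 1, ∀ p ∈ Icc (1 - r) 1,
      k₂ r ≤ μ * (m * r ^ (m - 1) * D r p) + p * R₂ r) :
    linK f r₀ k₁ k₂ ≤ μ * gainK m D f +
      ((∫ r in (0:ℝ)..r₀, R₁ r) + ∫ r in r₀..1, R₂ r) := by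
  obtain ⟨hTp, hlt, heq⟩ := dist01_split P h0 hr
  have hT := dist01_mem f r₀
  have he := fend_mem P h0
  set T := dist01 f r₀ with hTdef
  set e := min (fend f) r₀ with hedef
  have he0 : 0 ≤ e := le_min he.1 hr.1.le
  have hee : e ≤ fend f := min_le_left _ _
  have iC := iD.const_mul μ
  have iJ := iE.const_mul μ
  have hu : uIcc 0 T ⊆ uIcc (0:ℝ) 1 := by
    rw [uIcc_of_le hT.1, uIcc_of_le zero_le_one]; exact Icc_subset_Icc le_rfl hT.2
  have hu' : uIcc T 1 ⊆ uIcc (0:ℝ) 1 := by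
    rw [uIcc_of_le hT.2, uIcc_of_le zero_le_one]; exact Icc_subset_Icc hT.1 le_rfl
  have hv : uIcc 0 e ⊆ uIcc (0:ℝ) (fend f) := by
    rw [uIcc_of_le he0, uIcc_of_le he.1]; exact Icc_subset_Icc le_rfl hee
  have hv' : uIcc e (fend f) ⊆ uIcc (0:ℝ) (fend f) := by
    rw [uIcc_of_le hee, uIcc_of_le he.1]; exact Icc_subset_Icc he0 le_rfl
  obtain ⟨iR1, eR1⟩ := int_comp_full P h0 hR1
  obtain ⟨iR2, eR2⟩ := int_comp_full P h0 hR2
  have hkey : ∀ t ∈ Ioo (0:ℝ) 1, ∀ k R : ℝ, k ≤ μ * ((m:ℝ) * f t ^ (m - 1) *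
      D (f t) (pProf f t)) + pProf f t * R →
      k * (f t - t * deriv f t) ≤ μ * (wq m f t * D (f t) (pProf f t)) - R * deriv f t := by
    intro t ht k R hk
    obtain ⟨hq, -⟩ := P.bounds ht
    have hd : deriv f t = -((f t - t * deriv f t) * pProf f t) := by
      rw [pProf, mul_div_cancel₀ _ hq.ne', neg_neg]
    refine (mul_le_mul_of_nonneg_right hk hq.le).trans (le_of_eq ?_)
    rw [wq]
    linear_combination R * hd
  have A2 : ∫ t in (0:ℝ)..T, k₂ (f t) * (f t - t * deriv f t) ≤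
      (∫ t in (0:ℝ)..T, μ * (wq m f t * D (f t) (pProf f t))) -
        ∫ t in (0:ℝ)..T, R₂ (f t) * deriv f t := by
    rw [← intervalIntegral.integral_sub (iC.mono_set hu) (iR2.mono_set hu)]
    refine intervalIntegral.integral_mono_ae_restrict hT.1
      ((int_h_weight P h0 hk2).mono_set hu) ((iC.mono_set hu).sub (iR2.mono_set hu)) ?_
    rw [EventuallyLE, ae_restrict_iff' measurableSet_Icc]
    filter_upwards [P.ae_diff, Measure.ae_ne volume (0:ℝ), Measure.ae_ne volume T] with t htd n1 n2 hm'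
    have htT : t < T := lt_of_le_of_ne hm'.2 n2
    have ht1 : t ∈ Ioo (0:ℝ) 1 := ⟨lt_of_le_of_ne hm'.1 (Ne.symm n1), htT.trans_le hT.2⟩
    exact hkey t ht1 _ _ (h2 _ ⟨((lt_iff_lt_dist01 P ht1).1 htT).le, (P.mem01' h0 ht1).2⟩ _
      ⟨pProf_ge P h0 ht1 (htd ht1), (P.bounds ht1).2.2⟩)
  have A1 : ∫ t in T..1, k₁ (f t) * (f t - t * deriv f t) ≤
      (∫ t in T..1, μ * (wq m f t * D (f t) (pProf f t))) -
        ∫ t in T..1, R₁ (f t) * deriv f t := by
    rw [← intervalIntegral.integral_sub (iC.mono_set hu') (iR1.mono_set hu')]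
    refine intervalIntegral.integral_mono_ae_restrict hT.2
      ((int_h_weight P h0 hk1).mono_set hu') ((iC.mono_set hu').sub (iR1.mono_set hu')) ?_
    rw [EventuallyLE, ae_restrict_iff' measurableSet_Icc]
    filter_upwards [P.ae_diff, Measure.ae_ne volume T, Measure.ae_ne volume (1:ℝ)] with t htd n1 n2 hm'
    have htT : T < t := lt_of_le_of_ne hm'.1 (Ne.symm n1)
    have ht1 : t ∈ Ioo (0:ℝ) 1 := ⟨hT.1.trans_lt htT, lt_of_le_of_ne hm'.2 n2⟩
    have hle : f t ≤ r₀ := not_lt.1 fun hn => not_le.2 htT ((lt_iff_lt_dist01 P ht1).2 hn)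
    exact hkey t ht1 _ _ (h1 _ ⟨(P.mem01' h0 ht1).1, hle⟩ _
      ⟨pProf_ge P h0 ht1 (htd ht1), (P.bounds ht1).2.2⟩)
  have B1 : ∫ r in (0:ℝ)..e, k₁ r ≤
      (∫ r in (0:ℝ)..e, μ * ((m:ℝ) * r ^ (m - 1) * D r 1)) + ∫ r in (0:ℝ)..e, R₁ r := by
    rw [← intervalIntegral.integral_add (iJ.mono_set hv) (hR1.intervalIntegrable _ _)]
    refine intervalIntegral.integral_mono_on_of_le_Ioo he0 (hk1.intervalIntegrable _ _)
      ((iJ.mono_set hv).add (hR1.intervalIntegrable _ _)) fun r hr' => ?_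
    have := h1 r ⟨hr'.1, hr'.2.le.trans (min_le_right _ _)⟩ 1
      ⟨by linarith [hr'.1], le_rfl⟩
    rwa [one_mul] at this
  have B2 : ∫ r in e..fend f, k₂ r ≤
      (∫ r in e..fend f, μ * ((m:ℝ) * r ^ (m - 1) * D r 1)) + ∫ r in e..fend f, R₂ r := by
    rcases le_total (fend f) r₀ with h | h
    · simp [e, min_eq_left h]
    rw [← intervalIntegral.integral_add (iJ.mono_set hv') (hR2.intervalIntegrable _ _)]
    refine intervalIntegral.integral_mono_on_of_le_Ioo hee (hk2.intervalIntegrable _ _)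
      ((iJ.mono_set hv').add (hR2.intervalIntegrable _ _)) fun r hr' => ?_
    have hre : r₀ ≤ r := by
      have := hr'.1.le; rwa [hedef, min_eq_right h] at this
    have := h2 r ⟨hre, hr'.2.le.trans he.2⟩ 1 ⟨by linarith [hr.1], le_rfl⟩
    rwa [one_mul] at this
  have eC : (∫ t in (0:ℝ)..T, μ * (wq m f t * D (f t) (pProf f t))) +
      (∫ t in T..1, μ * (wq m f t * D (f t) (pProf f t))) +
      ((∫ r in (0:ℝ)..e, μ * ((m:ℝ) * r ^ (m - 1) * D r 1)) +
        ∫ r in e..fend f, μ * ((m:ℝ) * r ^ (m - 1) * D r 1)) = μ * gainK m D f := by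
    rw [intervalIntegral.integral_add_adjacent_intervals (iC.mono_set hu) (iC.mono_set hu'),
      intervalIntegral.integral_add_adjacent_intervals (iJ.mono_set hv) (iJ.mono_set hv'),
      intervalIntegral.integral_const_mul, intervalIntegral.integral_const_mul, gainK, mul_add]
  have eR : -(∫ t in (0:ℝ)..T, R₂ (f t) * deriv f t) - (∫ t in T..1, R₁ (f t) * deriv f t) +
      ((∫ r in (0:ℝ)..e, R₁ r) + ∫ r in e..fend f, R₂ r) =
      (∫ r in (0:ℝ)..r₀, R₁ r) + ∫ r in r₀..1, R₂ r := by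
    rcases hT.2.lt_or_eq with hT1 | hT1
    · obtain ⟨hfT, hel⟩ := hlt hT1
      have hTI : T ∈ Ico (0:ℝ) 1 := ⟨hT.1, hT1⟩
      have s1 := int_comp_upto P h0 hR1 hTI
      have s2 := int_comp_upto P h0 hR2 hTI
      rw [hfT] at s1 s2
      have a1 := intervalIntegral.integral_add_adjacent_intervals (iR1.mono_set hu)
        (iR1.mono_set hu')
      have a2 := intervalIntegral.integral_add_adjacent_intervals (μ := volume)
        (hR1.intervalIntegrable (fend f) r₀) (hR1.intervalIntegrable r₀ 1)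
      have a3 := intervalIntegral.integral_add_adjacent_intervals (μ := volume)
        (hR1.intervalIntegrable 0 (fend f)) (hR1.intervalIntegrable (fend f) r₀)
      rw [show e = fend f from min_eq_left hel, intervalIntegral.integral_same]
      linarith
    · rw [show e = r₀ from min_eq_right (heq hT1), hT1, intervalIntegral.integral_same, eR2]
      have a2 := intervalIntegral.integral_add_adjacent_intervals (μ := volume)
        (hR2.intervalIntegrable r₀ (fend f)) (hR2.intervalIntegrable (fend f) 1)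
      linarith
  rw [linK]
  linarith

/-- `Z₀ L` in the moments. -/
theorem ballInt_mul_linGain (hm : 2 ≤ m) (f : ℝ → ℝ) :
    Univ.ballInt m * GaugeBall.linGain m f = (∫ t in (0:ℝ)..1, f t ^ m) -
      cst m * ((m:ℝ) / ((m:ℝ) - 1)) * (∫ t in (0:ℝ)..1, f t ^ (m - 1)) +
      Univ.ballInt m / ((m:ℝ) - 1) := by
  have hP0 := (Z_pos halfProf_us (m := m - 1)).ne'
  have hZ0 := (Z_pos halfProf_us (m := m)).ne'
  have hm1 : (m:ℝ) - 1 ≠ 0 := sub_ne_zero.2 (by exact_mod_cast (show m ≠ 1 by omega))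
  rw [GaugeBall.linGain, GaugeBall.volRatio, GaugeBall.secRatio, ballInt_us, ballInt_us,
    ← cst_eq (show m ≠ 0 by omega)]
  have hc := (cst_pos m).ne'
  field_simp
  ring

/-- **The pivot bound for a general gain and weight `a`.** -/
theorem pivot_linear (P : HalfProf f) (h0 : f 0 = 1) (hm : 3 ≤ m) (hr : r₀ ∈ Ioo (0:ℝ) 1)
    (s a : ℝ) {μ : ℝ} {D : ℝ → ℝ → ℝ}
    (iD : IntervalIntegrable (fun t => wq m f t * D (f t) (pProf f t)) volume 0 1)
    (iE : IntervalIntegrable (fun r => (m:ℝ) * r ^ (m - 1) * D r 1) volume 0 (fend f))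
    {R₁ R₂ : ℝ → ℝ} (hR1 : Continuous R₁) (hR2 : Continuous R₂)
    (h1 : ∀ r ∈ Ioc 0 r₀, ∀ p ∈ Icc (1 - r) 1,
      s * a * pivG m r / r ^ 2 ≤ μ * (m * r ^ (m - 1) * D r p) + p * R₁ r)
    (h2 : ∀ r ∈ Icc r₀ 1, ∀ p ∈ Icc (1 - r) 1,
      s * (a * pivG m r + pivM m) / r ^ 2 ≤ μ * (m * r ^ (m - 1) * D r p) + p * R₂ r) :
    s * (pivM m * sigR f r₀ + a * (Univ.ballInt m * GaugeBall.linGain m f)) ≤
      μ * gainK m D f + ((∫ r in (0:ℝ)..r₀, R₁ r) + (∫ r in r₀..1, R₂ r) -
        s * (pivM m * (us r₀ / r₀) - a * (Univ.ballInt m / ((m:ℝ) - 1)))) := by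
  have hH := continuous_pivH m
  have hH2 : Continuous fun r => a * pivH m r + pivM m / max r r₀ ^ 2 :=
    (hH.const_mul a).add (continuous_const.div (by fun_prop) fun r =>
      pow_ne_zero 2 (hr.1.trans_le (le_max_right r r₀)).ne')
  have key := linK_le_gen P h0 hr (μ := μ) iD iE (k₁ := fun r => s * (a * pivH m r))
    (k₂ := fun r => s * (a * pivH m r + pivM m / max r r₀ ^ 2))
    ((hH.const_mul a).const_mul s) (hH2.const_mul s) hR1 hR2 (fun r hr' p hp => ?_)
    (fun r hr' p hp => ?_)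
  · rw [linK_smul, linK_pivotA a P h0 hm hr] at key
    rw [ballInt_mul_linGain (by omega), sigR]
    have := hr.1.ne'
    have e : pivM m * ((dist01 f r₀ - us r₀) / r₀) =
        pivM m * (dist01 f r₀ / r₀) - pivM m * (us r₀ / r₀) := by ring
    rw [e]
    linarith
  · refine le_trans (le_of_eq ?_) (h1 r hr' p hp)
    rw [pivG_eq (show 2 ≤ m by omega)]
    have := hr'.1.ne'
    field_simp
  · refine le_trans (le_of_eq ?_) (h2 r hr' p hp)
    rw [max_eq_left hr'.1, pivG_eq (show 2 ≤ m by omega)]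
    have := (hr.1.trans_le hr'.1).ne'
    field_simp

/-! ### The split gain -/

/-- `θ_r Breg φ_R + θ_b b (p - u)²`. -/
noncomputable def splitD (m : ℕ) (θr θb r p : ℝ) : ℝ :=
  θr * (phiR m p - phiR m (us r) - psiR m (us r) * (p - us r)) +
    θb * quad m * (p - us r) ^ 2

/-- The split density has the split gain, and is integrable. -/
theorem gainK_split (P : HalfProf f) (h0 : f 0 = 1) (hm : 3 ≤ m) (θr θb : ℝ) :
    IntervalIntegrable (fun t => wq m f t * splitD m θr θb (f t) (pProf f t)) volume 0 1 ∧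
    IntervalIntegrable (fun r => (m:ℝ) * r ^ (m - 1) * splitD m θr θb r 1) volume 0 (fend f) ∧
    gainK m (splitD m θr θb) f =
      θr * (breg m f + bdry m f) + θb * (quad m * qhR m f) := by
  have hm0 : m ≠ 0 := by omega
  have he := fend_mem P h0
  have hfm : AEStronglyMeasurable f (volume.restrict (Ioo (0:ℝ) 1)) :=
    (P.continuousOn.mono Ioo_subset_Ico_self).aestronglyMeasurable measurableSet_Ioo
  have iQ : IntervalIntegrable (fun t => wq m f t * (pProf f t - us (f t)) ^ 2) volume 0 1 :=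
    P.intWgt_mul hm0 ((P.measurable_pProf.sub (continuous_us.comp_aestronglyMeasurable hfm)).pow 2)
      (C := 4) fun s hs => by
      have h1 := (P.bounds hs).2
      have h2 := us_mem (Ioc_subset_Icc_self (P.mem01' h0 hs))
      rw [abs_of_nonneg (sq_nonneg _)]
      nlinarith [h1.1, h1.2, h2.1, h2.2]
  have iB : IntervalIntegrable (fun t => wq m f t *
      (phiR m (pProf f t) - phiR m (us (f t)) - psiR m (us (f t)) * (pProf f t - us (f t))))
      volume 0 1 := by
    have i1 := (intWq_comp P hm0 (continuousOn_phiR (m := m))).1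
    have i2 := (ibp_comp P (a := fun t => t) (a' := fun _ => 1) continuousOn_id
      (fun t _ => hasDerivAt_id' t) continuousOn_const intervalIntegrable_const
      (continuous_hH (m := m) hm)).1
    have i3 := (ibp_comp P (a := fun _ => 1) (a' := fun _ => 0) continuousOn_const
      (fun t _ => hasDerivAt_const t 1) continuousOn_const intervalIntegrable_const
      (continuous_hM (m := m) hm)).1
    have i4 := bounded_comp P h0 (h := fun s => s * hH m s)
      (continuous_id.mul (continuous_hH (m := m) hm))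
    refine (i1.sub ((i4.sub i2).sub i3)).congr_ae ?_
    rw [EventuallyEq, ae_restrict_iff' measurableSet_uIoc]
    filter_upwards [Measure.ae_ne volume (1:ℝ)] with t hne hmem
    rw [uIoc_of_le zero_le_one] at hmem
    have ht : t ∈ Ioo (0:ℝ) 1 := ⟨hmem.1, lt_of_le_of_ne hmem.2 hne⟩
    have hfI := Ioc_subset_Icc_self (P.mem01' h0 ht)
    have hp := wq_mul_pProf (m := m) P ht
    simp only [wq, hH_eq hfI, hM_eq hfI] at hp ⊢
    linear_combination psiR m (us (f t)) * hp
  have cW : Continuous fun r : ℝ => (m:ℝ) * r ^ (m - 1) := by fun_prop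
  have jB : IntervalIntegrable (fun r => (m:ℝ) * r ^ (m - 1) * phiR m 1 - hH m r - hM m r)
      volume 0 (fend f) :=
    (((cW.mul continuous_const).sub (continuous_hH hm)).sub
      (continuous_hM hm)).intervalIntegrable _ _
  have jQ : IntervalIntegrable (fun r => (m:ℝ) * r ^ (m - 1) * (1 - us r) ^ 2) volume 0 (fend f) :=
    Continuous.intervalIntegrable (by fun_prop) _ _
  have hw : ∀ t, wq m f t * splitD m θr θb (f t) (pProf f t) =
      θr * (wq m f t * (phiR m (pProf f t) - phiR m (us (f t)) -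
        psiR m (us (f t)) * (pProf f t - us (f t)))) +
      θb * quad m * (wq m f t * (pProf f t - us (f t)) ^ 2) := fun t => by simp only [splitD]; ring
  have hj : ∀ r ∈ uIcc 0 (fend f), (m:ℝ) * r ^ (m - 1) * splitD m θr θb r 1 =
      θr * ((m:ℝ) * r ^ (m - 1) * phiR m 1 - hH m r - hM m r) +
      θb * quad m * ((m:ℝ) * r ^ (m - 1) * (1 - us r) ^ 2) := fun r hr => by
    rw [uIcc_of_le he.1] at hr
    have hrI : r ∈ Icc (0:ℝ) 1 := ⟨hr.1, hr.2.trans he.2⟩
    rw [hH_eq hrI, hM_eq hrI, splitD]; ring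
  refine ⟨?_, ((jB.const_mul θr).add (jQ.const_mul (θb * quad m))).congr
    fun r hr => (hj r (uIoc_subset_uIcc hr)).symm, ?_⟩
  · simp only [hw]
    exact (iB.const_mul θr).add (iQ.const_mul _)
  · simp only [gainK, hw]
    rw [intervalIntegral.integral_congr hj,
      intervalIntegral.integral_add (iB.const_mul θr) (iQ.const_mul _),
      intervalIntegral.integral_add (jB.const_mul θr) (jQ.const_mul _),
      intervalIntegral.integral_const_mul, intervalIntegral.integral_const_mul,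
      intervalIntegral.integral_const_mul, intervalIntegral.integral_const_mul, breg, bdry, qhR]
    ring

/-- **Closing a pivot term.** If for the value `σ` one has `M (-σ) - A ≤ μ G + a L` with
`l μ ≤ k`, `l a ≤ cL` and `C σ² ≤ l (M (-σ) - A)`, then `C σ² ≤ k G + cL L`. -/
theorem sq_le_of_linear {C σ M A μ a l k cL G L : ℝ} (hl : 0 ≤ l) (hG : 0 ≤ G) (hL : 0 ≤ L)
    (h : M * -σ - A ≤ μ * G + a * L) (hμ : l * μ ≤ k) (ha : l * a ≤ cL)
    (hC : C * σ ^ 2 ≤ l * (M * -σ - A)) : C * σ ^ 2 ≤ k * G + cL * L := by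
  have h1 := mul_le_mul_of_nonneg_left h hl
  nlinarith [mul_le_mul_of_nonneg_right hμ hG, mul_le_mul_of_nonneg_right ha hL]

end Vale.Agent.P237.AllN.InvPivot
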