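import Vale.Agent.P237.AllN.Phi

/-!
# P237, all dimensions: the calibration without its quadratic part

`psi' ≥ 1 - c` on `(-1, 1)`, so `phiR m t = phi m t - (1 - c) t² / 2` is still convex; this is the
remainder used together with the trace fact on `J = n E p²`.
-/

open MeasureTheory Set Real intervalIntegral Filter Topology

namespace Vale.Agent.P237.AllN

variable {m : ℕ}

/-- The quadratic coefficient `ψ'(0) = 1 - c`. -/
noncomputable def quad (m : ℕ) : ℝ := 1 - cst m

/-- The right-hand side of the equation of `psi m t - quad m * t`. -/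
noncomputable def rhsR (m : ℕ) (t : ℝ) : ℝ :=
  cst m - cst m / √(1 - t ^ 2) + (m + 3) * quad m * t ^ 2

/-- `√(1-t²)^(m+2) (psi m t - quad m * t)`. -/
noncomputable def accR (m : ℕ) (t : ℝ) : ℝ :=
  tailI m (arcsin t) - quad m * t * √(1 - t ^ 2) ^ (m + 2)

theorem hasDerivAt_sqrt_pow {t : ℝ} (ht : t ∈ Ioo (-1 : ℝ) 1) (k : ℕ) :
    HasDerivAt (fun x : ℝ => √(1 - x ^ 2) ^ (k + 2)) (-((k + 2) * t * √(1 - t ^ 2) ^ k)) t := by
  have hpos : (0 : ℝ) < 1 - t ^ 2 := by nlinarith [ht.1, ht.2]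
  have h := ((((hasDerivAt_pow 2 t).const_sub 1).sqrt hpos.ne')).pow (k + 2)
  refine h.congr_deriv ?_
  push_cast
  rw [pow_succ (√(1 - t ^ 2)) k, pow_one]
  have : √(1 - t ^ 2) ≠ 0 := by positivity
  field_simp

theorem hasDerivAt_accR {t : ℝ} (ht : t ∈ Ioo (-1 : ℝ) 1) :
    HasDerivAt (accR m) (√(1 - t ^ 2) ^ m * rhsR m t) t := by
  have hpos : (0 : ℝ) < 1 - t ^ 2 := by nlinarith [ht.1, ht.2]
  have h1 := (hasDerivAt_tailI m (arcsin t)).comp t (hasDerivAt_arcsin ht.1.ne' ht.2.ne)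
  have h2 := ((hasDerivAt_id t).const_mul (quad m)).mul (hasDerivAt_sqrt_pow ht m)
  refine (h1.sub h2).congr_deriv ?_
  have hsq : √(1 - t ^ 2) ^ 2 = 1 - t ^ 2 := sq_sqrt hpos.le
  have hne : √(1 - t ^ 2) ≠ 0 := by positivity
  simp only [gI, rhsR, quad, cos_arcsin, id, pow_add]
  rw [hsq]
  field_simp
  ring

theorem continuous_accR : Continuous (accR m) := by
  unfold accR
  fun_prop

theorem accR_eq {t : ℝ} (ht : t ∈ Ioo (-1 : ℝ) 1) :
    accR m t = √(1 - t ^ 2) ^ (m + 2) * (psi m t - quad m * t) := by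
  have : (0 : ℝ) < 1 - t ^ 2 := by nlinarith [ht.1, ht.2]
  rw [accR, psi, psiA, cos_arcsin]
  field_simp

/-- `rhsR` is nonnegative on an initial interval. -/
theorem rhsR_nonneg_of_le {x t : ℝ} (hx : 0 ≤ x) (hxt : x ≤ t) (ht : t < 1) (h : 0 ≤ rhsR m t) :
    0 ≤ rhsR m x := by
  rcases hx.eq_or_lt with rfl | hx0
  · simp [rhsR]
  have hux : (0 : ℝ) < √(1 - x ^ 2) := sqrt_pos.2 (by nlinarith)
  have hut : (0 : ℝ) < √(1 - t ^ 2) := sqrt_pos.2 (by nlinarith)
  have hle : √(1 - t ^ 2) ≤ √(1 - x ^ 2) := sqrt_le_sqrt (by nlinarith)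
  have key : ∀ s : ℝ, 0 < √(1 - s ^ 2) → rhsR m s =
      s ^ 2 * ((m + 3) * quad m - cst m / (√(1 - s ^ 2) * (1 + √(1 - s ^ 2)))) := by
    intro s hs
    have hs2 : √(1 - s ^ 2) ^ 2 = 1 - s ^ 2 := sq_sqrt (sqrt_pos.1 hs).le
    rw [rhsR]
    set w := √(1 - s ^ 2) with hw
    rw [show s ^ 2 = 1 - w ^ 2 by rw [hs2]; ring]
    field_simp
    ring
  rw [key t hut] at h
  rw [key x hux]
  refine mul_nonneg (sq_nonneg _) ?_
  have ht2 : (0 : ℝ) < t ^ 2 := by nlinarith
  refine le_trans (nonneg_of_mul_nonneg_right h ht2) (sub_le_sub_left ?_ _)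
  exact div_le_div_of_nonneg_left (cst_pos m).le (by positivity)
    (mul_le_mul hle (by linarith) (by positivity) hux.le)

theorem accR_nonneg {t : ℝ} (h0 : 0 ≤ t) (h1 : t < 1) (h : 0 ≤ rhsR m t) : 0 ≤ accR m t := by
  have hmono : MonotoneOn (accR m) (Icc 0 t) := by
    have hmem : ∀ x ∈ Icc 0 t, x ∈ Ioo (-1 : ℝ) 1 := fun x hx =>
      ⟨by linarith [hx.1], by linarith [hx.2]⟩
    refine monotoneOn_of_deriv_nonneg (convex_Icc _ _) continuous_accR.continuousOn
      (fun x hx => (hasDerivAt_accR (hmem x (interior_subset hx))).differentiableAt.differentiableWithinAt) ?_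
    intro x hx
    have hx' := interior_subset hx
    rw [(hasDerivAt_accR (hmem x hx')).deriv]
    exact mul_nonneg (by positivity) (rhsR_nonneg_of_le hx'.1 hx'.2 h1 h)
  have h2 := hmono ⟨le_rfl, h0⟩ ⟨h0, le_rfl⟩ h0
  simpa [accR, tailI_zero] using h2

/-- The quantity whose sign gives `psi' ≥ 1 - c`. -/
theorem lower_ineq {t : ℝ} (h0 : 0 ≤ t) (h1 : t < 1) :
    0 ≤ (m + 2) * t * (psi m t - quad m * t) + rhsR m t := by
  have ht : t ∈ Ioo (-1 : ℝ) 1 := ⟨by linarith, h1⟩
  have hw : (0 : ℝ) < √(1 - t ^ 2) := sqrt_pos.2 (by nlinarith)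
  rcases le_or_gt 0 (rhsR m t) with hR | hR
  · have h := accR_nonneg h0 h1 hR
    rw [accR_eq ht, mul_nonneg_iff_of_pos_left (by positivity)] at h
    have : 0 ≤ ((m : ℝ) + 2) * t * (psi m t - quad m * t) := by positivity
    linarith
  · have ht0 : 0 < t := by
      rcases h0.eq_or_lt with rfl | h'
      · simp [rhsR] at hR
      · exact h'
    set E : ℝ → ℝ := fun x => accR m x +
      (√(1 - x ^ 2) ^ (m + 2) * (cst m + (m + 3) * quad m * x ^ 2) - cst m * √(1 - x ^ 2) ^ (m + 1)) /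
        ((m + 2) * x) with hE
    have hEcont : ContinuousOn E (Icc t 1) := by
      refine continuous_accR.continuousOn.add (ContinuousOn.div (by fun_prop) (by fun_prop) ?_)
      intro x hx
      have : 0 < x := ht0.trans_le hx.1
      positivity
    have hE' : ∀ x ∈ Ioo (0 : ℝ) 1, E x = accR m x + √(1 - x ^ 2) ^ (m + 2) * rhsR m x / ((m + 2) * x) := by
      intro x hx
      have hxw : (0 : ℝ) < √(1 - x ^ 2) := sqrt_pos.2 (by nlinarith [hx.1, hx.2])
      simp only [hE, rhsR]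
      congr 1
      rw [pow_succ (√(1 - x ^ 2)) (m + 1)]
      field_simp
      ring
    have hder : ∀ x ∈ Ioo t 1, HasDerivAt E (√(1 - x ^ 2) ^ (m + 2) *
        (x * (cst m * (-(x / √(1 - x ^ 2) ^ 3)) + (m + 3) * quad m * (2 * x)) - rhsR m x) /
          ((m + 2) * x ^ 2)) x := by
      intro x hx
      have hx0 : 0 < x := ht0.trans hx.1
      have hxi : x ∈ Ioo (-1 : ℝ) 1 := ⟨by linarith, hx.2⟩
      have hpos : (0 : ℝ) < 1 - x ^ 2 := by nlinarith [hx.2]
      have hxw : (0 : ℝ) < √(1 - x ^ 2) := sqrt_pos.2 hpos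
      have hR' : HasDerivAt (rhsR m)
          (cst m * (-(x / √(1 - x ^ 2) ^ 3)) + (m + 3) * quad m * (2 * x)) x := by
        have hs := (((hasDerivAt_pow 2 x).const_sub 1).sqrt hpos.ne').inv hxw.ne'
        have h := ((hs.const_mul (cst m)).const_sub (cst m)).add
          ((hasDerivAt_pow 2 x).const_mul ((m + 3) * quad m))
        have h' : HasDerivAt (rhsR m) _ x := h.congr_of_eventuallyEq
          (Eventually.of_forall fun y => by simp [rhsR, div_eq_mul_inv])
        refine h'.congr_deriv ?_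
        push_cast
        field_simp
      have hd := (hasDerivAt_accR (m := m) hxi).add (((hasDerivAt_sqrt_pow hxi m).mul hR').div
        ((hasDerivAt_id x).const_mul ((m : ℝ) + 2)) (by simp only [id]; positivity))
      have hev : E =ᶠ[𝓝 x] fun y => accR m y + √(1 - y ^ 2) ^ (m + 2) * rhsR m y / ((m + 2) * y) := by
        filter_upwards [Ioo_mem_nhds hx0 hx.2] with y hy using hE' y hy
      refine (hd.congr_of_eventuallyEq hev).congr_deriv ?_
      have hsq : √(1 - x ^ 2) ^ 2 = 1 - x ^ 2 := sq_sqrt hpos.le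
      simp only [id, Pi.mul_apply]
      rw [pow_add (√(1 - x ^ 2)) m 2, hsq]
      field_simp
      ring
    have hanti : AntitoneOn E (Icc t 1) := by
      refine antitoneOn_of_deriv_nonpos (convex_Icc _ _) hEcont ?_ ?_
      · rw [interior_Icc]; exact fun x hx => (hder x hx).differentiableAt.differentiableWithinAt
      rw [interior_Icc]
      intro x hx
      rw [(hder x hx).deriv]
      have hx0 : 0 < x := ht0.trans hx.1
      have hpos : (0 : ℝ) < 1 - x ^ 2 := by nlinarith [hx.2]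
      have hxw : (0 : ℝ) < √(1 - x ^ 2) := sqrt_pos.2 hpos
      have hRx : rhsR m x < 0 := by
        by_contra hc
        exact absurd (rhsR_nonneg_of_le h0 hx.1.le hx.2 (not_lt.1 hc)) (not_le.2 hR)
      refine div_nonpos_of_nonpos_of_nonneg (mul_nonpos_of_nonneg_of_nonpos (by positivity) ?_)
        (by positivity)
      have hsq : √(1 - x ^ 2) ^ 2 = 1 - x ^ 2 := sq_sqrt hpos.le
      have hw1 : √(1 - x ^ 2) ≤ 1 := sqrt_le_one.2 (by nlinarith)
      set w := √(1 - x ^ 2) with hwdef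
      have hkey : 2 * (1 / w - 1) ≤ x ^ 2 / w ^ 3 := by
        rw [show x ^ 2 = 1 - w ^ 2 by rw [hsq]; ring, le_div_iff₀ (by positivity)]
        rw [show 2 * (1 / w - 1) * w ^ 3 = 2 * (1 - w) * w ^ 2 by field_simp]
        nlinarith [mul_nonneg (sub_nonneg.2 hw1) (show (0:ℝ) ≤ 1 + w - 2 * w ^ 2 by nlinarith)]
      have hr : rhsR m x = cst m - cst m / w + (m + 3) * quad m * x ^ 2 := rfl
      have e : x * (cst m * (-(x / w ^ 3)) + (m + 3) * quad m * (2 * x)) - rhsR m x =
          rhsR m x + cst m * (2 * (1 / w - 1) - x ^ 2 / w ^ 3) := by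
        rw [hr]; ring
      rw [e]
      have := mul_nonpos_of_nonneg_of_nonpos (cst_pos m).le (sub_nonpos.2 hkey)
      linarith
    have hend : E 1 = 0 := by simp [hE, accR, arcsin_one, tailI]
    have hmain := hanti ⟨le_rfl, h1.le⟩ ⟨h1.le, le_rfl⟩ h1.le
    rw [hend, hE' t ⟨ht0, h1⟩, accR_eq ht] at hmain
    have e : √(1 - t ^ 2) ^ (m + 2) * (psi m t - quad m * t) +
        √(1 - t ^ 2) ^ (m + 2) * rhsR m t / ((m + 2) * t) =
      √(1 - t ^ 2) ^ (m + 2) / ((m + 2) * t) *
        ((m + 2) * t * (psi m t - quad m * t) + rhsR m t) := by field_simp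
    rw [e, mul_nonneg_iff_of_pos_left (by positivity)] at hmain
    exact hmain

/-- The calibration remainder. -/
noncomputable def psiR (m : ℕ) (t : ℝ) : ℝ := psi m t - quad m * t

/-- The convex remainder. -/
noncomputable def phiR (m : ℕ) (t : ℝ) : ℝ := phi m t - quad m * t ^ 2 / 2

theorem hasDerivAt_psiR {t : ℝ} (ht : t ∈ Ioo (-1 : ℝ) 1) :
    HasDerivAt (psiR m) (((m + 2) * t * psiR m t + rhsR m t) / (1 - t ^ 2)) t := by
  refine ((hasDerivAt_psi (m := m) ht).sub ((hasDerivAt_id t).const_mul (quad m))).congr_deriv ?_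
  have : (1 : ℝ) - t ^ 2 ≠ 0 := by nlinarith [ht.1, ht.2]
  simp only [psiR, rhsR, quad]
  field_simp
  ring

/-- `psi' ≥ 1 - c`. -/
theorem monotoneOn_psiR : MonotoneOn (psiR m) (Ioo (-1) 1) := by
  refine monotoneOn_of_deriv_nonneg (convex_Ioo _ _)
    (fun t ht => (hasDerivAt_psiR ht).continuousAt.continuousWithinAt)
    (fun t ht => (hasDerivAt_psiR (interior_subset ht)).differentiableAt.differentiableWithinAt) ?_
  intro t ht
  rw [interior_Ioo] at ht
  rw [(hasDerivAt_psiR ht).deriv]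
  refine div_nonneg ?_ (by nlinarith [ht.1, ht.2])
  rcases le_total 0 t with h | h
  · exact lower_ineq h ht.2
  · have h' := lower_ineq (m := m) (neg_nonneg.2 h) (by linarith [ht.1])
    have e1 : rhsR m (-t) = rhsR m t := by simp only [rhsR, neg_sq]
    rw [psi_neg, e1] at h'
    rw [psiR]
    linarith

theorem hasDerivAt_phiR {t : ℝ} (ht : t ∈ Ioo (-1 : ℝ) 1) : HasDerivAt (phiR m) (psiR m t) t := by
  refine ((hasDerivAt_phi (m := m) ht).sub
    (((hasDerivAt_pow 2 t).const_mul (quad m)).div_const 2)).congr_deriv ?_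
  simp only [psiR]
  push_cast
  ring

/-- The remainder is convex. -/
theorem convexOn_phiR : ConvexOn ℝ (Icc (-1) 1) (phiR m) := by
  refine MonotoneOn.convexOn_of_deriv (convex_Icc _ _)
    (continuousOn_phi.sub (by fun_prop)) ?_ ?_
  · rw [interior_Icc]
    exact fun t ht => (hasDerivAt_phiR ht).differentiableAt.differentiableWithinAt
  · rw [interior_Icc]
    intro x hx y hy hxy
    rw [(hasDerivAt_phiR hx).deriv, (hasDerivAt_phiR hy).deriv]
    exact monotoneOn_psiR hx hy hxy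

theorem phiR_neg (m : ℕ) (t : ℝ) : phiR m (-t) = phiR m t := by simp [phiR, phi_neg]

end Vale.Agent.P237.AllN
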