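import Mathlib
import Vale.Agent.P237.AllN.Spec
import Vale.Agent.P237.Univ.Assembly
import Vale.Agent.P237.Sharp.Three
import Vale.Agent.P237.Sharp.Four
import Vale.Agent.P237.Sharp.OneD3.Main
import Vale.Agent.P237.Sharp.OneD4.Main

/-!
# P237, all dimensions: Petty's inequality from the profile lemma and the averaged fact

Induction on the dimension. For a symmetric minimiser `K` and `w = ∇ gauge K y` the slices along
`w` bound the ratio from below; the averaged fact provides a direction where the profile lemma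
applies. In the equality case almost every such profile is elliptical, the second moments then
force the isotropic position of `K` to be a ball.
-/

open MeasureTheory Set Real Metric Filter Topology
open scoped Pointwise RealInnerProductSpace Gradient

namespace Vale.Agent.P237.AllN

variable {n k : ℕ}

/-! ### The gradient of the gauge -/

lemma supp_smul_right {K : Set (E n)} (hK : IsCompact K) (hne : K.Nonempty) {c : ℝ} (hc : 0 ≤ c)
    (w : E n) : supp K (c • w) = c * supp K w := by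
  obtain ⟨x₀, hx₀, hmax⟩ := (hK.image (f := fun x : E n => ⟪x, w⟫) (by fun_prop)).sSup_mem
    (hne.image _)
  refine le_antisymm (csSup_le (hne.image _) ?_) ?_
  · rintro _ ⟨x, hx, rfl⟩
    show ⟪x, c • w⟫ ≤ _
    rw [real_inner_smul_right]
    exact mul_le_mul_of_nonneg_left (le_supp hK w hx) hc
  · have := le_supp hK (c • w) hx₀
    rw [real_inner_smul_right] at this
    show c * sSup _ ≤ _
    rw [← hmax]
    exact this

lemma ne_zero_of_supp {K : Set (E n)} (hne : K.Nonempty) {w : E n} (h : supp K w = 1) : w ≠ 0 := by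
  rintro rfl
  simp [supp, hne.image_const] at h

/-- The gradient of the gauge at almost every point is a functional of support value one. -/
theorem grad_spec {K : Set (E (n + 1))} (hK : IsBody K) (hsym : ∀ x ∈ K, -x ∈ K) :
    ∀ᵐ y : E (n + 1), supp K (∇ (gauge K) y) = 1 ∧ ⟪∇ (gauge K) y, y⟫ = gauge K y := by
  have h0 := Sharp.zero_mem_interior hK hsym
  have hnhds : K ∈ 𝓝 (0 : E (n + 1)) := mem_interior_iff_mem_nhds.1 h0
  obtain ⟨r, hr, hball⟩ := Metric.mem_nhds_iff.1 hnhds
  have habs : Absorbent ℝ K := absorbent_nhds_zero hnhds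
  have hlip := hK.convex.lipschitzWith_gauge (r := r.toNNReal) (by simpa using hr)
    (by rwa [Real.coe_toNNReal _ hr.le])
  have hle : ∀ x ∈ K, gauge K x ≤ 1 := fun x hx => gauge_le_one_of_mem hx
  filter_upwards [hlip.ae_differentiableAt, Measure.ae_ne volume (0 : E (n + 1))] with y hy hy0
  set z := ∇ (gauge K) y with hz
  have hd : ∀ x, HasDerivAt (fun t : ℝ => gauge K (y + t • x)) ⟪z, x⟫ 0 := fun x => by
    have h1 : HasDerivAt (fun t : ℝ => y + t • x) x 0 := by
      simpa using ((hasDerivAt_id (0 : ℝ)).smul_const x).const_add y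
    have h2 := hy.hasFDerivAt
    have e : ⟪z, x⟫ = fderiv ℝ (gauge K) y x := by
      rw [hz, gradient, InnerProductSpace.toDual_symm_apply]
    rw [e]
    refine HasFDerivAt.comp_hasDerivAt (x := (0 : ℝ)) (l := gauge K) ?_ h1
    simpa using h2
  have hsub : ∀ x, ⟪z, x⟫ ≤ gauge K x := fun x => by
    refine le_of_tendsto (hasDerivAt_iff_tendsto_slope.1 (hd x) |>.mono_left
      (nhdsWithin_mono 0 fun t (ht : (0:ℝ) < t) => ht.ne' : 𝓝[>] (0:ℝ) ≤ _)) ?_
    filter_upwards [self_mem_nhdsWithin] with t ht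
    have ht0 : (0 : ℝ) < t := ht
    rw [slope_def_field, zero_smul, add_zero, sub_zero, div_le_iff₀ ht0]
    have := gauge_add_le hK.convex habs y (t • x)
    rw [gauge_smul_of_nonneg ht0.le, smul_eq_mul] at this
    linarith
  have heul : ⟪z, y⟫ = gauge K y := by
    refine (hd y).unique ?_
    have h1 : HasDerivAt (fun t : ℝ => (1 + t) * gauge K y) (gauge K y) 0 := by
      simpa using ((hasDerivAt_id (0 : ℝ)).const_add 1).mul_const (gauge K y)
    refine h1.congr_of_eventuallyEq ?_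
    filter_upwards [Ioi_mem_nhds (show (-1 : ℝ) < 0 by norm_num)] with t ht
    rw [← smul_eq_mul (1 + t), ← gauge_smul_of_nonneg (by linarith [mem_Ioi.1 ht]) y, add_smul,
      one_smul]
  refine ⟨le_antisymm (csSup_le ((hK.nonempty.mono interior_subset).image _) ?_) ?_, heul⟩
  · rintro _ ⟨x, hx, rfl⟩
    show ⟪x, z⟫ ≤ 1
    rw [real_inner_comm]
    exact (hsub x).trans (hle x hx)
  · have hg : 0 < gauge K y := (gauge_pos habs
      ((NormedSpace.isVonNBounded_iff ℝ).2 hK.compact.isBounded)).2 hy0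
    have hmem : (gauge K y)⁻¹ • y ∈ K := by
      have h : gauge K ((gauge K y)⁻¹ • y) ≤ 1 := by
        rw [gauge_smul_of_nonneg (inv_nonneg.2 hg.le), smul_eq_mul, inv_mul_cancel₀ hg.ne']
      rwa [gauge_le_one_iff_mem_closure hK.convex hnhds, hK.compact.isClosed.closure_eq] at h
    have := le_supp hK.compact z hmem
    rwa [real_inner_smul_left, real_inner_comm, heul, inv_mul_cancel₀ hg.ne'] at this

/-! ### The profile along a functional -/

lemma frameAt_spec {w : E (n + 1)} (hw : w ≠ 0) : frameAt w (‖w‖⁻¹ • w) = e0 := by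
  have h : ‖‖w‖⁻¹ • w‖ = 1 := Sharp.norm_unit hw
  rw [frameAt, dif_pos h]
  exact (exists_frame h).choose_spec

/-- Everything the slices along `w` give. -/
theorem profAt_spec {K : Set (E (k + 1 + 1))} (hK : IsBody K) (hsym : ∀ x ∈ K, -x ∈ K)
    {w : E (k + 1 + 1)} (hw : supp K w = 1) :
    ConcaveOn ℝ (Icc 0 1) (profAt K w) ∧ AntitoneOn (profAt K w) (Icc 0 1) ∧
      (∀ t, 0 ≤ profAt K w t) ∧ (0 < ∫ t in (0:ℝ)..1, profAt K w t ^ (k + 1)) ∧
      volume.real K = 2 * ‖w‖⁻¹ * (∫ t in (0:ℝ)..1, profAt K w t ^ (k + 1)) ∧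
      mom K w = 2 * ‖w‖⁻¹ * ∫ t in (0:ℝ)..1, t ^ 2 * profAt K w t ^ (k + 1) := by
  have hne := hK.nonempty.mono interior_subset
  have hw0 := ne_zero_of_supp hne hw
  have hn : 0 < ‖w‖ := norm_pos_iff.2 hw0
  set h := ‖w‖⁻¹ with hh
  have hh0 : 0 < h := inv_pos.2 hn
  have hv : ‖h • w‖ = 1 := Sharp.norm_unit hw0
  have hL := frameAt_spec hw0
  set L := frameAt w
  have hs : supp K (h • w) = h := by rw [supp_smul_right hK.compact hne hh0.le, hw, mul_one]
  obtain ⟨-, hconc, hanti, hnn, hV⟩ := profile hK hsym hv L hL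
  have hM := profile_moment hK hsym hv L hL
  rw [hs] at hconc hanti hnn hV hM
  set f : ℝ → ℝ := fun t => volume.real (slice (L '' K) t) ^ (((k + 1 : ℕ):ℝ)⁻¹)
  have hF : ∀ t, profAt K w t = f (h * t) := fun t => rfl
  have hmaps : ∀ t ∈ Icc (0:ℝ) 1, h * t ∈ Icc (0:ℝ) h := fun t ht =>
    ⟨mul_nonneg hh0.le ht.1, mul_le_of_le_one_right hh0.le ht.2⟩
  have hFp : ∀ t, profAt K w t ^ (k + 1) = volume.real (slice (L '' K) (h * t)) := fun t =>
    rpow_inv_natCast_pow measureReal_nonneg (by omega)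
  have eV : volume.real K = 2 * h * (∫ t in (0:ℝ)..1, profAt K w t ^ (k + 1)) := by
    simp only [hFp]
    rw [intervalIntegral.integral_comp_mul_left (fun t => volume.real (slice (L '' K) t)) hh0.ne',
      mul_zero, mul_one, smul_eq_mul, ← mul_assoc, mul_assoc 2 h, mul_inv_cancel₀ hh0.ne', mul_one]
    exact hV
  refine ⟨⟨convex_Icc _ _, fun x hx y hy p q hp hq hpq => ?_⟩, fun x hx y hy hxy => ?_,
    fun t => rpow_nonneg measureReal_nonneg _, ?_, eV, ?_⟩
  · simp only [hF, smul_eq_mul]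
    have := hconc.2 (hmaps x hx) (hmaps y hy) hp hq hpq
    simp only [smul_eq_mul] at this
    rwa [show h * (p * x + q * y) = p * (h * x) + q * (h * y) by ring]
  · exact hanti (hmaps x hx) (hmaps y hy) (mul_le_mul_of_nonneg_left hxy hh0.le)
  · have := hK.volume_pos
    rw [eV] at this
    exact pos_of_mul_pos_right this (by positivity)
  · have e1 : mom K (h • w) = h ^ 2 * mom K w := by
      simp only [mom, real_inner_smul_right, mul_pow]
      exact integral_const_mul _ _
    rw [e1] at hM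
    refine mul_left_cancel₀ (pow_ne_zero 2 hh0.ne') (hM.trans ?_)
    simp only [hFp]
    have e2 := intervalIntegral.integral_comp_mul_left (a := 0) (b := 1)
      (fun t => t ^ 2 * volume.real (slice (L '' K) t)) hh0.ne'
    simp only [mul_zero, mul_one, smul_eq_mul, mul_pow, mul_assoc,
      intervalIntegral.integral_const_mul] at e2
    rw [eq_inv_mul_iff_mul_eq₀ hh0.ne'] at e2
    rw [← e2]
    ring

/-- The slices along any functional of support value one bound the ratio of a minimiser. -/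
theorem slice_bound {c : ℝ} (hc : 0 ≤ c)
    (IH : ∀ Q : Set (E (k + 1)), IsBody Q → c * volume.real Q ^ k ≤ volume.real (projBody Q))
    {K : Set (E (k + 1 + 1))} (hK : Sharp.IsMin K) (hsym : ∀ x ∈ K, -x ∈ K)
    {w : E (k + 1 + 1)} (hw : supp K w = 1) :
    2 * c * (∫ t in (0:ℝ)..1, profAt K w t ^ k) ^ (k + 1) ≤
      Sharp.ratio K * (∫ t in (0:ℝ)..1, profAt K w t ^ (k + 1)) ^ k := by
  have hne := hK.1.nonempty.mono interior_subset
  have hw0 := ne_zero_of_supp hne hw
  obtain ⟨-, -, -, -, eV, -⟩ := profAt_spec hK.1 hsym hw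
  set h := ‖w‖⁻¹ with hh
  have hh0 : 0 < h := inv_pos.2 (norm_pos_iff.2 hw0)
  have hv : ‖h • w‖ = 1 := Sharp.norm_unit hw0
  have hs : supp K (h • w) = h := by rw [supp_smul_right hK.1.compact hne hh0.le, hw, mul_one]
  have hsh := Sharp.shadow_core_gen hc IH hK.1 hsym hv (frameAt w) (frameAt_spec hw0)
  rw [Sharp.isMin_projArea hK hsym hv, hs] at hsh
  have e := intervalIntegral.integral_comp_mul_left (a := 0) (b := 1)
    (fun t => (volume.real (slice (frameAt w '' K) t) ^ (((k + 1 : ℕ):ℝ)⁻¹)) ^ k) hh0.ne'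
  change (∫ t in (0:ℝ)..1, profAt K w t ^ k) = _ at e
  rw [mul_zero, mul_one, smul_eq_mul, eq_inv_mul_iff_mul_eq₀ hh0.ne'] at e
  rw [← e] at hsh
  set P := ∫ t in (0:ℝ)..1, profAt K w t ^ k
  set Z := ∫ t in (0:ℝ)..1, profAt K w t ^ (k + 1)
  have hV := hK.1.volume_pos
  have hr : volume.real (projBody K) / volume.real K * h =
      Sharp.ratio K * (volume.real K ^ k * h) := by
    rw [Sharp.ratio, pow_succ]; field_simp
  rw [hr, eV] at hsh
  refine le_of_mul_le_mul_left ?_ (show (0:ℝ) < 2 ^ k * h ^ (k + 1) by positivity)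
  calc 2 ^ k * h ^ (k + 1) * (2 * c * P ^ (k + 1)) = c * (2 * (h * P)) ^ (k + 1) := by
        rw [mul_pow 2, mul_pow h, pow_succ (2:ℝ)]; ring
    _ ≤ Sharp.ratio K * ((2 * h * Z) ^ k * h) := hsh
    _ = 2 ^ k * h ^ (k + 1) * (Sharp.ratio K * Z ^ k) := by
        rw [mul_pow, mul_pow, pow_succ h]; ring

/-! ### Constants -/

lemma ballInt_pos {j : ℕ} (hj : 1 ≤ j) : 0 < Univ.ballInt j := by
  rw [Univ.ballInt_eq hj]; exact div_pos (kap_pos _) (mul_pos two_pos (kap_pos _))

lemma petty_rec (hk : 1 ≤ k) :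
    2 * petty (k + 1) * (Univ.ballInt k ^ (k + 1) / Univ.ballInt (k + 1) ^ k) = petty (k + 2) := by
  obtain ⟨j, rfl⟩ : ∃ j, k = j + 1 := ⟨k - 1, by omega⟩
  rw [Univ.ballInt_eq hk, Univ.ballInt_eq (k := j + 1 + 1) (by omega)]
  simp only [petty, show j + 1 + 1 - 1 = j + 1 by omega, show j + 1 + 1 - 2 = j by omega,
    show j + 1 + 2 - 1 = j + 1 + 1 by omega, show j + 1 + 2 - 2 = j + 1 by omega,
    show j + 1 + 1 + 1 = j + 1 + 2 by omega]
  have p1 := (kap_pos (j + 1)).ne'
  have p2 := (kap_pos (j + 1 + 1)).ne'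
  have p3 := (kap_pos (j + 1 + 2)).ne'
  simp only [div_pow, mul_pow, pow_succ]
  field_simp

lemma ballInt_rec {j : ℕ} (hj : 1 ≤ j) :
    ((j:ℝ) + 3) * Univ.ballInt (j + 2) = ((j:ℝ) + 2) * Univ.ballInt j := by
  rw [Univ.ballInt_eq hj, Univ.ballInt_eq (k := j + 2) (by omega), kap_rec j,
    show j + 2 + 1 = j + 1 + 2 by omega, kap_rec (j + 1)]
  have p0 := (kap_pos j).ne'
  have hp := pi_pos.ne'
  push_cast
  field_simp
  ring

lemma integral_sq_ball {m : ℕ} (hm : 1 ≤ m) :
    ((m:ℝ) + 3) * ∫ t in (0:ℝ)..1, t ^ 2 * √(1 - t ^ 2) ^ m = Univ.ballInt m := by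
  have h : ∫ t in (0:ℝ)..1, t ^ 2 * √(1 - t ^ 2) ^ m = Univ.ballInt m - Univ.ballInt (m + 2) := by
    rw [Univ.ballInt, Univ.ballInt, ← intervalIntegral.integral_sub
      (Continuous.intervalIntegrable (by fun_prop) _ _) (Continuous.intervalIntegrable (by fun_prop) _ _)]
    refine intervalIntegral.integral_congr fun t ht => ?_
    rw [uIcc_of_le (zero_le_one : (0:ℝ) ≤ 1)] at ht
    show _ = √(1 - t ^ 2) ^ m - √(1 - t ^ 2) ^ (m + 2)
    rw [pow_add, sq_sqrt (by nlinarith [ht.1, ht.2])]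
    ring
  rw [h, mul_sub, ballInt_rec hm]
  ring

/-! ### Elliptical profiles -/

/-- The profile is a multiple of the ball's. -/
def IsEll (f : ℝ → ℝ) : Prop := ∃ s : ℝ, ∀ t ∈ Ioo (0:ℝ) 1, f t = s * √(1 - t ^ 2)

lemma integral_congr_Ioo {g g' : ℝ → ℝ} (h : ∀ t ∈ Ioo (0:ℝ) 1, g t = g' t) :
    ∫ t in (0:ℝ)..1, g t = ∫ t in (0:ℝ)..1, g' t := by
  rw [intervalIntegral.integral_of_le zero_le_one, intervalIntegral.integral_of_le zero_le_one,
    integral_Ioc_eq_integral_Ioo, integral_Ioc_eq_integral_Ioo]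
  exact setIntegral_congr_fun measurableSet_Ioo h

lemma pen_ell {m : ℕ} {f : ℝ → ℝ} (h : IsEll f) : pen m f = 0 := by
  obtain ⟨s, hs⟩ := h
  rw [pen, integral_congr_Ioo (g' := fun _ => 0), intervalIntegral.integral_zero]
  intro t ht
  have hpos : 0 < 1 - t ^ 2 := by nlinarith [ht.1, ht.2]
  have hu : 0 < √(1 - t ^ 2) := sqrt_pos.2 hpos
  have hev : f =ᶠ[𝓝 t] fun x => s * √(1 - x ^ 2) := by
    filter_upwards [isOpen_Ioo.mem_nhds ht] with x hx using hs x hx
  have hd : HasDerivAt (fun x => s * √(1 - x ^ 2)) (s * (-t / √(1 - t ^ 2))) t := by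
    have := (((hasDerivAt_pow 2 t).const_sub 1).sqrt hpos.ne').const_mul s
    refine this.congr_deriv ?_
    field_simp
    ring
  have hfd : deriv f t = s * (-t / √(1 - t ^ 2)) := hev.deriv_eq.trans hd.deriv
  have hden : f t - t * deriv f t = s / √(1 - t ^ 2) := by
    rw [hfd, hs t ht]
    field_simp
    rw [sq_sqrt hpos.le]
    ring
  rcases eq_or_ne s 0 with rfl | hs0
  · simp [penDens, hden]
  · have hp : pProf f t = t := by
      rw [pProf, hden, hfd]
      field_simp
    simp [penDens, hp]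

lemma mom_ell {K : Set (E (k + 1 + 1))} (hK : IsBody K) (hsym : ∀ x ∈ K, -x ∈ K)
    {w : E (k + 1 + 1)} (hw : supp K w = 1) (h : IsEll (profAt K w)) :
    ((k:ℝ) + 4) * mom K w = volume.real K := by
  obtain ⟨-, -, -, -, eV, eM⟩ := profAt_spec hK hsym hw
  obtain ⟨s, hs⟩ := h
  rw [integral_congr_Ioo (g' := fun t => s ^ (k + 1) * √(1 - t ^ 2) ^ (k + 1))
    (fun t ht => by rw [hs t ht, mul_pow]), intervalIntegral.integral_const_mul] at eV
  rw [integral_congr_Ioo (g' := fun t => s ^ (k + 1) * (t ^ 2 * √(1 - t ^ 2) ^ (k + 1)))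
    (fun t ht => by rw [hs t ht, mul_pow]; ring), intervalIntegral.integral_const_mul] at eM
  have hb := integral_sq_ball (m := k + 1) (by omega)
  push_cast at hb
  rw [eV, eM, show ∫ t in (0:ℝ)..1, √(1 - t ^ 2) ^ (k + 1) = Univ.ballInt (k + 1) from rfl, ← hb]
  ring

/-! ### Balls -/

lemma supp_ball {v : E n} (hv : ‖v‖ = 1) : supp (closedBall (0 : E n) 1) v = 1 := by
  refine le_antisymm (csSup_le ((nonempty_closedBall.2 zero_le_one).image _) ?_) ?_
  · rintro _ ⟨x, hx, rfl⟩
    have := real_inner_le_norm x v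
    rw [hv, mul_one] at this
    exact this.trans (mem_closedBall_zero_iff.1 hx)
  · have := le_supp (isCompact_closedBall (0 : E n) 1) v (mem_closedBall_zero_iff.2 hv.le)
    rwa [real_inner_self_eq_norm_sq, hv, one_pow] at this

lemma profAt_ball {v : E (k + 1 + 1)} (hv : ‖v‖ = 1) :
    IsEll (profAt (closedBall (0 : E (k + 1 + 1)) 1) v) := by
  refine ⟨kap (k + 1) ^ (((k + 1 : ℕ):ℝ)⁻¹), fun t ht => ?_⟩
  rw [profAt, hv, inv_one, one_mul, LinearIsometryEquiv.image_closedBall, map_zero,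
    Sharp.slice_ball ⟨ht.1.le, ht.2.le⟩, Univ.volume_real_closedBall _ (sqrt_nonneg _),
    mul_comm _ (kap (k + 1)), mul_rpow (kap_pos _).le (by positivity),
    pow_rpow_inv_natCast (sqrt_nonneg _) (by omega)]

lemma projBody_ball : projBody (closedBall (0 : E (n + 1)) 1) = closedBall 0 (kap n) := by
  have hA : ∀ u : E (n + 1), ‖u‖ = 1 → projArea (closedBall (0 : E (n + 1)) 1) u = kap n := by
    intro u hu
    obtain ⟨L, hL⟩ := exists_frame hu
    rw [projArea_frame hu L hL, LinearIsometryEquiv.image_closedBall, map_zero, Sharp.tl_ball, kap]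
  ext x
  rw [mem_closedBall_zero_iff]
  constructor
  · intro hx
    rcases eq_or_ne x 0 with rfl | h0
    · rw [norm_zero]; exact (kap_pos n).le
    · have hu := Sharp.norm_unit h0
      have := hx _ hu
      rw [hA _ hu, real_inner_smul_right, real_inner_self_eq_norm_sq, sq,
        inv_mul_cancel_left₀ (norm_ne_zero_iff.2 h0)] at this
      exact this
  · intro hx u hu
    rw [hA u hu]
    have := real_inner_le_norm x u
    rw [hu, mul_one] at this
    exact this.trans hx

lemma ratio_ball : Sharp.ratio (closedBall (0 : E (k + 1 + 1)) 1) = petty (k + 2) := by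
  have h2 := (kap_pos (k + 1 + 1)).ne'
  rw [Sharp.ratio, projBody_ball, Univ.volume_real_closedBall _ (kap_pos _).le]
  show _ / kap (k + 1 + 1) ^ (k + 1) = kap (k + 1) ^ (k + 1 + 1) / kap (k + 1 + 1) ^ k
  rw [pow_succ _ k]
  field_simp

lemma ratio_ellipsoid (a : E (k + 1 + 1)) (T : E (k + 1 + 1) ≃ₗ[ℝ] E (k + 1 + 1)) :
    Sharp.ratio ((fun x => a + x) '' (T '' closedBall 0 1)) = petty (k + 2) := by
  rw [Sharp.ratio_translate, Sharp.ratio_linear (isCompact_closedBall _ _)
    (convex_closedBall _ _), ratio_ball]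

/-! ### The induction step

The step works for any criterion `Λ` on profiles that vanishes on elliptical profiles, has the
averaged property, and forces the profile inequality where it is `≤ 0`; `pen` is one such. -/

/-- A criterion `Λ` on profiles in dimension `m + 1` forces the profile inequality. -/
def CritLemma (m : ℕ) (Λ : (ℝ → ℝ) → ℝ) : Prop :=
  ∀ f : ℝ → ℝ, ConcaveOn ℝ (Icc 0 1) f → AntitoneOn f (Icc 0 1) → (∀ t ∈ Icc (0 : ℝ) 1, 0 ≤ f t) →
    (0 < ∫ t in (0 : ℝ)..1, f t ^ m) → Λ f ≤ 0 →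
    Univ.ballInt (m - 1) ^ m * (∫ t in (0 : ℝ)..1, f t ^ m) ^ (m - 1) ≤
        (∫ t in (0 : ℝ)..1, f t ^ (m - 1)) ^ m * Univ.ballInt m ^ (m - 1) ∧
      (Univ.ballInt (m - 1) ^ m * (∫ t in (0 : ℝ)..1, f t ^ m) ^ (m - 1) =
        (∫ t in (0 : ℝ)..1, f t ^ (m - 1)) ^ m * Univ.ballInt m ^ (m - 1) → IsEll f)

/-- The averaged property of a criterion in dimension `k + 2`. -/
def CritAvg (k : ℕ) (Λ : (ℝ → ℝ) → ℝ) : Prop :=
  ∀ K : Set (E (k + 1 + 1)), IsBody K → (∀ x ∈ K, -x ∈ K) →
    (∀ᵐ y ∂volume.restrict K, 0 ≤ Λ (profAt K (∇ (gauge K) y))) →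
    ∀ᵐ y ∂volume.restrict K, Λ (profAt K (∇ (gauge K) y)) = 0

/-- A criterion vanishes on elliptical profiles. -/
def CritEll (Λ : (ℝ → ℝ) → ℝ) : Prop := ∀ f : ℝ → ℝ, IsEll f → Λ f = 0

variable {Λ : (ℝ → ℝ) → ℝ}

/-- A symmetric minimiser: the bound, and almost all profiles are elliptical if it is attained. -/
theorem min_core (hk : 1 ≤ k) (hl : CritLemma (k + 1) Λ) (ha : CritAvg k Λ) (he0 : CritEll Λ)
    (IH : ∀ Q : Set (E (k + 1)), IsBody Q →
      petty (k + 1) * volume.real Q ^ k ≤ volume.real (projBody Q))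
    {K : Set (E (k + 1 + 1))} (hK : Sharp.IsMin K) (hsym : ∀ x ∈ K, -x ∈ K) :
    petty (k + 2) ≤ Sharp.ratio K ∧ (Sharp.ratio K = petty (k + 2) →
      ∀ᵐ y ∂volume.restrict K, supp K (∇ (gauge K) y) = 1 ∧
        IsEll (profAt K (∇ (gauge K) y))) := by
  have hB0 := ballInt_pos hk
  have hB1 := ballInt_pos (j := k + 1) (by omega)
  have key : ∀ w, supp K w = 1 → Λ (profAt K w) ≤ 0 →
      petty (k + 2) ≤ Sharp.ratio K ∧ (Sharp.ratio K ≤ petty (k + 2) → IsEll (profAt K w)) := by
    intro w hw hp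
    obtain ⟨hc, ha', hn, hZ, -, -⟩ := profAt_spec hK.1 hsym hw
    obtain ⟨h1, h2⟩ := hl _ hc ha' (fun t _ => hn t) hZ hp
    simp only [Nat.add_sub_cancel] at h1 h2
    have hb := slice_bound (petty_pos _).le IH hK hsym hw
    set P := ∫ t in (0:ℝ)..1, profAt K w t ^ k
    set Z := ∫ t in (0:ℝ)..1, profAt K w t ^ (k + 1)
    have hc0 : 0 < 2 * petty (k + 1) := mul_pos two_pos (petty_pos _)
    have e : petty (k + 2) * Z ^ k * Univ.ballInt (k + 1) ^ k =
        2 * petty (k + 1) * (Univ.ballInt k ^ (k + 1) * Z ^ k) := by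
      rw [← petty_rec hk]; field_simp
    have h3 : petty (k + 2) * Z ^ k * Univ.ballInt (k + 1) ^ k ≤
        Sharp.ratio K * Z ^ k * Univ.ballInt (k + 1) ^ k := by
      rw [e]
      refine (mul_le_mul_of_nonneg_left h1 hc0.le).trans ?_
      rw [← mul_assoc]
      exact mul_le_mul_of_nonneg_right hb (by positivity)
    refine ⟨le_of_mul_le_mul_right (le_of_mul_le_mul_right h3 (by positivity)) (by positivity),
      fun hr => h2 ?_⟩
    refine le_antisymm h1 (le_of_mul_le_mul_left ?_ hc0)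
    rw [← e, ← mul_assoc]
    exact mul_le_mul_of_nonneg_right (hb.trans (mul_le_mul_of_nonneg_right hr (by positivity)))
      (by positivity)
  have hgrad : ∀ᵐ y ∂volume.restrict K, supp K (∇ (gauge K) y) = 1 :=
    (ae_restrict_of_ae (grad_spec hK.1 hsym)).mono fun y h => h.1
  have : NeZero (volume.restrict K) := ⟨fun h0 => by
    have := hK.1.volume_pos
    rw [measureReal_def, ← Measure.restrict_apply_univ, h0] at this
    simp at this⟩
  constructor
  · by_contra hlt
    have hpos : ∀ᵐ y ∂volume.restrict K, 0 < Λ (profAt K (∇ (gauge K) y)) :=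
      hgrad.mono fun y hy => not_le.1 fun h => hlt (key _ hy h).1
    obtain ⟨y, h1, h2⟩ := (hpos.and (ha K hK.1 hsym (hpos.mono fun y h => h.le))).exists
    linarith
  · intro hr
    have hnn : ∀ᵐ y ∂volume.restrict K, 0 ≤ Λ (profAt K (∇ (gauge K) y)) :=
      hgrad.mono fun y hy => not_lt.1 fun h => by
        rw [he0 _ ((key _ hy h.le).2 hr.le)] at h
        exact lt_irrefl _ h
    exact (hgrad.and (ha K hK.1 hsym hnn)).mono fun y h =>
      ⟨h.1, (key _ h.1 h.2.le).2 hr.le⟩

/-- Almost elliptical profiles in all directions force a ball in isotropic position. -/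
theorem ball_of_ell {K : Set (E (k + 1 + 1))} (hK : IsBody K) (hsym : ∀ x ∈ K, -x ∈ K)
    (hBK : closedBall 0 1 ⊆ K) {v : E (k + 1 + 1)} (hv : ‖v‖ = 1) (hs : supp K v = 1)
    (hiso : ∀ a b : E (k + 1 + 1), ‖a‖ = ‖b‖ → mom K a = mom K b)
    (hell : ∀ᵐ y ∂volume.restrict K, supp K (∇ (gauge K) y) = 1 ∧
      IsEll (profAt K (∇ (gauge K) y))) : K = closedBall 0 1 := by
  have hmv : 0 < mom K v :=
    mom_pos hK.compact hK.nonempty (by intro h; simp [h] at hv)
  have hsc : ∀ a : E (k + 1 + 1), mom K a = ‖a‖ ^ 2 * mom K v := fun a => by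
    rw [hiso a (‖a‖ • v) (by rw [norm_smul, hv, norm_norm, mul_one])]
    simp only [mom, real_inner_smul_right, mul_pow]
    exact integral_const_mul _ _
  set ρ := √(volume.real K / (((k:ℝ) + 4) * mom K v)) with hρ
  have hnorm : ∀ᵐ y ∂volume.restrict K, ‖∇ (gauge K) y‖ = ρ ∧
      gauge K y ≤ ρ * ‖y‖ ∧ supp K (∇ (gauge K) y) = 1 := by
    filter_upwards [hell, ae_restrict_of_ae (grad_spec hK hsym)] with y h1 h2
    have h := mom_ell hK hsym h1.1 h1.2
    rw [hsc] at h
    have e : ‖∇ (gauge K) y‖ = ρ := by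
      rw [hρ, ← h, show ((k:ℝ) + 4) * (‖∇ (gauge K) y‖ ^ 2 * mom K v) /
        (((k:ℝ) + 4) * mom K v) = ‖∇ (gauge K) y‖ ^ 2 by field_simp, sqrt_sq (norm_nonneg _)]
    refine ⟨e, ?_, h1.1⟩
    rw [← h2.2, ← e]
    exact real_inner_le_norm _ _
  have : NeZero (volume.restrict K) := ⟨fun h0 => by
    have := hK.volume_pos
    rw [measureReal_def, ← Measure.restrict_apply_univ, h0] at this
    simp at this⟩
  obtain ⟨y₀, hy₀, -, hy₁⟩ := hnorm.exists
  have hρ0 : 0 < ρ := hy₀ ▸ norm_pos_iff.2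
    (ne_zero_of_supp (hK.nonempty.mono interior_subset) hy₁)
  have hρ1 : ρ ≤ 1 := by
    set z := ∇ (gauge K) y₀
    have := le_supp hK.compact z (hBK (mem_closedBall_zero_iff.2
      (Sharp.norm_unit (ne_zero_of_supp (hK.nonempty.mono interior_subset) hy₁)).le))
    rw [hy₁, real_inner_smul_left, real_inner_self_eq_norm_sq, hy₀, sq,
      inv_mul_cancel_left₀ hρ0.ne'] at this
    exact this
  -- `gauge K ≤ ρ ‖·‖` near `0`, hence everywhere
  have hnhds : K ∈ 𝓝 (0 : E (k + 1 + 1)) := mem_of_superset (closedBall_mem_nhds 0 one_pos) hBK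
  have hgc : Continuous (gauge K) := continuous_gauge hK.convex hnhds
  have hloc : ∀ y ∈ ball (0 : E (k + 1 + 1)) 1, gauge K y ≤ ρ * ‖y‖ := by
    by_contra hcon
    push Not at hcon
    obtain ⟨y, hy, hlt⟩ := hcon
    have hopen : IsOpen (ball (0 : E (k + 1 + 1)) 1 ∩ {y | ρ * ‖y‖ < gauge K y}) :=
      isOpen_ball.inter (isOpen_lt (by fun_prop) hgc)
    have hz := ae_iff.1 hnorm
    rw [Measure.restrict_apply' hK.compact.measurableSet] at hz
    refine (hopen.measure_pos volume ⟨y, hy, hlt⟩).ne' (measure_mono_null ?_ hz)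
    exact fun x hx => ⟨fun h => not_le.2 hx.2 h.2.1, hBK (ball_subset_closedBall hx.1)⟩
  have hgl : gauge K (ρ⁻¹ • v) ≤ 1 := by
    have hh : gauge K ((2⁻¹ : ℝ) • v) ≤ ρ * ‖(2⁻¹ : ℝ) • v‖ :=
      hloc _ (by rw [mem_ball_zero_iff, norm_smul, hv, Real.norm_eq_abs]; norm_num)
    rw [gauge_smul_of_nonneg (by norm_num : (0:ℝ) ≤ 2⁻¹), smul_eq_mul, norm_smul, hv,
      Real.norm_eq_abs, abs_of_pos (by norm_num : (0:ℝ) < 2⁻¹), mul_one] at hh
    rw [gauge_smul_of_nonneg (inv_nonneg.2 hρ0.le), smul_eq_mul, inv_mul_le_iff₀ hρ0, mul_one]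
    linarith
  have hρ' : 1 ≤ ρ := by
    have hmem : ρ⁻¹ • v ∈ K := by
      rw [← hK.compact.isClosed.closure_eq, ← gauge_le_one_iff_mem_closure hK.convex hnhds]
      exact hgl
    have := le_supp hK.compact v hmem
    rw [hs, real_inner_smul_left, real_inner_self_eq_norm_sq, hv, one_pow, mul_one,
      inv_le_one₀ hρ0] at this
    exact this
  have hmom : ((k:ℝ) + 4) * mom K v = volume.real K := by
    have h1 : volume.real K / (((k:ℝ) + 4) * mom K v) = 1 := by
      have := Real.sq_sqrt (div_nonneg measureReal_nonneg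
        (mul_nonneg (by positivity) hmv.le) : 0 ≤ volume.real K / (((k:ℝ) + 4) * mom K v))
      rw [← hρ, le_antisymm hρ1 hρ', one_pow] at this
      exact this.symm
    rw [div_eq_one_iff_eq (by positivity)] at h1
    exact h1.symm
  -- compare second moments with the ball
  have hB : IsBody (closedBall (0 : E (k + 1 + 1)) 1) := Sharp.isBody_ball
  have htr : ∀ S : Set (E (k + 1 + 1)), IsCompact S → ∀ c : ℝ,
      (∀ i, ((k:ℝ) + 4) * mom S (EuclideanSpace.single i 1) = c) →
      ((k:ℝ) + 4) * ∫ x in S, ‖x‖ ^ 2 = ((k:ℝ) + 2) * c := by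
    intro S hS c hc
    have e : ∫ x in S, ‖x‖ ^ 2 = ∑ i, mom S (EuclideanSpace.single i 1) := by
      simp only [mom]
      rw [← integral_finsetSum _ fun i _ =>
        (Continuous.continuousOn (by fun_prop)).integrableOn_compact hS]
      refine setIntegral_congr_fun hS.measurableSet fun x _ => ?_
      simp [EuclideanSpace.real_norm_sq_eq, EuclideanSpace.inner_single_right]
    rw [e, Finset.mul_sum, Finset.sum_congr rfl fun i _ => hc i]
    simp only [Finset.sum_const, Finset.card_univ, Fintype.card_fin, nsmul_eq_mul]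
    push_cast
    ring
  have hK2 := htr K hK.compact (volume.real K) fun i => by rw [hiso _ v (by simp [hv])]; exact hmom
  have hB2 := htr _ (isCompact_closedBall _ _) (volume.real (closedBall (0 : E (k + 1 + 1)) 1))
    fun i => mom_ell hB (fun x hx => by simpa using hx) (supp_ball (by simp))
      (profAt_ball (by simp))
  have hBc : IsCompact (closedBall (0 : E (k + 1 + 1)) 1) := isCompact_closedBall _ _
  have hi : IntegrableOn (fun x : E (k + 1 + 1) => ‖x‖ ^ 2) K :=
    (Continuous.continuousOn (by fun_prop)).integrableOn_compact hK.compact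
  have h1 : 1 * volume.real (K \ closedBall 0 1) ≤ ∫ x in K \ closedBall 0 1, ‖x‖ ^ 2 :=
    setIntegral_ge_of_const_le_real (hK.compact.measurableSet.diff hBc.measurableSet)
      ((measure_mono sdiff_subset).trans_lt hK.compact.measure_lt_top).ne
      (fun x hx => by
        have := hx.2
        rw [mem_closedBall_zero_iff, not_le] at this
        exact one_le_pow₀ this.le)
      (hi.mono_set sdiff_subset)
  rw [setIntegral_sdiff hBc.measurableSet hi hBK,
    measureReal_sdiff hBK hBc.measurableSet hK.compact.measure_lt_top.ne, one_mul] at h1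
  have h2 := mul_le_mul_of_nonneg_left h1 (show (0:ℝ) ≤ (k:ℝ) + 4 by positivity)
  exact (Sharp.eq_of_subset_of_volume hBc hK hBK (by nlinarith)).symm

/-- A symmetric minimiser attaining the constant is a linear image of the ball. -/
theorem min_symm (hk : 1 ≤ k) (hl : CritLemma (k + 1) Λ) (ha : CritAvg k Λ) (he0 : CritEll Λ)
    (IH : ∀ Q : Set (E (k + 1)), IsBody Q →
      petty (k + 1) * volume.real Q ^ k ≤ volume.real (projBody Q))
    {K : Set (E (k + 1 + 1))} (hK : Sharp.IsMin K) (hsym : ∀ x ∈ K, -x ∈ K) :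
    petty (k + 2) ≤ Sharp.ratio K ∧ (Sharp.ratio K = petty (k + 2) →
      ∃ T : E (k + 1 + 1) ≃ₗ[ℝ] E (k + 1 + 1), K = T '' closedBall 0 1) := by
  refine ⟨(min_core hk hl ha he0 IH hK hsym).1, fun he => ?_⟩
  obtain ⟨S, hS, hSs, hB, ⟨v, hv, hsv⟩, hiso⟩ := Sharp.exists_position_touch hK hsym
  have hr : Sharp.ratio (S '' K) = Sharp.ratio K := Sharp.ratio_linear hK.1.compact hK.1.convex S
  have h := ball_of_ell hS.1 hSs hB hv hsv hiso ((min_core hk hl ha he0 IH hS hSs).2 (hr.trans he))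
  exact ⟨S.symm, by rw [← h, ← image_comp]; simp⟩

/-- One step of the induction on the dimension, with the equality cases. -/
theorem petty_step_all (hk : 1 ≤ k) (hl : CritLemma (k + 1) Λ) (ha : CritAvg k Λ) (he0 : CritEll Λ)
    (IH : ∀ Q : Set (E (k + 1)), IsBody Q →
      petty (k + 1) * volume.real Q ^ k ≤ volume.real (projBody Q))
    {K : Set (E (k + 1 + 1))} (hK : IsBody K) :
    petty (k + 2) * volume.real K ^ (k + 1) ≤ volume.real (projBody K) ∧
      (petty (k + 2) * volume.real K ^ (k + 1) = volume.real (projBody K) ↔ IsEllipsoid K) := by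
  obtain ⟨M, hM, hMs⟩ := Sharp.exists_isMin (k + 1)
  have hall : ∀ L : Set (E (k + 1 + 1)), IsBody L → petty (k + 2) ≤ Sharp.ratio L := fun L hL =>
    (min_symm hk hl ha he0 IH hM hMs).1.trans (hM.2 L hL)
  have hV := hK.volume_pos
  refine ⟨(Sharp.le_ratio_iff hK).1 (hall K hK), fun he => ?_, ?_⟩
  · have hr : Sharp.ratio K = petty (k + 2) := by
      rw [Sharp.ratio, ← he, mul_div_assoc, div_self (by positivity), mul_one]
    have hmin : Sharp.IsMin K := ⟨hK, fun L hL => hr.trans_le (hall L hL)⟩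
    obtain ⟨z, hz, hzs, -⟩ := Sharp.isMin_exists_symm hmin
    obtain ⟨T, hT⟩ := (min_symm hk hl ha he0 IH hz hzs).2 ((Sharp.ratio_translate K z).trans hr)
    exact ⟨-z, T, by rw [← hT, image_image]; simp⟩
  · rintro ⟨a, T, rfl⟩
    have := ratio_ellipsoid a T
    rw [Sharp.ratio, div_eq_iff (by positivity)] at this
    exact this.symm

/-- Petty's conjecture in every dimension from a criterion on profiles, needed only in dimensions
at least five. -/
theorem pettyAll_of_crit (Λ : ℕ → (ℝ → ℝ) → ℝ) (hl : ∀ m : ℕ, 4 ≤ m → CritLemma m (Λ m))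
    (ha : ∀ k : ℕ, 3 ≤ k → CritAvg k (Λ (k + 1)))
    (he : ∀ m : ℕ, 4 ≤ m → CritEll (Λ m)) : PettyAll := by
  have h2 : kap 2 = π := by rw [kap, Sharp.vol_disc zero_le_one, one_pow, mul_one]
  have h3 : kap 3 = 4 * π / 3 := by rw [kap, Sharp.vol_ball zero_le_one, one_pow, mul_one]
  have h4 : kap 4 = π ^ 2 / 2 := by rw [kap, Sharp.vol_ball_four zero_le_one, one_pow, mul_one]
  have hp := pi_pos.ne'
  have c4 : petty 4 = 1024 / 81 := by
    show kap 3 ^ 4 / kap 4 ^ 2 = _
    rw [h3, h4]; field_simp; ring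
  have hall : ∀ j : ℕ, ∀ K : Set (E (j + 4)), IsBody K →
      petty (j + 4) * volume.real K ^ (j + 3) ≤ volume.real (projBody K) ∧
        (petty (j + 4) * volume.real K ^ (j + 3) = volume.real (projBody K) ↔ IsEllipsoid K) := by
    intro j
    induction j with
    | zero =>
      intro K hK
      show petty 4 * volume.real K ^ 3 ≤ _ ∧ _
      rw [c4]
      exact Sharp.pettyFour_of Sharp.OneD4.oneD4 K hK.compact hK.convex hK.nonempty
    | succ j ih =>
      intro K hK
      exact petty_step_all (k := j + 3) (by omega) (hl _ (by omega)) (ha _ (by omega)) (he _ (by omega))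
        (fun Q hQ => (ih Q hQ).1) hK
  intro n hn K hc hv hi
  rcases hn.eq_or_lt with h | h
  · subst h
    show kap 2 ^ 3 / kap 3 ^ 1 * volume.real K ^ 2 ≤ _ ∧ _
    rw [show kap 2 ^ 3 / kap 3 ^ 1 = 3 * π ^ 2 / 4 by rw [h2, h3]; field_simp]
    exact Sharp.pettyThree_of Sharp.OneD3.oneD3 K hc hv hi
  · obtain ⟨j, rfl⟩ : ∃ j, n = j + 4 := ⟨n - 4, by omega⟩
    rw [show j + 4 - 1 = j + 3 by omega]
    have := hall j K ⟨hc, hv, hi⟩
    simpa only [petty, show j + 4 - 1 = j + 3 by omega] using this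

/-- Petty's conjecture in every dimension from the profile lemma for `pen` and its averaged fact. -/
theorem pettyAll_of (hl : ∀ m : ℕ, 4 ≤ m → Lemma1D m) (ha : ∀ k : ℕ, 3 ≤ k → AvgFact k) :
    PettyAll :=
  pettyAll_of_crit pen hl ha fun _ _ _ h => pen_ell h

end Vale.Agent.P237.AllN
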