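import Vale.Agent.P237.AllN.Trace
import Vale.Agent.P237.AllN.AvgFact
import Vale.Agent.P237.AllN.PhiR
import Vale.Agent.P237.AllN.Reduce

/-!
# P237, all dimensions: the mixed criterion

With `β = 1 - c`, `φ_R = φ - β t²/2`, `J = n E[p²]` and `K = 1 + n E[φ_R p - φ_R t] / β`, the
criterion is `Λ = K - 1/J`. Its averaged property follows from the trace fact and the averaging
fact. The one-dimensional lemma `LemmaMix m` is the only input left to Petty in dimension `m + 1`
given dimension `m`.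
-/

open MeasureTheory Set Real Filter
open scoped Topology RealInnerProductSpace Gradient

namespace Vale.Agent.P237.AllN

/-- The mixed criterion `K - 1/J` of a profile in dimension `m + 1`. -/
noncomputable def lamMix (m : ℕ) (f : ℝ → ℝ) : ℝ :=
  1 + ((m:ℝ) + 1) * penMean m (phiR m) f / quad m - (jay m f)⁻¹

/-- **The one-dimensional lemma** for the mixed criterion, with its equality case. -/
def LemmaMix (m : ℕ) : Prop :=
  ∀ f : ℝ → ℝ, ConcaveOn ℝ (Icc 0 1) f → AntitoneOn f (Icc 0 1) → (∀ t ∈ Icc (0 : ℝ) 1, 0 ≤ f t) →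
    (0 < ∫ t in (0 : ℝ)..1, f t ^ m) → lamMix m f ≤ 0 →
    Univ.ballInt (m - 1) ^ m * (∫ t in (0 : ℝ)..1, f t ^ m) ^ (m - 1) ≤
        (∫ t in (0 : ℝ)..1, f t ^ (m - 1)) ^ m * Univ.ballInt m ^ (m - 1) ∧
      (Univ.ballInt (m - 1) ^ m * (∫ t in (0 : ℝ)..1, f t ^ m) ^ (m - 1) =
        (∫ t in (0 : ℝ)..1, f t ^ (m - 1)) ^ m * Univ.ballInt m ^ (m - 1) →
          ∃ s : ℝ, ∀ t ∈ Ioo (0 : ℝ) 1, f t = s * √(1 - t ^ 2))

/-- The criterion handed to the reduction: `lamMix` times the volume of the profile, so that it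
also vanishes on the zero profile. -/
noncomputable def critMix (m : ℕ) (f : ℝ → ℝ) : ℝ :=
  (∫ t in (0:ℝ)..1, f t ^ m) * lamMix m f

theorem quad_pos (m : ℕ) : 0 < quad m := sub_pos.2 (cst_lt_one m)

theorem critLemma_lamMix {m : ℕ} (h : LemmaMix m) : CritLemma m (critMix m) :=
  fun f hc ha hn hZ hle => h f hc ha hn hZ (nonpos_of_mul_nonpos_right hle hZ)

theorem penMean_const_mul (m : ℕ) (c : ℝ) (φ f : ℝ → ℝ) :
    penMean m (fun t => c * φ t) f = c * penMean m φ f := by
  have e : (∫ t in (0:ℝ)..1, f t ^ (m - 1) * (f t - t * deriv f t) *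
      (c * φ (pProf f t) - c * φ t)) =
      c * ∫ t in (0:ℝ)..1, f t ^ (m - 1) * (f t - t * deriv f t) * (φ (pProf f t) - φ t) := by
    rw [← intervalIntegral.integral_const_mul]
    exact intervalIntegral.integral_congr fun t _ => by ring
  simp only [penMean]
  rw [e]
  ring

theorem lamMix_eq (m : ℕ) (f : ℝ → ℝ) :
    -lamMix m f = 1 * ((jay m f)⁻¹ - 1) -
      penMean m (fun t => ((m:ℝ) + 1) / quad m * phiR m t) f := by
  rw [penMean_const_mul, lamMix]
  ring

/-- **The averaged property of the mixed criterion.** -/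
theorem critAvg_lamMix (k : ℕ) : CritAvg k (critMix (k + 1)) := by
  intro K hK hsym h
  set φ : ℝ → ℝ := fun t => ((((k + 1 : ℕ):ℝ)) + 1) / quad (k + 1) * phiR (k + 1) t with hφdef
  have hc : 0 ≤ (((k + 1 : ℕ):ℝ) + 1) / quad (k + 1) :=
    div_nonneg (by positivity) (quad_pos _).le
  have hφc : ContinuousOn φ (Icc (-1) 1) :=
    (continuousOn_phi.sub (by fun_prop)).const_smul ((((k + 1 : ℕ):ℝ) + 1) / quad (k + 1))
  have hφ : ConvexOn ℝ (Icc (-1) 1) φ := convexOn_phiR.smul hc
  have hev : ∀ t, φ (-t) = φ t := fun t => by simp only [hφdef, phiR_neg]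
  have hZ : ∀ᵐ y ∂volume.restrict K,
      0 < ∫ t in (0:ℝ)..1, profAt K (∇ (gauge K) y) t ^ (k + 1) :=
    (penEven_le_excess hK hsym hφc hφ hev).mono fun y hy => hy.1
  have h' : ∀ᵐ y ∂volume.restrict K, 1 * ((jay (k + 1) (profAt K (∇ (gauge K) y)))⁻¹ - 1) -
      penMean (k + 1) φ (profAt K (∇ (gauge K) y)) ≤ 0 := by
    filter_upwards [h, hZ] with y hy hZy
    rw [hφdef, ← lamMix_eq, neg_nonpos]
    exact nonneg_of_mul_nonneg_right hy hZy
  filter_upwards [mixed_fact hK hsym zero_le_one hφc hφ hev h'] with y hy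
  rw [hφdef, ← lamMix_eq, neg_eq_zero] at hy
  rw [critMix, hy, mul_zero]

/-- Elliptical profiles: `p = t` and the moment identity. -/
theorem ell_point {f : ℝ → ℝ} {s : ℝ} (hs : ∀ t ∈ Ioo (0:ℝ) 1, f t = s * √(1 - t ^ 2)) {t : ℝ}
    (ht : t ∈ Ioo (0:ℝ) 1) :
    f t - t * deriv f t = s / √(1 - t ^ 2) ∧ (s ≠ 0 → pProf f t = t) := by
  have hpos : 0 < 1 - t ^ 2 := by nlinarith [ht.1, ht.2]
  have hu : 0 < √(1 - t ^ 2) := sqrt_pos.2 hpos
  have hev : f =ᶠ[𝓝 t] fun x => s * √(1 - x ^ 2) := by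
    filter_upwards [isOpen_Ioo.mem_nhds ht] with x hx using hs x hx
  have hd : HasDerivAt (fun x => s * √(1 - x ^ 2)) (s * (-t / √(1 - t ^ 2))) t := by
    have := (((hasDerivAt_pow 2 t).const_sub 1).sqrt hpos.ne').const_mul s
    refine this.congr_deriv ?_
    field_simp
    ring
  have hfd : deriv f t = s * (-t / √(1 - t ^ 2)) := hev.deriv_eq.trans hd.deriv
  have hden : f t - t * deriv f t = s / √(1 - t ^ 2) := by
    rw [hfd, hs t ht]
    field_simp
    rw [sq_sqrt hpos.le]
    ring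
  refine ⟨hden, fun hs0 => ?_⟩
  rw [pProf, hden, hfd]
  field_simp

/-- **The mixed criterion vanishes on elliptical profiles.** -/
theorem critEll_lamMix {m : ℕ} (hm : m ≠ 0) : CritEll (critMix m) := by
  rintro f ⟨s, hs⟩
  rcases eq_or_ne (∫ t in (0:ℝ)..1, f t ^ m) 0 with hZ | hZ
  · rw [critMix, hZ, zero_mul]
  have hs0 : s ≠ 0 := by
    rintro rfl
    refine hZ ?_
    rw [integral_congr_Ioo (g' := fun _ => 0) fun t ht => by rw [hs t ht, zero_mul, zero_pow hm],
      intervalIntegral.integral_zero]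
  have hpen : penMean m (phiR m) f = 0 := by
    rw [penMean, integral_congr_Ioo (g' := fun _ => 0) fun t ht => by
      rw [(ell_point hs ht).2 hs0, sub_self, mul_zero], intervalIntegral.integral_zero]
    simp
  have hjay : jay m f = 1 := by
    rw [jay, integral_congr_Ioo (g' := fun t => (m:ℝ) * f t ^ m) fun t ht => by
      obtain ⟨hden, hp⟩ := ell_point hs ht
      have hpos : 0 < 1 - t ^ 2 := by nlinarith [ht.1, ht.2]
      have hu : √(1 - t ^ 2) ≠ 0 := (sqrt_pos.2 hpos).ne'
      rw [hden, hp hs0, mul_assoc, mul_assoc, ← pow_sub_one_mul hm (f t)]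
      congr 2
      rw [hs t ht]
      field_simp
      rw [sq_sqrt hpos.le], intervalIntegral.integral_const_mul, mul_div_assoc, div_self hZ]
    ring
  rw [critMix, lamMix, hpen, hjay]
  simp

/-- **Petty's conjecture in every dimension from the mixed one-dimensional lemma.** -/
theorem pettyAll_of_lamMix (h : ∀ m : ℕ, 4 ≤ m → LemmaMix m) : PettyAll :=
  pettyAll_of_crit critMix (fun m hm => critLemma_lamMix (h m hm)) (fun k _ => critAvg_lamMix k)
    fun m hm => critEll_lamMix (by omega)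

/-- Consecutive dimensions: the lemma for `4 ≤ m < N` gives Petty, with equality, up to
dimension `N`. -/
theorem petty_upto_of_lamMix (N : ℕ) (h : ∀ m : ℕ, 4 ≤ m → m < N → LemmaMix m) :
    ∀ n : ℕ, 4 ≤ n → n ≤ max N 4 → ∀ K : Set (E n), IsBody K →
      petty n * volume.real K ^ (n - 1) ≤ volume.real (projBody K) ∧
        (petty n * volume.real K ^ (n - 1) = volume.real (projBody K) ↔ IsEllipsoid K) := by
  intro n hn
  obtain ⟨j, rfl⟩ : ∃ j, n = j + 4 := ⟨n - 4, by omega⟩
  induction j with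
  | zero =>
    intro _ K hK
    have h3 : kap 3 = 4 * π / 3 := by rw [kap, Sharp.vol_ball zero_le_one, one_pow, mul_one]
    have h4 : kap 4 = π ^ 2 / 2 := by rw [kap, Sharp.vol_ball_four zero_le_one, one_pow, mul_one]
    have c4 : petty 4 = 1024 / 81 := by
      show kap 3 ^ 4 / kap 4 ^ 2 = _
      have := pi_pos.ne'
      rw [h3, h4]; field_simp; ring
    show petty 4 * volume.real K ^ 3 ≤ _ ∧ _
    rw [c4]
    exact Sharp.pettyFour_of Sharp.OneD4.oneD4 K hK.compact hK.convex hK.nonempty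
  | succ j ih =>
    intro hN K hK
    exact petty_step_all (k := j + 3) (by omega)
      (critLemma_lamMix (h (j + 4) (by omega) (by omega))) (critAvg_lamMix _)
      (critEll_lamMix (by omega)) (fun Q hQ => (ih (by omega) (by omega) Q hQ).1) hK

/-- The sharp statement in one dimension gives it in all higher dimensions covered by the lemma.
This is the induction base needed when the lemma is known only from some dimension on. -/
theorem petty_from_of_lamMix (N₀ : ℕ) (hN : 4 ≤ N₀) (h : ∀ m : ℕ, N₀ ≤ m → LemmaMix m)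
    (base : ∀ K : Set (E N₀), IsBody K →
      petty N₀ * volume.real K ^ (N₀ - 1) ≤ volume.real (projBody K)) :
    ∀ n : ℕ, N₀ < n → ∀ K : Set (E n), IsBody K →
      petty n * volume.real K ^ (n - 1) ≤ volume.real (projBody K) ∧
        (petty n * volume.real K ^ (n - 1) = volume.real (projBody K) ↔ IsEllipsoid K) := by
  have key : ∀ j : ℕ,
      (∀ Q : Set (E (N₀ + j)), IsBody Q →
        petty (N₀ + j) * volume.real Q ^ (N₀ + j - 1) ≤ volume.real (projBody Q)) →
      ∀ K : Set (E (N₀ + j + 1)), IsBody K →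
        petty (N₀ + j + 1) * volume.real K ^ (N₀ + j) ≤ volume.real (projBody K) ∧
          (petty (N₀ + j + 1) * volume.real K ^ (N₀ + j) = volume.real (projBody K) ↔
            IsEllipsoid K) := by
    intro j
    obtain ⟨k, hk⟩ : ∃ k, N₀ + j = k + 1 := ⟨N₀ + j - 1, by omega⟩
    rw [hk, show k + 1 - 1 = k by omega]
    intro IH K hK
    exact petty_step_all (by omega) (critLemma_lamMix (h (k + 1) (by omega))) (critAvg_lamMix k)
      (critEll_lamMix (by omega)) IH hK
  have hall : ∀ j : ℕ, ∀ K : Set (E (N₀ + j)), IsBody K →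
      petty (N₀ + j) * volume.real K ^ (N₀ + j - 1) ≤ volume.real (projBody K) := by
    intro j
    induction j with
    | zero => exact base
    | succ j ih => exact fun K hK => (key j ih K hK).1
  intro n hn
  obtain ⟨j, rfl⟩ : ∃ j, n = N₀ + j + 1 := ⟨n - N₀ - 1, by omega⟩
  exact fun K hK => key j (hall j) K hK

end Vale.Agent.P237.AllN
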