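import Vale.Agent.P237.AllN.Riccati
import Vale.Agent.P237.AllN.PsiREnv

/-!
# P237, all dimensions: the Hardy inequality from a general calibration `H(r, σ)`

A calibration is a function `G(r, t)` on the lens `1 - r ≤ t ≤ 1`. It may be given as `H(r, σ)`,
`σ = (t - √(1-r²))/r`, in particular split at the sign of `σ`. The pointwise condition is tested
at one tangent point `a` of any convex minorant of the gain, such as
`α (1 - √(1-p²)) + β (2 - 2√(1-p²) - p arcsin p)`, of curvature `(α + β p²)/√(1-p²)³`.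
-/

open MeasureTheory Set Real Filter Topology
open scoped NNReal

namespace Vale.Agent.P237.AllN

variable {m : ℕ} {f : ℝ → ℝ}

/-- The lens over a set of levels. -/
def lens (S : Set ℝ) : Set (ℝ × ℝ) := {z | z.1 ∈ S ∧ z.2 ∈ Icc (1 - z.1) 1}

theorem lens_mono {S T : Set ℝ} (h : S ⊆ T) : lens S ⊆ lens T := fun _ hz => ⟨h hz.1, hz.2⟩

theorem convex_lens {S : Set ℝ} (h : Convex ℝ S) : Convex ℝ (lens S) := by
  intro x hx y hy a b ha hb hab
  refine ⟨h hx.1 hy.1 ha hb hab, ?_, ?_⟩ <;>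
    simp only [Prod.smul_fst, Prod.smul_snd, Prod.fst_add, Prod.snd_add, smul_eq_mul] <;>
    nlinarith [mul_le_mul_of_nonneg_left hx.2.1 ha, mul_le_mul_of_nonneg_left hy.2.1 hb,
      mul_le_mul_of_nonneg_left hx.2.2 ha, mul_le_mul_of_nonneg_left hy.2.2 hb]

theorem isCompact_lens (c d : ℝ) : IsCompact (lens (Icc c d)) := by
  refine IsCompact.of_isClosed_subset ((isCompact_Icc (a := c) (b := d)).prod
    (isCompact_Icc (a := 1 - d) (b := (1:ℝ)))) ?_ fun z hz =>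
      ⟨hz.1, by linarith [hz.1.2, hz.2.1], hz.2.2⟩
  exact (isClosed_Icc.preimage continuous_fst).inter
    ((isClosed_le (by fun_prop) continuous_snd).inter (isClosed_le continuous_snd continuous_const))

/-- The derivative with the two given partials. -/
noncomputable def grad2 (a b : ℝ) : ℝ × ℝ →L[ℝ] ℝ :=
  a • ContinuousLinearMap.fst ℝ ℝ ℝ + b • ContinuousLinearMap.snd ℝ ℝ ℝ

theorem grad2_apply (a b : ℝ) (z : ℝ × ℝ) : grad2 a b z = a * z.1 + b * z.2 := rfl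

/-- The pointwise condition for the partials `Gr`, `Gt` of a calibration at `(r, t)`. A concave
profile with `f 0 = 1` has `f - t f' ≥ 1`, so only slopes with `1 - r ≤ p t` occur. -/
def CalibH (m : ℕ) (g : ℝ → ℝ → ℝ) (Gr Gt r t : ℝ) : Prop :=
  ∀ p ∈ Icc (0:ℝ) 1, 1 - r ≤ p * t → (m:ℝ) * r ^ (m - 1) * (p * gamD m t (us r)) ≤
    (m:ℝ) * r ^ (m - 1) * g r p + (-(p * Gr) + Gt * (1 - p * t) / r)

/-- A calibration over the levels in `S`, continuous over those in `T`. -/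
structure SideH (m : ℕ) (g : ℝ → ℝ → ℝ) (S T : Set ℝ) (G Gr Gt : ℝ × ℝ → ℝ) : Prop where
  deriv : ∀ z ∈ lens S, HasFDerivAt G (grad2 (Gr z) (Gt z)) z
  contr : ContinuousOn Gr (lens S)
  contt : ContinuousOn Gt (lens S)
  cont : ContinuousOn G (lens T)
  le : ∀ z ∈ lens S, CalibH m g (Gr z) (Gt z) z.1 z.2

/-- A calibration whose pointwise condition is required only on the admissible region `adm`, for
instance below an a priori cap of the profile. -/
structure SideA (m : ℕ) (g : ℝ → ℝ → ℝ) (adm : Set (ℝ × ℝ)) (S T : Set ℝ)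
    (G Gr Gt : ℝ × ℝ → ℝ) : Prop where
  deriv : ∀ z ∈ lens S, HasFDerivAt G (grad2 (Gr z) (Gt z)) z
  contr : ContinuousOn Gr (lens S)
  contt : ContinuousOn Gt (lens S)
  cont : ContinuousOn G (lens T)
  le : ∀ z ∈ lens S, z ∈ adm → CalibH m g (Gr z) (Gt z) z.1 z.2

theorem SideH.toA {g : ℝ → ℝ → ℝ} {S T : Set ℝ} {G Gr Gt : ℝ × ℝ → ℝ}
    (h : SideH m g S T G Gr Gt) (adm : Set (ℝ × ℝ)) : SideA m g adm S T G Gr Gt :=
  ⟨h.deriv, h.contr, h.contt, h.cont, fun z hz _ => h.le z hz⟩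

theorem SideA.lip {g : ℝ → ℝ → ℝ} {adm : Set (ℝ × ℝ)} {S T : Set ℝ} {G Gr Gt : ℝ × ℝ → ℝ}
    (h : SideA m g adm S T G Gr Gt) {c d : ℝ} (hcd : Icc c d ⊆ S) :
    ∃ L, LipschitzOnWith L G (lens (Icc c d)) := by
  have hc : ContinuousOn (fun z => grad2 (Gr z) (Gt z)) (lens (Icc c d)) := by
    unfold grad2
    exact ((h.contr.mono (lens_mono hcd)).smul continuousOn_const).add
      ((h.contt.mono (lens_mono hcd)).smul continuousOn_const)
  obtain ⟨C, hC⟩ := (isCompact_lens c d).exists_bound_of_continuousOn hc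
  refine ⟨C.toNNReal, (convex_lens (convex_Icc c d)).lipschitzOnWith_of_nnnorm_hasFDerivWithin_le
    (fun z hz => (h.deriv z (lens_mono hcd hz)).hasFDerivWithinAt) fun z hz => ?_⟩
  rw [← NNReal.coe_le_coe, coe_nnnorm]
  exact (hC z hz).trans (Real.le_coe_toNNReal C)

section

variable (P : HalfProf f) (h0 : f 0 = 1)
include P h0

/-- The curve of a profile stays in the lens. -/
theorem one_sub_le {t : ℝ} (ht : t ∈ Icc (0:ℝ) 1) : 1 - t ≤ f t := by
  have hc := P.conc.2 (left_mem_Icc.2 zero_le_one) (right_mem_Icc.2 zero_le_one)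
    (show (0:ℝ) ≤ 1 - t by linarith [ht.2]) ht.1 (by ring)
  simp only [smul_eq_mul, h0, mul_zero, zero_add, mul_one] at hc
  linarith [mul_nonneg ht.1 (P.nonneg 1 (right_mem_Icc.2 zero_le_one))]

/-- The slope box: `1 - f t ≤ p t`. -/
theorem one_sub_le_pProf {t : ℝ} (ht : t ∈ Ioo (0:ℝ) 1) (hd : DifferentiableAt ℝ f t) :
    1 - f t ≤ pProf f t * t := by
  obtain ⟨hq, -⟩ := P.bounds ht
  have htI : t ∈ Icc (0:ℝ) 1 := Ioo_subset_Icc_self ht
  have h := P.conc.le_slope_of_hasDerivAt (left_mem_Icc.2 zero_le_one) htI ht.1 hd.hasDerivAt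
  rw [slope_def_field, h0, sub_zero, le_div_iff₀ ht.1] at h
  have hf1 := (P.mem01' h0 ht).2
  have hq1 : 1 ≤ f t - t * deriv f t := by linarith
  rw [pProf, div_mul_eq_mul_div, le_div_iff₀ hq]
  have := mul_le_mul_of_nonneg_left hq1 (P.pos t ⟨ht.1.le, ht.2⟩).le
  linarith

/-- On a piece of `(0,1)` with levels in `S`. -/
theorem calibH_piece {g : ℝ → ℝ → ℝ} {adm : Set (ℝ × ℝ)} {S T : Set ℝ} {G Gr Gt : ℝ × ℝ → ℝ}
    (hG' : SideA m g adm S T G Gr Gt) (hadm : ∀ t ∈ Ioo (0:ℝ) 1, (f t, t) ∈ adm) (hconn : OrdConnected S) {x y : ℝ} (hx : 0 ≤ x) (hxy : x ≤ y)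
    (hy : y ≤ 1) (hfS : ∀ t ∈ Ioo x y, f t ∈ S)
    {H : ℝ → ℝ} (hH : ContinuousOn H (Icc x y)) (hHeq : ∀ t ∈ Ioo x y, H t = G (f t, t))
    (hN : IntervalIntegrable
      (fun t => (m:ℝ) * f t ^ (m - 1) * (-deriv f t) * gamD m t (us (f t))) volume x y)
    (hG : IntervalIntegrable (fun t => wq m f t * g (f t) (pProf f t)) volume x y) :
    ∫ t in x..y, (m:ℝ) * f t ^ (m - 1) * (-deriv f t) * gamD m t (us (f t)) ≤
      (∫ t in x..y, wq m f t * g (f t) (pProf f t)) + (H y - H x) := by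
  have hlens : ∀ t ∈ Ioo x y, (f t, t) ∈ lens S := fun t ht =>
    ⟨hfS t ht, by linarith [one_sub_le P h0 ⟨hx.trans ht.1.le, ht.2.le.trans hy⟩],
      ht.2.le.trans hy⟩
  refine calibration_ftc_open hxy hH (fun a b ha hab hb => ?_) hN hG ?_
  · have hIab : Icc a b ⊆ Ioo x y := fun t ht => ⟨ha.trans_le ht.1, ht.2.trans_lt hb⟩
    obtain ⟨L, hL⟩ := P.lp (r := b) (hb.trans_le hy)
    have hfl : LipschitzOnWith L f (Icc a b) := hL.mono (Icc_subset_Icc (hx.trans ha.le) le_rfl)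
    have hsubS : Icc (f b) (f a) ⊆ S :=
      hconn.out (hfS b (hIab (right_mem_Icc.2 hab))) (hfS a (hIab (left_mem_Icc.2 hab)))
    obtain ⟨L', hL'⟩ := hG'.lip hsubS
    have hmem : MapsTo (fun t => (f t, t)) (Icc a b) (lens (Icc (f b) (f a))) := fun t ht => by
      have h : ∀ s ∈ Icc a b, s ∈ Icc (0:ℝ) 1 := fun s hs =>
        ⟨(hx.trans ha.le).trans hs.1, hs.2.trans (hb.le.trans hy)⟩
      exact ⟨⟨P.anti (h t ht) (h b (right_mem_Icc.2 hab)) ht.2,
        P.anti (h a (left_mem_Icc.2 hab)) (h t ht) ht.1⟩, (hlens t (hIab ht)).2⟩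
    have hLc := hL'.comp (hfl.prodMk (LipschitzWith.id.lipschitzOnWith (s := Icc a b))) hmem
    refine ⟨L' * max L 1, fun s hs t ht => ?_⟩
    rw [hHeq s (hIab hs), hHeq t (hIab ht)]
    exact hLc hs ht
  · filter_upwards [P.ae_diff] with t htd ht
    have ht1 : t ∈ Ioo (0:ℝ) 1 := ⟨hx.trans_lt ht.1, ht.2.trans_le hy⟩
    obtain ⟨hq, hp⟩ := P.bounds ht1
    have hd := htd ht1
    have hp0 : 0 ≤ pProf f t := by
      refine div_nonneg (neg_nonneg.2 ?_) hq.le
      rw [← derivWithin_of_isOpen (s := Ioo (0:ℝ) 1) isOpen_Ioo ht1]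
      exact (P.anti.mono Ioo_subset_Icc_self).derivWithin_nonpos
    have hcur : HasDerivAt (fun s => (f s, s)) (deriv f t, 1) t :=
      hd.hasDerivAt.prodMk (hasDerivAt_id' t)
    have hD : HasDerivAt (fun s => G (f s, s))
        (grad2 (Gr (f t, t)) (Gt (f t, t)) (deriv f t, 1)) t :=
      (hG'.deriv _ (hlens t ht)).comp_hasDerivAt (f := fun s => (f s, s)) t hcur
    have hev : H =ᶠ[𝓝 t] fun s => G (f s, s) := by
      filter_upwards [Ioo_mem_nhds ht.1 ht.2] with s hs using hHeq s hs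
    have hdH : deriv H t = grad2 (Gr (f t, t)) (Gt (f t, t)) (deriv f t, 1) :=
      hev.deriv_eq.trans hD.deriv
    have key := mul_le_mul_of_nonneg_left
      (hG'.le _ (hlens t ht) (hadm t ht1) (pProf f t) ⟨hp0, hp.2⟩ (one_sub_le_pProf P h0 ht1 hd)) hq.le
    rw [hdH, grad2_apply]
    have hf0 : f t ≠ 0 := (P.pos t ⟨ht1.1.le, ht1.2⟩).ne'
    have hdd : deriv f t = -((f t - t * deriv f t) * pProf f t) := by
      rw [pProf, mul_div_cancel₀ _ hq.ne', neg_neg]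
    simp only [wq] at key ⊢
    set q := f t - t * deriv f t with hqdef
    refine le_trans (le_of_eq ?_) (key.trans_eq ?_)
    · rw [hdd]; ring
    · have e : q * (1 - pProf f t * t) = f t := by
        have : t * deriv f t = -(t * (q * pProf f t)) := by rw [hdd]; ring
        linarith
      rw [hdd, show q * (↑m * f t ^ (m - 1) * g (f t) (pProf f t) +
          (-(pProf f t * Gr (f t, t)) + Gt (f t, t) * (1 - pProf f t * t) / f t)) =
          q * (↑m * f t ^ (m - 1) * g (f t) (pProf f t)) - q * pProf f t * Gr (f t, t) +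
          Gt (f t, t) * (q * (1 - pProf f t * t) / f t) by ring, e, div_self hf0]
      ring

omit h0 P in
/-- On a piece of the jump, where `t = p = 1`. -/
theorem calibH_jump (hm : 3 ≤ m) {g : ℝ → ℝ → ℝ} {adm : Set (ℝ × ℝ)} {S T : Set ℝ}
    {G Gr Gt : ℝ × ℝ → ℝ} (hG' : SideA m g adm S T G Gr Gt) {x y : ℝ} (hx : 0 ≤ x) (hxy : x ≤ y) (hy : y ≤ 1)
    (hS : Ioo x y ⊆ S) (hT : Icc x y ⊆ T) (hadmJ : ∀ r ∈ Ioo x y, (r, (1:ℝ)) ∈ adm)
    (hG : IntervalIntegrable (fun r => (m:ℝ) * r ^ (m - 1) * g r 1) volume x y) :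
    ∫ r in x..y, (m:ℝ) * r ^ (m - 1) * gamD m 1 (us r) ≤
      (∫ r in x..y, (m:ℝ) * r ^ (m - 1) * g r 1) + (G (x, 1) - G (y, 1)) := by
  have hl : ∀ {U : Set ℝ} {r : ℝ}, r ∈ U → 0 ≤ r → (r, (1:ℝ)) ∈ lens U := fun hr h =>
    ⟨hr, by linarith, le_rfl⟩
  have h := calibration_ftc_open (H := fun r => -G (r, 1)) hxy
    ((hG'.cont.comp (by fun_prop) fun r hr => hl (hT hr) (hx.trans hr.1)).neg)
    (fun a b ha hab hb => ?_) (intJump hm ⟨hx, hxy.trans hy⟩ ⟨hx.trans hxy, hy⟩) hG ?_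
  · linarith
  · obtain ⟨L, hL⟩ := hG'.lip (c := a) (d := b)
      fun r hr => hS ⟨ha.trans_le hr.1, hr.2.trans_lt hb⟩
    refine ⟨_, (hL.comp ((LipschitzWith.id.lipschitzOnWith (s := Icc a b)).prodMk
      ((LipschitzWith.const (1:ℝ)).lipschitzOnWith)) fun r hr =>
        hl hr (hx.trans (ha.le.trans hr.1))).neg⟩
  · filter_upwards with r hr
    have hmem := hl (U := S) (hS hr) (hx.trans hr.1.le)
    have hD := ((hG'.deriv _ hmem).comp_hasDerivAt (f := fun s => (s, (1:ℝ))) r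
      ((hasDerivAt_id' r).prodMk (hasDerivAt_const r (1:ℝ)))).neg
    have key := hG'.le _ hmem (hadmJ r hr) 1 ⟨zero_le_one, le_rfl⟩ (by simp; linarith [hr.1])
    have hdH : deriv (fun r => -G (r, 1)) r = _ := hD.deriv
    rw [hdH, grad2_apply]
    simp only [one_mul, mul_one, sub_self, mul_zero, zero_div, add_zero] at key ⊢
    linarith

/-- The pieces on the two sides of the pivot, the jump split at `min (fend f) r0`. -/
theorem sum_pieces {r0 : ℝ} {A : ℝ → ℝ} {B : ℝ → ℝ} (hA : IntervalIntegrable A volume 0 1)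
    (hB : IntervalIntegrable B volume 0 (fend f)) (hr : 0 ≤ r0) :
    ((∫ t in (0:ℝ)..dist01 f r0, A t) + ∫ r in min (fend f) r0..fend f, B r) +
        ((∫ t in dist01 f r0..1, A t) + ∫ r in (0:ℝ)..min (fend f) r0, B r) =
      (∫ t in (0:ℝ)..1, A t) + ∫ r in (0:ℝ)..fend f, B r := by
  have he := fend_mem P h0
  have hμ : min (fend f) r0 ∈ uIcc 0 (fend f) := by
    rw [uIcc_of_le he.1]; exact ⟨le_min he.1 hr, min_le_left _ _⟩
  have hT : dist01 f r0 ∈ uIcc (0:ℝ) 1 := by rw [uIcc_of_le zero_le_one]; exact dist01_mem f r0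
  rw [← intervalIntegral.integral_add_adjacent_intervals
      (hA.mono_set (uIcc_subset_uIcc left_mem_uIcc hT))
      (hA.mono_set (uIcc_subset_uIcc hT right_mem_uIcc)),
    ← intervalIntegral.integral_add_adjacent_intervals
      (hB.mono_set (uIcc_subset_uIcc left_mem_uIcc hμ))
      (hB.mono_set (uIcc_subset_uIcc hμ right_mem_uIcc))]
  ring

/-- When the pivot is on the jump, the profile stays above it. -/
theorem lt_of_le_fend {r0 : ℝ} (h1 : r0 < 1) (hge : r0 ≤ fend f) :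
    dist01 f r0 = 1 ∧ ∀ t ∈ Ioo (0:ℝ) 1, r0 < f t := by
  have hgt : ∀ t ∈ Ioo (0:ℝ) 1, r0 < f t := by
    intro t ht
    have hs : (t + 1) / 2 ∈ Ioo t 1 := ⟨by linarith [ht.2], by linarith [ht.2]⟩
    set s := (t + 1) / 2
    have hs0 : 0 < s := ht.1.trans hs.1
    have hts : 0 < 1 - t / s := by rw [sub_pos, div_lt_one hs0]; exact hs.1
    have hc := P.conc.2 (left_mem_Icc.2 zero_le_one) ⟨hs0.le, hs.2.le⟩ hts.le
      (div_nonneg ht.1.le hs0.le) (by ring)
    simp only [smul_eq_mul, h0, mul_zero, zero_add, mul_one, div_mul_cancel₀ _ hs0.ne'] at hc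
    have hinf : fend f ≤ f s := csInf_le ⟨0, forall_mem_image.2 fun x hx => (P.mem01' h0 hx).1.le⟩
      (mem_image_of_mem f ⟨hs0, hs.2⟩)
    have := mul_le_mul_of_nonneg_left (hge.trans hinf) (div_nonneg ht.1.le hs0.le)
    nlinarith
  exact ⟨by rw [dist01, inter_eq_left.2 (show Ioo (0:ℝ) 1 ⊆ {t | r0 < f t} from hgt),
    Real.volume_real_Ioo_of_le zero_le_one, sub_zero], hgt⟩

/-- **Above the pivot:** the levels in `[r0, 1]`. -/
theorem head_of_calibH (hm : 3 ≤ m) {g : ℝ → ℝ → ℝ} {r0 : ℝ} (hr0 : r0 ∈ Ioo (0:ℝ) 1)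
    {adm : Set (ℝ × ℝ)} {KL KLr KLt : ℝ × ℝ → ℝ}
    (hL : SideA m g adm (Ico r0 1) (Icc r0 1) KL KLr KLt)
    (hadm : ∀ t ∈ Ioo (0:ℝ) 1, (f t, t) ∈ adm)
    (hadmJ : ∀ r ∈ Ioo 0 (fend f), (r, (1:ℝ)) ∈ adm)
    (hL1 : ∀ t ∈ Icc (0:ℝ) 1, KL (1, t) = 0)
    (hG : IntervalIntegrable (fun t => wq m f t * g (f t) (pProf f t)) volume 0 1)
    (hGj : IntervalIntegrable (fun r => (m:ℝ) * r ^ (m - 1) * g r 1) volume 0 (fend f))
    (hgn : 0 ≤ g 1 0) :
    (∫ t in (0:ℝ)..dist01 f r0, (m:ℝ) * f t ^ (m - 1) * (-deriv f t) * gamD m t (us (f t))) +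
        (∫ r in min (fend f) r0..fend f, (m:ℝ) * r ^ (m - 1) * gamD m 1 (us r)) ≤
      (∫ t in (0:ℝ)..dist01 f r0, wq m f t * g (f t) (pProf f t)) +
        (∫ r in min (fend f) r0..fend f, (m:ℝ) * r ^ (m - 1) * g r 1) +
        KL (r0, dist01 f r0) := by
  obtain ⟨iN, -⟩ := negR_eq_t P h0 hm
  have he := fend_mem P h0
  set N : ℝ → ℝ := fun t => (m:ℝ) * f t ^ (m - 1) * (-deriv f t) * gamD m t (us (f t)) with hN
  set Gg : ℝ → ℝ := fun t => wq m f t * g (f t) (pProf f t) with hGdef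
  have hsub : ∀ a ∈ Icc (0:ℝ) 1, ∀ b ∈ Icc (0:ℝ) 1, uIcc a b ⊆ uIcc (0:ℝ) 1 := fun a ha b hb => by
    rw [uIcc_of_le zero_le_one]; exact uIcc_subset_Icc ha hb
  have hf01 : ∀ t ∈ Ioo (0:ℝ) 1, f t ∈ Ioc (0:ℝ) 1 := fun t ht => P.mem01' h0 ht
  -- the curve up to `t = 1`
  set F : ℝ → ℝ := fun t => if t < 1 then f t else fend f with hF
  have hFf : ∀ t, t < 1 → F t = f t := fun t ht => if_pos ht
  have hF1 : F 1 = fend f := if_neg (lt_irrefl _)
  have hFc : ContinuousOn F (Icc 0 1) := by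
    intro x hx
    rcases hx.2.eq_or_lt with rfl | h
    · rw [ContinuousWithinAt, hF1, ← Ico_insert_right zero_le_one, nhdsWithin_insert, tendsto_sup]
      refine ⟨by simpa [hF1] using tendsto_pure_nhds F 1,
        ((tendsto_fend P).mono_left (nhdsWithin_mono _ Ico_subset_Iio_self)).congr' ?_⟩
      filter_upwards [self_mem_nhdsWithin] with t ht using (hFf t ht.2).symm
    · refine ((P.continuousOn x ⟨hx.1, h⟩).mono_of_mem_nhdsWithin ?_).congr_of_eventuallyEq ?_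
        (hFf x h)
      · filter_upwards [self_mem_nhdsWithin, mem_nhdsWithin_of_mem_nhds (Iio_mem_nhds h)] with
          t h1 h2 using ⟨h1.1, h2⟩
      · filter_upwards [mem_nhdsWithin_of_mem_nhds (Iio_mem_nhds h)] with t h2 using hFf t h2
  have hFlens : ∀ {U : Set ℝ} {t : ℝ}, t ∈ Icc (0:ℝ) 1 → F t ∈ U → (F t, t) ∈ lens U := by
    intro U t ht hU
    refine ⟨hU, ?_, ht.2⟩
    rcases ht.2.eq_or_lt with rfl | h
    · rw [hF1]; linarith [he.1]
    · rw [hFf t h]; linarith [one_sub_le P h0 ht]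
  have hcurve : ∀ {a b : ℝ} {U : Set ℝ} {G : ℝ × ℝ → ℝ}, 0 ≤ a → b ≤ 1 →
      ContinuousOn G (lens U) → (∀ t ∈ Icc a b, F t ∈ U) →
      ContinuousOn (fun t => G (F t, t)) (Icc a b) := fun {a b} {U} {G} ha hb hG hmem =>
    hG.comp ((hFc.mono (Icc_subset_Icc ha hb)).prodMk continuousOn_id) fun t ht =>
      hFlens ⟨ha.trans ht.1, ht.2.trans hb⟩ (hmem t ht)
  -- the left piece `[0, b]`, with values in `[r0, 1]`
  have left : ∀ b ∈ Ioc (0:ℝ) 1, (∀ t ∈ Icc 0 b, r0 ≤ F t) →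
      ∫ t in (0:ℝ)..b, N t ≤ (∫ t in (0:ℝ)..b, Gg t) + KL (F b, b) := by
    intro b hb hge
    set S : Set ℝ := {t ∈ Icc 0 b | t = 0 ∨ f t = 1} with hSdef
    set a := sSup S with ha
    have hSne : S.Nonempty := ⟨0, ⟨le_rfl, hb.1.le⟩, .inl rfl⟩
    have hSb : BddAbove S := ⟨b, fun t ht => ht.1.2⟩
    have haI : a ∈ Icc 0 b := ⟨le_csSup hSb ⟨⟨le_rfl, hb.1.le⟩, .inl rfl⟩,
      csSup_le hSne fun t ht => ht.1.2⟩
    have hplat : ∀ t ∈ Ioo 0 a, f t = 1 := by
      intro t ht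
      obtain ⟨s, hs, hts⟩ := exists_lt_of_lt_csSup hSne ht.2
      rcases hs.2 with h | h
      · linarith [ht.1, hs.1.1]
      · refine le_antisymm (hf01 t ⟨ht.1, ht.2.trans_le (haI.2.trans hb.2)⟩).2 ?_
        rw [← h]
        exact P.anti ⟨ht.1.le, (ht.2.trans_le (haI.2.trans hb.2)).le⟩
          ⟨hs.1.1, hs.1.2.trans hb.2⟩ hts.le
    have hrest : ∀ t ∈ Ioo a b, f t ∈ Ico r0 1 := fun t ht => by
      have ht' : t ∈ Ioo 0 b := ⟨haI.1.trans_lt ht.1, ht.2⟩
      have ht1 : t < 1 := ht.2.trans_le hb.2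
      refine ⟨hFf t ht1 ▸ hge t (Ioo_subset_Icc_self ht'),
        lt_of_le_of_ne (hf01 t ⟨ht'.1, ht1⟩).2 fun h => ?_⟩
      exact not_le.2 ht.1 (le_csSup hSb ⟨⟨ht'.1.le, ht.2.le⟩, .inr h⟩)
    have ha1 : a ∈ Icc (0:ℝ) 1 := ⟨haI.1, haI.2.trans hb.2⟩
    have i1 := iN.mono_set (hsub 0 (left_mem_Icc.2 zero_le_one) a ha1)
    have i2 := iN.mono_set (hsub a ha1 b ⟨hb.1.le, hb.2⟩)
    have j1 := hG.mono_set (hsub 0 (left_mem_Icc.2 zero_le_one) a ha1)
    have j2 := hG.mono_set (hsub a ha1 b ⟨hb.1.le, hb.2⟩)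
    have hHc : ContinuousOn (fun t => KL (F t, t)) (Icc 0 b) := by
      refine hcurve le_rfl hb.2 hL.cont fun t ht => ⟨hge t ht, ?_⟩
      rcases (ht.2.trans hb.2).eq_or_lt with rfl | h
      · rw [hF1]; exact he.2
      · rw [hFf t h]; exact (P.mem01 h0 ⟨ht.1, h.le⟩).2
    have hH0 : KL (F 0, 0) = 0 := by
      rw [hFf 0 one_pos, h0, hL1 0 (left_mem_Icc.2 zero_le_one)]
    have hHa : KL (F a, a) = 0 := by
      rcases haI.1.eq_or_lt with h | h
      · rw [← h]; exact hH0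
      · have : Tendsto (fun t => KL (F t, t)) (𝓝[<] a) (𝓝 (KL (F a, a))) := by
          refine ((hHc a haI).tendsto).mono_left ?_
          rw [nhdsWithin_le_iff]
          exact mem_of_superset (Ioo_mem_nhdsLT h) fun t ht => ⟨ht.1.le, ht.2.le.trans haI.2⟩
        refine tendsto_nhds_unique this (tendsto_const_nhds.congr' ?_)
        filter_upwards [Ioo_mem_nhdsLT h] with t ht
        rw [hFf t (ht.2.trans_le ha1.2), hplat t ht, hL1 t ⟨ht.1.le, ht.2.le.trans ha1.2⟩]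
    have h1 : ∫ t in (0:ℝ)..a, N t ≤ ∫ t in (0:ℝ)..a, Gg t := by
      refine intervalIntegral.integral_mono_on_of_le_Ioo haI.1 i1 j1 fun t ht => ?_
      have hd : deriv f t = 0 := by
        have hev : f =ᶠ[𝓝 t] fun _ => (1:ℝ) := by
          filter_upwards [Ioo_mem_nhds ht.1 ht.2] with s hs using hplat s hs
        rw [hev.deriv_eq, deriv_const]
      have hp : pProf f t = 0 := by rw [pProf, hd, neg_zero, zero_div]
      simp only [hN, hGdef, wq, hd, hp, hplat t ht, neg_zero, mul_zero, zero_mul, one_pow,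
        mul_one, sub_zero]
      exact mul_nonneg (Nat.cast_nonneg m) hgn
    have h2 := calibH_piece P h0 hL hadm ordConnected_Ico haI.1 haI.2 hb.2 hrest
      (hHc.mono (Icc_subset_Icc haI.1 le_rfl))
      (fun t ht => by rw [hFf t (ht.2.trans_le hb.2)]) i2 j2
    rw [← intervalIntegral.integral_add_adjacent_intervals i1 i2,
      ← intervalIntegral.integral_add_adjacent_intervals j1 j2]
    linarith
  rcases lt_or_ge (fend f) r0 with hlt | hge
  · -- pivot inside `(0,1)`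
    obtain ⟨hT, hfT⟩ := dist01_level P h0 hlt hr0.2
    set T := dist01 f r0
    have hL' := left T ⟨hT.1, hT.2.le⟩ fun t ht => by
      rw [hFf t (ht.2.trans_lt hT.2), ← hfT]
      exact P.anti ⟨ht.1, ht.2.trans hT.2.le⟩ (Ioo_subset_Icc_self hT) ht.2
    rw [hFf T hT.2, hfT] at hL'
    rw [min_eq_left hlt.le, intervalIntegral.integral_same, intervalIntegral.integral_same]
    linarith
  · -- pivot on the jump
    obtain ⟨hT, hgt⟩ := lt_of_le_fend P h0 hr0.2 hge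
    have hL' := left 1 ⟨one_pos, le_rfl⟩ fun t ht => by
      rcases ht.2.eq_or_lt with rfl | h
      · rw [hF1]; exact hge
      · rw [hFf t h]
        rcases ht.1.eq_or_lt with h' | h'
        · rw [← h', h0]; exact hr0.2.le
        · exact (hgt t ⟨h', h⟩).le
    rw [hF1] at hL'
    have hJ := calibH_jump hm hL hr0.1.le hge he.2
      (fun r hr => ⟨hr.1.le, hr.2.trans_le he.2⟩) (Icc_subset_Icc le_rfl he.2)
      (fun r hr => hadmJ r ⟨hr0.1.trans hr.1, hr.2⟩)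
      (hGj.mono_set (by
        rw [uIcc_of_le he.1]; exact uIcc_subset_Icc ⟨hr0.1.le, hge⟩ (right_mem_Icc.2 he.1)))
    rw [hT, min_eq_right hge]
    linarith

/-- **Below the pivot:** the levels in `[0, r0]`. -/
theorem tail_of_calibH (hm : 3 ≤ m) {g : ℝ → ℝ → ℝ} {r0 : ℝ} (hr0 : r0 ∈ Ioo (0:ℝ) 1)
    {adm : Set (ℝ × ℝ)} {KR KRr KRt : ℝ × ℝ → ℝ}
    (hR : SideA m g adm (Ioc 0 r0) (Icc 0 r0) KR KRr KRt)
    (hadm : ∀ t ∈ Ioo (0:ℝ) 1, (f t, t) ∈ adm)
    (hadmJ : ∀ r ∈ Ioo 0 (fend f), (r, (1:ℝ)) ∈ adm)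
    (hR0 : KR (0, 1) = 0)
    (hG : IntervalIntegrable (fun t => wq m f t * g (f t) (pProf f t)) volume 0 1)
    (hGj : IntervalIntegrable (fun r => (m:ℝ) * r ^ (m - 1) * g r 1) volume 0 (fend f)) :
    (∫ t in dist01 f r0..1, (m:ℝ) * f t ^ (m - 1) * (-deriv f t) * gamD m t (us (f t))) +
        (∫ r in (0:ℝ)..min (fend f) r0, (m:ℝ) * r ^ (m - 1) * gamD m 1 (us r)) ≤
      (∫ t in dist01 f r0..1, wq m f t * g (f t) (pProf f t)) +
        (∫ r in (0:ℝ)..min (fend f) r0, (m:ℝ) * r ^ (m - 1) * g r 1) -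
        KR (r0, dist01 f r0) := by
  obtain ⟨iN, -⟩ := negR_eq_t P h0 hm
  have he := fend_mem P h0
  set N : ℝ → ℝ := fun t => (m:ℝ) * f t ^ (m - 1) * (-deriv f t) * gamD m t (us (f t)) with hN
  set Gg : ℝ → ℝ := fun t => wq m f t * g (f t) (pProf f t) with hGdef
  have hsub : ∀ a ∈ Icc (0:ℝ) 1, ∀ b ∈ Icc (0:ℝ) 1, uIcc a b ⊆ uIcc (0:ℝ) 1 := fun a ha b hb => by
    rw [uIcc_of_le zero_le_one]; exact uIcc_subset_Icc ha hb
  have hf01 : ∀ t ∈ Ioo (0:ℝ) 1, f t ∈ Ioc (0:ℝ) 1 := fun t ht => P.mem01' h0 ht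
  -- the curve up to `t = 1`
  set F : ℝ → ℝ := fun t => if t < 1 then f t else fend f with hF
  have hFf : ∀ t, t < 1 → F t = f t := fun t ht => if_pos ht
  have hF1 : F 1 = fend f := if_neg (lt_irrefl _)
  have hFc : ContinuousOn F (Icc 0 1) := by
    intro x hx
    rcases hx.2.eq_or_lt with rfl | h
    · rw [ContinuousWithinAt, hF1, ← Ico_insert_right zero_le_one, nhdsWithin_insert, tendsto_sup]
      refine ⟨by simpa [hF1] using tendsto_pure_nhds F 1,
        ((tendsto_fend P).mono_left (nhdsWithin_mono _ Ico_subset_Iio_self)).congr' ?_⟩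
      filter_upwards [self_mem_nhdsWithin] with t ht using (hFf t ht.2).symm
    · refine ((P.continuousOn x ⟨hx.1, h⟩).mono_of_mem_nhdsWithin ?_).congr_of_eventuallyEq ?_
        (hFf x h)
      · filter_upwards [self_mem_nhdsWithin, mem_nhdsWithin_of_mem_nhds (Iio_mem_nhds h)] with
          t h1 h2 using ⟨h1.1, h2⟩
      · filter_upwards [mem_nhdsWithin_of_mem_nhds (Iio_mem_nhds h)] with t h2 using hFf t h2
  have hFlens : ∀ {U : Set ℝ} {t : ℝ}, t ∈ Icc (0:ℝ) 1 → F t ∈ U → (F t, t) ∈ lens U := by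
    intro U t ht hU
    refine ⟨hU, ?_, ht.2⟩
    rcases ht.2.eq_or_lt with rfl | h
    · rw [hF1]; linarith [he.1]
    · rw [hFf t h]; linarith [one_sub_le P h0 ht]
  have hcurve : ∀ {a b : ℝ} {U : Set ℝ} {G : ℝ × ℝ → ℝ}, 0 ≤ a → b ≤ 1 →
      ContinuousOn G (lens U) → (∀ t ∈ Icc a b, F t ∈ U) →
      ContinuousOn (fun t => G (F t, t)) (Icc a b) := fun {a b} {U} {G} ha hb hG hmem =>
    hG.comp ((hFc.mono (Icc_subset_Icc ha hb)).prodMk continuousOn_id) fun t ht =>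
      hFlens ⟨ha.trans ht.1, ht.2.trans hb⟩ (hmem t ht)
  rcases lt_or_ge (fend f) r0 with hlt | hge
  · -- pivot inside `(0,1)`
    obtain ⟨hT, hfT⟩ := dist01_level P h0 hlt hr0.2
    set T := dist01 f r0
    have hTI : T ∈ Icc (0:ℝ) 1 := Ioo_subset_Icc_self hT
    have hle : ∀ t ∈ Ico T 1, f t ≤ r0 := fun t ht => hfT ▸
      P.anti hTI ⟨hT.1.le.trans ht.1, ht.2.le⟩ ht.1
    have hR' := calibH_piece P h0 hR hadm ordConnected_Ioc hT.1.le hT.2.le le_rfl
      (fun t ht => ⟨(hf01 t ⟨hT.1.trans ht.1, ht.2⟩).1, hle t ⟨ht.1.le, ht.2⟩⟩)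
      (hcurve hT.1.le le_rfl hR.cont fun t ht => by
        rcases ht.2.eq_or_lt with rfl | h
        · rw [hF1]; exact ⟨he.1, hlt.le⟩
        · rw [hFf t h]
          exact ⟨P.nonneg t ⟨hT.1.le.trans ht.1, h.le⟩, hle t ⟨ht.1, h⟩⟩)
      (fun t ht => by rw [hFf t ht.2]) (iN.mono_set (hsub T hTI 1 (right_mem_Icc.2 zero_le_one)))
      (hG.mono_set (hsub T hTI 1 (right_mem_Icc.2 zero_le_one)))
    have hJ := calibH_jump hm hR le_rfl he.1 he.2
      (fun r hr => ⟨hr.1, hr.2.le.trans hlt.le⟩) (Icc_subset_Icc le_rfl hlt.le) hadmJ hGj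
    rw [hF1, hFf T hT.2, hfT] at hR'
    rw [hR0] at hJ
    rw [min_eq_left hlt.le]
    linarith
  · -- pivot on the jump
    obtain ⟨hT, -⟩ := lt_of_le_fend P h0 hr0.2 hge
    have hJ := calibH_jump hm hR le_rfl hr0.1.le hr0.2.le Ioo_subset_Ioc_self subset_rfl
      (fun r hr => hadmJ r ⟨hr.1, hr.2.trans_le hge⟩)
      (hGj.mono_set (by
        rw [uIcc_of_le he.1]; exact uIcc_subset_Icc (left_mem_Icc.2 he.1) ⟨hr0.1.le, hge⟩))
    rw [hR0] at hJ
    rw [hT, min_eq_right hge, intervalIntegral.integral_same, intervalIntegral.integral_same]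
    linarith

/-- **Hardy from a general calibration with one pivot.** -/
theorem hardy_of_calibH (hm : 3 ≤ m) {g : ℝ → ℝ → ℝ} {r0 : ℝ} (hr0 : r0 ∈ Ioo (0:ℝ) 1)
    {adm : Set (ℝ × ℝ)} {KL KLr KLt KR KRr KRt : ℝ × ℝ → ℝ}
    (hL : SideA m g adm (Ico r0 1) (Icc r0 1) KL KLr KLt)
    (hR : SideA m g adm (Ioc 0 r0) (Icc 0 r0) KR KRr KRt)
    (hadm : ∀ t ∈ Ioo (0:ℝ) 1, (f t, t) ∈ adm)
    (hadmJ : ∀ r ∈ Ioo 0 (fend f), (r, (1:ℝ)) ∈ adm)
    (hL1 : ∀ t ∈ Icc (0:ℝ) 1, KL (1, t) = 0) (hR0 : KR (0, 1) = 0)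
    (hG : IntervalIntegrable (fun t => wq m f t * g (f t) (pProf f t)) volume 0 1)
    (hGj : IntervalIntegrable (fun r => (m:ℝ) * r ^ (m - 1) * g r 1) volume 0 (fend f))
    (hgn : 0 ≤ g 1 0) :
    negR m f ≤ (∫ t in (0:ℝ)..1, wq m f t * g (f t) (pProf f t)) +
      (∫ r in (0:ℝ)..fend f, (m:ℝ) * r ^ (m - 1) * g r 1) +
      (KL (r0, dist01 f r0) - KR (r0, dist01 f r0)) := by
  obtain ⟨iN, eN⟩ := negR_eq_t P h0 hm
  rw [eN, ← sum_pieces P h0 iN (intJump hm (left_mem_Icc.2 zero_le_one) (fend_mem P h0)) hr0.1.le,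
    ← sum_pieces P h0 hG hGj hr0.1.le]
  linarith [head_of_calibH P h0 hm hr0 hL hadm hadmJ hL1 hG hGj hgn,
    tail_of_calibH P h0 hm hr0 hR hadm hadmJ hR0 hG hGj]

end

/-! ### The gain `thr (breg + bdry) + thb b qhR` -/

/-- The exact gain density. -/
noncomputable def gainD (m : ℕ) (thr thb r p : ℝ) : ℝ :=
  thr * (phiR m p - phiR m (us r) - psiR m (us r) * (p - us r)) + thb * quad m * (p - us r) ^ 2

/-- **`negR ≤ thr (breg + bdry) + thb b qhR` up to the pivot.** -/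
theorem negR_le_of_calibA (P : HalfProf f) (h0 : f 0 = 1) (hm : 3 ≤ m) {thr thb r0 : ℝ}
    (hr0 : r0 ∈ Ioo (0:ℝ) 1) {adm : Set (ℝ × ℝ)} {KL KLr KLt KR KRr KRt : ℝ × ℝ → ℝ}
    (hL : SideA m (gainD m thr thb) adm (Ico r0 1) (Icc r0 1) KL KLr KLt)
    (hR : SideA m (gainD m thr thb) adm (Ioc 0 r0) (Icc 0 r0) KR KRr KRt)
    (hadm : ∀ t ∈ Ioo (0:ℝ) 1, (f t, t) ∈ adm)
    (hadmJ : ∀ r ∈ Ioo 0 (fend f), (r, (1:ℝ)) ∈ adm)
    (hL1 : ∀ t ∈ Icc (0:ℝ) 1, KL (1, t) = 0) (hR0 : KR (0, 1) = 0) :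
    negR m f ≤ thr * (breg m f + bdry m f) + thb * quad m * qhR m f +
      (KL (r0, dist01 f r0) - KR (r0, dist01 f r0)) := by
  have hm0 : m ≠ 0 := by omega
  have hfm : AEStronglyMeasurable f (volume.restrict (Ioo (0:ℝ) 1)) :=
    (P.continuousOn.mono Ioo_subset_Ico_self).aestronglyMeasurable measurableSet_Ioo
  have iQ : IntervalIntegrable (fun t => wq m f t * (pProf f t - us (f t)) ^ 2) volume 0 1 :=
    P.intWgt_mul hm0 ((P.measurable_pProf.sub (continuous_us.comp_aestronglyMeasurable hfm)).pow 2)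
      (C := 4) fun s hs => by
      have h1 := (P.bounds hs).2
      have h2 := us_mem (Ioc_subset_Icc_self (P.mem01' h0 hs))
      rw [abs_of_nonneg (sq_nonneg _)]
      nlinarith [h1.1, h1.2, h2.1, h2.2]
  have iB : IntervalIntegrable (fun t => wq m f t *
      (phiR m (pProf f t) - phiR m (us (f t)) - psiR m (us (f t)) * (pProf f t - us (f t))))
      volume 0 1 := by
    have i1 := (intWq_comp P hm0 (continuousOn_phiR (m := m))).1
    have i2 := (ibp_comp P (a := fun t => t) (a' := fun _ => 1) continuousOn_id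
      (fun t _ => hasDerivAt_id' t) continuousOn_const intervalIntegrable_const
      (continuous_hH (m := m) (by omega))).1
    have i3 := (ibp_comp P (a := fun _ => 1) (a' := fun _ => 0) continuousOn_const
      (fun t _ => hasDerivAt_const t 1) continuousOn_const intervalIntegrable_const
      (continuous_hM (m := m) (by omega))).1
    have i4 := bounded_comp P h0 (h := fun s => s * hH m s)
      (continuous_id.mul (continuous_hH (m := m) (by omega)))
    refine (i1.sub ((i4.sub i2).sub i3)).congr_ae ?_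
    rw [EventuallyEq, ae_restrict_iff' measurableSet_uIoc]
    filter_upwards [Measure.ae_ne volume (1:ℝ)] with t hne hmem
    rw [uIoc_of_le zero_le_one] at hmem
    have ht : t ∈ Ioo (0:ℝ) 1 := ⟨hmem.1, lt_of_le_of_ne hmem.2 hne⟩
    have hfI := Ioc_subset_Icc_self (P.mem01' h0 ht)
    have hp := wq_mul_pProf (m := m) P ht
    simp only [wq, hH_eq hfI, hM_eq hfI] at hp ⊢
    linear_combination psiR m (us (f t)) * hp
  have he := fend_mem P h0
  have hcW : Continuous fun r : ℝ => (m:ℝ) * r ^ (m - 1) := by fun_prop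
  have jB : IntervalIntegrable (fun r => (m:ℝ) * r ^ (m - 1) * phiR m 1 - hH m r - hM m r)
      volume 0 (fend f) :=
    (((hcW.mul continuous_const).sub (continuous_hH (by omega))).sub
      (continuous_hM (by omega))).intervalIntegrable _ _
  have jQ : IntervalIntegrable (fun r => (m:ℝ) * r ^ (m - 1) * (1 - us r) ^ 2) volume 0 (fend f) :=
    Continuous.intervalIntegrable (by fun_prop) _ _
  set g := gainD m thr thb with hg
  have e1 : (fun t => wq m f t * g (f t) (pProf f t)) = fun t =>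
      thr * (wq m f t * (phiR m (pProf f t) - phiR m (us (f t)) -
        psiR m (us (f t)) * (pProf f t - us (f t)))) +
      thb * quad m * (wq m f t * (pProf f t - us (f t)) ^ 2) := by
    funext t; simp only [hg, gainD]; ring
  have e2 : ∀ r ∈ Icc 0 (fend f), thr * ((m:ℝ) * r ^ (m - 1) * phiR m 1 - hH m r - hM m r) +
      thb * quad m * ((m:ℝ) * r ^ (m - 1) * (1 - us r) ^ 2) = (m:ℝ) * r ^ (m - 1) * g r 1 := by
    intro r hr
    have hr1 : r ∈ Icc (0:ℝ) 1 := ⟨hr.1, hr.2.trans he.2⟩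
    simp only [hg, gainD, hH_eq hr1, hM_eq hr1]; ring
  have h := hardy_of_calibH P h0 hm (g := g) hr0 hL hR hadm hadmJ hL1 hR0
    (e1 ▸ (iB.const_mul thr).add (iQ.const_mul _))
    (((jB.const_mul thr).add (jQ.const_mul (thb * quad m))).congr fun r hr =>
      e2 r (uIcc_of_le he.1 ▸ uIoc_subset_uIcc hr))
    (le_of_eq (by simp [hg, gainD, us_one, phiR_zero]))
  refine h.trans_eq ?_
  rw [e1, intervalIntegral.integral_add (iB.const_mul thr) (iQ.const_mul _),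
    intervalIntegral.integral_congr (g := fun r =>
      thr * ((m:ℝ) * r ^ (m - 1) * phiR m 1 - hH m r - hM m r) +
      thb * quad m * ((m:ℝ) * r ^ (m - 1) * (1 - us r) ^ 2))
      (fun r hr => (e2 r (uIcc_of_le he.1 ▸ hr)).symm),
    intervalIntegral.integral_add (jB.const_mul thr) (jQ.const_mul _),
    intervalIntegral.integral_const_mul, intervalIntegral.integral_const_mul,
    intervalIntegral.integral_const_mul, intervalIntegral.integral_const_mul]
  simp only [breg, bdry, qhR]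
  ring

/-- The same without a cap. -/
theorem negR_le_of_calibH (P : HalfProf f) (h0 : f 0 = 1) (hm : 3 ≤ m) {thr thb r0 : ℝ}
    (hr0 : r0 ∈ Ioo (0:ℝ) 1) {KL KLr KLt KR KRr KRt : ℝ × ℝ → ℝ}
    (hL : SideH m (gainD m thr thb) (Ico r0 1) (Icc r0 1) KL KLr KLt)
    (hR : SideH m (gainD m thr thb) (Ioc 0 r0) (Icc 0 r0) KR KRr KRt)
    (hL1 : ∀ t ∈ Icc (0:ℝ) 1, KL (1, t) = 0) (hR0 : KR (0, 1) = 0) :
    negR m f ≤ thr * (breg m f + bdry m f) + thb * quad m * qhR m f +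
      (KL (r0, dist01 f r0) - KR (r0, dist01 f r0)) :=
  negR_le_of_calibA P h0 hm hr0 (hL.toA univ) (hR.toA univ) (fun _ _ => mem_univ _)
    (fun _ _ => mem_univ _) hL1 hR0

/-! ### One tangent point of a convex minorant -/

/-- A function with nonnegative second derivative lies above its tangents. -/
theorem tangent_le {F F' F'' : ℝ → ℝ} (hc : ContinuousOn F (Icc (0:ℝ) 1))
    (hd : ∀ x ∈ Ico (0:ℝ) 1, HasDerivAt F (F' x) x)
    (hdd : ∀ x ∈ Ico (0:ℝ) 1, HasDerivAt F' (F'' x) x)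
    (hn : ∀ x ∈ Ioo (0:ℝ) 1, 0 ≤ F'' x) {a p : ℝ} (ha : a ∈ Ico (0:ℝ) 1)
    (hp : p ∈ Icc (0:ℝ) 1) : F a + F' a * (p - a) ≤ F p := by
  have hconv : ConvexOn ℝ (Icc (0:ℝ) 1) F := by
    refine MonotoneOn.convexOn_of_deriv (convex_Icc _ _) hc ?_ ?_
    · rw [interior_Icc]
      exact fun t ht => (hd t (Ioo_subset_Ico_self ht)).differentiableAt.differentiableWithinAt
    · rw [interior_Icc]
      have hmono : MonotoneOn F' (Ioo 0 1) := by
        refine monotoneOn_of_deriv_nonneg (convex_Ioo _ _)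
          (fun x hx => (hdd x (Ioo_subset_Ico_self hx)).continuousAt.continuousWithinAt)
          (fun x hx => (hdd x (Ioo_subset_Ico_self
            (interior_subset hx))).differentiableAt.differentiableWithinAt) fun x hx => ?_
        rw [interior_Ioo] at hx
        rw [(hdd x (Ioo_subset_Ico_self hx)).deriv]
        exact hn x hx
      intro x hx y hy hxy
      rw [(hd x (Ioo_subset_Ico_self hx)).deriv, (hd y (Ioo_subset_Ico_self hy)).deriv]
      exact hmono hx hy hxy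
  have ha' : a ∈ Icc (0:ℝ) 1 := Ico_subset_Icc_self ha
  rcases lt_trichotomy p a with h | rfl | h
  · have := hconv.slope_le_of_hasDerivAt hp ha' h (hd a ha)
    rw [slope_def_field, div_le_iff₀ (sub_pos.2 h)] at this
    linarith
  · simp
  · have := hconv.le_slope_of_hasDerivAt ha' hp h (hd a ha)
    rw [slope_def_field, le_div_iff₀ (sub_pos.2 h)] at this
    linarith

/-- **The conjugate at one tangent point `a`**, with `L x = x E'(x) - E(x)`. -/
theorem calibH_of_witness {g : ℝ → ℝ → ℝ} {E E' : ℝ → ℝ} {Gr Gt r t a : ℝ} (hr : 0 ≤ r)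
    (hlow : ∀ p ∈ Icc (0:ℝ) 1, E p - E (us r) - E' (us r) * (p - us r) ≤ g r p)
    (htan : ∀ p ∈ Icc (0:ℝ) 1, E a + E' a * (p - a) ≤ E p)
    (hA : (m:ℝ) * r ^ (m - 1) * ((a * E' a - E a) - (us r * E' (us r) - E (us r))) ≤ Gt / r)
    (hB : (m:ℝ) * r ^ (m - 1) * gamD m t (us r) + Gr + Gt * t / r ≤
      (m:ℝ) * r ^ (m - 1) * (E' a - E' (us r))) :
    CalibH m g Gr Gt r t := by
  intro p hp _
  have hW : 0 ≤ (m:ℝ) * r ^ (m - 1) := mul_nonneg (Nat.cast_nonneg m) (pow_nonneg hr _)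
  have h1 := mul_le_mul_of_nonneg_left (hlow p hp) hW
  have h2 := mul_le_mul_of_nonneg_left (htan p hp) hW
  have h3 := mul_le_mul_of_nonneg_left hB hp.1
  rw [show Gt * (1 - p * t) / r = Gt / r - p * (Gt * t / r) by ring]
  linarith

/-- The conjugate at one tangent point, tested at the two ends of the slope box only. -/
theorem calibH_of_witness_box {g : ℝ → ℝ → ℝ} {E E' : ℝ → ℝ} {Gr Gt r t a p₀ : ℝ} (hr : 0 ≤ r)
    (ht : 0 < t) (hbox : p₀ * t ≤ 1 - r)
    (hlow : ∀ p ∈ Icc (0:ℝ) 1, E p - E (us r) - E' (us r) * (p - us r) ≤ g r p)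
    (htan : ∀ p ∈ Icc (0:ℝ) 1, E a + E' a * (p - a) ≤ E p)
    (hend : ∀ p, p = p₀ ∨ p = 1 → (m:ℝ) * r ^ (m - 1) * (p * gamD m t (us r)) ≤
      (m:ℝ) * r ^ (m - 1) * (E a + E' a * (p - a) - E (us r) - E' (us r) * (p - us r)) +
        (-(p * Gr) + Gt * (1 - p * t) / r)) :
    CalibH m g Gr Gt r t := by
  intro p hp hpt
  have hp0 : p₀ ≤ p := le_of_mul_le_mul_right (hbox.trans hpt) ht
  have hW : 0 ≤ (m:ℝ) * r ^ (m - 1) := mul_nonneg (Nat.cast_nonneg m) (pow_nonneg hr _)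
  have h1 := mul_le_mul_of_nonneg_left (hlow p hp) hW
  have h2 := mul_le_mul_of_nonneg_left (htan p hp) hW
  have e0 := hend p₀ (.inl rfl)
  have e1 := hend 1 (.inr rfl)
  rcases hp.2.eq_or_lt with h | h
  · subst h; linarith
  · have hd : 0 < 1 - p₀ := by linarith
    have key : ∀ A B : ℝ, 0 ≤ A + B * p₀ → 0 ≤ A + B → 0 ≤ A + B * p := fun A B hA hB => by
      have := add_nonneg (mul_nonneg hA (sub_nonneg.2 h.le)) (mul_nonneg hB (sub_nonneg.2 hp0))
      exact nonneg_of_mul_nonneg_left (by linarith) hd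
    set W := (m:ℝ) * r ^ (m - 1) with hWdef
    have := key (W * (E a - E' a * a - E (us r) + E' (us r) * us r) + Gt / r)
      (W * (E' a - E' (us r)) - W * gamD m t (us r) - Gr - Gt * t / r) (by ring_nf at e0 ⊢; linarith)
      (by ring_nf at e1 ⊢; linarith)
    ring_nf at this h1 h2 ⊢
    linarith

/-- `α (1 - √(1-p²)) + β (2 - 2√(1-p²) - p arcsin p)`. -/
noncomputable def curvE (α β p : ℝ) : ℝ := α * (1 - us p) + β * (2 - 2 * us p - p * arcsin p)

/-- The derivative of `curvE`. -/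
noncomputable def curvD (α β p : ℝ) : ℝ := (α + β) * p / us p - β * arcsin p

/-- The Legendre function of `curvE` in closed form. -/
theorem curv_legendre {α β p : ℝ} (hp : p ∈ Ico (0:ℝ) 1) :
    p * curvD α β p - curvE α β p = (α + β) / us p + β * us p - α - 2 * β := by
  have hu : us p ≠ 0 := (sqrt_pos.2 (by nlinarith [hp.1, hp.2])).ne'
  simp only [curvD, curvE]
  field_simp
  linear_combination (α + β) * us_sq (Ico_subset_Icc_self hp)

theorem hasDerivAt_curvE {α β x : ℝ} (hx : x ∈ Ioo (-1:ℝ) 1) :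
    HasDerivAt (curvE α β) (curvD α β x) x ∧
      HasDerivAt (curvD α β) ((α + β * x ^ 2) / us x ^ 3) x := by
  have hp : (0:ℝ) < 1 - x ^ 2 := by nlinarith [hx.1, hx.2]
  have hu : us x ≠ 0 := (sqrt_pos.2 hp).ne'
  have hsq : us x ^ 2 = 1 - x ^ 2 := sq_sqrt hp.le
  have dus : HasDerivAt us (-x / us x) x := by
    refine (((hasDerivAt_pow 2 x).const_sub 1).sqrt hp.ne').congr_deriv ?_
    rw [show √(1 - x ^ 2) = us x from rfl]
    field_simp
    push_cast
    ring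
  have das := hasDerivAt_arcsin hx.1.ne' hx.2.ne
  rw [show √(1 - x ^ 2) = us x from rfl] at das
  constructor
  · refine (((dus.const_sub 1).const_mul α).add
      (((((dus.const_mul 2).const_sub 2)).sub ((hasDerivAt_id' x).mul das)).const_mul β)).congr_deriv
        ?_
    simp only [curvD]
    field_simp
    ring
  · refine ((((hasDerivAt_id' x).const_mul (α + β)).div dus hu).sub (das.const_mul β)).congr_deriv ?_
    field_simp
    linear_combination α * hsq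

/-- **`thr ψ_r' + 2 thb b ≥ (α + β t²)/√(1-t²)³` gives a minorant of the gain.** -/
theorem curv_le_gainD {thr thb α β r p : ℝ} (hr : r ∈ Ioc (0:ℝ) 1) (hp : p ∈ Icc (0:ℝ) 1)
    (h : ∀ x ∈ Ioo (0:ℝ) 1, (α + β * x ^ 2) / us x ^ 3 ≤ thr * psiRD m x + 2 * thb * quad m) :
    curvE α β p - curvE α β (us r) - curvD α β (us r) * (p - us r) ≤ gainD m thr thb r p := by
  have hm : ∀ {x : ℝ}, x ∈ Ico (0:ℝ) 1 → x ∈ Ioo (-1:ℝ) 1 := fun hx => ⟨by linarith [hx.1], hx.2⟩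
  have hsub : Icc (0:ℝ) 1 ⊆ Icc (-1) 1 := Icc_subset_Icc (by norm_num) le_rfl
  have key := tangent_le (F := fun x => thr * phiR m x + thb * quad m * x ^ 2 - curvE α β x)
    (F' := fun x => thr * psiR m x + thb * quad m * (2 * x) - curvD α β x)
    (F'' := fun x => thr * psiRD m x + thb * quad m * 2 - (α + β * x ^ 2) / us x ^ 3)
    (((continuousOn_phiR.mono hsub).const_smul thr |>.add (by fun_prop)).sub
      (by unfold curvE us; fun_prop))
    (fun x hx => (((hasDerivAt_phiR (hm hx)).const_mul thr).add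
      (((hasDerivAt_pow 2 x).const_mul (thb * quad m)).congr_deriv (by push_cast; ring))).sub
      (hasDerivAt_curvE (hm hx)).1)
    (fun x hx => (((hasDerivAt_psiR (hm hx)).const_mul thr).add
      ((((hasDerivAt_id' x).const_mul 2).const_mul (thb * quad m)).congr_deriv (by ring))).sub
      (hasDerivAt_curvE (hm hx)).2)
    (fun x hx => by linarith [h x hx])
    (a := us r) ⟨(us_mem (Ioc_subset_Icc_self hr)).1, us_lt_one hr⟩ hp
  simp only [gainD]
  linarith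

/-- **The pointwise condition for a curvature minorant.** -/
theorem calibH_curv {thr thb α β Gr Gt r t a : ℝ} (hr : r ∈ Ioc (0:ℝ) 1) (hα : 0 ≤ α)
    (hαβ : 0 ≤ α + β) (ha : a ∈ Ico (0:ℝ) 1)
    (h : ∀ x ∈ Ioo (0:ℝ) 1, (α + β * x ^ 2) / us x ^ 3 ≤ thr * psiRD m x + 2 * thb * quad m)
    (hA : (m:ℝ) * r ^ (m - 1) * (((α + β) / us a + β * us a) - ((α + β) / r + β * r)) ≤ Gt / r)
    (hB : (m:ℝ) * r ^ (m - 1) * gamD m t (us r) + Gr + Gt * t / r ≤
      (m:ℝ) * r ^ (m - 1) * (curvD α β a - curvD α β (us r))) :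
    CalibH m (gainD m thr thb) Gr Gt r t := by
  refine calibH_of_witness (E := curvE α β) (E' := curvD α β) (a := a) hr.1.le
    (fun p hp => curv_le_gainD hr hp h)
    (fun p hp => tangent_le (F'' := fun x => (α + β * x ^ 2) / us x ^ 3)
      (by unfold curvE us; fun_prop)
      (fun x hx => (hasDerivAt_curvE ⟨by linarith [hx.1], hx.2⟩).1)
      (fun x hx => (hasDerivAt_curvE ⟨by linarith [hx.1], hx.2⟩).2)
      (fun x hx => div_nonneg (by
        rcases le_total 0 β with hb | hb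
        · positivity
        · nlinarith [mul_le_mul_of_nonpos_left (show x ^ 2 ≤ 1 by nlinarith [hx.1, hx.2]) hb])
        (pow_nonneg (sqrt_nonneg _) 3)) ha hp)
    (le_trans (le_of_eq ?_) hA) hB
  rw [curv_legendre ha, curv_legendre ⟨(us_mem (Ioc_subset_Icc_self hr)).1, us_lt_one hr⟩,
    us_us (Ioc_subset_Icc_self hr)]
  ring

/-! ### Calibrations in `σ` -/

/-- `(r, σ)` at `(r, t)`. -/
noncomputable def sigP (z : ℝ × ℝ) : ℝ × ℝ := (z.1, (z.2 - us z.1) / z.1)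

theorem sigma_mem {z : ℝ × ℝ} {S : Set ℝ} (hS : S ⊆ Icc 0 1) (hz : z ∈ lens S) :
    (sigP z).2 ∈ Icc (-1:ℝ) 1 := by
  have hr := hS hz.1
  have hu := us_mem hr
  rcases hr.1.eq_or_lt with h | h
  · simp [sigP, ← h]
  · have hs : 1 - z.1 ≤ us z.1 :=
      (pow_le_pow_iff_left₀ (by linarith [hr.2]) hu.1 two_ne_zero).1 (by
        rw [us_sq hr]; nlinarith [hr.1, hr.2])
    refine ⟨?_, ?_⟩ <;> simp only [sigP]
    · rw [le_div_iff₀ h]; linarith [hz.2.1, hu.2]
    · rw [div_le_one h]; linarith [hz.2.2]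

/-- Continuity up to the level `0`, from a bound vanishing there. -/
theorem continuousOn_sigP {H : ℝ × ℝ → ℝ} {c : ℝ → ℝ} {lo hi : ℝ} (hlo : 0 ≤ lo) (hhi : hi ≤ 1)
    (hH : ContinuousOn H (Icc lo hi ×ˢ Icc (-1:ℝ) 1))
    (h0 : lo = 0 → ContinuousWithinAt c (Icc lo hi) 0 ∧ c 0 = 0)
    (hb : ∀ r ∈ Icc lo hi, ∀ σ ∈ Icc (-1:ℝ) 1, |H (r, σ)| ≤ c r) :
    ContinuousOn (fun z => H (sigP z)) (lens (Icc lo hi)) := by
  intro z hz
  have hS : Icc lo hi ⊆ Icc (0:ℝ) 1 := Icc_subset_Icc hlo hhi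
  have hmaps : MapsTo sigP (lens (Icc lo hi)) (Icc lo hi ×ˢ Icc (-1:ℝ) 1) :=
    fun w hw => ⟨hw.1, sigma_mem hS hw⟩
  rcases (hS hz.1).1.eq_or_lt with h | h
  · obtain ⟨hc, hc0⟩ := h0 (le_antisymm (by linarith [hz.1.1]) hlo)
    have hb0 : ∀ σ ∈ Icc (-1:ℝ) 1, H (z.1, σ) = 0 := fun σ hσ => abs_eq_zero.1
      (le_antisymm ((hb _ hz.1 σ hσ).trans_eq (by rw [← h, hc0])) (abs_nonneg _))
    rw [ContinuousWithinAt, show H (sigP z) = 0 from hb0 _ (sigma_mem hS hz)]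
    refine squeeze_zero_norm' (a := fun w => c w.1) ?_ ?_
    · filter_upwards [self_mem_nhdsWithin] with w hw
      exact hb _ hw.1 _ (sigma_mem hS hw)
    · rw [← hc0]
      refine hc.tendsto.comp (tendsto_nhdsWithin_iff.2 ⟨?_, ?_⟩)
      · rw [show (0:ℝ) = z.1 from h]
        exact (continuous_fst.tendsto z).mono_left nhdsWithin_le_nhds
      · filter_upwards [self_mem_nhdsWithin] with w hw using hw.1
  · refine (hH _ (hmaps hz)).comp ?_ hmaps
    refine ContinuousAt.continuousWithinAt (ContinuousAt.prodMk continuousAt_fst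
      (ContinuousAt.div ?_ continuousAt_fst h.ne'))
    exact continuousAt_snd.sub (continuous_us.continuousAt.comp continuousAt_fst)

/-- **A calibration `H(r, σ)` is a calibration** (on an admissible region). -/
theorem sideA_of_sigma {g : ℝ → ℝ → ℝ} {adm : Set (ℝ × ℝ)} {S T : Set ℝ} {H Hr Hs : ℝ × ℝ → ℝ}
    (hS : S ⊆ Ioo (0:ℝ) 1)
    (hd : ∀ z ∈ lens S, HasFDerivAt H (grad2 (Hr (sigP z)) (Hs (sigP z))) (sigP z))
    (hr : ContinuousOn (fun z => Hr (sigP z)) (lens S))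
    (hs : ContinuousOn (fun z => Hs (sigP z)) (lens S))
    (hc : ContinuousOn (fun z => H (sigP z)) (lens T))
    (hle : ∀ z ∈ lens S, z ∈ adm → CalibH m g
      (Hr (sigP z) + Hs (sigP z) * ((1 - z.2 * us z.1) / (us z.1 * z.1 ^ 2)))
      (Hs (sigP z) / z.1) z.1 z.2) :
    SideA m g adm S T (fun z => H (sigP z))
      (fun z => Hr (sigP z) + Hs (sigP z) * ((1 - z.2 * us z.1) / (us z.1 * z.1 ^ 2)))
      (fun z => Hs (sigP z) / z.1) := by
  have hu : ∀ z ∈ lens S, 0 < us z.1 := fun z hz =>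
    sqrt_pos.2 (by nlinarith [(hS hz.1).1, (hS hz.1).2])
  refine ⟨fun z hz => ?_, ?_, ?_, hc, hle⟩
  · have h1 := (hS hz.1).1.ne'
    have hu' := (hu z hz).ne'
    have dfst : HasFDerivAt Prod.fst (ContinuousLinearMap.fst ℝ ℝ ℝ) z := hasFDerivAt_fst
    have dsnd : HasFDerivAt Prod.snd (ContinuousLinearMap.snd ℝ ℝ ℝ) z := hasFDerivAt_snd
    have dσ : HasFDerivAt (fun w => (w.2 - us w.1) * w.1⁻¹) _ z :=
      (dsnd.sub ((hasDerivAt_us (hS hz.1)).comp_hasFDerivAt z dfst)).mul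
        ((hasDerivAt_inv h1).comp_hasFDerivAt z dfst)
    refine ((hd z hz).comp z ((dfst.prodMk dσ).congr_of_eventuallyEq
      (.of_forall fun w => by rw [sigP, div_eq_mul_inv]))).congr_fderiv ?_
    have hsq := us_sq (Ioo_subset_Icc_self (hS hz.1))
    ext <;> simp [grad2] <;> field_simp
    · linear_combination Hs (sigP z) * hsq
  · exact hr.add (hs.mul (ContinuousOn.div (by fun_prop) (by fun_prop) fun z hz =>
      mul_ne_zero (hu z hz).ne' (pow_ne_zero 2 (hS hz.1).1.ne')))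
  · exact hs.div (by fun_prop) fun z hz => (hS hz.1).1.ne'

/-- The same without a cap. -/
theorem sideH_of_sigma {g : ℝ → ℝ → ℝ} {S T : Set ℝ} {H Hr Hs : ℝ × ℝ → ℝ}
    (hS : S ⊆ Ioo (0:ℝ) 1)
    (hd : ∀ z ∈ lens S, HasFDerivAt H (grad2 (Hr (sigP z)) (Hs (sigP z))) (sigP z))
    (hr : ContinuousOn (fun z => Hr (sigP z)) (lens S))
    (hs : ContinuousOn (fun z => Hs (sigP z)) (lens S))
    (hc : ContinuousOn (fun z => H (sigP z)) (lens T))
    (hle : ∀ z ∈ lens S, CalibH m g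
      (Hr (sigP z) + Hs (sigP z) * ((1 - z.2 * us z.1) / (us z.1 * z.1 ^ 2)))
      (Hs (sigP z) / z.1) z.1 z.2) :
    SideH m g S T (fun z => H (sigP z))
      (fun z => Hr (sigP z) + Hs (sigP z) * ((1 - z.2 * us z.1) / (us z.1 * z.1 ^ 2)))
      (fun z => Hs (sigP z) / z.1) := by
  obtain ⟨h1, h2, h3, h4, -⟩ :=
    sideA_of_sigma (m := m) (g := g) (adm := univ) (T := T) hS hd hr hs hc (fun z hz _ => hle z hz)
  exact ⟨h1, h2, h3, h4, hle⟩

/-- **The two inequalities at one tangent point, in `σ`.** -/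
theorem calibH_sigma {thr thb α β hr' hs' r t a : ℝ} (hr : r ∈ Ioo (0:ℝ) 1) (hα : 0 ≤ α)
    (hαβ : 0 ≤ α + β) (ha : a ∈ Ico (0:ℝ) 1)
    (h : ∀ x ∈ Ioo (0:ℝ) 1, (α + β * x ^ 2) / us x ^ 3 ≤ thr * psiRD m x + 2 * thb * quad m)
    (hA : (m:ℝ) * r ^ (m - 1) * (((α + β) / us a + β * us a) - ((α + β) / r + β * r)) ≤
      hs' / r ^ 2)
    (hB : (m:ℝ) * r ^ (m - 1) * gamD m t (us r) + hr' + hs' / (us r * r ^ 2) ≤
      (m:ℝ) * r ^ (m - 1) * (curvD α β a - curvD α β (us r))) :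
    CalibH m (gainD m thr thb) (hr' + hs' * ((1 - t * us r) / (us r * r ^ 2))) (hs' / r) r t := by
  have hu : us r ≠ 0 := (sqrt_pos.2 (by nlinarith [hr.1, hr.2])).ne'
  have hr0 := hr.1.ne'
  refine calibH_curv (a := a) (Ioo_subset_Ioc_self hr) hα hαβ ha h (hA.trans_eq ?_)
    (le_trans (le_of_eq ?_) hB) <;> field_simp <;> ring

/-! ### Splitting at the sign of `σ` -/

theorem hasDerivAt_sq_max (z : ℝ) : HasDerivAt (fun z : ℝ => max z 0 ^ 2) (2 * max z 0) z := by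
  have hb : ∀ h : ℝ, |max (z + h) 0 ^ 2 - max z 0 ^ 2 - h * (2 * max z 0)| ≤ h ^ 2 := by
    intro h
    have := sq_nonneg h
    rw [abs_le]
    rcases le_total z 0 with h1 | h1 <;> rcases le_total (z + h) 0 with h2 | h2 <;>
      simp only [max_eq_left, max_eq_right, h1, h2] <;> constructor <;> nlinarith
  rw [hasDerivAt_iff_isLittleO_nhds_zero]
  refine ((Asymptotics.IsBigO.of_bound 1 ?_).trans_isLittleO
    (Asymptotics.isLittleO_pow_id one_lt_two))
  refine .of_forall fun h => ?_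
  simp only [Real.norm_eq_abs, smul_eq_mul, one_mul, abs_pow, sq_abs]
  exact hb h

/-- `P(r, σ) σ₊² + N(r, σ) σ₋²`. -/
noncomputable def splitH (A B : ℝ × ℝ → ℝ) (z : ℝ × ℝ) : ℝ :=
  A z * max z.2 0 ^ 2 + B z * max (-z.2) 0 ^ 2

/-- The partials of `splitH`. -/
theorem hasFDerivAt_splitH {A B : ℝ × ℝ → ℝ} {Ar As Br Bs : ℝ} {z : ℝ × ℝ}
    (hA : HasFDerivAt A (grad2 Ar As) z) (hB : HasFDerivAt B (grad2 Br Bs) z) :
    HasFDerivAt (splitH A B)
      (grad2 (Ar * max z.2 0 ^ 2 + Br * max (-z.2) 0 ^ 2)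
        (As * max z.2 0 ^ 2 + 2 * A z * max z.2 0 + Bs * max (-z.2) 0 ^ 2 -
          2 * B z * max (-z.2) 0)) z := by
  have dsnd : HasFDerivAt Prod.snd (ContinuousLinearMap.snd ℝ ℝ ℝ) z := hasFDerivAt_snd
  have d1 := (hasDerivAt_sq_max z.2).comp_hasFDerivAt z dsnd
  have d2 := (hasDerivAt_sq_max (-z.2)).comp_hasFDerivAt z dsnd.neg
  refine ((hA.mul d1).add (hB.mul d2)).congr_fderiv ?_
  ext <;> simp [grad2] <;> ring

end Vale.Agent.P237.AllN
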