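import Vale.Agent.P237.AllN.RiccatiH
import Vale.Agent.P237.AllN.InvPivotGen

/-!
# P237, all dimensions: calibrations with a multiple of the linear constraint

The calibration conditions may carry `μ k(r)` for a kernel `k`, which integrates to `μ linK`; with
the pivot kernel this is a multiple of `linGain` and of the pivot value. `μ` and the calibration
may be chosen after the profile, for instance by the sign of the pivot value.
-/

open MeasureTheory Set Real Filter Topology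
open Vale.Agent.P237.AllN.InvPivot

namespace Vale.Agent.P237.AllN

variable {m : ℕ} {f : ℝ → ℝ}

/-- The gain density with a kernel. -/
noncomputable def gainLin (m : ℕ) (thr thb μ : ℝ) (k : ℝ → ℝ) (r p : ℝ) : ℝ :=
  gainD m thr thb r p + μ * k r / ((m:ℝ) * r ^ (m - 1))

/-- **`negR ≤ thr (breg + bdry) + thb b qhR + μ linK` up to the pivot.** -/
theorem negR_le_of_calibH_lin (P : HalfProf f) (h0 : f 0 = 1) (hm : 3 ≤ m) {thr thb μ r0 : ℝ}
    (hr0 : r0 ∈ Ioo (0:ℝ) 1) {k₁ k₂ : ℝ → ℝ} (hk1 : Continuous k₁) (hk2 : Continuous k₂)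
    (hk : 0 ≤ μ * k₂ 1) {adm : Set (ℝ × ℝ)} {KL KLr KLt KR KRr KRt : ℝ × ℝ → ℝ}
    (hL : SideA m (gainLin m thr thb μ k₂) adm (Ico r0 1) (Icc r0 1) KL KLr KLt)
    (hR : SideA m (gainLin m thr thb μ k₁) adm (Ioc 0 r0) (Icc 0 r0) KR KRr KRt)
    (hadm : ∀ t ∈ Ioo (0:ℝ) 1, (f t, t) ∈ adm)
    (hadmJ : ∀ r ∈ Ioo 0 (fend f), (r, (1:ℝ)) ∈ adm)
    (hL1 : ∀ t ∈ Icc (0:ℝ) 1, KL (1, t) = 0) (hR0 : KR (0, 1) = 0) :
    negR m f ≤ thr * (breg m f + bdry m f) + thb * (quad m * qhR m f) + μ * linK f r0 k₁ k₂ +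
      (KL (r0, dist01 f r0) - KR (r0, dist01 f r0)) := by
  have hm0 : (0:ℝ) < m := Nat.cast_pos.2 (by omega)
  obtain ⟨iG, iE, eG⟩ := gainK_split P h0 hm thr thb
  obtain ⟨iN, eN⟩ := negR_eq_t P h0 hm
  have he := fend_mem P h0
  set q : ℝ → ℝ := fun t => f t - t * deriv f t with hq
  set D : ℝ → ℝ := fun t => wq m f t * splitD m thr thb (f t) (pProf f t) with hD
  set J : ℝ → ℝ := fun r => (m:ℝ) * r ^ (m - 1) * splitD m thr thb r 1 with hJ
  -- the density of a kernel
  have key : ∀ k : ℝ → ℝ, Continuous k →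
      IntervalIntegrable (fun t => k (f t) * q t) volume 0 1 ∧
      (∀ t ∈ Ioo (0:ℝ) 1, wq m f t * gainLin m thr thb μ k (f t) (pProf f t) =
        D t + μ * (k (f t) * q t)) ∧
      (∀ r, 0 < r → (m:ℝ) * r ^ (m - 1) * gainLin m thr thb μ k r 1 = J r + μ * k r) := by
    refine fun k hk' => ⟨int_h_weight P h0 hk', fun t ht => ?_, fun r hr => ?_⟩
    · have := (P.mem01' h0 ht).1.ne'
      simp only [hD, hq, gainLin, wq, gainD, splitD]
      field_simp
    · have := hr.ne'
      simp only [hJ, gainLin, gainD, splitD]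
      field_simp
  have hint : ∀ k : ℝ → ℝ, Continuous k →
      IntervalIntegrable (fun t => wq m f t * gainLin m thr thb μ k (f t) (pProf f t)) volume 0 1 ∧
      IntervalIntegrable (fun r => (m:ℝ) * r ^ (m - 1) * gainLin m thr thb μ k r 1) volume 0
        (fend f) := by
    intro k hk'
    obtain ⟨i, e, e'⟩ := key k hk'
    constructor
    · refine (iG.add (i.const_mul μ)).congr_ae ?_
      rw [EventuallyEq, ae_restrict_iff' measurableSet_uIoc]
      filter_upwards [Measure.ae_ne volume (1:ℝ)] with t hne hmem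
      rw [uIoc_of_le zero_le_one] at hmem
      exact (e t ⟨hmem.1, lt_of_le_of_ne hmem.2 hne⟩).symm
    · refine (iE.add ((hk'.intervalIntegrable _ _).const_mul μ)).congr fun r hr => ?_
      rw [uIoc_of_le he.1] at hr
      exact (e' r hr.1).symm
  have hh := head_of_calibH P h0 hm hr0 hL hadm hadmJ hL1 (hint k₂ hk2).1 (hint k₂ hk2).2 (by
    simp only [gainLin, gainD, us_one, one_pow, mul_one, phiR_zero, sub_self, mul_zero,
      zero_pow two_ne_zero, zero_add]
    positivity)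
  have ht := tail_of_calibH P h0 hm hr0 hR hadm hadmJ hR0 (hint k₁ hk1).1 (hint k₁ hk1).2
  have hT := dist01_mem f r0
  set T := dist01 f r0 with hTdef
  set e := min (fend f) r0 with hedef
  have heI : e ∈ Icc 0 (fend f) := ⟨le_min he.1 hr0.1.le, min_le_left _ _⟩
  have hs1 : uIcc 0 T ⊆ uIcc (0:ℝ) 1 := by
    rw [uIcc_of_le hT.1, uIcc_of_le zero_le_one]; exact Icc_subset_Icc le_rfl hT.2
  have hs2 : uIcc T 1 ⊆ uIcc (0:ℝ) 1 := by
    rw [uIcc_of_le hT.2, uIcc_of_le zero_le_one]; exact Icc_subset_Icc hT.1 le_rfl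
  have hs3 : uIcc 0 e ⊆ uIcc 0 (fend f) := by
    rw [uIcc_of_le heI.1, uIcc_of_le he.1]; exact Icc_subset_Icc le_rfl heI.2
  have hs4 : uIcc e (fend f) ⊆ uIcc 0 (fend f) := by
    rw [uIcc_of_le heI.2, uIcc_of_le he.1]; exact Icc_subset_Icc heI.1 le_rfl
  obtain ⟨i1, e1, e1'⟩ := key k₁ hk1
  obtain ⟨i2, e2, e2'⟩ := key k₂ hk2
  rw [intervalIntegral.integral_congr_Ioo_of_le hT.1 (g := fun t => D t + μ * (k₂ (f t) * q t))
      fun t ht' => e2 t ⟨ht'.1, ht'.2.trans_le hT.2⟩,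
    intervalIntegral.integral_congr_Ioo_of_le heI.2 (g := fun r => J r + μ * k₂ r)
      fun r hr => e2' r (heI.1.trans_lt hr.1),
    intervalIntegral.integral_add (iG.mono_set hs1) ((i2.mono_set hs1).const_mul μ),
    intervalIntegral.integral_add (iE.mono_set hs4) ((hk2.intervalIntegrable _ _).const_mul μ),
    intervalIntegral.integral_const_mul, intervalIntegral.integral_const_mul] at hh
  rw [intervalIntegral.integral_congr_Ioo_of_le hT.2 (g := fun t => D t + μ * (k₁ (f t) * q t))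
      fun t ht' => e1 t ⟨hT.1.trans_lt ht'.1, ht'.2⟩,
    intervalIntegral.integral_congr_Ioo_of_le heI.1 (g := fun r => J r + μ * k₁ r)
      fun r hr => e1' r hr.1,
    intervalIntegral.integral_add (iG.mono_set hs2) ((i1.mono_set hs2).const_mul μ),
    intervalIntegral.integral_add (iE.mono_set hs3) ((hk1.intervalIntegrable _ _).const_mul μ),
    intervalIntegral.integral_const_mul, intervalIntegral.integral_const_mul] at ht
  have sG := sum_pieces P h0 (r0 := r0) iG iE hr0.1.le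
  have sN := sum_pieces P h0 (r0 := r0) iN
    (intJump hm (left_mem_Icc.2 zero_le_one) he) hr0.1.le
  simp only [gainK] at eG
  rw [eN, linK]
  simp only [← hTdef, ← hedef] at *
  simp only [hD, hJ, hq] at hh ht sG eG ⊢
  linarith

/-- **The same with the pivot kernel:** `μ (M σ(r₀) + a Z₀ L)` is added. -/
theorem negR_le_of_calibH_pivot (P : HalfProf f) (h0 : f 0 = 1) (hm : 3 ≤ m) {thr thb μ a r0 : ℝ}
    (hr0 : r0 ∈ Ioo (0:ℝ) 1) (ha : 0 ≤ μ * (1 - a)) {adm : Set (ℝ × ℝ)}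
    {KL KLr KLt KR KRr KRt : ℝ × ℝ → ℝ}
    (hL : SideA m (gainLin m thr thb μ fun r => a * pivH m r + pivM m / max r r0 ^ 2) adm
      (Ico r0 1) (Icc r0 1) KL KLr KLt)
    (hR : SideA m (gainLin m thr thb μ fun r => a * pivH m r) adm (Ioc 0 r0) (Icc 0 r0) KR KRr KRt)
    (hadm : ∀ t ∈ Ioo (0:ℝ) 1, (f t, t) ∈ adm)
    (hadmJ : ∀ r ∈ Ioo 0 (fend f), (r, (1:ℝ)) ∈ adm)
    (hL1 : ∀ t ∈ Icc (0:ℝ) 1, KL (1, t) = 0) (hR0 : KR (0, 1) = 0) :
    negR m f ≤ thr * (breg m f + bdry m f) + thb * (quad m * qhR m f) +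
      μ * (a * (Univ.ballInt m * GaugeBall.linGain m f) + pivM m * sigR f r0) +
      μ * (pivM m * (us r0 / r0) - a * (Univ.ballInt m / ((m:ℝ) - 1))) +
      (KL (r0, dist01 f r0) - KR (r0, dist01 f r0)) := by
  have hM := (pivM_pos (m := m) (by omega)).le
  have hc : Continuous fun r => a * pivH m r + pivM m / max r r0 ^ 2 :=
    ((continuous_pivH m).const_mul a).add (continuous_const.div (by fun_prop) fun r =>
      pow_ne_zero 2 (hr0.1.trans_le (le_max_right r r0)).ne')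
  refine (negR_le_of_calibH_lin P h0 hm hr0 ((continuous_pivH m).const_mul a) hc ?_ hL hR hadm hadmJ hL1
    hR0).trans_eq ?_
  · have h1 : pivH m 1 = -pivM m := by simp [pivH, pivM]
    rw [max_eq_left hr0.2.le, h1, one_pow, div_one]
    nlinarith [mul_nonneg ha hM]
  · rw [linK_pivotA a P h0 hm hr0, ballInt_mul_linGain (by omega), sigR]
    have := hr0.1.ne'
    field_simp
    ring

end Vale.Agent.P237.AllN
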