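import Vale.Agent.P237.AllN.GamEnv

/-!
# P237, all dimensions: the curvature of the split gain

`thr D_φr(p|t) + thb b (p - t)²` has curvature `thr ψ_r' + 2 thb b`. With `u = √(1-t²)`:
* `splitCurv_of_poly`: it is at least `(α + β t²)/u³` as soon as one explicit polynomial in `u` is
  nonnegative on `[0,1]`;
* `splitCurv_of_cubic`: this holds if `0 ≤ K` and `α ≤ K - 4K³/(27 T²)`, for
  `K = thr k - β`, `T = 2 thb b`, `k = c/(m+1)`;
* `split_bregman_ge`: the split gain then dominates the Bregman distance of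
  `splitBase α β = α (1-u) + β (2 - 2u - t arcsin t)`, the primitive of that curvature.
-/

open MeasureTheory Set Real intervalIntegral Filter Topology

namespace Vale.Agent.P237.AllN

variable {m : ℕ} {α β thr thb : ℝ}

theorem deriv_psiR_neg {t : ℝ} (ht : t ∈ Ioo (-1:ℝ) 1) :
    deriv (psiR m) (-t) = deriv (psiR m) t := by
  rw [(hasDerivAt_psiR (show -t ∈ Ioo (-1:ℝ) 1 from ⟨by linarith [ht.2], by linarith [ht.1]⟩)).deriv,
    (hasDerivAt_psiR ht).deriv, psiR_neg]
  simp only [rhsR, neg_sq]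
  ring

/-- The lower envelope of `thr ψ_r' u³ + 2 thb b u³`, as a polynomial in `u`. -/
noncomputable def splitPoly (m : ℕ) (thr thb u : ℝ) : ℝ :=
  thr * (1 - u ^ 2) * (kapLo m * (1 + u ^ 2 / ((m:ℝ) + 3)) + kapCub m * u ^ 3) +
    2 * thb * quad m * u ^ 3

/-- The generic side condition. -/
theorem splitCurv_of_poly (hm : 4 ≤ m) (hthr : 0 ≤ thr)
    (h : ∀ u ∈ Icc (0:ℝ) 1, α + β * (1 - u ^ 2) ≤ splitPoly m thr thb u)
    {t : ℝ} (ht : t ∈ Ioo (-1:ℝ) 1) :
    (α + β * t ^ 2) / √(1 - t ^ 2) ^ 3 ≤ thr * deriv (psiR m) t + 2 * thb * quad m := by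
  wlog h0 : 0 ≤ t generalizing t
  · have := this (t := -t) ⟨by linarith [ht.2], by linarith [ht.1]⟩ (by linarith)
    rwa [deriv_psiR_neg ht, neg_sq] at this
  obtain ⟨hu, hu1, hsq⟩ := u_mem h0 ht.2
  have hk := kapEnv_le_deriv_psiR hm h0 ht.2
  set u := √(1 - t ^ 2)
  have h1 := h u ⟨hu.le, hu1⟩
  rw [splitPoly, ← hsq] at h1
  rw [div_le_iff₀ (pow_pos hu 3)]
  nlinarith [mul_le_mul_of_nonneg_left hk hthr]

/-- `K - 4K³/(27 T²) ≤ K (1-u²) + T u³`. -/
theorem cubic_min_le {K T u : ℝ} (hK : 0 ≤ K) (hT : 0 < T) (hu : 0 ≤ u) :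
    K - 4 * K ^ 3 / (27 * T ^ 2) ≤ K * (1 - u ^ 2) + T * u ^ 3 := by
  rw [← sub_nonneg]
  have e : K * (1 - u ^ 2) + T * u ^ 3 - (K - 4 * K ^ 3 / (27 * T ^ 2)) =
      (u - 2 * K / (3 * T)) ^ 2 * (T * u + K / 3) := by
    field_simp
    ring
  rw [e]
  positivity

/-- The closed side condition. -/
theorem splitCurv_of_cubic (hm : 4 ≤ m) (hthr : 0 ≤ thr) (hthb : 0 < thb)
    (hβ : β ≤ thr * kapLo m)
    (hK : α ≤ (thr * kapLo m - β) -
      4 * (thr * kapLo m - β) ^ 3 / (27 * (2 * thb * quad m) ^ 2))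
    {t : ℝ} (ht : t ∈ Ioo (-1:ℝ) 1) :
    (α + β * t ^ 2) / √(1 - t ^ 2) ^ 3 ≤ thr * deriv (psiR m) t + 2 * thb * quad m := by
  refine splitCurv_of_poly hm hthr (fun u hu => ?_) ht
  set K := thr * kapLo m - β with hKd
  set T := 2 * thb * quad m with hTd
  have hTp : 0 < T := mul_pos (mul_pos two_pos hthb) (quad_pos m)
  have hu2 : u ^ 2 ≤ 1 := pow_le_one₀ hu.1 hu.2
  have key : α ≤ K * (1 - u ^ 2) + T * u ^ 3 :=
    hK.trans (cubic_min_le (sub_nonneg.2 hβ) hTp hu.1)
  have h1 : 0 ≤ thr * (1 - u ^ 2) * (kapLo m * (u ^ 2 / ((m:ℝ) + 3)) + kapCub m * u ^ 3) := by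
    have := kapLo_pos m
    have := kapCub_nonneg hm
    have := sub_nonneg.2 hu2
    have := hu.1
    positivity
  rw [splitPoly]
  simp only [hKd, hTd] at key
  linarith

/-- The primitive of `(α + β t²)/√(1-t²)³`, twice. -/
noncomputable def splitBase (α β t : ℝ) : ℝ :=
  α * (1 - √(1 - t ^ 2)) + β * (2 - 2 * √(1 - t ^ 2) - t * arcsin t)

/-- Its derivative. -/
noncomputable def splitBaseD (α β t : ℝ) : ℝ :=
  α * (t / √(1 - t ^ 2)) + β * (t / √(1 - t ^ 2) - arcsin t)

theorem hasDerivAt_splitBase {t : ℝ} (ht : t ∈ Ioo (-1:ℝ) 1) :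
    HasDerivAt (splitBase α β) (splitBaseD α β t) t := by
  have hu := hasDerivAt_u ht
  refine (((hu.const_sub 1).const_mul α).add ((((hu.const_mul 2).const_sub 2).sub
    ((hasDerivAt_id t).mul (hasDerivAt_arcsin ht.1.ne' ht.2.ne))).const_mul β)).congr_deriv ?_
  simp only [splitBaseD, id_eq]
  ring

theorem hasDerivAt_splitBaseD {t : ℝ} (ht : t ∈ Ioo (-1:ℝ) 1) :
    HasDerivAt (splitBaseD α β) ((α + β * t ^ 2) / √(1 - t ^ 2) ^ 3) t := by
  have hpos : (0:ℝ) < 1 - t ^ 2 := by nlinarith [ht.1, ht.2]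
  have hu0 : 0 < √(1 - t ^ 2) := sqrt_pos.2 hpos
  refine ((((hasDerivAt_id t).div (hasDerivAt_u ht) hu0.ne').const_mul α).add
    ((hasDerivAt_envPrim ht).const_mul β)).congr_deriv ?_
  have hsq : √(1 - t ^ 2) ^ 2 = 1 - t ^ 2 := sq_sqrt hpos.le
  simp only [id_eq]
  set u := √(1 - t ^ 2)
  field_simp
  linear_combination α * hsq

/-- **The split gain dominates the Bregman distance of `splitBase α β`.** -/
theorem split_bregman_ge
    (hc : ∀ t ∈ Ioo (-1:ℝ) 1,
      (α + β * t ^ 2) / √(1 - t ^ 2) ^ 3 ≤ thr * deriv (psiR m) t + 2 * thb * quad m)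
    {t p : ℝ} (ht : t ∈ Ioo (-1:ℝ) 1) (hp : p ∈ Icc (-1:ℝ) 1) :
    splitBase α β p - splitBase α β t - splitBaseD α β t * (p - t) ≤
      thr * (phiR m p - phiR m t - psiR m t * (p - t)) + thb * quad m * (p - t) ^ 2 := by
  set G : ℝ → ℝ := fun x => thr * phiR m x + thb * quad m * x ^ 2 - splitBase α β x with hG
  set G' : ℝ → ℝ := fun x => thr * psiR m x + 2 * thb * quad m * x - splitBaseD α β x with hG'
  have hd : ∀ x ∈ Ioo (-1:ℝ) 1, HasDerivAt G (G' x) x := fun x hx =>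
    (((hasDerivAt_phiR hx).const_mul thr).add ((hasDerivAt_pow 2 x).const_mul (thb * quad m)) |>.sub
      (hasDerivAt_splitBase hx)).congr_deriv (by simp only [hG']; push_cast; ring)
  have hd2 : ∀ x ∈ Ioo (-1:ℝ) 1, HasDerivAt G' (thr * deriv (psiR m) x + 2 * thb * quad m -
      (α + β * x ^ 2) / √(1 - x ^ 2) ^ 3) x := fun x hx =>
    ((((hasDerivAt_psiR hx).differentiableAt.hasDerivAt).const_mul thr).add
      ((hasDerivAt_id x).const_mul (2 * thb * quad m)) |>.sub
      (hasDerivAt_splitBaseD hx)).congr_deriv (by ring)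
  have hconv : ConvexOn ℝ (Icc (-1) 1) G := by
    refine MonotoneOn.convexOn_of_deriv (convex_Icc _ _)
      (((continuousOn_const.mul continuousOn_phiR).add (by fun_prop)).sub
        (by unfold splitBase; fun_prop)) ?_ ?_
    · rw [interior_Icc]
      exact fun x hx => (hd x hx).differentiableAt.differentiableWithinAt
    · rw [interior_Icc]
      have hmono : MonotoneOn G' (Ioo (-1) 1) := by
        refine monotoneOn_of_deriv_nonneg (convex_Ioo _ _)
          (fun x hx => (hd2 x hx).continuousAt.continuousWithinAt)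
          (fun x hx => (hd2 x (interior_subset hx)).differentiableAt.differentiableWithinAt) ?_
        intro x hx
        rw [interior_Ioo] at hx
        rw [(hd2 x hx).deriv]
        exact sub_nonneg.2 (hc x hx)
      intro a ha b hb hab
      rw [(hd a ha).deriv, (hd b hb).deriv]
      exact hmono ha hb hab
  have key : G t + G' t * (p - t) ≤ G p := by
    have hti : t ∈ Icc (-1:ℝ) 1 := Ioo_subset_Icc_self ht
    have hdt := hd t ht
    rcases lt_trichotomy p t with h | rfl | h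
    · have := hconv.slope_le_of_hasDerivAt hp hti h hdt
      rw [slope_def_field, div_le_iff₀ (sub_pos.2 h)] at this
      linarith
    · simp
    · have := hconv.le_slope_of_hasDerivAt hti hp h hdt
      rw [slope_def_field, le_div_iff₀ (sub_pos.2 h)] at this
      linarith
  simp only [hG, hG'] at key
  linarith

end Vale.Agent.P237.AllN
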