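import Vale.Agent.P237.AllN.InvAssemblySplit
import Vale.Agent.P237.AllN.InvD
import Vale.Agent.P237.AllN.GamEnv

/-!
# P237, all dimensions: the numerical side condition of the split assembly

With the parameter `β = 2 - 16/(5m)` one has `∫₀¹ csK ≤ (113/25 + 27/(5m))/m²` and
`Z₀² = π c/(2(m+1))`; the constants `ν = β/β₀`, `ν b/k` and `m (λ-1)` have simple bounds. So
`lemmaMix_of_hardy_far_num` needs only arithmetic in a lower bound `M` for the dimension.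
-/

open MeasureTheory Set Real Filter Topology

namespace Vale.Agent.P237.AllN

variable {m : ℕ}

/-- The parameter `β = 2 - 16/(5m)`. -/
noncomputable def betaS (m : ℕ) : ℝ := 2 - 16 / (5 * (m:ℝ))

/-- `ν = β/β₀`. -/
noncomputable def nuS (m : ℕ) : ℝ := betaS m / betaD m

theorem one_div_one_add_le {r : ℝ} (h0 : 0 ≤ r) (h1 : r ≤ 1) :
    1 / (1 + r) ≤ 1 - 7 * r / 8 + r ^ 2 / 2 - r ^ 3 / 8 := by
  rw [div_le_iff₀ (by linarith)]
  linarith [mul_nonneg h0 (pow_nonneg (sub_nonneg.2 h1) 3)]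

/-- `∫₀¹ csK` in closed form, from the cubic bound of `1/(1+r)`. -/
theorem integral_csK_le (hm : 3 ≤ m) (β : ℝ) :
    (∫ r in (0:ℝ)..1, csK m β r) ≤ 1 + (m:ℝ) / ((m:ℝ) + 1) - 2 * β * m / ((m:ℝ) - 1) +
      β ^ 2 * m * (1 / ((m:ℝ) - 2) - 7 / (8 * ((m:ℝ) - 1)) + 1 / (2 * (m:ℝ)) -
        1 / (8 * ((m:ℝ) + 1))) := by
  obtain ⟨j, rfl⟩ : ∃ j, m = j + 3 := ⟨m - 3, by omega⟩
  set M : ℝ := ((j + 3 : ℕ):ℝ) with hM
  have i : ∀ k : ℕ, IntervalIntegrable (fun r : ℝ => r ^ k) volume 0 1 := fun k =>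
    (continuous_pow k).intervalIntegrable _ _
  refine (intervalIntegral.integral_mono_on zero_le_one ((continuous_csK β).intervalIntegrable _ _)
    (g := fun r => (M * β ^ 2) * r ^ j + M * (-2 * β - 7 / 8 * β ^ 2) * r ^ (j + 1) +
      M * (1 + β ^ 2 / 2) * r ^ (j + 2) + M * (1 - β ^ 2 / 8) * r ^ (j + 3))
    (((((i _).const_mul _).add ((i _).const_mul _)).add ((i _).const_mul _)).add
      ((i _).const_mul _)) fun r hr => ?_).trans (le_of_eq ?_)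
  · rw [csK, cl_eq hr, Nat.add_sub_cancel, ← hM]
    have h1 : (1:ℝ) + r ≠ 0 := by linarith [hr.1]
    have e : (1 + r) * (-r + β / (1 + r)) ^ 2 =
        (1 + r) * r ^ 2 - 2 * β * r + β ^ 2 * (1 / (1 + r)) := by field_simp; ring
    have h2 := mul_le_mul_of_nonneg_left
      (mul_le_mul_of_nonneg_left (one_div_one_add_le hr.1 hr.2) (sq_nonneg β))
      (show 0 ≤ M * r ^ j from mul_nonneg (Nat.cast_nonneg _) (pow_nonneg hr.1 _))
    calc M * (1 + r) * r ^ j * (-r + β / (1 + r)) ^ 2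
        = M * r ^ j * ((1 + r) * (-r + β / (1 + r)) ^ 2) := by ring
      _ = M * r ^ j * ((1 + r) * r ^ 2 - 2 * β * r) + M * r ^ j * (β ^ 2 * (1 / (1 + r))) := by
          rw [e]; ring
      _ ≤ _ := le_trans (add_le_add_right h2 _) (le_of_eq (by ring))
  · rw [intervalIntegral.integral_add ((((i _).const_mul _).add ((i _).const_mul _)).add
        ((i _).const_mul _)) ((i _).const_mul _),
      intervalIntegral.integral_add (((i _).const_mul _).add ((i _).const_mul _))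
        ((i _).const_mul _),
      intervalIntegral.integral_add ((i _).const_mul _) ((i _).const_mul _)]
    simp only [intervalIntegral.integral_const_mul, integral_pow, one_pow,
      zero_pow (Nat.succ_ne_zero _), sub_zero, hM]
    push_cast
    have : (j:ℝ) + 3 - 2 ≠ 0 := by linarith [(Nat.cast_nonneg j : (0:ℝ) ≤ j)]
    have : (j:ℝ) + 3 - 1 ≠ 0 := by linarith [(Nat.cast_nonneg j : (0:ℝ) ≤ j)]
    field_simp
    ring

theorem integral_csK_betaS_le (hm : 6 ≤ m) :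
    (∫ r in (0:ℝ)..1, csK m (betaS m) r) ≤ (113 / 25 + 27 / (5 * (m:ℝ))) / (m:ℝ) ^ 2 := by
  refine (integral_csK_le (by omega) _).trans ?_
  obtain ⟨t, ht, e⟩ : ∃ t : ℝ, 0 ≤ t ∧ (m:ℝ) = t + 6 :=
    ⟨(m:ℝ) - 6, sub_nonneg.2 (by exact_mod_cast hm), by ring⟩
  rw [betaS, e, show t + 6 - 1 = t + 5 by ring, show t + 6 - 2 = t + 4 by ring, ← sub_nonneg]
  field_simp
  ring_nf
  positivity

theorem cosI_mul_succ (j : ℕ) : cosI j * cosI (j + 1) * ((j:ℝ) + 1) = 2 * π := by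
  induction j with
  | zero =>
    simp [cosI, integral_cos]
    ring
  | succ j ih =>
    rw [show j + 1 + 1 = j + 2 by ring, cosI_rec j]
    push_cast
    rw [← ih]
    field_simp
    ring

/-- `Z₀² = π c / (2 (m+1))`. -/
theorem ballInt_sq : (∫ t in (0:ℝ)..1, us t ^ m) ^ 2 = π * cst m / (2 * ((m:ℝ) + 1)) := by
  have e := cosI_eq_ballInt m
  rw [ballInt_us] at e
  have h := cosI_mul_succ m
  have hne := (cosI_pos m).ne'
  rw [cst, eq_div_iff (by positivity)]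
  field_simp
  rw [e] at h ⊢
  linear_combination (∫ t in (0:ℝ)..1, us t ^ m) * h

/-- `∫₀¹ csK ≤ K Z₀` from one inequality at a lower bound `M` of the dimension. -/
theorem csK_betaS_le_Z {M : ℕ} (hM : 6 ≤ M) (hMm : M ≤ m) {K : ℝ} (hK : 0 ≤ K)
    (hn : (113 / 25 + 27 / (5 * (M:ℝ))) ^ 2 * ((M:ℝ) + 1) * (4 * (M:ℝ) + 5) ≤
      157 / 100 * (4 * (M:ℝ) + 3) * (M:ℝ) ^ 4 * K ^ 2) :
    (∫ r in (0:ℝ)..1, csK m (betaS m) r) ≤ K * ∫ t in (0:ℝ)..1, us t ^ m := by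
  have hMR : (6:ℝ) ≤ M := by exact_mod_cast hM
  have hmR : (M:ℝ) ≤ m := by exact_mod_cast hMm
  have hm0 : (0:ℝ) < m := by linarith
  have hM0 : (0:ℝ) < M := by linarith
  refine (integral_csK_betaS_le (hM.trans hMm)).trans ?_
  set A := 113 / 25 + 27 / (5 * (M:ℝ)) with hA
  have hAm : 113 / 25 + 27 / (5 * (m:ℝ)) ≤ A := by rw [hA]; gcongr
  refine (div_le_div_of_nonneg_right hAm (by positivity)).trans ?_
  have hZ := Z_pos halfProf_us (m := m)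
  rw [← pow_le_pow_iff_left₀ (by positivity) (mul_nonneg hK hZ.le) two_ne_zero, mul_pow, ballInt_sq]
  have hc : (4 * (M:ℝ) + 3) / (4 * (M:ℝ) + 5) ≤ cst m := by
    refine le_trans ?_ (le_cst m)
    rw [div_le_div_iff₀ (by positivity) (by positivity)]
    nlinarith
  have h4 : ((m:ℝ) + 1) / (m:ℝ) ^ 4 ≤ ((M:ℝ) + 1) / (M:ℝ) ^ 4 := by
    rw [div_le_div_iff₀ (by positivity) (by positivity)]
    have h := pow_le_pow_left₀ hM0.le hmR 4
    have h2 := pow_le_pow_left₀ hM0.le hmR 3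
    nlinarith [mul_le_mul_of_nonneg_left h2 (mul_nonneg hM0.le hm0.le)]
  have h5 : A ^ 2 * (((M:ℝ) + 1) / (M:ℝ) ^ 4) ≤
      157 / 100 * ((4 * (M:ℝ) + 3) / (4 * (M:ℝ) + 5)) * K ^ 2 := by
    rw [← mul_div_assoc, ← mul_div_assoc, div_mul_eq_mul_div, div_le_div_iff₀ (by positivity)
      (by positivity)]
    linarith
  have h6 : 157 / 100 * ((4 * (M:ℝ) + 3) / (4 * (M:ℝ) + 5)) * K ^ 2 ≤ π / 2 * cst m * K ^ 2 := by
    refine mul_le_mul_of_nonneg_right (mul_le_mul ?_ hc (by positivity) (by positivity)) (sq_nonneg K)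
    linarith [pi_gt_d2]
  calc (A / (m:ℝ) ^ 2) ^ 2 = A ^ 2 * (((m:ℝ) + 1) / (m:ℝ) ^ 4) * (1 / ((m:ℝ) + 1)) := by
        field_simp
    _ ≤ π / 2 * cst m * K ^ 2 * (1 / ((m:ℝ) + 1)) := by
        refine mul_le_mul_of_nonneg_right ?_ (by positivity)
        exact (mul_le_mul_of_nonneg_left h4 (sq_nonneg A)).trans (h5.trans h6)
    _ = _ := by field_simp

/-- Bounds of `ν`, `ν b/k` and `m (λ-1)`. -/
theorem nuS_bounds {M : ℕ} (hM : 6 ≤ M) (hMm : M ≤ m) :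
    1 - 23 / (20 * (M:ℝ)) ≤ nuS m ∧ nuS m ≤ 1 ∧
      nuS m * (quad m / (lamC m - 1)) ≤ (4 * (m:ℝ) - 32 / 5) / (4 * (m:ℝ) + 3) ∧
      (m:ℝ) * (lamC m - 1) ≤ 1 / 2 + 1 / (7 * (M:ℝ)) := by
  have hm6 : 6 ≤ m := hM.trans hMm
  have hm0 : m ≠ 0 := by omega
  have hR : (6:ℝ) ≤ m := by exact_mod_cast hm6
  have hMR : (6:ℝ) ≤ M := by exact_mod_cast hM
  have hmR : (M:ℝ) ≤ m := by exact_mod_cast hMm
  obtain ⟨hlo, hhi⟩ := muD_bounds hm0
  obtain ⟨e, hp⟩ := lamC_sub_one hm0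
  have hmu := muD_mem hm0
  have hb := betaD_eq hm0
  have hb0 : 0 < betaD m := by rw [hb]; linarith [hmu.2]
  have hbs : 0 ≤ betaS m := by
    rw [betaS, sub_nonneg, div_le_iff₀ (by positivity)]; linarith
  refine ⟨?_, ?_, ?_, ?_⟩
  · refine le_trans (b := 1 - 23 / (20 * (m:ℝ))) (by gcongr) ?_
    rw [nuS, le_div_iff₀ hb0, hb]
    have h1 : 0 ≤ 1 - 23 / (20 * (m:ℝ)) := by
      rw [sub_nonneg, div_le_iff₀ (by positivity)]; linarith
    refine (mul_le_mul_of_nonneg_left (sub_le_sub_left hlo 2) h1).trans ?_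
    obtain ⟨t, ht, et⟩ : ∃ t : ℝ, 0 ≤ t ∧ (m:ℝ) = t + 6 := ⟨(m:ℝ) - 6, by linarith, by ring⟩
    rw [betaS, et, ← sub_nonneg]
    field_simp
    ring_nf
    positivity
  · rw [nuS, div_le_one hb0, hb]
    refine le_trans ?_ (sub_le_sub_left hhi 2)
    refine sub_le_sub_left ?_ 2
    rw [div_le_div_iff₀ (by positivity) (by positivity)]
    nlinarith
  · have hd : betaD m = (1 - quad m) / (1 - ((m:ℝ) + 1) * quad m) := by
      rw [betaD, e, lamC, show cst m = 1 - quad m by rw [quad]; ring]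
      have : (m:ℝ) ≠ 0 := by positivity
      field_simp
    have hq1 : 0 < 1 - quad m := by linarith [quad_lt_one m]
    have e2 : nuS m * (quad m / (lamC m - 1)) = betaS m * (m:ℝ) * (quad m / (1 - quad m)) := by
      rw [nuS, hd, e]
      set P := 1 - ((m:ℝ) + 1) * quad m with hPd
      field_simp
    have h2 := quad_le m
    rw [le_div_iff₀ (by positivity)] at h2
    have h3 : quad m / (1 - quad m) ≤ 2 / (4 * (m:ℝ) + 3) := by
      rw [div_le_div_iff₀ hq1 (by positivity)]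
      linarith
    rw [e2]
    refine (mul_le_mul_of_nonneg_left h3 (mul_nonneg hbs (Nat.cast_nonneg m))).trans (le_of_eq ?_)
    rw [betaS]
    field_simp
    ring
  · refine le_trans (b := 1 / 2 + 1 / (7 * (m:ℝ))) ?_ (by gcongr)
    rw [e, mul_div_cancel₀ _ (by positivity)]
    refine (sub_le_sub_left (mul_le_mul_of_nonneg_left (quadLo_le m)
      (show (0:ℝ) ≤ (m:ℝ) + 1 by positivity)) 1).trans ?_
    rw [quadLo, ← sub_nonneg]
    field_simp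
    obtain ⟨t, ht, et⟩ : ∃ t : ℝ, 0 ≤ t ∧ (m:ℝ) = t + 6 := ⟨(m:ℝ) - 6, by linarith, by ring⟩
    rw [et]
    ring_nf
    positivity

/-- The linear term: `-2 m b d e Γ ≤ (Γ-1) π`. -/
theorem side_linear {m b s ν νl cL Γ B π' : ℝ} (hm : 0 ≤ m) (hb : 0 < b) (hνl : 0 < νl)
    (hl : νl ≤ ν) (hν1 : ν ≤ 1) (hΓ : 1 ≤ Γ) (hB : m * b ≤ B) (hπ' : 0 < π')
    (hcLπ : 1 < s → 1 - cL ≤ π') (hs : 0 < s)
    (hG : 2 * B * Γ * (1 - νl) ^ 2 ≤ (Γ - 1) * νl * (1 - cL)) :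
    -2 * m * b * (s - 1) * (ν * (1 + s) - 2) * Γ ≤ (Γ - 1) * π' := by
  have hB0 : 0 ≤ B := (mul_nonneg hm hb.le).trans hB
  have hν0 : 0 < ν := hνl.trans_le hl
  set e := ν * (1 + s) - 2 with he
  rcases le_or_gt 0 ((s - 1) * e) with h | h
  · have h1 : 0 ≤ m * b * Γ * ((s - 1) * e) :=
      mul_nonneg (mul_nonneg (mul_nonneg hm hb.le) (by linarith)) h
    have h2 : 0 ≤ (Γ - 1) * π' := mul_nonneg (by linarith) hπ'.le
    linarith
  · have hs1 : 1 < s := by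
      by_contra hs1
      rw [not_lt] at hs1
      have he0 : e ≤ 0 := by
        have := mul_le_mul hν1 (show 1 + s ≤ 2 by linarith) (by linarith) zero_le_one
        rw [he]; linarith
      exact absurd h (not_lt.2 (mul_nonneg_of_nonpos_of_nonpos (by linarith) he0))
    have h1 : -((s - 1) * e) * νl ≤ (1 - νl) ^ 2 := by
      refine le_trans (mul_le_mul_of_nonneg_left hl (by linarith)) (le_trans ?_
        (pow_le_pow_left₀ (show 0 ≤ 1 - ν by linarith) (by linarith) 2))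
      rw [he]; linarith [sq_nonneg (ν * (s - 1) - (1 - ν))]
    refine le_of_mul_le_mul_right ?_ hνl
    calc -2 * m * b * (s - 1) * e * Γ * νl
        = 2 * (m * b) * Γ * (-((s - 1) * e) * νl) := by ring
      _ ≤ 2 * B * Γ * (1 - νl) ^ 2 :=
          mul_le_mul (mul_le_mul_of_nonneg_right (by linarith) (by linarith)) h1
            (mul_nonneg (by linarith) hνl.le) (by positivity)
      _ ≤ (Γ - 1) * νl * (1 - cL) := hG
      _ ≤ (Γ - 1) * νl * π' :=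
          mul_le_mul_of_nonneg_left (hcLπ hs1) (mul_nonneg (by linarith) hνl.le)
      _ = _ := by ring

/-- The second term decreases in `s`. -/
theorem side_square {s s₀ θb K : ℝ} (hs₀ : 0 < s₀) (hs : s₀ ≤ s) (hθb0 : 0 ≤ θb)
    (hθb : θb < s₀ ^ 2) (hK : 0 ≤ K) :
    (1 + s) ^ 2 * K / (4 * (s ^ 2 - θb)) ≤ (1 + s₀) ^ 2 * K / (4 * (s₀ ^ 2 - θb)) := by
  have hs0 : 0 < s := hs₀.trans_le hs
  have hA0 : 0 < s₀ ^ 2 - θb := by linarith
  have hA' : 0 < s ^ 2 - θb := by linarith [pow_le_pow_left₀ hs₀.le hs 2]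
  have h3 : (1 + s) ^ 2 * (s₀ ^ 2 - θb) ≤ (1 + s₀) ^ 2 * (s ^ 2 - θb) := by
    have h4 : 0 ≤ (s - s₀) * (s + s₀ + 2 * (s * s₀)) :=
      mul_nonneg (sub_nonneg.2 hs) (by positivity)
    have h5 : 0 ≤ θb * ((s - s₀) * (2 + s + s₀)) :=
      mul_nonneg hθb0 (mul_nonneg (sub_nonneg.2 hs) (by positivity))
    linarith
  rw [div_le_div_iff₀ (by positivity) (by positivity)]
  linarith [mul_le_mul_of_nonneg_left h3 hK]

/-- The first term below the sign change of `ν (1+s) - 2`. -/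
theorem side_first_lo {Γ B X Y Q R mb : ℝ} (hΓ : 0 ≤ Γ) (hB : mb ≤ B) (hB0 : 0 ≤ B)
    (hX : 0 ≤ X) (hXY : X ≤ Y) (hR : 0 < R) (hRQ : R ≤ Q) :
    Γ * mb * X / (2 * Q) ≤ Γ * B * Y / (2 * R) :=
  div_le_div₀ (mul_nonneg (mul_nonneg hΓ hB0) (hX.trans hXY))
    (mul_le_mul (mul_le_mul_of_nonneg_left hB hΓ) hXY hX (mul_nonneg hΓ hB0))
    (by linarith) (by linarith)

/-- The first term above the sign change of `ν (1+s) - 2`. -/
theorem side_first_hi {m b k s ν cL Γ kk : ℝ} (hb : 0 < b) (hbk : b ≤ k) (hs : 1 ≤ s)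
    (hν0 : 0 < ν) (hν1 : ν ≤ 1) (hcL : cL < 1) (hΓ : 0 ≤ Γ) (hkk : m * k ≤ kk) (hkk0 : 0 ≤ m * k)
    (h2 : 4 * (1 - ν) ^ 2 ≤ ν * (1 - cL)) (hm : 0 ≤ m) :
    Γ * m * b * (ν * (1 + s) - 2) ^ 2 / (2 * (1 - cL + (s ^ 2 - 1) * ν * (b / k))) ≤
      Γ * kk / 2 := by
  have hk : 0 < k := hb.trans_le hbk
  have hρ : 0 < b / k := div_pos hb hk
  have hρ1 : b / k ≤ 1 := (div_le_one hk).2 hbk
  set π' := 1 - cL + (s ^ 2 - 1) * ν * (b / k) with hπd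
  have hπ' : 0 < π' := by
    have : 0 ≤ (s ^ 2 - 1) * ν * (b / k) :=
      mul_nonneg (mul_nonneg (by linarith [one_le_pow₀ hs (n := 2)]) hν0.le) hρ.le
    rw [hπd]; linarith
  have hq : (ν * (1 + s) - 2) ^ 2 ≤ ν / (b / k) * π' := by
    have e1 : ν / (b / k) * π' = ν * (1 - cL) / (b / k) + (s ^ 2 - 1) * ν ^ 2 := by
      rw [hπd]; field_simp
    have h1 : ν * (1 - cL) ≤ ν * (1 - cL) / (b / k) :=
      (le_div_iff₀ hρ).2 (mul_le_of_le_one_right (mul_nonneg hν0.le (by linarith)) hρ1)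
    rw [e1]
    linarith [mul_nonneg (mul_nonneg hν0.le (show 0 ≤ 2 - ν by linarith))
      (show 0 ≤ s - 1 by linarith)]
  rw [div_le_iff₀ (by positivity)]
  refine (mul_le_mul_of_nonneg_left hq (mul_nonneg (mul_nonneg hΓ hm) hb.le)).trans ?_
  calc Γ * m * b * (ν / (b / k) * π') = Γ * ν * (m * k) * π' := by field_simp
    _ ≤ Γ * 1 * kk * π' :=
        mul_le_mul_of_nonneg_right (mul_le_mul (mul_le_mul_of_nonneg_left hν1 hΓ) hkk hkk0
          (by linarith)) hπ'.le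
    _ = _ := by ring

/-- The side condition for all `s ≥ s₀ ∈ (0,1]`, split at the sign of `ν (1+s) - 2`. -/
theorem side_of_bounds {m b k s s₀ ν νl θb cL Γ K B P kk : ℝ} (hm : 0 ≤ m) (hb : 0 < b)
    (hbk : b ≤ k) (hs₀ : 0 < s₀) (hs₀1 : s₀ ≤ 1) (hs : s₀ ≤ s) (hνl : 0 < νl) (hl : νl ≤ ν)
    (hν1 : ν ≤ 1) (hθb0 : 0 ≤ θb) (hθb : θb < s₀ ^ 2) (hcL : cL < 1) (hΓ : 1 ≤ Γ) (hK : 0 ≤ K)
    (hB : m * b ≤ B) (hP : ν * (b / k) ≤ P) (hkk : m * k ≤ kk)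
    (hπ : 0 < 1 - cL - (1 - s₀ ^ 2) * P)
    (hG : 2 * B * Γ * (1 - νl) ^ 2 ≤ (Γ - 1) * νl * (1 - cL))
    (hA : Γ * B * (2 - νl * (1 + s₀)) ^ 2 / (2 * (1 - cL - (1 - s₀ ^ 2) * P)) +
      (1 + s₀) ^ 2 * K / (4 * (s₀ ^ 2 - θb)) < 1)
    (hB' : Γ * kk / 2 + K / (1 - θb) < 1)
    (hP1 : 4 * (1 - νl) ^ 2 ≤ νl * (1 - cL)) :
    0 < 1 - cL + (s ^ 2 - 1) * ν * (b / k) ∧ θb < s ^ 2 ∧
    -2 * m * b * (s - 1) * (ν * (1 + s) - 2) * Γ ≤
      (Γ - 1) * (1 - cL + (s ^ 2 - 1) * ν * (b / k)) ∧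
    Γ * m * b * (ν * (1 + s) - 2) ^ 2 / (2 * (1 - cL + (s ^ 2 - 1) * ν * (b / k))) +
      (1 + s) ^ 2 * K / (4 * (s ^ 2 - θb)) < 1 := by
  have hk : 0 < k := hb.trans_le hbk
  have hν0 : 0 < ν := hνl.trans_le hl
  have hs0 : 0 < s := hs₀.trans_le hs
  have hss : s₀ ^ 2 ≤ s ^ 2 := pow_le_pow_left₀ hs₀.le hs 2
  have hνρ : 0 ≤ ν * (b / k) := mul_nonneg hν0.le (div_nonneg hb.le hk.le)
  have hπ0 : 1 - cL - (1 - s₀ ^ 2) * P ≤ 1 - cL + (s ^ 2 - 1) * ν * (b / k) := by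
    have h1 : (1 - s₀ ^ 2) * (ν * (b / k)) ≤ (1 - s₀ ^ 2) * P :=
      mul_le_mul_of_nonneg_left hP (by linarith [pow_le_one₀ hs₀.le hs₀1 (n := 2)])
    linarith [mul_le_mul_of_nonneg_right (sub_le_sub_right hss 1) hνρ]
  have hπ' := hπ.trans_le hπ0
  have hsq : 4 * (1 - ν) ^ 2 ≤ ν * (1 - cL) := by
    linarith [pow_le_pow_left₀ (show 0 ≤ 1 - ν by linarith) (show 1 - ν ≤ 1 - νl by linarith) 2,
      mul_le_mul_of_nonneg_right hl (show 0 ≤ 1 - cL by linarith)]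
  refine ⟨hπ', by linarith, side_linear hm hb hνl hl hν1 hΓ hB hπ' (fun hs1 => ?_) hs0 hG, ?_⟩
  · linarith [mul_nonneg (show 0 ≤ s ^ 2 - 1 by linarith [one_le_pow₀ hs1.le (n := 2)]) hνρ]
  rcases le_or_gt (ν * (1 + s)) 2 with h | h
  · have hq : (ν * (1 + s) - 2) ^ 2 ≤ (2 - νl * (1 + s₀)) ^ 2 := by
      rw [show (ν * (1 + s) - 2) ^ 2 = (2 - ν * (1 + s)) ^ 2 by ring]
      refine pow_le_pow_left₀ (by linarith) ?_ 2
      linarith [mul_le_mul hl (show 1 + s₀ ≤ 1 + s by linarith) (by linarith) hν0.le]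
    have h1 := side_first_lo (Γ := Γ) (mb := m * b) (by linarith) hB
      ((mul_nonneg hm hb.le).trans hB) (sq_nonneg _) hq hπ hπ0
    have h2 := side_square hs₀ hs hθb0 hθb hK
    rw [← mul_assoc] at h1
    linarith
  · have hs1 : 1 ≤ s := by
      by_contra hs1
      rw [not_le] at hs1
      have := mul_le_mul hν1 (show 1 + s ≤ 2 by linarith) (by linarith) zero_le_one
      linarith
    have h1 := side_first_hi hb hbk hs1 hν0 hν1 hcL (show 0 ≤ Γ by linarith) hkk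
      (mul_nonneg hm hk.le) hsq hm
    have h2 := side_square (K := K) zero_lt_one hs1 hθb0
      (by linarith [pow_le_one₀ hs₀.le hs₀1 (n := 2)]) hK
    have h3 : (1 + 1) ^ 2 * K / (4 * (1 ^ 2 - θb)) = K / (1 - θb) := by
      rw [show ((1:ℝ) + 1) ^ 2 = 4 by norm_num, one_pow, mul_div_mul_left _ _ (by norm_num)]
    linarith

/-- **`LemmaMix` from a split Hardy bound and a far bound, with arithmetic side conditions.** -/
theorem lemmaMix_of_hardy_far_num {M : ℕ} (hM : 6 ≤ M) (hMm : M ≤ m)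
    {θr θb cL s₀ Γ K B P : ℝ} (hθr : θr ≤ 1) (hs₀ : 0 < s₀) (hs₀1 : s₀ ≤ 1) (hθb0 : 0 ≤ θb)
    (hθb : θb < s₀ ^ 2) (hcL : cL < 1) (hΓ : 1 ≤ Γ) (hK : 0 ≤ K)
    (hKn : (113 / 25 + 27 / (5 * (M:ℝ))) ^ 2 * ((M:ℝ) + 1) * (4 * (M:ℝ) + 5) ≤
      157 / 100 * (4 * (M:ℝ) + 3) * (M:ℝ) ^ 4 * K ^ 2)
    (hB : 2 * (m:ℝ) ≤ B * (4 * (m:ℝ) + 5))
    (hP : 4 * (m:ℝ) - 32 / 5 ≤ P * (4 * (m:ℝ) + 3))
    (hπ : 0 < 1 - cL - (1 - s₀ ^ 2) * P)
    (hG : 2 * B * Γ * (23 / (20 * (M:ℝ))) ^ 2 ≤ (Γ - 1) * (1 - 23 / (20 * (M:ℝ))) * (1 - cL))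
    (hA : Γ * B * (2 - (1 - 23 / (20 * (M:ℝ))) * (1 + s₀)) ^ 2 /
        (2 * (1 - cL - (1 - s₀ ^ 2) * P)) + (1 + s₀) ^ 2 * K / (4 * (s₀ ^ 2 - θb)) < 1)
    (hB' : Γ * (1 / 2 + 1 / (7 * (M:ℝ))) / 2 + K / (1 - θb) < 1)
    (hP1 : 4 * (23 / (20 * (M:ℝ))) ^ 2 ≤ (1 - 23 / (20 * (M:ℝ))) * (1 - cL))
    (hH : ∀ f : ℝ → ℝ, HalfProf f → f 0 = 1 →
      GaugeBall.secRatio m f ^ m ≤ GaugeBall.volRatio m f ^ (m - 1) →
      jay m f * s₀ < 1 →
      negR m f ≤ θr * (breg m f + bdry m f) + θb * quad m * qhR m f +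
        cL * ((∫ t in (0:ℝ)..1, us t ^ m) * relG m f))
    (hfar : ∀ f : ℝ → ℝ, HalfProf f → f 0 = 1 →
      GaugeBall.secRatio m f ^ m ≤ GaugeBall.volRatio m f ^ (m - 1) →
      1 ≤ jay m f * s₀ → 0 < slack m f) : LemmaMix m := by
  have hm0 : m ≠ 0 := by omega
  have hMR : (6:ℝ) ≤ M := by exact_mod_cast hM
  obtain ⟨hνl, hν1, hνρ, hkk⟩ := nuS_bounds hM hMm
  have hb0 : 0 < betaD m := by rw [betaD_eq hm0]; linarith [(muD_mem hm0).2]
  have hl0 : 0 < 1 - 23 / (20 * (M:ℝ)) := by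
    rw [sub_pos, div_lt_one (by positivity)]; linarith
  have hmb : (m:ℝ) * quad m ≤ B := by
    refine (mul_le_mul_of_nonneg_left (quad_le m) (Nat.cast_nonneg m)).trans ?_
    rw [mul_div_assoc', div_le_iff₀ (by positivity)]
    linarith
  have hP' : nuS m * (quad m / (lamC m - 1)) ≤ P := by
    refine hνρ.trans ?_
    rw [div_le_iff₀ (by positivity)]
    exact hP
  refine lemmaMix_of_hardy_far_side (ν := nuS m) (K := K) (by omega) hθr hΓ ?_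
    (fun s hs => side_of_bounds (Nat.cast_nonneg m) (quad_pos m) (quad_le_lamC_sub_one hm0)
      hs₀ hs₀1 hs hl0 hνl hν1 hθb0 hθb hcL hΓ hK hmb hP' hkk hπ
      (by rw [sub_sub_cancel]; exact hG) hA hB' (by rw [sub_sub_cancel]; exact hP1)) hH hfar
  rw [show lamC m / (((m:ℝ) + 1) * (lamC m - 1)) = betaD m from rfl, nuS,
    div_mul_cancel₀ _ hb0.ne']
  exact csK_betaS_le_Z hM hMm hK hKn

end Vale.Agent.P237.AllN
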