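import Vale.Agent.P237.AllN.Average

/-!
# P237, all dimensions: the second moment of the conditional mean

For the cone measure of a symmetric body along `w`, with `b = ⟪w, x⟫ / gauge x` and
`p = -f'/(f - t f')` read on the slice profile, `p b` is the conditional mean of
`⟪∇ gauge x, v⟫` for every `v` with `⟪w, v⟫ = 1`. Hence its second moment is at most that of
`⟪∇ gauge x, v⟫`.
-/

open MeasureTheory Set Real Metric Filter Topology
open Vale.Agent.P237.Univ
open scoped Pointwise RealInnerProductSpace NNReal ENNReal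

namespace Vale.Agent.P237.AllN

/-- The moment `n E[p²]` of an even profile on `[-1,1]`, in dimension `m + 1`. -/
noncomputable def jayAxis (m : ℕ) (F : ℝ → ℝ) : ℝ :=
  (m:ℝ) + 1 - (∫ t in (-1:ℝ)..1, wgt m F t * (1 - pbar F t ^ 2)) /
    ∫ t in (-1:ℝ)..1, F t ^ m

variable {d : ℕ}

/-- The second cone moment along any `v` with `⟪w, v⟫ = 1`. -/
lemma cone_moment_any {K : Set (E d)} (S : Setting K) (hsym : ∀ x ∈ K, -x ∈ K) {w v : E d}
    (hw : ∀ x, |⟪w, x⟫| ≤ gauge K x) (hwv : ⟪w, v⟫ = 1) {H : ℝ → ℝ} {Lh : ℝ≥0}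
    (hH : LipschitzWith Lh H) (h01 : ∀ t, H t ∈ Icc (0:ℝ) 1) :
    (d:ℝ) * ∫ x in K, ⟪grad K x, v⟫ * H (⟪w, x⟫ / gauge K x) ^ 2 =
      ∫ x in K, deriv (fun t => H t ^ 2) ⟪w, x⟫ := by
  have hbig : IsCompact S.big := isCompact_closedBall _ _
  have hG := lipschitz_sq hH h01
  have hG1 : ∀ t, |H t ^ 2| ≤ 1 := fun t => by
    rw [abs_of_nonneg (sq_nonneg _)]; exact pow_le_one₀ (h01 t).1 (h01 t).2
  have hGm : Measurable fun x : E d => H (⟪w, x⟫ / gauge K x) ^ 2 :=
    hG.continuous.measurable.comp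
      ((innerSL ℝ w).continuous.measurable.div S.lip.continuous.measurable)
  have hgv : ∀ x, |⟪grad K x, v⟫| ≤ gauge K v := fun x => abs_grad_le_gauge S hsym x v
  refine tendsto_nhds_unique
    (tendsto_shell S (H := fun x => ⟪grad K x, v⟫ * H (⟪w, x⟫ / gauge K x) ^ 2)
      (Q := fun x => ⟪grad K x, v⟫ * H ⟪w, x⟫ ^ 2)
      (((measurable_grad K).inner measurable_const).mul hGm) (C := gauge K v) (fun x => ?_)
      (fun r hr x => by
        simp only [grad_smul K hr x, real_inner_smul_right, gauge_smul_of_nonneg hr.le,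
          smul_eq_mul, mul_div_mul_left _ _ hr.ne'])
      (((measurable_grad K).inner measurable_const).mul
        (hG.continuous.measurable.comp (innerSL ℝ w).continuous.measurable))
      (B := gauge K v * ((2 * Lh : ℝ≥0) + 1)) fun x hx => ?_)
    ((S.tendsto_cut (integrableOn_deriv_inner hG w _ hbig)).congr fun n =>
      parts_dir S (by positivity) (by rw [div_le_one (by positivity)]; simp) hG hwv)
  · rw [abs_mul]
    exact (mul_le_mul (hgv x) (hG1 _) (abs_nonneg _) (gauge_nonneg v)).trans_eq (mul_one _)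
  · set p := ⟪grad K x, v⟫ with hp
    set A := H ⟪w, x⟫ ^ 2
    set Bv := H (⟪w, x⟫ / gauge K x) ^ 2
    have h0 : 0 < gauge K x := by linarith [hx.1]
    have hclose : |A - Bv| ≤ (2 * Lh : ℝ≥0) * (gauge K x - 1) := by
      have h := hG.dist_le_mul ⟪w, x⟫ (⟪w, x⟫ / gauge K x)
      rw [Real.dist_eq, Real.dist_eq] at h
      refine h.trans (mul_le_mul_of_nonneg_left ?_ (NNReal.coe_nonneg _))
      rw [show ⟪w, x⟫ - ⟪w, x⟫ / gauge K x = ⟪w, x⟫ / gauge K x * (gauge K x - 1) by field_simp,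
        abs_mul, abs_of_nonneg (sub_nonneg.2 hx.1)]
      refine mul_le_of_le_one_left (sub_nonneg.2 hx.1) ?_
      rw [abs_div, abs_of_pos h0, div_le_one h0]
      exact hw x
    rw [show p * A - gauge K x * (p * Bv) = p * ((A - Bv) - (gauge K x - 1) * Bv) by ring,
      abs_mul, mul_assoc]
    refine mul_le_mul (hgv x) ((abs_sub _ _).trans ?_) (abs_nonneg _) (gauge_nonneg v)
    rw [abs_mul, abs_of_nonneg (sub_nonneg.2 hx.1), add_mul, one_mul]
    exact add_le_add hclose (mul_le_of_le_one_right (sub_nonneg.2 hx.1) (hG1 _))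

/-- Two bounded nonnegative weights with equal moments against squares of Lipschitz functions
have equal moments against bounded measurable functions. -/
lemma ext_pair {α : Type*} [MeasurableSpace α] (μ : Measure α) [IsFiniteMeasure μ]
    {b u₁ u₂ : α → ℝ} (hb : Measurable b) (h₁ : Integrable u₁ μ) (h₂ : Integrable u₂ μ)
    (p₁ : ∀ x, 0 ≤ u₁ x) (p₂ : ∀ x, 0 ≤ u₂ x)
    (h : ∀ H : ℝ → ℝ, ∀ L : ℝ≥0, LipschitzWith L H → (∀ t, H t ∈ Icc (0:ℝ) 1) →
      ∫ x, u₁ x * H (b x) ^ 2 ∂μ = ∫ x, u₂ x * H (b x) ^ 2 ∂μ)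
    {q : ℝ → ℝ} (hq : Measurable q) :
    ∫ x, u₁ x * q (b x) ∂μ = ∫ x, u₂ x * q (b x) ∂μ := by
  have key : ∀ u : α → ℝ, Integrable u μ → (∀ x, 0 ≤ u x) →
      IsFiniteMeasure ((μ.withDensity fun x => ENNReal.ofReal (u x)).map b) ∧
      ∀ g : ℝ → ℝ, Measurable g →
        ∫ t, g t ∂((μ.withDensity fun x => ENNReal.ofReal (u x)).map b) =
          ∫ x, u x * g (b x) ∂μ := by
    intro u hu pu
    haveI : IsFiniteMeasure (μ.withDensity fun x => ENNReal.ofReal (u x)) :=
      isFiniteMeasure_withDensity_ofReal hu.hasFiniteIntegral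
    refine ⟨inferInstance, fun g hg => ?_⟩
    rw [integral_map hb.aemeasurable hg.aestronglyMeasurable,
      integral_withDensity_eq_integral_toReal_smul₀ hu.aemeasurable.ennreal_ofReal
        (ae_of_all _ fun _ => ENNReal.ofReal_lt_top)]
    refine integral_congr_ae (ae_of_all _ fun x => ?_)
    simp only [smul_eq_mul, ENNReal.toReal_ofReal (pu x)]
  obtain ⟨i₁, e₁⟩ := key u₁ h₁ p₁
  obtain ⟨i₂, e₂⟩ := key u₂ h₂ p₂
  haveI := i₁
  haveI := i₂
  have e := ext_sq ((μ.withDensity fun x => ENNReal.ofReal (u₁ x)).map b)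
    ((μ.withDensity fun x => ENNReal.ofReal (u₂ x)).map b) fun H L hL h01 => by
      have hm : Measurable fun t => H t ^ 2 := (hL.continuous.pow 2).measurable
      rw [e₁ _ hm, e₂ _ hm]
      exact h H L hL h01
  rw [← e₁ q hq, e, e₂ q hq]

/-- The conditional mean does not depend on the transversal part of `v`. -/
lemma orth_moment {K : Set (E d)} (hd0 : d ≠ 0) (S : Setting K) (hsym : ∀ x ∈ K, -x ∈ K)
    {w z v : E d} (hw : ∀ x, |⟪w, x⟫| ≤ gauge K x) (hwz : ⟪w, z⟫ = 1) (hwv : ⟪w, v⟫ = 1)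
    {q : ℝ → ℝ} {B : ℝ} (hq : Measurable q) (hB : ∀ t, |q t| ≤ B) :
    ∫ x in K, ⟪grad K x, v⟫ * q (⟪w, x⟫ / gauge K x) =
      ∫ x in K, ⟪grad K x, z⟫ * q (⟪w, x⟫ / gauge K x) := by
  haveI : IsFiniteMeasure ((volume : Measure (E d)).restrict K) :=
    ⟨by simpa using S.compact.measure_lt_top⟩
  set b : E d → ℝ := fun x => ⟪w, x⟫ / gauge K x with hb
  set C := gauge K v + gauge K z with hC
  have hbm : Measurable b :=
    (innerSL ℝ w).continuous.measurable.div S.lip.continuous.measurable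
  have hm : ∀ u : E d, Measurable fun x => ⟪grad K x, u⟫ := fun u =>
    (measurable_grad K).inner measurable_const
  have hi : ∀ u : E d, ∀ g : ℝ → ℝ, Measurable g → ∀ B : ℝ, (∀ t, |g t| ≤ B) →
      Integrable (fun x => ⟪grad K x, u⟫ * g (b x)) (volume.restrict K) := fun u g hg B hB =>
    Integrable.of_bound ((hm u).mul (hg.comp hbm)).aestronglyMeasurable (gauge K u * B)
      (ae_of_all _ fun x => by
        rw [Real.norm_eq_abs, abs_mul]
        exact mul_le_mul (abs_grad_le_gauge S hsym x u) (hB _) (abs_nonneg _) (gauge_nonneg u))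
  have hc : ∀ g : ℝ → ℝ, Measurable g → ∀ B : ℝ, (∀ t, |g t| ≤ B) →
      Integrable (fun x => C * g (b x)) (volume.restrict K) := fun g hg B hB =>
    (Integrable.of_bound (hg.comp hbm).aestronglyMeasurable B (ae_of_all _ fun x => by
      rw [Real.norm_eq_abs]; exact hB _)).const_mul C
  have hsplit : ∀ u : E d, ∀ g : ℝ → ℝ, Measurable g → ∀ B : ℝ, (∀ t, |g t| ≤ B) →
      ∫ x in K, (C + ⟪grad K x, u⟫) * g (b x) =
        (∫ x in K, C * g (b x)) + ∫ x in K, ⟪grad K x, u⟫ * g (b x) := fun u g hg B hB => by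
    rw [← integral_add (hc g hg B hB) (hi u g hg B hB)]
    exact integral_congr_ae (ae_of_all _ fun x => add_mul _ _ _)
  have hpos : ∀ u : E d, gauge K u ≤ C → ∀ x, 0 ≤ C + ⟪grad K x, u⟫ := fun u hu x => by
    linarith [(abs_le.1 (abs_grad_le_gauge S hsym x u)).1]
  have hint : ∀ u : E d, Integrable (fun x => C + ⟪grad K x, u⟫) (volume.restrict K) := fun u =>
    (integrable_const C).add (by simpa using hi u (fun _ => 1) measurable_const 1 (by simp))
  have h := ext_pair (volume.restrict K) hbm (hint v) (hint z)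
    (hpos v (le_add_of_nonneg_right (gauge_nonneg z)))
    (hpos z (le_add_of_nonneg_left (gauge_nonneg v))) (fun H Lh hH h01 => by
      have hm2 : Measurable fun t => H t ^ 2 := (hH.continuous.pow 2).measurable
      have hB1 : ∀ t, |H t ^ 2| ≤ 1 := fun t => by
        rw [abs_of_nonneg (sq_nonneg _)]; exact pow_le_one₀ (h01 t).1 (h01 t).2
      rw [hsplit v _ hm2 1 hB1, hsplit z _ hm2 1 hB1]
      congr 1
      exact mul_left_cancel₀ (Nat.cast_ne_zero.2 hd0)
        ((cone_moment_any S hsym hw hwv hH h01).trans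
          (cone_moment_any S hsym hw hwz hH h01).symm)) hq
  rw [hsplit v q hq B hB, hsplit z q hq B hB] at h
  exact add_left_cancel h

variable {K : Set (E (d + 1 + 1))}

/-- The second moment of `p b` is at most that of `⟪∇ gauge, v⟫`, and is positive. -/
lemma jayAxis_le_setting (S : Setting K) (hK : IsBody K) (hsym : ∀ x ∈ K, -x ∈ K)
    {y v₀ : E (d + 1 + 1)} (hy : y ≠ 0) (hd : DifferentiableAt ℝ (gauge K) y)
    (L : E (d + 1 + 1) ≃ₗᵢ[ℝ] E (d + 1 + 1)) (hL : L (‖grad K y‖⁻¹ • grad K y) = e0)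
    (hv₀ : ⟪grad K y, v₀⟫ = 1) :
    0 < jayAxis (d + 1) (sliceProf K (‖grad K y‖⁻¹ • grad K y) L) ∧
    jayAxis (d + 1) (sliceProf K (‖grad K y‖⁻¹ • grad K y) L) * volume.real K ≤
      ((d + 1 + 1 : ℕ):ℝ) * ∫ x in K, ⟪grad K x, v₀⟫ ^ 2 := by
  obtain ⟨hw0, hsupp, hwz, hzK⟩ := grad_direction S hK hy hd
  set w := grad K y with hw
  set z := (gauge K y)⁻¹ • y with hz
  have hnw : 0 < ‖w‖ := norm_pos_iff.2 hw0
  set v := ‖w‖⁻¹ • w with hv
  have hv1 : ‖v‖ = 1 := Sharp.norm_unit hw0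
  have hs0 : 0 < supp K v := by rw [hsupp]; positivity
  have hsv : (supp K v)⁻¹ • v = w := by rw [hsupp, inv_inv, hv, smul_inv_smul₀ hnw.ne']
  have hwg : ∀ x, |⟪w, x⟫| ≤ gauge K x := abs_grad_le_gauge S hsym y
  set F := sliceProf K v L with hFdef
  set s := supp K v with hsdef
  have hP : IsProfile F := isProfile_sliceProf hK hsym hv1 L hL
  obtain ⟨hWi, hDi⟩ := hP.wgt_integrable (m := d + 1) (by omega)
  haveI : IsFiniteMeasure ((volume : Measure (E (d + 1 + 1))).restrict K) :=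
    ⟨by simpa using S.compact.measure_lt_top⟩
  have hFm : Measurable F := measurable_sliceProf hK.compact v L
  have hpm : Measurable (pbar F) := Measurable.ite measurableSet_Ioo
      ((measurable_deriv _).neg.div (hFm.sub (measurable_id.mul (measurable_deriv _))))
      measurable_id
  set b : E (d + 1 + 1) → ℝ := fun x => ⟪w, x⟫ / gauge K x with hb
  have hbm : Measurable b :=
    (innerSL ℝ w).continuous.measurable.div S.lip.continuous.measurable
  have hz1 : ∀ x, |⟪grad K x, z⟫| ≤ 1 := fun x =>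
    (abs_grad_le_gauge S hsym x z).trans ((S.gauge_le_one z).2 hzK)
  have hext := fun q B hq hB => moments_ext (q := q) (B := B) (volume.restrict K)
    ((measurable_grad K).inner measurable_const) hz1 hbm (Nat.cast_nonneg (d + 1 + 1)) hs0.le
    (hP.endv_nonneg (d + 1)) hWi hDi (fun t ht => hP.abs_dgt_le (d + 1) ht)
    (fun H Lh hH h01 => axis_moments S hK hsym hv1 L hL hsv hwg hzK hwz hH h01) hq hB
  -- the conditional mean, clamped
  set q : ℝ → ℝ := fun t => clamp (pbar F t) with hq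
  have hqm : Measurable q :=
    (continuous_const.max (continuous_const.min continuous_id)).measurable.comp hpm
  have hq1 : ∀ t, |q t| ≤ 1 := fun t => abs_le.2 (clamp_mem _)
  have hqe : ∀ t ∈ Icc (-1:ℝ) 1, q t = pbar F t := fun t ht => clamp_eq (hP.pbar_mem ht)
  have qp : q 1 = 1 := by
    rw [hqe 1 ⟨by norm_num, le_rfl⟩, pbar, if_neg (fun h => lt_irrefl _ h.2)]
  have qn : q (-1) = -1 := by
    rw [hqe (-1) ⟨le_rfl, by norm_num⟩, pbar, if_neg (fun h => lt_irrefl _ h.1)]
  have hcm : Measurable clamp :=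
    (continuous_const.max (continuous_const.min continuous_id)).measurable
  have cp : clamp 1 = 1 := clamp_eq ⟨by norm_num, le_rfl⟩
  have cn : clamp (-1) = -1 := clamp_eq ⟨le_rfl, by norm_num⟩
  have hW2 : IntegrableOn (fun t => wgt (d + 1) F t * q t ^ 2) (Ioo (-1) 1) :=
    hWi.mul_bdd (c := 1) (hqm.pow_const 2).aestronglyMeasurable (ae_of_all _ fun t => by
      rw [Real.norm_eq_abs, abs_pow]; exact pow_le_one₀ (abs_nonneg _) (hq1 t))
  have m1 := (hext (fun _ => 1) 1 measurable_const (by simp)).1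
  obtain ⟨m2, -⟩ := hext (fun t => q t ^ 2) 1 (hqm.pow_const 2) fun t => by
    rw [abs_pow]; exact pow_le_one₀ (abs_nonneg _) (hq1 t)
  obtain ⟨-, m3⟩ := hext q 1 hqm hq1
  obtain ⟨m4, -⟩ := hext (fun t => q t * clamp t) 1 (hqm.mul hcm) fun t => by
    rw [abs_mul]; exact mul_le_one₀ (hq1 t) (abs_nonneg _) (abs_le.2 (clamp_mem t))
  simp only [qp, qn, cp, cn, one_pow, neg_one_sq, mul_one, mul_neg, neg_neg, sub_neg_eq_add]
    at m1 m2 m3 m4
  rw [setIntegral_const, smul_eq_mul, mul_one] at m1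
  have cv : ∀ g : ℝ → ℝ, (∫ t in Ioo (-1:ℝ) 1, g t) = ∫ t in (-1:ℝ)..1, g t := fun g => by
    rw [intervalIntegral.integral_of_le (by norm_num), integral_Ioc_eq_integral_Ioo]
  have hD : (∫ t in Ioo (-1:ℝ) 1, dgt (d + 1) F t * q t) =
      ∫ t in Ioo (-1:ℝ) 1, wgt (d + 1) F t * q t ^ 2 :=
    setIntegral_congr_fun measurableSet_Ioo fun t ht => by
      simp only [hqe t (Ioo_subset_Icc_self ht), ← hP.pbar_mul (d + 1) ht]; ring
  rw [hD] at m3
  have hvol : volume.real K = s * ∫ t in (-1:ℝ)..1, F t ^ (d + 1) := by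
    have a1 := integral_axis hK hsym hv1 L hL (h := fun _ => (1:ℝ)) measurable_const (M := 1)
      (by simp)
    rw [setIntegral_const, smul_eq_mul, mul_one] at a1
    simpa using a1
  have hFpos : 0 < ∫ t in (-1:ℝ)..1, F t ^ (d + 1) := by
    have := hK.volume_pos
    rw [hvol] at this
    exact pos_of_mul_pos_right this hs0.le
  have hone : (∫ t in Ioo (-1:ℝ) 1, wgt (d + 1) F t * (q t * clamp t)) +
      2 * endv (d + 1) F = ∫ t in (-1:ℝ)..1, F t ^ (d + 1) := by
    have h := (hP.ibp (m := d + 1) (by omega) (LipschitzWith.id (α := ℝ))).1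
    simp only [deriv_id, mul_one, id_eq] at h
    have e : (∫ t in Ioo (-1:ℝ) 1, wgt (d + 1) F t * (q t * clamp t)) =
        ∫ t in (-1:ℝ)..1, dgt (d + 1) F t * t := by
      rw [← cv]
      refine setIntegral_congr_fun measurableSet_Ioo fun t ht => ?_
      simp only [hqe t (Ioo_subset_Icc_self ht), clamp_eq (Ioo_subset_Icc_self ht),
        ← hP.pbar_mul (d + 1) ht]
      ring
    rw [h, e]
    ring
  -- the moment as an integral over the body
  have hJ : jayAxis (d + 1) F * volume.real K =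
      ((d + 1 + 1 : ℕ):ℝ) * ∫ x in K, q (b x) ^ 2 := by
    have e2 : (∫ t in (-1:ℝ)..1, wgt (d + 1) F t * (1 - pbar F t ^ 2)) =
        (∫ t in Ioo (-1:ℝ) 1, wgt (d + 1) F t) -
          ∫ t in Ioo (-1:ℝ) 1, wgt (d + 1) F t * q t ^ 2 := by
      rw [← cv, ← integral_sub hWi hW2]
      refine setIntegral_congr_fun measurableSet_Ioo fun t ht => ?_
      simp only [hqe t (Ioo_subset_Icc_self ht)]; ring
    rw [m2, jayAxis, e2, sub_mul, div_mul_eq_mul_div, hvol, mul_div_assoc,
      mul_div_cancel_right₀ _ hFpos.ne']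
    push_cast at m1 ⊢
    rw [hvol] at m1
    linarith
  have hv0b : ∀ x, |⟪grad K x, v₀⟫| ≤ gauge K v₀ := fun x => abs_grad_le_gauge S hsym x v₀
  refine ⟨?_, ?_⟩
  · -- positivity
    have hnn : 0 ≤ ∫ x in K, q (b x) ^ 2 := integral_nonneg fun x => sq_nonneg _
    rcases hnn.eq_or_lt with h | h
    · exfalso
      have hqi : Integrable (fun x => q (b x) ^ 2) (volume.restrict K) :=
        Integrable.of_bound ((hqm.comp hbm).pow_const 2).aestronglyMeasurable 1
          (ae_of_all _ fun x => by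
            rw [Real.norm_eq_abs, abs_pow]; exact pow_le_one₀ (abs_nonneg _) (hq1 _))
      have h0 := (integral_eq_zero_iff_of_nonneg (fun x => sq_nonneg (q (b x))) hqi).1 h.symm
      have hz0 : ∫ x in K, q (b x) * clamp (b x) = 0 :=
        integral_eq_zero_of_ae (h0.mono fun x hx => by
          have hx' : q (b x) ^ 2 = 0 := hx
          simp [eq_zero_of_pow_eq_zero hx'])
      rw [hz0, mul_zero, show ∀ a e : ℝ, a + e + e = a + 2 * e by intros; ring, hone,
        ← hvol] at m4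
      exact hK.volume_pos.ne m4
    · exact pos_of_mul_pos_left (hJ ▸ mul_pos (by positivity) h) measureReal_nonneg
  · rw [hJ]
    refine mul_le_mul_of_nonneg_left ?_ (Nat.cast_nonneg _)
    have hA : ∫ x in K, ⟪grad K x, v₀⟫ * q (b x) = ∫ x in K, q (b x) ^ 2 := by
      have e := orth_moment (by omega) S hsym hwg hwz hv₀ hqm hq1
      refine mul_left_cancel₀ (a := ((d + 1 + 1 : ℕ):ℝ)) (Nat.cast_ne_zero.2 (by omega)) ?_
      rw [e, m3, m2]
    have i1 : Integrable (fun x => ⟪grad K x, v₀⟫ ^ 2) (volume.restrict K) :=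
      Integrable.of_bound (((measurable_grad K).inner measurable_const).pow_const 2
        |>.aestronglyMeasurable) (gauge K v₀ ^ 2) (ae_of_all _ fun x => by
          rw [Real.norm_eq_abs, abs_pow]; exact pow_le_pow_left₀ (abs_nonneg _) (hv0b x) 2)
    have i2 : Integrable (fun x => ⟪grad K x, v₀⟫ * q (b x)) (volume.restrict K) :=
      Integrable.of_bound (((measurable_grad K).inner measurable_const).mul (hqm.comp hbm)
        |>.aestronglyMeasurable) (gauge K v₀ * 1) (ae_of_all _ fun x => by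
          rw [Real.norm_eq_abs, abs_mul]
          exact mul_le_mul (hv0b x) (hq1 _) (abs_nonneg _) (gauge_nonneg _))
    have i3 : Integrable (fun x => 2 * (⟪grad K x, v₀⟫ * q (b x)) - ⟪grad K x, v₀⟫ ^ 2)
        (volume.restrict K) := (i2.const_mul 2).sub i1
    have i4 : Integrable (fun x => q (b x) ^ 2) (volume.restrict K) :=
      Integrable.of_bound ((hqm.comp hbm).pow_const 2).aestronglyMeasurable 1
        (ae_of_all _ fun x => by
          rw [Real.norm_eq_abs, abs_pow]; exact pow_le_one₀ (abs_nonneg _) (hq1 _))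
    have h2 := integral_mono i3 i4 fun x => by
      simp only
      nlinarith [sq_nonneg (⟪grad K x, v₀⟫ - q (b x))]
    rw [integral_sub (i2.const_mul 2) i1, integral_const_mul, hA] at h2
    linarith

lemma jayAxis_smul (m : ℕ) (hm : m ≠ 0) (F : ℝ → ℝ) {c : ℝ} (hc : c ≠ 0) :
    jayAxis m (fun t => c * F t) = jayAxis m F := by
  have hd : ∀ t, deriv (fun t => c * F t) t = c * deriv F t := fun t => deriv_const_mul_field _
  have e : (∫ t in (-1:ℝ)..1, wgt m (fun t => c * F t) t * (1 - pbar (fun t => c * F t) t ^ 2)) =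
      c ^ m * ∫ t in (-1:ℝ)..1, wgt m F t * (1 - pbar F t ^ 2) := by
    rw [← intervalIntegral.integral_const_mul]
    refine intervalIntegral.integral_congr fun t _ => ?_
    have ep : pbar (fun t => c * F t) t = pbar F t := by
      simp only [pbar, hd]
      split_ifs
      · rw [show c * F t - t * (c * deriv F t) = c * (F t - t * deriv F t) by ring, ← mul_neg,
          mul_div_mul_left _ _ hc]
      · rfl
    simp only [ep, wgt, hd, mul_pow]
    rw [← pow_sub_one_mul hm c]
    ring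
  rw [jayAxis, jayAxis, e, show (fun t => (c * F t) ^ m) = fun t => c ^ m * F t ^ m from
    funext fun t => mul_pow _ _ _, intervalIntegral.integral_const_mul,
    mul_div_mul_left _ _ (pow_ne_zero m hc)]

/-- The moment bound for every symmetric body. -/
lemma jayAxis_le (hK : IsBody K) (hsym : ∀ x ∈ K, -x ∈ K) {y v₀ : E (d + 1 + 1)} (hy : y ≠ 0)
    (hd : DifferentiableAt ℝ (gauge K) y) (L : E (d + 1 + 1) ≃ₗᵢ[ℝ] E (d + 1 + 1))
    (hL : L (‖grad K y‖⁻¹ • grad K y) = e0) (hv₀ : ⟪grad K y, v₀⟫ = 1) :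
    0 < jayAxis (d + 1) (sliceProf K (‖grad K y‖⁻¹ • grad K y) L) ∧
    jayAxis (d + 1) (sliceProf K (‖grad K y‖⁻¹ • grad K y) L) * volume.real K ≤
      ((d + 1 + 1 : ℕ):ℝ) * ∫ x in K, ⟪grad K x, v₀⟫ ^ 2 := by
  have h0 := mem_interior_iff_mem_nhds.1 (Sharp.zero_mem_interior hK hsym)
  obtain ⟨r, hr, hrK⟩ := nhds_basis_closedBall.mem_iff.1 h0
  set c := r⁻¹ with hc
  have hc0 : 0 < c := inv_pos.2 hr
  set K' := c • K with hK'
  have hK'b : IsBody K' := Sharp.isBody_smul hK hc0
  have hK's : ∀ x ∈ K', -x ∈ K' := by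
    rintro _ ⟨x, hx, rfl⟩
    exact ⟨-x, hsym x hx, smul_neg _ _⟩
  have hball : closedBall (0 : E (d + 1 + 1)) 1 ⊆ K' := by
    intro x hx
    rw [hK', mem_smul_set_iff_inv_smul_mem₀ hc0.ne', hc, inv_inv]
    refine hrK (mem_closedBall_zero_iff.2 ?_)
    rw [norm_smul, Real.norm_eq_abs, abs_of_pos hr]
    exact mul_le_of_le_one_right hr.le (mem_closedBall_zero_iff.1 hx)
  obtain ⟨M, hM⟩ := hK'b.compact.isBounded.subset_closedBall (0 : E (d + 1 + 1))
  let S : Setting K' := ⟨max M 1, lt_of_lt_of_le one_pos (le_max_right _ _), hK'b.compact,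
    hK'b.convex, hball, hM.trans (closedBall_subset_closedBall (le_max_left _ _))⟩
  have hg : ∀ x, gauge K' (c • x) = gauge K x := fun x => by
    rw [(gauge_scale hK hsym hc0 _).1, gauge_smul_of_nonneg hc0.le, smul_eq_mul,
      inv_mul_cancel_left₀ hc0.ne']
  have hG : ∀ x, grad K' (c • x) = c⁻¹ • grad K x := fun x => by
    rw [(gauge_scale hK hsym hc0 _).2, grad_smul K hc0]
  have hd' : DifferentiableAt ℝ (gauge K') (c • y) := by
    have e : gauge K' = fun x => gauge K (c⁻¹ • x) := funext fun x => by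
      rw [← hg, smul_inv_smul₀ hc0.ne']
    rw [e]
    refine DifferentiableAt.comp (g := gauge K) (f := fun x => c⁻¹ • x) (c • y) ?_
      (differentiableAt_id.const_smul c⁻¹)
    simpa [inv_smul_smul₀ hc0.ne'] using hd
  have hu : ‖grad K' (c • y)‖⁻¹ • grad K' (c • y) = ‖grad K y‖⁻¹ • grad K y := by
    rw [hG, norm_smul, Real.norm_eq_abs, abs_of_pos (inv_pos.2 hc0), mul_inv, inv_inv, smul_smul]
    congr 1
    field_simp
  have hv₀' : ⟪grad K' (c • y), c • v₀⟫ = 1 := by
    rw [hG, real_inner_smul_left, real_inner_smul_right, hv₀, mul_one, inv_mul_cancel₀ hc0.ne']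
  obtain ⟨h1, h2⟩ := jayAxis_le_setting S hK'b hK's (smul_ne_zero hc0.ne' hy) hd' L
    (by rw [hu]; exact hL) hv₀'
  rw [hu] at h1 h2
  set v := ‖grad K y‖⁻¹ • grad K y with hv
  have e : sliceProf K' v L = fun t => c * sliceProf K v L t := by
    funext t
    have hsl : slice (L '' K') (supp K' v * t) = c • slice (L '' K) (supp K v * t) := by
      ext z
      rw [hK', Sharp.supp_smul K hc0.le v, image_smul_set, mem_smul_set_iff_inv_smul_mem₀ hc0.ne']
      show cons _ _ ∈ c • (L '' K) ↔ cons _ _ ∈ L '' K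
      rw [mem_smul_set_iff_inv_smul_mem₀ hc0.ne', smul_cons, mul_assoc,
        inv_mul_cancel_left₀ hc0.ne']
    rw [sliceProf, hsl, Sharp.volume_real_smul _ hc0.le,
      mul_rpow (by positivity) measureReal_nonneg,
      ← rpow_natCast c, ← rpow_mul hc0.le, mul_inv_cancel₀ (Nat.cast_ne_zero.2 (by omega)),
      rpow_one]
    rfl
  rw [e, jayAxis_smul _ (by omega) _ hc0.ne'] at h1 h2
  refine ⟨h1, ?_⟩
  have hI := Measure.setIntegral_comp_smul_of_pos (volume : Measure (E (d + 1 + 1)))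
    (fun x => ⟪grad K' x, c • v₀⟫ ^ 2) K hc0
  rw [finrank_euclideanSpace_fin, smul_eq_mul] at hI
  have ha : ∀ x, ⟪grad K' (c • x), c • v₀⟫ = ⟪grad K x, v₀⟫ := fun x => by
    rw [hG, real_inner_smul_left, real_inner_smul_right, inv_mul_cancel_left₀ hc0.ne']
  simp only [ha, ← hK'] at hI
  rw [hI, ← mul_le_mul_iff_of_pos_left (pow_pos hc0 (d + 1 + 1))]
  rw [hK', Sharp.volume_real_smul K hc0.le, ← hK'] at h2
  refine le_trans (le_of_eq (by ring)) (h2.trans_eq ?_)
  field_simp

end Vale.Agent.P237.AllN
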