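import Vale.Agent.P237.AllN.Trace
import Vale.Agent.P237.AllN.AvgFact
import Vale.Agent.P237.AllN.Reduce

/-!
# P237, all dimensions: the mixed criterion

For `a ≥ 0` and an even convex `φ` the criterion `Z * (E[φ p - φ] - a (1 / J - 1))` has the
averaged property and vanishes on elliptical profiles, so the reduction applies to it.
-/

open MeasureTheory Set Real Metric Filter Topology
open scoped Pointwise RealInnerProductSpace Gradient

namespace Vale.Agent.P237.AllN

/-- The mixed criterion of a profile in dimension `m + 1`. -/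
noncomputable def mixCrit (m : ℕ) (a : ℝ) (φ f : ℝ → ℝ) : ℝ :=
  (∫ t in (0:ℝ)..1, f t ^ m) * (penMean m φ f - a * ((jay m f)⁻¹ - 1))

/-- The averaged property of the mixed criterion. -/
theorem critAvg_mix (k : ℕ) {a : ℝ} (ha : 0 ≤ a) {φ : ℝ → ℝ}
    (hφc : ContinuousOn φ (Icc (-1) 1)) (hφ : ConvexOn ℝ (Icc (-1) 1) φ)
    (hev : ∀ t, φ (-t) = φ t) : CritAvg k (mixCrit (k + 1) a φ) := by
  intro K hK hsym h
  have hZ := (penEven_le_excess hK hsym hφc hφ hev).mono fun y hy => hy.1
  have hle : ∀ᵐ y ∂volume.restrict K, a * ((jay (k + 1) (profAt K (∇ (gauge K) y)))⁻¹ - 1) -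
      penMean (k + 1) φ (profAt K (∇ (gauge K) y)) ≤ 0 := by
    filter_upwards [hZ, h] with y h1 h2
    linarith [nonneg_of_mul_nonneg_right h2 h1]
  filter_upwards [mixed_fact hK hsym ha hφc hφ hev hle] with y hy
  rw [mixCrit, show penMean (k + 1) φ (profAt K (∇ (gauge K) y)) -
    a * ((jay (k + 1) (profAt K (∇ (gauge K) y)))⁻¹ - 1) = 0 by linarith, mul_zero]

/-- The mixed criterion vanishes on elliptical profiles. -/
theorem critEll_mix {m : ℕ} (hm : m ≠ 0) (a : ℝ) (φ : ℝ → ℝ) : CritEll (mixCrit m a φ) := by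
  intro f hf
  obtain ⟨s, hs⟩ := hf
  have key : ∀ t ∈ Ioo (0:ℝ) 1, f t - t * deriv f t = s / √(1 - t ^ 2) ∧
      (s ≠ 0 → pProf f t = t) := by
    intro t ht
    have hpos : 0 < 1 - t ^ 2 := by nlinarith [ht.1, ht.2]
    have hu : 0 < √(1 - t ^ 2) := sqrt_pos.2 hpos
    have hev : f =ᶠ[𝓝 t] fun x => s * √(1 - x ^ 2) := by
      filter_upwards [isOpen_Ioo.mem_nhds ht] with x hx using hs x hx
    have hd : HasDerivAt (fun x => s * √(1 - x ^ 2)) (s * (-t / √(1 - t ^ 2))) t := by
      have := (((hasDerivAt_pow 2 t).const_sub 1).sqrt hpos.ne').const_mul s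
      refine this.congr_deriv ?_
      field_simp
      ring
    have hfd : deriv f t = s * (-t / √(1 - t ^ 2)) := hev.deriv_eq.trans hd.deriv
    have hden : f t - t * deriv f t = s / √(1 - t ^ 2) := by
      rw [hfd, hs t ht]
      field_simp
      rw [sq_sqrt hpos.le]
      ring
    refine ⟨hden, fun hs0 => ?_⟩
    rw [pProf, hden, hfd]
    field_simp
  rcases eq_or_ne s 0 with h0 | h0
  · rw [mixCrit, integral_congr_Ioo (g' := fun _ => 0) fun t ht => by
      rw [hs t ht, h0, zero_mul, zero_pow hm], intervalIntegral.integral_zero, zero_mul]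
  · have hpen : penMean m φ f = 0 := by
      rw [penMean, integral_congr_Ioo (g' := fun _ => 0) fun t ht => by
        rw [(key t ht).2 h0, sub_self, mul_zero]]
      simp
    set Z := ∫ t in (0:ℝ)..1, f t ^ m with hZ
    have hnum : (∫ t in (0:ℝ)..1, (m:ℝ) * f t ^ (m - 1) * (f t - t * deriv f t) *
        (1 - pProf f t ^ 2)) = (m:ℝ) * Z := by
      rw [hZ, ← intervalIntegral.integral_const_mul]
      refine integral_congr_Ioo fun t ht => ?_
      obtain ⟨h1, h2⟩ := key t ht
      have hpos : 0 < 1 - t ^ 2 := by nlinarith [ht.1, ht.2]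
      rw [h1, h2 h0, mul_assoc, mul_assoc]
      congr 1
      rw [show f t ^ m = f t ^ (m - 1) * f t from (pow_sub_one_mul hm _).symm]
      congr 1
      rw [hs t ht, div_mul_eq_mul_div, div_eq_iff (sqrt_pos.2 hpos).ne', mul_assoc,
        mul_self_sqrt hpos.le]
    rcases eq_or_ne Z 0 with hZ0 | hZ0
    · rw [mixCrit, ← hZ, hZ0, zero_mul]
    · rw [mixCrit, hpen, jay, hnum, ← hZ, mul_div_cancel_right₀ _ hZ0]
      simp

/-- Petty's conjecture in every dimension from the profile lemma for mixed criteria. -/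
theorem pettyAll_of_mix (a : ℕ → ℝ) (φ : ℕ → ℝ → ℝ) (ha : ∀ m, 0 ≤ a m)
    (hφc : ∀ m, ContinuousOn (φ m) (Icc (-1) 1)) (hφ : ∀ m, ConvexOn ℝ (Icc (-1) 1) (φ m))
    (hev : ∀ m t, φ m (-t) = φ m t)
    (hl : ∀ m : ℕ, 4 ≤ m → CritLemma m (mixCrit m (a m) (φ m))) : PettyAll :=
  pettyAll_of_crit (fun m => mixCrit m (a m) (φ m)) hl
    (fun k _ => critAvg_mix k (ha _) (hφc _) (hφ _) (hev _))
    (fun m hm => critEll_mix (by omega) _ _)

end Vale.Agent.P237.AllN
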